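import Mathlib

set_option linter.all false

section

/-!
Definitions for P140: renormalized entropy solutions of the periodic hard-sphere Boltzmann equation.
-/

open MeasureTheory Set Filter
open scoped ENNReal Topology

noncomputable section

namespace Vale.Agent.P140

/-- velocity space `ℝ³` -/
abbrev V := EuclideanSpace ℝ (Fin 3)

/-- the torus `ℝ³ / ℤ³`, with its Haar measure of total mass one -/
abbrev T3 := UnitAddTorus (Fin 3)

/-- the unit sphere of `ℝ³` -/
abbrev S2 := Metric.sphere (0 : V) 1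

/-- surface measure on the unit sphere -/
def surf : Measure S2 := (volume : Measure V).toSphere

/-- the projection `ℝ³ → ℝ³ / ℤ³` -/
def toTorus (x : V) : T3 := fun i => ((x i : ℝ) : UnitAddCircle)

/-- `a = (v - w) ⬝ ω` -/
def relA (v w : V) (ω : S2) : ℝ := inner ℝ (v - w) (ω : V)

/-- post-collisional velocity `v' = v - a ω` -/
def post (v w : V) (ω : S2) : V := v - relA v w ω • (ω : V)

/-- post-collisional velocity `w' = w + a ω` -/
def postStar (v w : V) (ω : S2) : V := w + relA v w ω • (ω : V)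

/-- gain term `Q⁺(g,g)(v)`, a value in `[0,∞]` -/
def gain (g : V → ℝ) (v : V) : ℝ≥0∞ :=
  ∫⁻ w : V, ∫⁻ ω : S2, ENNReal.ofReal (|relA v w ω| * (g (post v w ω) * g (postStar v w ω))) ∂surf

/-- loss term `Q⁻(g,g)(v)`, a value in `[0,∞]` -/
def loss (g : V → ℝ) (v : V) : ℝ≥0∞ :=
  ∫⁻ w : V, ∫⁻ ω : S2, ENNReal.ofReal (|relA v w ω| * (g v * g w)) ∂surf

/-- collision term `Q(g,g)(v) = Q⁺(g,g)(v) - Q⁻(g,g)(v)` (used where both are finite) -/
def coll (g : V → ℝ) (v : V) : ℝ := (gain g v).toReal - (loss g v).toReal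

/-- the normalized Maxwellian `M(v) = (2π)^(-3/2) exp(-|v|²/2)` -/
def Maxw (v : V) : ℝ := (2 * Real.pi) ^ (-(3 / 2) : ℝ) * Real.exp (-(‖v‖ ^ 2 / 2))

/-- relative entropy `∫_Ω (F log (F/M) - F + M)`; the integrand is nonnegative -/
def relEntropy (f : T3 → V → ℝ) : ℝ≥0∞ :=
  ∫⁻ x : T3, ∫⁻ v : V, ENNReal.ofReal (f x v * Real.log (f x v / Maxw v) - f x v + Maxw v)

/-- `(p - q) log (p / q)` for `p, q > 0`, extended by lower semicontinuity to `p, q ≥ 0`:
`0` at `p = q = 0` and `∞` when exactly one of `p, q` vanishes -/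
def dissDensity (p q : ℝ) : ℝ≥0∞ :=
  if 0 < p ∧ 0 < q then ENNReal.ofReal ((p - q) * Real.log (p / q)) else if p = q then 0 else ⊤

/-- entropy dissipation `D(F)` -/
def dissipation (f : T3 → V → ℝ) : ℝ≥0∞ :=
  (1 / 4) * ∫⁻ x : T3, ∫⁻ v : V, ∫⁻ w : V, ∫⁻ ω : S2,
    ENNReal.ofReal |relA v w ω| *
      dissDensity (f x (post v w ω) * f x (postStar v w ω)) (f x v * f x w) ∂surf

/-- a datum: `F₀ ≥ 0` measurable with `∫_Ω F₀ (1 + |v|² + |log F₀|) < ∞`
(`Real.log 0 = 0`, so `0 |log 0| = 0`) -/
structure IsDatum (F0 : T3 → V → ℝ) : Prop where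
  measurable : Measurable fun p : T3 × V => F0 p.1 p.2
  nonneg : ∀ x v, 0 ≤ F0 x v
  finite : ∫⁻ p : T3 × V, ENNReal.ofReal
    (F0 p.1 p.2 * (1 + ‖p.2‖ ^ 2 + |Real.log (F0 p.1 p.2)|)) < ⊤

/-- test functions on `ℝ × T3 × V`: smooth with compact support
(smoothness is that of the lift to `ℝ × ℝ³ × ℝ³`); their restrictions to `t ≥ 0` are the test
functions on `[0,∞) × T3 × V` -/
structure IsTest (φ : ℝ → T3 → V → ℝ) : Prop where
  smooth : ContDiff ℝ (⊤ : ℕ∞) fun p : ℝ × V × V => φ p.1 (toTorus p.2.1) p.2.2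
  compact : ∃ R : ℝ, ∀ t x v, R < |t| ∨ R < ‖v‖ → φ t x v = 0

/-- test functions on `ℝ × T3` -/
structure IsTestX (φ : ℝ → T3 → ℝ) : Prop where
  smooth : ContDiff ℝ (⊤ : ℕ∞) fun p : ℝ × V => φ p.1 (toTorus p.2)
  compact : ∃ R : ℝ, ∀ t x, R < |t| → φ t x = 0

/-- the transport derivative `(∂ₜ + v ⬝ ∇ₓ) φ` of a test function, i.e. its derivative along
`s ↦ (t + s, x + s v)` at `s = 0` -/
def transport (φ : ℝ → T3 → ℝ) (t : ℝ) (x : T3) (v : V) : ℝ :=
  deriv (fun s : ℝ => φ (t + s) (x + toTorus (s • v))) 0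

/-- `(∂ₜ + v ⬝ ∇ₓ) U = R` in distributions on `[0,∞) × T3 × V` with initial value `U0` -/
def WeakTransport (U R : ℝ → T3 → V → ℝ) (U0 : T3 → V → ℝ) : Prop :=
  ∀ φ : ℝ → T3 → V → ℝ, IsTest φ →
    (∫ p : ℝ × T3 × V in Ioi 0 ×ˢ univ,
      (U p.1 p.2.1 p.2.2 * transport (fun t x => φ t x p.2.2) p.1 p.2.1 p.2.2
        + R p.1 p.2.1 p.2.2 * φ p.1 p.2.1 p.2.2))
      + ∫ p : T3 × V, U0 p.1 p.2 * φ 0 p.1 p.2 = 0

/-- renormalized entropy solution with datum `F0` -/
structure IsRenormEntropySol (F0 : T3 → V → ℝ) (F : ℝ → T3 → V → ℝ) : Prop where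
  datum : IsDatum F0
  measurable : Measurable fun p : ℝ × T3 × V => F p.1 p.2.1 p.2.2
  nonneg : ∀ t x v, 0 ≤ F t x v
  /-- (i) weak continuity into `L¹(Ω)`, initial value, and local boundedness of
  `∫_Ω F (1 + |v|² + |log F|)` -/
  integrable : ∀ t, 0 ≤ t → Integrable fun p : T3 × V => F t p.1 p.2
  weak_cont : ∀ θ : T3 × V → ℝ, Measurable θ → (∃ C, ∀ p, |θ p| ≤ C) →
    ContinuousOn (fun t => ∫ p : T3 × V, F t p.1 p.2 * θ p) (Ici 0)
  initial : ∀ᵐ p : T3 × V, F 0 p.1 p.2 = F0 p.1 p.2
  bounded : ∀ T : ℝ, ∃ C : ℝ≥0∞, C < ⊤ ∧ ∀ t ∈ Icc 0 T, ∫⁻ p : T3 × V, ENNReal.ofReal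
    (F t p.1 p.2 * (1 + ‖p.2‖ ^ 2 + |Real.log (F t p.1 p.2)|)) ≤ C
  /-- (ii) `Q^± / (1 + G) ∈ L¹([0,T] × Ω)` with `G = F / M`, and the renormalized equation -/
  gain_int : ∀ T : ℝ, ∫⁻ p : ℝ × T3 × V in Icc 0 T ×ˢ univ,
    gain (F p.1 p.2.1) p.2.2 / ENNReal.ofReal (1 + F p.1 p.2.1 p.2.2 / Maxw p.2.2) < ⊤
  loss_int : ∀ T : ℝ, ∫⁻ p : ℝ × T3 × V in Icc 0 T ×ˢ univ,
    loss (F p.1 p.2.1) p.2.2 / ENNReal.ofReal (1 + F p.1 p.2.1 p.2.2 / Maxw p.2.2) < ⊤
  renorm : ∀ β : ℝ → ℝ, ContDiffOn ℝ 1 β (Ici 0) → β 0 = 0 →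
    (∃ C, ∀ z, 0 ≤ z → |derivWithin β (Ici 0) z| ≤ C / (1 + z)) →
    WeakTransport (fun t x v => Maxw v * β (F t x v / Maxw v))
      (fun t x v => derivWithin β (Ici 0) (F t x v / Maxw v) * coll (F t x) v)
      (fun x v => Maxw v * β (F0 x v / Maxw v))
  /-- (iii) local conservation of mass, global conservation of momentum, energy inequality and
  entropy inequality -/
  mass : ∀ φ : ℝ → T3 → ℝ, IsTestX φ →
    (∫ p : ℝ × T3 × V in Ioi 0 ×ˢ univ, F p.1 p.2.1 p.2.2 * transport φ p.1 p.2.1 p.2.2)
      + ∫ p : T3 × V, F0 p.1 p.2 * φ 0 p.1 = 0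
  momentum : ∀ t, 0 ≤ t → ∫ p : T3 × V, F t p.1 p.2 • p.2 = ∫ p : T3 × V, F 0 p.1 p.2 • p.2
  energy : ∀ t, 0 ≤ t → ∫⁻ p : T3 × V, ENNReal.ofReal (‖p.2‖ ^ 2 * F t p.1 p.2)
    ≤ ∫⁻ p : T3 × V, ENNReal.ofReal (‖p.2‖ ^ 2 * F0 p.1 p.2)
  entropy : ∀ t, 0 ≤ t → relEntropy (F t) + ∫⁻ s in Ioc 0 t, dissipation (F s) ≤ relEntropy F0

end Vale.Agent.P140
end
end

section

open MeasureTheory Set Filter
open scoped ENNReal Topology NNReal

noncomputable section

namespace Vale.Agent.P140

theorem continuous_toTorus : Continuous toTorus := by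
  apply continuous_pi
  intro i
  exact (AddCircle.continuous_mk' (p := (1 : ℝ))).comp (by fun_prop)

theorem measurable_toTorus : Measurable toTorus := continuous_toTorus.measurable

theorem toTorus_add (x y : V) : toTorus (x + y) = toTorus x + toTorus y := by
  ext i
  simp [toTorus]

theorem toTorus_zero : toTorus 0 = 0 := by
  ext i
  simp [toTorus]

theorem toTorus_neg (x : V) : toTorus (-x) = -toTorus x := by
  have := toTorus_add x (-x)
  rw [add_neg_cancel, toTorus_zero] at this
  exact (neg_eq_of_add_eq_zero_right this.symm).symm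

theorem toTorus_sub (x y : V) : toTorus (x - y) = toTorus x - toTorus y := by
  rw [sub_eq_add_neg, toTorus_add, toTorus_neg, ← sub_eq_add_neg]

theorem surjective_toTorus : Function.Surjective toTorus := by
  intro x
  choose f hf using fun i => QuotientAddGroup.mk_surjective (x i)
  refine ⟨WithLp.toLp 2 f, ?_⟩
  ext i
  exact hf i

/-- free streaming -/
def flow (t : ℝ) (p : T3 × V) : T3 × V := (p.1 + toTorus (t • p.2), p.2)

theorem measurable_flow_uncurry : Measurable fun q : ℝ × T3 × V => flow q.1 q.2 := by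
  unfold flow
  apply Measurable.prodMk
  · apply Measurable.add
    · fun_prop
    · exact measurable_toTorus.comp (by fun_prop)
  · fun_prop

theorem measurable_flow (t : ℝ) : Measurable (flow t) :=
  measurable_flow_uncurry.comp (measurable_const.prodMk measurable_id)

theorem flow_flow_neg (t : ℝ) (p : T3 × V) : flow t (flow (-t) p) = p := by
  unfold flow
  ext1
  · simp [toTorus_neg, neg_smul]
  · rfl

theorem flow_neg_flow (t : ℝ) (p : T3 × V) : flow (-t) (flow t p) = p := by
  unfold flow
  ext1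
  · simp [toTorus_neg, neg_smul]
  · rfl

theorem lintegral_flow (t : ℝ) {f : T3 × V → ℝ≥0∞} (hf : Measurable f) :
    ∫⁻ p, f (flow t p) = ∫⁻ p, f p := by
  rw [Measure.volume_eq_prod,
    lintegral_prod_symm (fun p => f (flow t p)) (hf.comp (measurable_flow t)).aemeasurable,
    lintegral_prod_symm f hf.aemeasurable]
  congr 1
  ext v
  unfold flow
  exact lintegral_add_right_eq_self (fun x => f (x, v)) (toTorus (t • v))

theorem measurePreserving_flow (t : ℝ) : MeasurePreserving (flow t) := by
  refine ⟨measurable_flow t, ?_⟩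
  ext s hs
  rw [Measure.map_apply (measurable_flow t) hs, ← lintegral_indicator_one hs,
    ← lintegral_indicator_one ((measurable_flow t) hs)]
  exact lintegral_flow t (measurable_one.indicator hs)

/-- the streaming map on space-time -/
def stFlow (q : ℝ × T3 × V) : ℝ × T3 × V := (q.1, flow q.1 q.2)

theorem measurable_stFlow : Measurable stFlow :=
  measurable_fst.prodMk measurable_flow_uncurry

theorem measurePreserving_stFlow (μ : Measure ℝ) [SFinite μ] :
    MeasurePreserving stFlow (μ.prod volume) (μ.prod volume) := by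
  exact (MeasurePreserving.id μ).skew_product measurable_flow_uncurry
    (Eventually.of_forall fun t => (measurePreserving_flow t).map_eq)

/-- the streaming map on space-time as a measurable equivalence -/
def stFlowEquiv : (ℝ × T3 × V) ≃ᵐ (ℝ × T3 × V) where
  toFun := stFlow
  invFun := fun q => (q.1, flow (-q.1) q.2)
  left_inv := by
    intro q
    simp [stFlow, flow_neg_flow]
  right_inv := by
    intro q
    simp [stFlow, flow_flow_neg]
  measurable_toFun := measurable_stFlow
  measurable_invFun := by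
    apply measurable_fst.prodMk
    exact measurable_flow_uncurry.comp (measurable_fst.neg.prodMk measurable_snd)

theorem measurableEmbedding_stFlow : MeasurableEmbedding stFlow :=
  stFlowEquiv.measurableEmbedding

/-- the streaming map at fixed time as a measurable equivalence -/
def flowEquiv (t : ℝ) : (T3 × V) ≃ᵐ (T3 × V) where
  toFun := flow t
  invFun := flow (-t)
  left_inv := flow_neg_flow t
  right_inv := flow_flow_neg t
  measurable_toFun := measurable_flow t
  measurable_invFun := measurable_flow (-t)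

theorem measurableEmbedding_flow (t : ℝ) : MeasurableEmbedding (flow t) :=
  (flowEquiv t).measurableEmbedding

theorem measurePreserving_stFlow_restrict (s : Set ℝ) :
    MeasurePreserving stFlow (volume.restrict (s ×ˢ univ)) (volume.restrict (s ×ˢ univ)) := by
  have := measurePreserving_stFlow (volume.restrict s)
  rwa [show ((volume.restrict s).prod volume : Measure (ℝ × T3 × V))
      = volume.restrict (s ×ˢ univ) by
    rw [Measure.volume_eq_prod ℝ (T3 × V), ← Measure.prod_restrict, Measure.restrict_univ]] at this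

theorem restrict_prod_univ (s : Set ℝ) :
    (volume : Measure (ℝ × T3 × V)).restrict (s ×ˢ univ)
      = (volume.restrict s).prod (volume : Measure (T3 × V)) := by
  rw [Measure.volume_eq_prod ℝ (T3 × V), ← Measure.prod_restrict, Measure.restrict_univ]

end Vale.Agent.P140
end
end

section

open MeasureTheory Set Filter
open scoped ENNReal Topology NNReal Convolution

noncomputable section

namespace Vale.Agent.P140

variable {P : Type*} [NormedAddCommGroup P] [NormedSpace ℝ P]

/-- the tail integral of a compactly supported smooth function depending on a parameter -/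
def tailInt (θ : ℝ × P → ℝ) (t : ℝ) (v : P) : ℝ := ∫ s in Ioi t, θ (s, v)

omit [NormedAddCommGroup P] [NormedSpace ℝ P] in
theorem tailInt_eq_convolution (θ : ℝ × P → ℝ) (t : ℝ) (v : P) :
    tailInt θ t v = ((Iio (0 : ℝ)).indicator (fun _ => (1 : ℝ)) ⋆[ContinuousLinearMap.mul ℝ ℝ, volume]
      (fun s => θ (s, v))) t := by
  rw [tailInt, convolution_def]
  rw [← integral_indicator measurableSet_Ioi]
  rw [← integral_sub_left_eq_self (fun s => (Ioi t).indicator (fun s => θ (s, v)) s) volume t]
  congr 1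
  ext s
  by_cases hs : s < 0
  · have h1 : t - s ∈ Ioi t := by simp only [mem_Ioi]; linarith
    have h2 : s ∈ Iio (0 : ℝ) := hs
    rw [Set.indicator_of_mem h1, Set.indicator_of_mem h2]
    simp
  · have h1 : t - s ∉ Ioi t := by simp only [mem_Ioi]; linarith
    have h2 : s ∉ Iio (0 : ℝ) := hs
    rw [Set.indicator_of_notMem h1, Set.indicator_of_notMem h2]
    simp

theorem contDiff_tailInt {θ : ℝ × P → ℝ} (hθ : ContDiff ℝ (⊤ : ℕ∞) θ) {a b : ℝ}
    (hab : ∀ s v, s ∉ Icc a b → θ (s, v) = 0) :
    ContDiff ℝ (⊤ : ℕ∞) fun q : ℝ × P => tailInt θ q.1 q.2 := by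
  have hf : LocallyIntegrable ((Iio (0 : ℝ)).indicator (fun _ => (1 : ℝ))) volume := by
    apply LocallyIntegrable.indicator _ measurableSet_Iio
    exact locallyIntegrable_const 1
  have h := contDiffOn_convolution_right_with_param (𝕜 := ℝ) (n := ⊤) (μ := volume)
    (f := (Iio (0 : ℝ)).indicator (fun _ => (1 : ℝ)))
    (ContinuousLinearMap.mul ℝ ℝ) (g := fun (v : P) (s : ℝ) => θ (s, v)) (s := univ)
    (k := Icc a b) isOpen_univ isCompact_Icc (fun v s _ hs => hab s v hs) hf
    (by
      rw [univ_prod_univ, contDiffOn_univ]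
      exact hθ.comp (contDiff_snd.prodMk contDiff_fst))
  rw [univ_prod_univ, contDiffOn_univ] at h
  have h2 := h.comp (contDiff_snd.prodMk contDiff_fst : ContDiff ℝ (⊤ : ℕ∞) fun q : ℝ × P => (q.2, q.1))
  convert h2 using 2 with q
  exact tailInt_eq_convolution θ q.1 q.2

theorem hasDerivAt_tailInt {θ : ℝ × P → ℝ} (hθ : Continuous θ) {a b : ℝ}
    (hab : ∀ s v, s ∉ Icc a b → θ (s, v) = 0) (t : ℝ) (v : P) :
    HasDerivAt (fun s => tailInt θ s v) (-θ (t, v)) t := by
  have hc : Continuous fun s => θ (s, v) := hθ.comp (continuous_id.prodMk continuous_const)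
  have hint : Integrable (fun s => θ (s, v)) := by
    apply hc.integrable_of_hasCompactSupport
    exact HasCompactSupport.intro isCompact_Icc (fun s hs => hab s v hs)
  have h1 : ∀ s, tailInt θ s v = (∫ r, θ (r, v)) - ∫ r in Iic s, θ (r, v) := by
    intro s
    have := integral_add_compl (s := Iic s) measurableSet_Iic hint
    rw [compl_Iic] at this
    rw [tailInt]
    linarith
  have h2 : ∀ s, ∫ r in Iic s, θ (r, v) = (∫ r in Iic t, θ (r, v)) + ∫ r in t..s, θ (r, v) := by
    intro s
    have := intervalIntegral.integral_Iic_sub_Iic (a := t) (b := s) (μ := volume)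
      hint.integrableOn hint.integrableOn
    linarith
  have h3 : (fun s => tailInt θ s v) = fun s => ((∫ r, θ (r, v)) - (∫ r in Iic t, θ (r, v)))
      - ∫ r in t..s, θ (r, v) := by
    ext s
    rw [h1, h2]
    ring
  rw [h3]
  have h4 : HasDerivAt (fun s => ∫ r in t..s, θ (r, v)) (θ (t, v)) t := by
    apply intervalIntegral.integral_hasDerivAt_right
    · exact hc.intervalIntegrable _ _
    · exact hc.stronglyMeasurableAtFilter _ _
    · exact hc.continuousAt
  exact h4.const_sub _

/-- a compactly supported smooth function on `(0,∞) × P` is, for positive times, the time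
derivative of a smooth compactly supported function which is minus the tail integral for `t ≥ 0` -/
theorem exists_primitive {θ : ℝ × P → ℝ} (hθ : ContDiff ℝ (⊤ : ℕ∞) θ) (hc : HasCompactSupport θ) :
    ∃ ζ : ℝ × P → ℝ, ContDiff ℝ (⊤ : ℕ∞) ζ ∧ (∃ R, ∀ t v, R < |t| ∨ R < ‖v‖ → ζ (t, v) = 0) ∧
      (∀ t v, 0 ≤ t → ζ (t, v) = -∫ s in Ioi t, θ (s, v)) ∧
      (∀ t v, 0 ≤ t → HasDerivAt (fun s => ζ (s, v)) (θ (t, v)) t) := by
  obtain ⟨R, hR⟩ : ∃ R, ∀ q : ℝ × P, R < ‖q‖ → θ q = 0 := by
    obtain ⟨R, hR⟩ := hc.isCompact.isBounded.exists_norm_le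
    refine ⟨R, fun q hq => ?_⟩
    by_contra h
    exact absurd (hR q (subset_tsupport _ h)) (not_le.mpr hq)
  have hab : ∀ s v, s ∉ Icc (-R) R → θ (s, v) = 0 := by
    intro s v hs
    apply hR
    rw [mem_Icc, ← abs_le, not_le] at hs
    exact hs.trans_le (norm_fst_le (s, v))
  have hv : ∀ s v, R < ‖v‖ → θ (s, v) = 0 := by
    intro s v hs
    exact hR _ (hs.trans_le (norm_snd_le (s, v)))
  refine ⟨fun q => Real.smoothTransition (q.1 + 2) * (-tailInt θ q.1 q.2), ?_, ?_, ?_, ?_⟩
  · apply ContDiff.mul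
    · exact Real.smoothTransition.contDiff.comp (contDiff_fst.add contDiff_const)
    · exact (contDiff_tailInt hθ hab).neg
  · refine ⟨max R 2, fun t v htv => ?_⟩
    rcases htv with h | h
    · rcases le_or_gt 0 t with ht | ht
      · rw [abs_of_nonneg ht] at h
        have : tailInt θ t v = 0 := by
          rw [tailInt]
          apply setIntegral_eq_zero_of_forall_eq_zero
          intro s hs
          apply hab
          rw [mem_Icc, not_and_or, not_le, not_le]
          right
          exact ((le_max_left R 2).trans_lt h).trans hs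
        simp [this]
      · rw [abs_of_neg ht] at h
        have h2 : t + 2 ≤ 0 := by
          have := (le_max_right R 2).trans_lt h
          linarith
        simp only
        rw [Real.smoothTransition.zero_of_nonpos h2, zero_mul]
    · have : tailInt θ t v = 0 := by
        rw [tailInt]
        apply setIntegral_eq_zero_of_forall_eq_zero
        intro s _
        exact hv s v ((le_max_left R 2).trans_lt h)
      simp [this]
  · intro t v ht
    simp only
    rw [Real.smoothTransition.one_of_one_le (by linarith), one_mul, tailInt]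
  · intro t v ht
    have h1 := (hasDerivAt_tailInt hθ.continuous hab t v).neg
    rw [neg_neg] at h1
    apply h1.congr_of_eventuallyEq
    have : ∀ᶠ s in 𝓝 t, -1 < s := lt_mem_nhds (by linarith)
    filter_upwards [this] with s hs
    rw [Real.smoothTransition.one_of_one_le (by linarith), one_mul]
    rfl

end Vale.Agent.P140
end
end

section

open MeasureTheory Set Filter
open scoped ENNReal Topology NNReal

noncomputable section

namespace Vale.Agent.P140

theorem mFourier_toTorus (n : Fin 3 → ℤ) (x : V) :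
    UnitAddTorus.mFourier n (toTorus x)
      = Complex.exp (2 * Real.pi * Complex.I * ∑ j, (n j : ℂ) * (x j : ℂ)) := by
  change ∏ i : Fin 3, fourier (n i) (((x i : ℝ)) : AddCircle (1 : ℝ)) = _
  rw [Finset.mul_sum, Complex.exp_sum]
  apply Finset.prod_congr rfl
  intro i _
  rw [fourier_coe_apply]
  congr 1
  push_cast
  ring

/-- the oscillating test functions `ζ(t,v) ℓ(e_n(x - t v))` -/
def oscTest (ζ : ℝ × V → ℝ) (ℓ : ℂ →L[ℝ] ℝ) (n : Fin 3 → ℤ) : ℝ → T3 → V → ℝ :=
  fun t x v => ζ (t, v) * ℓ (UnitAddTorus.mFourier n (x - toTorus (t • v)))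

theorem isTest_oscTest {ζ : ℝ × V → ℝ} (hζ : ContDiff ℝ (⊤ : ℕ∞) ζ)
    (hR : ∃ R, ∀ t v, R < |t| ∨ R < ‖v‖ → ζ (t, v) = 0) (ℓ : ℂ →L[ℝ] ℝ) (n : Fin 3 → ℤ) :
    IsTest (oscTest ζ ℓ n) := by
  constructor
  · unfold oscTest
    apply ContDiff.mul
    · exact hζ.comp (contDiff_fst.prodMk (contDiff_snd.comp contDiff_snd))
    · apply ℓ.contDiff.comp
      have h1 : (fun p : ℝ × V × V => UnitAddTorus.mFourier n (toTorus p.2.1 - toTorus (p.1 • p.2.2)))
          = fun p : ℝ × V × V => Complex.exp (2 * Real.pi * Complex.I *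
            ∑ j, (n j : ℂ) * (((p.2.1 j - p.1 * p.2.2 j : ℝ)) : ℂ)) := by
        ext p
        rw [← toTorus_sub, mFourier_toTorus]
        rfl
      rw [h1]
      apply ContDiff.cexp
      apply contDiff_const.mul
      apply ContDiff.sum
      intro j _
      apply contDiff_const.mul
      apply Complex.ofRealCLM.contDiff.comp
      apply ContDiff.sub
      · exact (EuclideanSpace.proj j : V →L[ℝ] ℝ).contDiff.comp
          (contDiff_fst.comp contDiff_snd)
      · apply contDiff_fst.mul
        exact (EuclideanSpace.proj j : V →L[ℝ] ℝ).contDiff.comp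
          (contDiff_snd.comp contDiff_snd)
  · obtain ⟨R, hR⟩ := hR
    refine ⟨R, fun t x v h => ?_⟩
    unfold oscTest
    rw [hR t v h, zero_mul]

theorem transport_oscTest {ζ θ : ℝ × V → ℝ} {t : ℝ} {v : V}
    (h : HasDerivAt (fun s => ζ (s, v)) (θ (t, v)) t) (ℓ : ℂ →L[ℝ] ℝ) (n : Fin 3 → ℤ) (x : T3) :
    transport (fun t x => oscTest ζ ℓ n t x v) t x v
      = θ (t, v) * ℓ (UnitAddTorus.mFourier n (x - toTorus (t • v))) := by
  unfold transport oscTest
  have h1 : ∀ s : ℝ, x + toTorus (s • v) - toTorus ((t + s) • v) = x - toTorus (t • v) := by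
    intro s
    rw [add_smul, toTorus_add]
    abel
  simp_rw [h1]
  have h2 : HasDerivAt (fun s : ℝ => ζ (t + s, v)) (θ (t, v)) 0 := by
    have h' : HasDerivAt (fun s => ζ (s, v)) (θ (t, v)) (t + 0) := by rwa [add_zero]
    exact h'.comp_const_add t 0
  exact (h2.mul_const _).deriv

end Vale.Agent.P140
end
end

section

open MeasureTheory Set Filter
open scoped ENNReal Topology NNReal

noncomputable section

namespace Vale.Agent.P140

instance instFiniteT3 : IsFiniteMeasure (volume : Measure T3) := inferInstance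

/-- An integrable function on the torus with vanishing Fourier coefficients vanishes a.e. -/
theorem ae_eq_zero_of_mFourier {f : T3 → ℝ} (hf : Integrable f)
    (h : ∀ n : Fin 3 → ℤ, ∫ x, (f x : ℂ) * UnitAddTorus.mFourier n x = 0) :
    f =ᵐ[volume] 0 := by
  -- the functional on continuous functions
  have hfc : Integrable (fun x => (f x : ℂ)) := hf.ofReal
  have hint : ∀ φ : C(T3, ℂ), Integrable (fun x => (f x : ℂ) * φ x) := by
    intro φ
    exact hfc.mul_bdd (c := ‖φ‖) φ.continuous.aestronglyMeasurable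
      (Eventually.of_forall fun x => φ.norm_coe_le_norm x)
  have key : ∀ φ : C(T3, ℂ), ∫ x, (f x : ℂ) * φ x = 0 := by
    intro φ
    -- the set of φ with zero integral is a closed subspace
    let L : C(T3, ℂ) →L[ℂ] ℂ := LinearMap.mkContinuous
      { toFun := fun φ => ∫ x, (f x : ℂ) * φ x
        map_add' := by
          intro φ ψ
          rw [← integral_add (hint φ) (hint ψ)]
          congr 1
          ext x
          simp [mul_add]
        map_smul' := by
          intro c φ
          rw [RingHom.id_apply, smul_eq_mul, ← integral_const_mul]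
          congr 1
          ext x
          simp only [ContinuousMap.smul_apply, smul_eq_mul]
          ring }
      (∫ x, ‖(f x : ℂ)‖) (by
        intro φ
        simp only [LinearMap.coe_mk, AddHom.coe_mk]
        calc ‖∫ x, (f x : ℂ) * φ x‖ ≤ ∫ x, ‖(f x : ℂ) * φ x‖ := norm_integral_le_integral_norm _
          _ ≤ ∫ x, ‖(f x : ℂ)‖ * ‖φ‖ := by
              apply integral_mono (hint φ).norm (hfc.norm.mul_const _)
              intro x
              simp only [norm_mul]
              exact mul_le_mul_of_nonneg_left (φ.norm_coe_le_norm x) (norm_nonneg _)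
          _ = (∫ x, ‖(f x : ℂ)‖) * ‖φ‖ := integral_mul_const _ _)
    have hL : ∀ φ, L φ = ∫ x, (f x : ℂ) * φ x := fun φ => rfl
    have hker : (Submodule.span ℂ (range <| UnitAddTorus.mFourier (d := Fin 3))).topologicalClosure
        ≤ LinearMap.ker L.toLinearMap := by
      apply Submodule.topologicalClosure_minimal
      · rw [Submodule.span_le]
        rintro _ ⟨n, rfl⟩
        simp only [SetLike.mem_coe, LinearMap.mem_ker]
        exact (hL _).trans (h n)
      · exact L.isClosed_ker
    rw [UnitAddTorus.span_mFourier_closure_eq_top] at hker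
    have := hker (Submodule.mem_top (x := φ))
    rw [LinearMap.mem_ker] at this
    exact (hL φ).symm.trans this
  -- conclude by closed sets
  apply ae_eq_zero_of_forall_setIntegral_isClosed_eq_zero hf
  intro s hs
  have hlim : Tendsto (fun n => ∫ x, f x * (hs.apprSeq n x : ℝ)) atTop
      (𝓝 (∫ x, f x * (s.indicator (fun _ => (1 : ℝ)) x))) := by
    apply tendsto_integral_of_dominated_convergence (fun x => ‖f x‖)
    · intro n
      exact hf.aestronglyMeasurable.mul
        ((NNReal.continuous_coe.comp (hs.apprSeq n).continuous).aestronglyMeasurable)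
    · exact hf.norm
    · intro n
      refine Eventually.of_forall fun x => ?_
      rw [norm_mul]
      have h1 : (hs.apprSeq n x : ℝ) ≤ 1 := by
        exact_mod_cast HasOuterApproxClosed.apprSeq_apply_le_one hs n x
      have h2 : 0 ≤ (hs.apprSeq n x : ℝ) := NNReal.coe_nonneg _
      rw [Real.norm_of_nonneg h2]
      exact mul_le_of_le_one_right (norm_nonneg _) h1
    · refine Eventually.of_forall fun x => ?_
      apply Tendsto.const_mul
      have := (tendsto_pi_nhds.mp (HasOuterApproxClosed.tendsto_apprSeq hs)) x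
      have h3 := (NNReal.continuous_coe.tendsto _).comp this
      have h5 : ((s.indicator (fun _ => (1 : ℝ≥0)) x : ℝ≥0) : ℝ)
          = s.indicator (fun _ => (1 : ℝ)) x := by
        by_cases hx : x ∈ s
        · simp only [Set.indicator_of_mem hx, NNReal.coe_one]
        · simp only [Set.indicator_of_notMem hx, NNReal.coe_zero]
      rw [← h5]
      exact h3
  have hzero : ∀ n, ∫ x, f x * (hs.apprSeq n x : ℝ) = 0 := by
    intro n
    have hc : Continuous fun x : T3 => ((hs.apprSeq n x : ℝ) : ℂ) :=
      Complex.continuous_ofReal.comp (NNReal.continuous_coe.comp (hs.apprSeq n).continuous)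
    have := key ⟨_, hc⟩
    simp only [ContinuousMap.coe_mk] at this
    have h4 : ∀ x, (f x : ℂ) * ((hs.apprSeq n x : ℝ) : ℂ)
        = ((f x * (hs.apprSeq n x : ℝ) : ℝ) : ℂ) := by
      intro x; push_cast; ring
    simp_rw [h4] at this
    have h5 : ∫ x : T3, ((f x * (hs.apprSeq n x : ℝ) : ℝ) : ℂ)
        = ((∫ x : T3, (f x * (hs.apprSeq n x : ℝ)) : ℝ) : ℂ) := integral_ofReal
    rw [h5] at this
    exact_mod_cast this
  simp_rw [hzero] at hlim
  have h6 := tendsto_nhds_unique hlim tendsto_const_nhds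
  rw [← integral_indicator hs.measurableSet, ← h6]
  congr 1
  ext x
  by_cases hx : x ∈ s
  · simp only [Set.indicator_of_mem hx, mul_one]
  · simp only [Set.indicator_of_notMem hx, mul_zero]

end Vale.Agent.P140
end
end

section

open MeasureTheory Set Filter
open scoped ENNReal Topology NNReal

noncomputable section

namespace Vale.Agent.P140

theorem ac_congr {f g : ℝ → ℝ} {a b : ℝ} (hf : AbsolutelyContinuousOnInterval f a b)
    (h : EqOn f g (uIcc a b)) : AbsolutelyContinuousOnInterval g a b := by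
  rw [absolutelyContinuousOnInterval_iff] at hf ⊢
  intro ε hε
  obtain ⟨δ, hδ, H⟩ := hf ε hε
  refine ⟨δ, hδ, fun E hE hlen => ?_⟩
  have := H E hE hlen
  convert this using 1
  apply Finset.sum_congr rfl
  intro i hi
  have h1 := hE.1 i hi
  rw [h h1.1, h h1.2]

theorem ac_comp {f φ : ℝ → ℝ} {a b : ℝ} (hf : AbsolutelyContinuousOnInterval f a b)
    {K : ℝ≥0} (hφ : LipschitzOnWith K φ (f '' uIcc a b)) :
    AbsolutelyContinuousOnInterval (fun x => φ (f x)) a b := by
  rw [absolutelyContinuousOnInterval_iff] at hf ⊢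
  intro ε hε
  obtain ⟨δ, hδ, H⟩ := hf (ε / (K + 1)) (by positivity)
  refine ⟨δ, hδ, fun E hE hlen => ?_⟩
  have h1 := H E hE hlen
  calc ∑ i ∈ Finset.range E.1, dist (φ (f (E.2 i).1)) (φ (f (E.2 i).2))
      ≤ ∑ i ∈ Finset.range E.1, (K + 1) * dist (f (E.2 i).1) (f (E.2 i).2) := by
        apply Finset.sum_le_sum
        intro i hi
        have h2 := hE.1 i hi
        have h3 := hφ.dist_le_mul _ (mem_image_of_mem f h2.1) _ (mem_image_of_mem f h2.2)
        linarith only [dist_nonneg (x := f (E.2 i).1) (y := f (E.2 i).2), h3]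
    _ = (K + 1) * ∑ i ∈ Finset.range E.1, dist (f (E.2 i).1) (f (E.2 i).2) := by
        rw [Finset.mul_sum]
    _ < (K + 1) * (ε / (K + 1)) := by
        apply mul_lt_mul_of_pos_left h1
        positivity
    _ = ε := by field_simp

theorem ac_const (c a b : ℝ) : AbsolutelyContinuousOnInterval (fun _ => c) a b :=
  (contDiffOn_const (n := 1) (c := c) (s := uIcc a b)).absolutelyContinuousOnInterval

theorem ac_primitive {r : ℝ → ℝ} {a b : ℝ} (hr : IntervalIntegrable r volume a b) (c : ℝ) :
    AbsolutelyContinuousOnInterval (fun t => c + ∫ s in a..t, r s) a b :=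
  (ac_const c a b).add (hr.absolutelyContinuousOnInterval_intervalIntegral (by simp))

theorem ae_hasDerivAt_primitive {r : ℝ → ℝ} {a b : ℝ} (hr : IntervalIntegrable r volume a b) (c : ℝ) :
    ∀ᵐ t, t ∈ uIcc a b → HasDerivAt (fun t => c + ∫ s in a..t, r s) (r t) t := by
  filter_upwards [hr.ae_hasDerivAt_integral] with t ht hmem
  exact (ht hmem a (by simp)).const_add c

/-- integration by parts against a test function vanishing at the right end -/
theorem ibp_primitive {r z θ : ℝ → ℝ} {b : ℝ} (hb : 0 ≤ b) (hr : IntervalIntegrable r volume 0 b)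
    (hz : ContDiffOn ℝ 1 z (Icc 0 b)) (hd : ∀ t ∈ Icc 0 b, HasDerivAt z (θ t) t) (hzb : z b = 0)
    (c : ℝ) :
    (∫ t in (0:ℝ)..b, r t * z t) + c * z 0 = -∫ t in (0:ℝ)..b, θ t * (c + ∫ s in (0:ℝ)..t, r s) := by
  have hu : uIcc 0 b = Icc 0 b := uIcc_of_le hb
  have hzac : AbsolutelyContinuousOnInterval z 0 b := by
    apply ContDiffOn.absolutelyContinuousOnInterval
    rwa [hu]
  have h := (ac_primitive hr c).integral_mul_deriv_eq_deriv_mul hzac
  have h1 : ∫ x in (0:ℝ)..b, (c + ∫ s in (0:ℝ)..x, r s) * deriv z x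
      = ∫ t in (0:ℝ)..b, θ t * (c + ∫ s in (0:ℝ)..t, r s) := by
    apply intervalIntegral.integral_congr
    intro t ht
    simp only
    rw [hu] at ht
    rw [(hd t ht).deriv, mul_comm]
  have h2 : ∫ x in (0:ℝ)..b, deriv (fun t => c + ∫ s in (0:ℝ)..t, r s) x * z x
      = ∫ t in (0:ℝ)..b, r t * z t := by
    apply intervalIntegral.integral_congr_ae
    filter_upwards [ae_hasDerivAt_primitive hr c] with t ht hmem
    rw [(ht (uIoc_subset_uIcc hmem)).deriv]
  rw [h1, h2, hzb] at h
  simp only [mul_zero, intervalIntegral.integral_same, add_zero] at h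
  linarith

/-- exponential of a primitive -/
theorem exp_primitive {r : ℝ → ℝ} {a b : ℝ} (hr : IntervalIntegrable r volume a b) (c : ℝ) :
    Real.exp (c + ∫ s in a..b, r s) = Real.exp c
      + ∫ t in a..b, Real.exp (c + ∫ s in a..t, r s) * r t := by
  have hac := ac_primitive hr c
  have hcont := hac.continuousOn
  obtain ⟨K, hK⟩ : ∃ K : ℝ≥0, LipschitzOnWith K Real.exp ((fun t => c + ∫ s in a..t, r s) '' uIcc a b) := by
    have hcomp : IsCompact ((fun t => c + ∫ s in a..t, r s) '' uIcc a b) :=
      isCompact_uIcc.image_of_continuousOn hcont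
    obtain ⟨R, hR⟩ := hcomp.isBounded.subset_closedBall 0
    obtain ⟨K, hK⟩ := Real.contDiff_exp.contDiffOn.exists_lipschitzOnWith (n := 1) (by decide)
      (convex_closedBall 0 R) (isCompact_closedBall 0 R)
    exact ⟨K, hK.mono hR⟩
  have hac2 := ac_comp hac hK
  have h := hac2.integral_deriv_eq_sub
  have h2 : ∫ x in a..b, deriv (fun t => Real.exp (c + ∫ s in a..t, r s)) x
      = ∫ t in a..b, Real.exp (c + ∫ s in a..t, r s) * r t := by
    apply intervalIntegral.integral_congr_ae
    filter_upwards [ae_hasDerivAt_primitive hr c] with t ht hmem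
    exact ((ht (uIoc_subset_uIcc hmem)).exp).deriv
  rw [h2] at h
  simp only [intervalIntegral.integral_same, add_zero] at h
  linarith

/-- positive part of a primitive -/
theorem posPart_primitive {q : ℝ → ℝ} {a b : ℝ} (hq : IntervalIntegrable q volume a b)
    (c : ℝ) :
    max (c + ∫ s in a..b, q s) 0 = max c 0
      + ∫ t in a..b, (if 0 < c + ∫ s in a..t, q s then q t else 0) := by
  have hac := ac_primitive hq c
  have hL : LipschitzOnWith 1 (fun x : ℝ => max x 0) ((fun t => c + ∫ s in a..t, q s) '' uIcc a b) :=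
    (LipschitzWith.id.max_const 0).lipschitzOnWith
  have hac2 := ac_comp hac hL
  have h := hac2.integral_deriv_eq_sub
  have h2 : ∫ x in a..b, deriv (fun t => max (c + ∫ s in a..t, q s) 0) x
      = ∫ t in a..b, (if 0 < c + ∫ s in a..t, q s then q t else 0) := by
    apply intervalIntegral.integral_congr_ae
    filter_upwards [ae_hasDerivAt_primitive hq c, hac2.ae_differentiableAt] with t ht hdiff hmem
    have ht' := ht (uIoc_subset_uIcc hmem)
    have hd := hdiff (uIoc_subset_uIcc hmem)
    rcases lt_trichotomy (c + ∫ s in a..t, q s) 0 with h0 | h0 | h0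
    · rw [if_neg h0.le.not_gt]
      have : (fun t => max (c + ∫ s in a..t, q s) 0) =ᶠ[𝓝 t] fun _ => 0 := by
        filter_upwards [ht'.continuousAt.eventually_lt_const h0] with s hs
        exact max_eq_right hs.le
      rw [this.deriv_eq, deriv_const]
    · rw [if_neg (by rw [h0]; exact lt_irrefl 0)]
      have hmin : IsLocalMin (fun t => max (c + ∫ s in a..t, q s) 0) t := by
        apply Eventually.of_forall
        intro s
        simp only [h0, max_self]
        exact le_max_right _ _
      exact hmin.deriv_eq_zero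
    · rw [if_pos h0]
      have : (fun t => max (c + ∫ s in a..t, q s) 0) =ᶠ[𝓝 t] fun t => c + ∫ s in a..t, q s := by
        filter_upwards [ht'.continuousAt.eventually_const_lt h0] with s hs
        exact max_eq_left hs.le
      rw [this.deriv_eq, ht'.deriv]
  rw [h2] at h
  simp only [intervalIntegral.integral_same, add_zero] at h
  linarith

end Vale.Agent.P140
end
end

section

open MeasureTheory Set Filter
open scoped ENNReal Topology NNReal

noncomputable section

namespace Vale.Agent.P140

/-- reordering `((t,v),y) ↦ (t,(y,v))` -/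
def reorder (q : (ℝ × V) × T3) : ℝ × T3 × V := (q.1.1, q.2, q.1.2)

theorem measurable_reorder : Measurable reorder := by
  unfold reorder
  fun_prop

theorem measurableEmbedding_reorder : MeasurableEmbedding reorder := by
  let e : (ℝ × V) × T3 ≃ᵐ ℝ × T3 × V :=
    { toFun := reorder
      invFun := fun q => ((q.1, q.2.2), q.2.1)
      left_inv := fun q => rfl
      right_inv := fun q => rfl
      measurable_toFun := measurable_reorder
      measurable_invFun := by
        show Measurable fun q : ℝ × T3 × V => ((q.1, q.2.2), q.2.1)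
        fun_prop }
  exact e.measurableEmbedding

theorem measurePreserving_reorder (μ : Measure ℝ) [SFinite μ] :
    MeasurePreserving reorder ((μ.prod (volume : Measure V)).prod (volume : Measure T3))
      (μ.prod (volume : Measure (T3 × V))) := by
  have h1 := measurePreserving_prodAssoc μ (volume : Measure V) (volume : Measure T3)
  have h2 : MeasurePreserving (Prod.map (id : ℝ → ℝ) (Prod.swap : V × T3 → T3 × V))
      (μ.prod ((volume : Measure V).prod (volume : Measure T3)))
      (μ.prod ((volume : Measure T3).prod (volume : Measure V))) :=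
    (MeasurePreserving.id μ).prod Measure.measurePreserving_swap
  exact h2.comp h1

/-- primitives of integrable functions, jointly in `(t,p)` -/
theorem integrable_primitive {α : Type*} [MeasurableSpace α] {ν : Measure α} [SFinite ν]
    {r : ℝ × α → ℝ} (hr : Measurable r)
    {T : ℝ} (hrT : Integrable r ((volume.restrict (Ioc 0 T)).prod ν)) :
    Integrable (fun q : ℝ × α => ∫ s in Ioc 0 q.1, r (s, q.2)) ((volume.restrict (Ioc 0 T)).prod ν) := by
  have hb : Integrable (fun p => ∫ s in Ioc 0 T, ‖r (s, p)‖) ν := hrT.norm.integral_prod_right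
  have hb' : Integrable (fun q : ℝ × α => ∫ s in Ioc 0 T, ‖r (s, q.2)‖)
      ((volume.restrict (Ioc 0 T)).prod ν) := hb.comp_snd _
  refine hb'.mono' ?_ ?_
  · have h1 : Measurable fun z : (ℝ × α) × ℝ => (Ioc 0 z.1.1).indicator (fun s => r (s, z.1.2)) z.2 := by
      have h2 : (fun z : (ℝ × α) × ℝ => (Ioc 0 z.1.1).indicator (fun s => r (s, z.1.2)) z.2)
          = ({z : (ℝ × α) × ℝ | 0 < z.2 ∧ z.2 ≤ z.1.1}).indicator (fun z => r (z.2, z.1.2)) := by
        ext z
        by_cases hz : 0 < z.2 ∧ z.2 ≤ z.1.1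
        · rw [Set.indicator_of_mem (show z.2 ∈ Ioc 0 z.1.1 from hz), Set.indicator_of_mem (by exact hz)]
        · rw [Set.indicator_of_notMem (show z.2 ∉ Ioc 0 z.1.1 from hz),
            Set.indicator_of_notMem (by exact hz)]
      rw [h2]
      apply Measurable.indicator
      · exact hr.comp (by fun_prop)
      · apply MeasurableSet.inter
        · exact measurableSet_lt measurable_const measurable_snd
        · exact measurableSet_le measurable_snd (measurable_fst.comp measurable_fst)
    have h3 : StronglyMeasurable fun q : ℝ × α => ∫ s, (Ioc 0 q.1).indicator (fun s => r (s, q.2)) s :=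
      h1.stronglyMeasurable.integral_prod_right
    have h4 : (fun q : ℝ × α => ∫ s in Ioc 0 q.1, r (s, q.2))
        = fun q : ℝ × α => ∫ s, (Ioc 0 q.1).indicator (fun s => r (s, q.2)) s := by
      ext q
      rw [integral_indicator measurableSet_Ioc]
    rw [h4]
    exact h3.aestronglyMeasurable
  · have h5 : ∀ᵐ q ∂((volume.restrict (Ioc 0 T)).prod ν), q.1 ∈ Ioc 0 T :=
      Measure.ae_prod_iff_ae_ae (p := fun q : ℝ × α => q.1 ∈ Ioc 0 T)
        (measurable_fst measurableSet_Ioc) |>.mpr
        ((ae_restrict_mem measurableSet_Ioc).mono fun t ht => Eventually.of_forall fun _ => ht)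
    have h6 : ∀ᵐ p ∂ν, Integrable (fun s => r (s, p)) (volume.restrict (Ioc 0 T)) :=
      hrT.prod_left_ae
    have h7 : ∀ᵐ q ∂((volume.restrict (Ioc 0 T)).prod ν),
        Integrable (fun s => r (s, q.2)) (volume.restrict (Ioc 0 T)) :=
      Measure.quasiMeasurePreserving_snd.ae h6
    filter_upwards [h5, h7] with q hq hq2
    calc ‖∫ s in Ioc 0 q.1, r (s, q.2)‖ ≤ ∫ s in Ioc 0 q.1, ‖r (s, q.2)‖ :=
          norm_integral_le_integral_norm _
      _ ≤ ∫ s in Ioc 0 T, ‖r (s, q.2)‖ := by
          apply setIntegral_mono_set hq2.norm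
          · exact Eventually.of_forall fun _ => norm_nonneg _
          · exact (Ioc_subset_Ioc_right hq.2).eventuallyLE

end Vale.Agent.P140
end
end

section

open MeasureTheory Set Filter
open scoped ENNReal Topology NNReal

noncomputable section

namespace Vale.Agent.P140

/-- a function evaluated along the free flow -/
def along (U : ℝ → T3 → V → ℝ) (q : ℝ × T3 × V) : ℝ := U q.1 (q.2.1 + toTorus (q.1 • q.2.2)) q.2.2

theorem along_eq (U : ℝ → T3 → V → ℝ) (q : ℝ × T3 × V) :
    along U q = (fun z : ℝ × T3 × V => U z.1 z.2.1 z.2.2) (stFlow q) := rfl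

theorem measurable_along {U : ℝ → T3 → V → ℝ} (hU : Measurable fun q : ℝ × T3 × V => U q.1 q.2.1 q.2.2) :
    Measurable (along U) := hU.comp measurable_stFlow

theorem integrable_along {U : ℝ → T3 → V → ℝ} {μ : Measure ℝ} [SFinite μ]
    (hU : Integrable (fun q : ℝ × T3 × V => U q.1 q.2.1 q.2.2) (μ.prod volume)) :
    Integrable (along U) (μ.prod volume) :=
  (measurePreserving_stFlow μ).integrable_comp_emb measurableEmbedding_stFlow |>.mpr hU

/-- the defect in the mild formulation -/
def defect (U R : ℝ → T3 → V → ℝ) (U0 : T3 → V → ℝ) (q : ℝ × T3 × V) : ℝ :=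
  along U q - (U0 q.2.1 q.2.2 + ∫ s in Ioc 0 q.1, along R (s, q.2))

theorem norm_mFourier_le (n : Fin 3 → ℤ) (x : T3) : ‖UnitAddTorus.mFourier n x‖ ≤ 1 := by
  have := (UnitAddTorus.mFourier n).norm_coe_le_norm x
  rwa [UnitAddTorus.mFourier_norm] at this

theorem integrable_defect {U R : ℝ → T3 → V → ℝ} {U0 : T3 → V → ℝ}
    (hRm : Measurable fun q : ℝ × T3 × V => R q.1 q.2.1 q.2.2) {T : ℝ}
    (hU : Integrable (fun q : ℝ × T3 × V => U q.1 q.2.1 q.2.2) ((volume.restrict (Ioc 0 T)).prod volume))
    (hR : Integrable (fun q : ℝ × T3 × V => R q.1 q.2.1 q.2.2) ((volume.restrict (Ioc 0 T)).prod volume))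
    (hU0 : Integrable fun p : T3 × V => U0 p.1 p.2) :
    Integrable (defect U R U0) ((volume.restrict (Ioc 0 T)).prod volume) := by
  unfold defect
  apply (integrable_along hU).sub
  apply Integrable.add
  · exact hU0.comp_snd _
  · exact integrable_primitive (measurable_along hRm) (integrable_along hR)

theorem weak_key {U R : ℝ → T3 → V → ℝ} {U0 : T3 → V → ℝ}
    (hRm : Measurable fun q : ℝ × T3 × V => R q.1 q.2.1 q.2.2)
    (hU : ∀ T, Integrable (fun q : ℝ × T3 × V => U q.1 q.2.1 q.2.2)
      ((volume.restrict (Ioc 0 T)).prod volume))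
    (hR : ∀ T, Integrable (fun q : ℝ × T3 × V => R q.1 q.2.1 q.2.2)
      ((volume.restrict (Ioc 0 T)).prod volume))
    (hU0 : Integrable fun p : T3 × V => U0 p.1 p.2) (hw : WeakTransport U R U0)
    {θ : ℝ × V → ℝ} (hθ : ContDiff ℝ (⊤ : ℕ∞) θ) (hc : HasCompactSupport θ)
    (ℓ : ℂ →L[ℝ] ℝ) (n : Fin 3 → ℤ) :
    ∃ T0 : ℝ, 0 ≤ T0 ∧ (∀ t v, T0 < t → θ (t, v) = 0) ∧
    ∫ q : ℝ × T3 × V, θ (q.1, q.2.2) * (defect U R U0 q * ℓ (UnitAddTorus.mFourier n q.2.1))
      ∂((volume.restrict (Ioc 0 T0)).prod volume) = 0 := by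
  obtain ⟨ζ, hζ, ⟨R0, hR0⟩, hζint, hζd⟩ := exists_primitive hθ hc
  obtain ⟨R1, hR1⟩ : ∃ R, ∀ q : ℝ × V, R < ‖q‖ → θ q = 0 := by
    obtain ⟨R, hR⟩ := hc.isCompact.isBounded.exists_norm_le
    refine ⟨R, fun q hq => ?_⟩
    by_contra h
    exact absurd (hR q (subset_tsupport _ h)) (not_le.mpr hq)
  set T : ℝ := max (max R0 R1) 0 + 1 with hT
  have hTpos : 0 < T := by
    have := le_max_right (max R0 R1) 0
    linarith
  have hTθ : ∀ t v, T ≤ t → θ (t, v) = 0 := by
    intro t v ht
    apply hR1
    have h1 : R1 < t := by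
      have := le_max_left (max R0 R1) 0
      have := le_max_right R0 R1
      linarith
    exact (h1.trans_le (le_abs_self t)).trans_le (norm_fst_le (t, v))
  have hTζ : ∀ t v, T ≤ t → ζ (t, v) = 0 := by
    intro t v ht
    apply hR0
    left
    have h1 : R0 < t := by
      have := le_max_left (max R0 R1) 0
      have := le_max_left R0 R1
      linarith
    exact h1.trans_le (le_abs_self t)
  refine ⟨T, hTpos.le, fun t v ht => hTθ t v ht.le, ?_⟩
  -- bounds
  obtain ⟨Cθ, hCθ⟩ := hc.exists_bound_of_continuous hθ.continuous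
  have hζc : HasCompactSupport ζ := by
    apply HasCompactSupport.of_support_subset_isCompact (isCompact_closedBall (0 : ℝ × V) (max R0 0))
    intro q hq
    rw [mem_closedBall_zero_iff]
    by_contra h
    rw [not_le] at h
    apply hq
    have h2 : R0 < ‖q‖ := (le_max_left _ _).trans_lt h
    rw [Prod.norm_def] at h2
    rcases lt_max_iff.mp h2 with h3 | h3
    · exact hR0 q.1 q.2 (Or.inl h3)
    · exact hR0 q.1 q.2 (Or.inr h3)
  obtain ⟨Cζ, hCζ⟩ := hζc.exists_bound_of_continuous hζ.continuous
  have hℓ : ∀ y : T3, ‖ℓ (UnitAddTorus.mFourier n y)‖ ≤ ‖ℓ‖ := fun y =>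
    (ℓ.le_opNorm _).trans (mul_le_of_le_one_right (norm_nonneg _) (norm_mFourier_le n y))
  set μ := (volume.restrict (Ioc 0 T) : Measure ℝ) with hμ
  -- multipliers
  have hmulm : ∀ η : ℝ × V → ℝ, Continuous η →
      Measurable fun q : ℝ × T3 × V => η (q.1, q.2.2) * ℓ (UnitAddTorus.mFourier n q.2.1) := by
    intro η hη
    apply Continuous.measurable
    apply Continuous.mul
    · exact hη.comp (by fun_prop)
    · exact ℓ.continuous.comp ((UnitAddTorus.mFourier n).continuous.comp (by fun_prop))
  have hmulb : ∀ (η : ℝ × V → ℝ) (C : ℝ), (∀ x, ‖η x‖ ≤ C) → ∀ q : ℝ × T3 × V,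
      ‖η (q.1, q.2.2) * ℓ (UnitAddTorus.mFourier n q.2.1)‖ ≤ C * ‖ℓ‖ := by
    intro η C hη q
    rw [norm_mul]
    exact mul_le_mul (hη _) (hℓ _) (norm_nonneg _) ((norm_nonneg _).trans (hη (q.1, q.2.2)))
  have hint : ∀ (f : ℝ × T3 × V → ℝ) (η : ℝ × V → ℝ) (C : ℝ), Integrable f (μ.prod volume) →
      Continuous η → (∀ x, ‖η x‖ ≤ C) →
      Integrable (fun q => f q * (η (q.1, q.2.2) * ℓ (UnitAddTorus.mFourier n q.2.1)))
        (μ.prod volume) := by
    intro f η C hf hη hC
    exact hf.mul_bdd (c := C * ‖ℓ‖) (hmulm η hη).aestronglyMeasurable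
      (Eventually.of_forall (hmulb η C hC))
  have hu := integrable_along (hU T)
  have hr := integrable_along (hR T)
  -- the weak formulation along characteristics
  have h0 := hw (oscTest ζ ℓ n) (isTest_oscTest hζ ⟨R0, hR0⟩ ℓ n)
  have h1 : ∫ p : ℝ × T3 × V in Ioi 0 ×ˢ univ,
      (U p.1 p.2.1 p.2.2 * transport (fun t x => oscTest ζ ℓ n t x p.2.2) p.1 p.2.1 p.2.2
        + R p.1 p.2.1 p.2.2 * oscTest ζ ℓ n p.1 p.2.1 p.2.2)
      = ∫ q : ℝ × T3 × V, (along U q * (θ (q.1, q.2.2) * ℓ (UnitAddTorus.mFourier n q.2.1))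
          + along R q * (ζ (q.1, q.2.2) * ℓ (UnitAddTorus.mFourier n q.2.1))) ∂(μ.prod volume) := by
    rw [← (measurePreserving_stFlow_restrict (Ioi 0)).integral_comp measurableEmbedding_stFlow]
    rw [hμ, ← restrict_prod_univ]
    have h2 : ∀ q : ℝ × T3 × V, 0 < q.1 →
        (U (stFlow q).1 (stFlow q).2.1 (stFlow q).2.2
          * transport (fun t x => oscTest ζ ℓ n t x (stFlow q).2.2) (stFlow q).1 (stFlow q).2.1
              (stFlow q).2.2
          + R (stFlow q).1 (stFlow q).2.1 (stFlow q).2.2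
            * oscTest ζ ℓ n (stFlow q).1 (stFlow q).2.1 (stFlow q).2.2)
        = (along U q * (θ (q.1, q.2.2) * ℓ (UnitAddTorus.mFourier n q.2.1))
          + along R q * (ζ (q.1, q.2.2) * ℓ (UnitAddTorus.mFourier n q.2.1))) := by
      intro q hq
      have h3 : (stFlow q).2.1 - toTorus ((stFlow q).1 • (stFlow q).2.2) = q.2.1 := by
        simp [stFlow, flow]
      rw [transport_oscTest (θ := θ) (t := (stFlow q).1) (v := (stFlow q).2.2)
        (hζd (stFlow q).1 (stFlow q).2.2 hq.le), h3]
      unfold oscTest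
      rw [h3]
      rfl
    rw [setIntegral_congr_fun (measurableSet_Ioi.prod MeasurableSet.univ) (fun q hq => h2 q hq.1)]
    apply setIntegral_eq_of_subset_of_forall_sdiff_eq_zero
    · exact measurableSet_Ioi.prod MeasurableSet.univ
    · exact Set.prod_mono Ioc_subset_Ioi_self (Subset.refl _)
    · rintro q ⟨hq1, hq2⟩
      have h4 : T < q.1 := by
        by_contra h5
        exact hq2 ⟨⟨hq1.1, not_lt.mp h5⟩, mem_univ _⟩
      rw [hTθ _ _ h4.le, hTζ _ _ h4.le]
      ring
  rw [h1, integral_add (hint _ θ Cθ hu hθ.continuous hCθ) (hint _ ζ Cζ hr hζ.continuous hCζ)] at h0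
  -- integrate the second term in time first
  have hprim := integrable_primitive (measurable_along hRm) hr
  have hP : Integrable (fun q : ℝ × T3 × V => U0 q.2.1 q.2.2 + ∫ s in Ioc 0 q.1, along R (s, q.2))
      (μ.prod volume) := (hU0.comp_snd _).add hprim
  have h5 : ∫ q : ℝ × T3 × V, along R q * (ζ (q.1, q.2.2) * ℓ (UnitAddTorus.mFourier n q.2.1))
        ∂(μ.prod volume) + ∫ p : T3 × V, U0 p.1 p.2 * oscTest ζ ℓ n 0 p.1 p.2
      = - ∫ q : ℝ × T3 × V, (U0 q.2.1 q.2.2 + ∫ s in Ioc 0 q.1, along R (s, q.2))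
          * (θ (q.1, q.2.2) * ℓ (UnitAddTorus.mFourier n q.2.1)) ∂(μ.prod volume) := by
    have i1 := hint _ ζ Cζ hr hζ.continuous hCζ
    have i2 := hint _ θ Cθ hP hθ.continuous hCθ
    rw [integral_prod_symm _ i1, integral_prod_symm _ i2, ← integral_neg]
    have i3 : Integrable (fun p : T3 × V => U0 p.1 p.2 * oscTest ζ ℓ n 0 p.1 p.2) := by
      have h7 : (fun p : T3 × V => U0 p.1 p.2 * oscTest ζ ℓ n 0 p.1 p.2)
          = fun p : T3 × V => U0 p.1 p.2 * (ζ (0, p.2) * ℓ (UnitAddTorus.mFourier n p.1)) := by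
        ext p
        simp [oscTest, toTorus_zero]
      rw [h7]
      apply hU0.mul_bdd (c := Cζ * ‖ℓ‖)
      · apply Measurable.aestronglyMeasurable
        exact (hmulm ζ hζ.continuous).comp (measurable_const.prodMk measurable_id :
          Measurable fun p : T3 × V => ((0 : ℝ), p))
      · exact Eventually.of_forall fun p => hmulb ζ Cζ hCζ (0, p)
    rw [← integral_add i1.integral_prod_right i3]
    apply integral_congr_ae
    filter_upwards [hr.prod_left_ae] with p hp
    have h8 : IntervalIntegrable (fun s => along R (s, p)) volume 0 T := by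
      rw [intervalIntegrable_iff_integrableOn_Ioc_of_le hTpos.le]
      exact hp
    have h9 := ibp_primitive (r := fun s => along R (s, p)) (z := fun s => ζ (s, p.2))
      (θ := fun s => θ (s, p.2)) hTpos.le h8
      ((hζ.of_le (by exact_mod_cast le_top)).comp
        (contDiff_id.prodMk contDiff_const)).contDiffOn
      (fun t ht => hζd t p.2 ht.1) (hTζ T p.2 le_rfl) (U0 p.1 p.2)
    rw [intervalIntegral.integral_of_le hTpos.le, intervalIntegral.integral_of_le hTpos.le] at h9
    have h10 : ∫ x in Ioc 0 T, along R (x, p) * (ζ (x, p.2) * ℓ (UnitAddTorus.mFourier n p.1))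
        = (∫ x in Ioc 0 T, along R (x, p) * ζ (x, p.2)) * ℓ (UnitAddTorus.mFourier n p.1) := by
      rw [← integral_mul_const]
      congr 1
      ext x
      ring
    have h11 : ∫ x in Ioc 0 T, (U0 p.1 p.2 + ∫ s in Ioc 0 x, along R (s, p))
          * (θ (x, p.2) * ℓ (UnitAddTorus.mFourier n p.1))
        = (∫ x in Ioc 0 T, θ (x, p.2) * (U0 p.1 p.2 + ∫ s in (0:ℝ)..x, along R (s, p)))
          * ℓ (UnitAddTorus.mFourier n p.1) := by
      rw [← integral_mul_const]
      apply setIntegral_congr_fun measurableSet_Ioc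
      intro x hx
      simp only
      rw [intervalIntegral.integral_of_le hx.1.le]
      ring
    have h12 : oscTest ζ ℓ n 0 p.1 p.2 = ζ (0, p.2) * ℓ (UnitAddTorus.mFourier n p.1) := by
      simp [oscTest, toTorus_zero]
    simp only [h12]
    rw [h10, h11]
    linear_combination (ℓ (UnitAddTorus.mFourier n p.1)) * h9
  rw [add_assoc, h5, ← sub_eq_add_neg,
    ← integral_sub (hint _ θ Cθ hu hθ.continuous hCθ) (hint _ θ Cθ hP hθ.continuous hCθ)] at h0
  rw [← h0]
  congr 1
  ext q
  unfold defect
  ring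

end Vale.Agent.P140
end
end

section

open MeasureTheory Set Filter
open scoped ENNReal Topology NNReal

noncomputable section

namespace Vale.Agent.P140

theorem measurable_primitive {α : Type*} [MeasurableSpace α] {r : ℝ × α → ℝ} (hr : Measurable r) :
    Measurable (fun q : ℝ × α => ∫ s in Ioc 0 q.1, r (s, q.2)) := by
  have h1 : Measurable fun z : (ℝ × α) × ℝ => (Ioc 0 z.1.1).indicator (fun s => r (s, z.1.2)) z.2 := by
    have h2 : (fun z : (ℝ × α) × ℝ => (Ioc 0 z.1.1).indicator (fun s => r (s, z.1.2)) z.2)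
        = ({z : (ℝ × α) × ℝ | 0 < z.2 ∧ z.2 ≤ z.1.1}).indicator (fun z => r (z.2, z.1.2)) := by
      ext z
      by_cases hz : 0 < z.2 ∧ z.2 ≤ z.1.1
      · rw [Set.indicator_of_mem (show z.2 ∈ Ioc 0 z.1.1 from hz), Set.indicator_of_mem (by exact hz)]
      · rw [Set.indicator_of_notMem (show z.2 ∉ Ioc 0 z.1.1 from hz),
          Set.indicator_of_notMem (by exact hz)]
    rw [h2]
    apply Measurable.indicator
    · exact hr.comp (by fun_prop)
    · apply MeasurableSet.inter
      · exact measurableSet_lt measurable_const measurable_snd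
      · exact measurableSet_le measurable_snd (measurable_fst.comp measurable_fst)
  have h3 : StronglyMeasurable fun q : ℝ × α => ∫ s, (Ioc 0 q.1).indicator (fun s => r (s, q.2)) s :=
    h1.stronglyMeasurable.integral_prod_right
  have h4 : (fun q : ℝ × α => ∫ s in Ioc 0 q.1, r (s, q.2))
      = fun q : ℝ × α => ∫ s, (Ioc 0 q.1).indicator (fun s => r (s, q.2)) s := by
    ext q
    rw [integral_indicator measurableSet_Ioc]
  rw [h4]
  exact h3.measurable

theorem measurable_defect {U R : ℝ → T3 → V → ℝ} {U0 : T3 → V → ℝ}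
    (hUm : Measurable fun q : ℝ × T3 × V => U q.1 q.2.1 q.2.2)
    (hRm : Measurable fun q : ℝ × T3 × V => R q.1 q.2.1 q.2.2)
    (hU0m : Measurable fun p : T3 × V => U0 p.1 p.2) :
    Measurable (defect U R U0) := by
  unfold defect
  apply (measurable_along hUm).sub
  apply Measurable.add
  · exact hU0m.comp measurable_snd
  · exact measurable_primitive (measurable_along hRm)

/-- **Distributional transport equations hold in mild form.** -/
theorem defect_ae_zero {U R : ℝ → T3 → V → ℝ} {U0 : T3 → V → ℝ}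
    (hUm : Measurable fun q : ℝ × T3 × V => U q.1 q.2.1 q.2.2)
    (hRm : Measurable fun q : ℝ × T3 × V => R q.1 q.2.1 q.2.2)
    (hU0m : Measurable fun p : T3 × V => U0 p.1 p.2)
    (hU : ∀ T, Integrable (fun q : ℝ × T3 × V => U q.1 q.2.1 q.2.2)
      ((volume.restrict (Ioc 0 T)).prod volume))
    (hR : ∀ T, Integrable (fun q : ℝ × T3 × V => R q.1 q.2.1 q.2.2)
      ((volume.restrict (Ioc 0 T)).prod volume))
    (hU0 : Integrable fun p : T3 × V => U0 p.1 p.2) (hw : WeakTransport U R U0) :
    ∀ᵐ q : ℝ × T3 × V, 0 < q.1 → defect U R U0 q = 0 := by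
  have hWm := measurable_defect hUm hRm hU0m
  have hW : ∀ T, Integrable (defect U R U0) ((volume.restrict (Ioc 0 T)).prod volume) := fun T =>
    integrable_defect hRm (hU T) (hR T) hU0
  -- reordered defect
  have hWr : ∀ T, Integrable (fun z : (ℝ × V) × T3 => defect U R U0 (reorder z))
      ((((volume.restrict (Ioc 0 T))).prod (volume : Measure V)).prod (volume : Measure T3)) := fun T =>
    (measurePreserving_reorder _).integrable_comp_emb measurableEmbedding_reorder |>.mpr (hW T)
  have hres : ∀ T : ℝ, (volume : Measure (ℝ × V)).restrict (Ioc 0 T ×ˢ univ)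
      = (volume.restrict (Ioc 0 T)).prod (volume : Measure V) := by
    intro T
    rw [Measure.volume_eq_prod ℝ V, ← Measure.prod_restrict, Measure.restrict_univ]
  -- a.e. integrability in the torus variable
  have hae : ∀ᵐ z : ℝ × V, 0 < z.1 → Integrable (fun y : T3 => defect U R U0 (reorder (z, y))) := by
    have h1 : ∀ N : ℕ, ∀ᵐ z : ℝ × V, z ∈ Ioc (0 : ℝ) N ×ˢ (univ : Set V) →
        Integrable (fun y : T3 => defect U R U0 (reorder (z, y))) := by
      intro N
      rw [← ae_restrict_iff'₀ (measurableSet_Ioc.prod MeasurableSet.univ).nullMeasurableSet, hres]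
      exact (hWr N).prod_right_ae
    rw [← ae_all_iff] at h1
    filter_upwards [h1] with z hz hpos
    obtain ⟨N, hN⟩ := exists_nat_ge z.1
    exact hz N ⟨⟨hpos, hN⟩, mem_univ _⟩
  -- Fourier modes of the defect
  have hmode : ∀ (n : Fin 3 → ℤ) (ℓ : ℂ →L[ℝ] ℝ), ∀ᵐ z : ℝ × V, 0 < z.1 →
      ∫ y : T3, defect U R U0 (reorder (z, y)) * ℓ (UnitAddTorus.mFourier n y) = 0 := by
    intro n ℓ
    have hℓ : ∀ y : T3, ‖ℓ (UnitAddTorus.mFourier n y)‖ ≤ ‖ℓ‖ := fun y =>
      (ℓ.le_opNorm _).trans (mul_le_of_le_one_right (norm_nonneg _) (norm_mFourier_le n y))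
    have hℓm : Measurable fun y : T3 => ℓ (UnitAddTorus.mFourier n y) :=
      (ℓ.continuous.comp (UnitAddTorus.mFourier n).continuous).measurable
    have hint : ∀ T, Integrable (fun z : (ℝ × V) × T3 =>
        defect U R U0 (reorder z) * ℓ (UnitAddTorus.mFourier n z.2))
        ((((volume.restrict (Ioc 0 T))).prod (volume : Measure V)).prod (volume : Measure T3)) :=
      fun T => (hWr T).mul_bdd (c := ‖ℓ‖) (hℓm.comp measurable_snd).aestronglyMeasurable
        (Eventually.of_forall fun z => hℓ z.2)
    have hint2 : ∀ T, IntegrableOn (fun z : ℝ × V => ∫ y : T3, defect U R U0 (reorder (z, y))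
        * ℓ (UnitAddTorus.mFourier n y)) (Ioc 0 T ×ˢ univ) := by
      intro T
      rw [IntegrableOn, hres]
      exact (hint T).integral_prod_left
    have hloc : LocallyIntegrableOn (fun z : ℝ × V => ∫ y : T3, defect U R U0 (reorder (z, y))
        * ℓ (UnitAddTorus.mFourier n y)) (Ioi 0 ×ˢ univ) volume := by
      intro z hz
      refine ⟨(Ioo 0 (z.1 + 1) ×ˢ univ), ?_, ?_⟩
      · apply mem_nhdsWithin_of_mem_nhds
        apply (isOpen_Ioo.prod isOpen_univ).mem_nhds
        exact ⟨⟨hz.1, by linarith⟩, mem_univ _⟩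
      · exact (hint2 (z.1 + 1)).mono_set (Set.prod_mono Ioo_subset_Ioc_self (Subset.refl _))
    have hopen : IsOpen (Ioi (0 : ℝ) ×ˢ (univ : Set V)) := isOpen_Ioi.prod isOpen_univ
    have := hopen.ae_eq_zero_of_integral_contDiff_smul_eq_zero hloc (by
      intro g hg hgc hgs
      obtain ⟨T0, hT0, hT0g, hkey⟩ := weak_key hRm hU hR hU0 hw hg hgc ℓ n
      rw [← (measurePreserving_reorder _).integral_comp measurableEmbedding_reorder] at hkey
      have hgb : ∃ C, ∀ z, ‖g z‖ ≤ C := hgc.exists_bound_of_continuous hg.continuous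
      obtain ⟨C, hC⟩ := hgb
      rw [integral_prod] at hkey
      · rw [← hkey, ← hres, ← integral_indicator (measurableSet_Ioc.prod MeasurableSet.univ)]
        congr 1
        ext z
        by_cases hz : z ∈ Ioc 0 T0 ×ˢ (univ : Set V)
        · rw [Set.indicator_of_mem hz, smul_eq_mul, ← integral_const_mul]
          rfl
        · rw [Set.indicator_of_notMem hz]
          have : g z = 0 := by
            by_cases h0 : 0 < z.1
            · apply hT0g
              by_contra h1
              exact hz ⟨⟨h0, not_lt.mp h1⟩, mem_univ _⟩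
            · by_contra h2
              exact h0 (hgs (subset_tsupport g h2)).1
          rw [this, zero_smul]
      · have h3 := (hint T0).bdd_mul (c := C) (f := fun z : (ℝ × V) × T3 => g z.1)
          ((hg.continuous.comp continuous_fst).aestronglyMeasurable)
          (Eventually.of_forall fun z => hC z.1)
        exact h3)
    filter_upwards [this] with z hz hpos
    exact hz ⟨hpos, mem_univ _⟩
  -- all modes at once
  have hall : ∀ᵐ z : ℝ × V, 0 < z.1 → ∀ᵐ y : T3, defect U R U0 (reorder (z, y)) = 0 := by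
    have h1 : ∀ᵐ z : ℝ × V, ∀ n : Fin 3 → ℤ, 0 < z.1 →
        ∫ y : T3, defect U R U0 (reorder (z, y)) * Complex.reCLM (UnitAddTorus.mFourier n y) = 0 :=
      ae_all_iff.mpr fun n => hmode n Complex.reCLM
    have h2 : ∀ᵐ z : ℝ × V, ∀ n : Fin 3 → ℤ, 0 < z.1 →
        ∫ y : T3, defect U R U0 (reorder (z, y)) * Complex.imCLM (UnitAddTorus.mFourier n y) = 0 :=
      ae_all_iff.mpr fun n => hmode n Complex.imCLM
    filter_upwards [h1, h2, hae] with z hz1 hz2 hz3 hpos
    have hi := hz3 hpos
    apply ae_eq_zero_of_mFourier hi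
    intro n
    have hic : Integrable (fun y : T3 => ((defect U R U0 (reorder (z, y)) : ℝ) : ℂ)
        * UnitAddTorus.mFourier n y) := by
      exact hi.ofReal.mul_bdd (c := 1) (UnitAddTorus.mFourier n).continuous.aestronglyMeasurable
        (Eventually.of_forall fun x => norm_mFourier_le n x)
    apply Complex.ext
    · rw [← Complex.reCLM_apply, ← Complex.reCLM.integral_comp_comm hic]
      rw [Complex.zero_re, ← hz1 n hpos]
      congr 1
      ext y
      simp
    · rw [← Complex.imCLM_apply, ← Complex.imCLM.integral_comp_comm hic]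
      rw [Complex.zero_im, ← hz2 n hpos]
      congr 1
      ext y
      simp
  -- back to space-time
  have hset : MeasurableSet {q : ℝ × T3 × V | 0 < q.1 → defect U R U0 q = 0} := by
    have : {q : ℝ × T3 × V | 0 < q.1 → defect U R U0 q = 0}
        = {q | 0 < q.1}ᶜ ∪ {q | defect U R U0 q = 0} := by
      ext q
      simp only [Set.mem_ofPred_eq, mem_union, mem_compl_iff]
      tauto
    rw [this]
    exact (measurableSet_lt measurable_const measurable_fst).compl.union
      (hWm (measurableSet_singleton 0))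
  have h4 : ∀ᵐ z ∂(((volume : Measure ℝ).prod (volume : Measure V)).prod (volume : Measure T3)),
      0 < (reorder z).1 → defect U R U0 (reorder z) = 0 := by
    rw [Measure.ae_prod_iff_ae_ae
      (p := fun z : (ℝ × V) × T3 => 0 < (reorder z).1 → defect U R U0 (reorder z) = 0)
      (measurable_reorder hset)]
    filter_upwards [hall] with z hz
    by_cases h0 : 0 < z.1
    · filter_upwards [hz h0] with y hy _ using hy
    · exact Eventually.of_forall fun y h1 => absurd h1 h0
  have h5 := measurePreserving_reorder (volume : Measure ℝ)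
  have h6 : ∀ᵐ q ∂((volume : Measure ℝ).prod (volume : Measure (T3 × V))),
      0 < q.1 → defect U R U0 q = 0 := by
    rw [← h5.map_eq, ae_map_iff h5.measurable.aemeasurable hset]
    exact h4
  exact h6

end Vale.Agent.P140
end
end

section

open MeasureTheory Set

namespace Vale.Agent.P140

instance : IsFiniteMeasure surf := by unfold surf; infer_instance

theorem norm_o (o : S2) : ‖(o : V)‖ = 1 := by
  simp

theorem inner_oo (o : S2) : inner ℝ (o : V) (o : V) = (1 : ℝ) := by
  rw [real_inner_self_eq_norm_sq, norm_o]; norm_num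

theorem relA_post (v w : V) (o : S2) : relA (post v w o) (postStar v w o) o = - relA v w o := by
  unfold post postStar
  have : v - relA v w o • (o : V) - (w + relA v w o • (o : V)) = (v - w) - (2 * relA v w o) • (o : V) := by
    module
  unfold relA at *
  rw [this, inner_sub_left, inner_smul_left, inner_oo]
  simp
  ring

theorem relA_swap (v w : V) (o : S2) : relA w v o = - relA v w o := by
  unfold relA
  rw [← neg_sub v w, inner_neg_left]

theorem post_swap (v w : V) (o : S2) : post w v o = postStar v w o := by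
  unfold post postStar
  rw [relA_swap]; module

theorem postStar_swap (v w : V) (o : S2) : postStar w v o = post v w o := by
  unfold post postStar
  rw [relA_swap]; module

theorem post_post (v w : V) (o : S2) : post (post v w o) (postStar v w o) o = v := by
  have h := relA_post v w o
  have h2 : post (post v w o) (postStar v w o) o
      = post v w o - relA (post v w o) (postStar v w o) o • (o : V) := rfl
  rw [h2, h]
  unfold post
  module

theorem postStar_post (v w : V) (o : S2) : postStar (post v w o) (postStar v w o) o = w := by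
  have h := relA_post v w o
  have h2 : postStar (post v w o) (postStar v w o) o
      = postStar v w o + relA (post v w o) (postStar v w o) o • (o : V) := rfl
  rw [h2, h]
  unfold postStar
  module

theorem energy_post (v w : V) (o : S2) :
    ‖post v w o‖ ^ 2 + ‖postStar v w o‖ ^ 2 = ‖v‖ ^ 2 + ‖w‖ ^ 2 := by
  unfold post postStar
  rw [@norm_sub_sq_real, @norm_add_sq_real, norm_smul, norm_o, inner_smul_right, inner_smul_right]
  have : relA v w o = inner ℝ v (o : V) - inner ℝ w (o : V) := by
    unfold relA; rw [inner_sub_left]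
  simp only [mul_one, Real.norm_eq_abs, sq_abs]
  rw [this]; ring

theorem momentum_post (v w : V) (o : S2) : post v w o + postStar v w o = v + w := by
  unfold post postStar; module

theorem abs_relA_le (v w : V) (o : S2) : |relA v w o| ≤ ‖v‖ + ‖w‖ := by
  unfold relA
  calc |inner ℝ (v - w) (o : V)| ≤ ‖v - w‖ * ‖(o : V)‖ := abs_real_inner_le_norm _ _
    _ = ‖v - w‖ := by rw [norm_o, mul_one]
    _ ≤ ‖v‖ + ‖w‖ := norm_sub_le _ _

theorem measurable_relA : Measurable fun p : V × V × S2 => relA p.1 p.2.1 p.2.2 := by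
  unfold relA
  apply Continuous.measurable
  fun_prop

theorem continuous_post : Continuous fun p : V × V × S2 => post p.1 p.2.1 p.2.2 := by
  unfold post relA
  fun_prop

theorem continuous_postStar : Continuous fun p : V × V × S2 => postStar p.1 p.2.1 p.2.2 := by
  unfold postStar relA
  fun_prop

theorem measurable_post : Measurable fun p : V × V × S2 => post p.1 p.2.1 p.2.2 :=
  continuous_post.measurable

theorem measurable_postStar : Measurable fun p : V × V × S2 => postStar p.1 p.2.1 p.2.2 :=
  continuous_postStar.measurable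

/-- the collision map for a fixed direction, as a linear map -/
noncomputable def collLin (o : S2) : (V × V) →ₗ[ℝ] (V × V) where
  toFun p := (post p.1 p.2 o, postStar p.1 p.2 o)
  map_add' p q := by
    unfold post postStar relA
    ext1
    · simp only [Prod.fst_add, Prod.snd_add]
      rw [show p.1 + q.1 - (p.2 + q.2) = (p.1 - p.2) + (q.1 - q.2) by abel, inner_add_left]
      module
    · simp only [Prod.fst_add, Prod.snd_add]
      rw [show p.1 + q.1 - (p.2 + q.2) = (p.1 - p.2) + (q.1 - q.2) by abel, inner_add_left]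
      module
  map_smul' c p := by
    unfold post postStar relA
    ext1
    · simp only [Prod.smul_fst, Prod.smul_snd, RingHom.id_apply]
      rw [← smul_sub, inner_smul_left]
      simp only [conj_trivial]
      module
    · simp only [Prod.smul_fst, Prod.smul_snd, RingHom.id_apply]
      rw [← smul_sub, inner_smul_left]
      simp only [conj_trivial]
      module

theorem collLin_apply (o : S2) (p : V × V) :
    collLin o p = (post p.1 p.2 o, postStar p.1 p.2 o) := rfl

theorem collLin_sq (o : S2) : collLin o * collLin o = 1 := by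
  ext1 <;> ext1 p
  all_goals
    simp only [LinearMap.coe_comp, Function.comp_apply, Module.End.mul_apply, collLin_apply,
      post_post, postStar_post, Module.End.one_apply]

theorem det_collLin (o : S2) : |LinearMap.det (collLin o)| = 1 := by
  have h := congrArg LinearMap.det (collLin_sq o)
  rw [map_mul, map_one] at h
  have h2 : |LinearMap.det (collLin o)| * |LinearMap.det (collLin o)| = 1 := by
    rw [← abs_mul, h, abs_one]
  nlinarith [abs_nonneg (LinearMap.det (collLin o))]

theorem measurePreserving_coll (o : S2) :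
    MeasurePreserving (fun p : V × V => (post p.1 p.2 o, postStar p.1 p.2 o))
      (volume.prod volume) (volume.prod volume) := by
  have hd := det_collLin o
  have hne : LinearMap.det (collLin o) ≠ 0 := by
    intro h; rw [h] at hd; simp at hd
  refine ⟨?_, ?_⟩
  · exact ((collLin o).continuous_of_finiteDimensional).measurable
  · have h := Measure.map_linearMap_addHaar_eq_smul_addHaar
      ((volume : Measure V).prod (volume : Measure V)) hne
    rw [abs_inv, hd] at h
    simp only [inv_one, ENNReal.ofReal_one, one_smul] at h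
    exact h

/-- change of variables (v,w,o) -> (v',w',o) -/
theorem lintegral_coll {H : V × V × S2 → ENNReal} (hH : Measurable H) :
    ∫⁻ v, ∫⁻ w, ∫⁻ o, H (post v w o, postStar v w o, o) ∂surf =
      ∫⁻ v, ∫⁻ w, ∫⁻ o, H (v, w, o) ∂surf := by
  have hpost : Measurable fun p : V × V × S2 =>
      H (post p.1 p.2.1 p.2.2, postStar p.1 p.2.1 p.2.2, p.2.2) := by
    apply hH.comp
    exact measurable_post.prodMk (measurable_postStar.prodMk (measurable_snd.comp measurable_snd))
  have key : ∀ K : V × V × S2 → ENNReal, Measurable K →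
      ∫⁻ v, ∫⁻ w, ∫⁻ o, K (v, w, o) ∂surf =
        ∫⁻ o, ∫⁻ p : V × V, K (p.1, p.2, o) ∂(volume.prod volume) ∂surf := by
    intro K hK
    have hK' : Measurable fun q : (V × V) × S2 => K (q.1.1, q.1.2, q.2) := by
      apply hK.comp
      fun_prop
    rw [← lintegral_lintegral_swap (f := fun (p : V × V) (o : S2) => K (p.1, p.2, o))
      hK'.aemeasurable]
    rw [lintegral_prod (fun p : V × V => ∫⁻ o, K (p.1, p.2, o) ∂surf)
      (Measurable.lintegral_prod_right' (f := fun q : (V × V) × S2 => K (q.1.1, q.1.2, q.2)) hK').aemeasurable]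
  rw [key H hH, key (fun p => H (post p.1 p.2.1 p.2.2, postStar p.1 p.2.1 p.2.2, p.2.2)) hpost]
  apply lintegral_congr
  intro o
  have hHo : Measurable fun p : V × V => H (p.1, p.2, o) := by
    apply hH.comp
    fun_prop
  exact (measurePreserving_coll o).lintegral_comp hHo

/-- swap of the two colliding particles -/
theorem lintegral_swap {H : V × V × S2 → ENNReal} (hH : Measurable H) :
    ∫⁻ v, ∫⁻ w, ∫⁻ o, H (w, v, o) ∂surf =
      ∫⁻ v, ∫⁻ w, ∫⁻ o, H (v, w, o) ∂surf := by
  have hH' : Measurable fun q : (V × V) × S2 => H (q.1.1, q.1.2, q.2) := by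
    apply hH.comp
    fun_prop
  rw [lintegral_lintegral_swap (f := fun (v w : V) => ∫⁻ o, H (v, w, o) ∂surf)
    (Measurable.lintegral_prod_right' (f := fun q : (V × V) × S2 => H (q.1.1, q.1.2, q.2)) hH').aemeasurable]

/-- the kernel `|a|` as an extended nonnegative number -/
noncomputable def kk (v w : V) (o : S2) : ENNReal := ENNReal.ofReal |relA v w o|

theorem measurable_kk : Measurable fun p : V × V × S2 => kk p.1 p.2.1 p.2.2 := by
  unfold kk
  exact ENNReal.measurable_ofReal.comp (measurable_relA.abs)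

theorem kk_swap (v w : V) (o : S2) : kk w v o = kk v w o := by
  unfold kk; rw [relA_swap, abs_neg]

theorem kk_post (v w : V) (o : S2) : kk (post v w o) (postStar v w o) o = kk v w o := by
  unfold kk; rw [relA_post, abs_neg]

/-- change of variables with kernel -/
theorem lintegral_kk_post {P : V × V × V × V → ENNReal} (hP : Measurable P) :
    ∫⁻ v, ∫⁻ w, ∫⁻ o, kk v w o * P (v, w, post v w o, postStar v w o) ∂surf =
      ∫⁻ v, ∫⁻ w, ∫⁻ o, kk v w o * P (post v w o, postStar v w o, v, w) ∂surf := by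
  have hm : Measurable fun q : V × V × S2 =>
      kk q.1 q.2.1 q.2.2 * P (q.1, q.2.1, post q.1 q.2.1 q.2.2, postStar q.1 q.2.1 q.2.2) := by
    apply measurable_kk.mul
    apply hP.comp
    exact measurable_fst.prodMk ((measurable_fst.comp measurable_snd).prodMk
      (measurable_post.prodMk measurable_postStar))
  have h := lintegral_coll hm
  simp only [kk_post, post_post, postStar_post] at h
  exact h.symm

/-- swap with kernel -/
theorem lintegral_kk_swap {P : V × V × V × V → ENNReal} (hP : Measurable P) :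
    ∫⁻ v, ∫⁻ w, ∫⁻ o, kk v w o * P (v, w, post v w o, postStar v w o) ∂surf =
      ∫⁻ v, ∫⁻ w, ∫⁻ o, kk v w o * P (w, v, postStar v w o, post v w o) ∂surf := by
  have hm : Measurable fun q : V × V × S2 =>
      kk q.1 q.2.1 q.2.2 * P (q.1, q.2.1, post q.1 q.2.1 q.2.2, postStar q.1 q.2.1 q.2.2) := by
    apply measurable_kk.mul
    apply hP.comp
    exact measurable_fst.prodMk ((measurable_fst.comp measurable_snd).prodMk
      (measurable_post.prodMk measurable_postStar))
  have h := lintegral_swap hm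
  rw [← h]
  apply lintegral_congr; intro v
  apply lintegral_congr; intro w
  apply lintegral_congr; intro o
  simp only
  rw [kk_swap v w o, post_swap v w o, postStar_swap v w o]

end Vale.Agent.P140
end

section

open MeasureTheory Set Filter
open scoped ENNReal Topology NNReal

noncomputable section

namespace Vale.Agent.P140

section measurability

variable {α : Type*} [MeasurableSpace α]

theorem measurable_gain {f : α → V → ℝ} (hf : Measurable fun q : α × V => f q.1 q.2) :
    Measurable fun q : α × V => gain (f q.1) q.2 := by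
  unfold gain
  have h : Measurable fun z : ((α × V) × V) × S2 =>
      ENNReal.ofReal (|relA z.1.1.2 z.1.2 z.2| * (f z.1.1.1 (post z.1.1.2 z.1.2 z.2)
        * f z.1.1.1 (postStar z.1.1.2 z.1.2 z.2))) := by
    apply ENNReal.measurable_ofReal.comp
    apply Measurable.mul
    · exact (measurable_relA.comp (by fun_prop :
        Measurable fun z : ((α × V) × V) × S2 => (z.1.1.2, z.1.2, z.2))).abs
    · apply Measurable.mul
      · exact hf.comp ((by fun_prop : Measurable fun z : ((α × V) × V) × S2 => z.1.1.1).prodMk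
          (measurable_post.comp (by fun_prop :
            Measurable fun z : ((α × V) × V) × S2 => (z.1.1.2, z.1.2, z.2))))
      · exact hf.comp ((by fun_prop : Measurable fun z : ((α × V) × V) × S2 => z.1.1.1).prodMk
          (measurable_postStar.comp (by fun_prop :
            Measurable fun z : ((α × V) × V) × S2 => (z.1.1.2, z.1.2, z.2))))
  exact (h.lintegral_prod_right' (ν := surf)).lintegral_prod_right'

theorem measurable_loss {f : α → V → ℝ} (hf : Measurable fun q : α × V => f q.1 q.2) :
    Measurable fun q : α × V => loss (f q.1) q.2 := by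
  unfold loss
  have h : Measurable fun z : ((α × V) × V) × S2 =>
      ENNReal.ofReal (|relA z.1.1.2 z.1.2 z.2| * (f z.1.1.1 z.1.1.2 * f z.1.1.1 z.1.2)) := by
    apply ENNReal.measurable_ofReal.comp
    apply Measurable.mul
    · exact (measurable_relA.comp (by fun_prop :
        Measurable fun z : ((α × V) × V) × S2 => (z.1.1.2, z.1.2, z.2))).abs
    · apply Measurable.mul
      · exact hf.comp (by fun_prop : Measurable fun z : ((α × V) × V) × S2 => (z.1.1.1, z.1.1.2))
      · exact hf.comp (by fun_prop : Measurable fun z : ((α × V) × V) × S2 => (z.1.1.1, z.1.2))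
  exact (h.lintegral_prod_right' (ν := surf)).lintegral_prod_right'

end measurability

theorem Maxw_pos (v : V) : 0 < Maxw v := by
  unfold Maxw
  positivity

theorem measurable_Maxw : Measurable Maxw := by
  unfold Maxw
  fun_prop

theorem measurable_gain_st {F : ℝ → T3 → V → ℝ}
    (hF : Measurable fun p : ℝ × T3 × V => F p.1 p.2.1 p.2.2) :
    Measurable fun p : ℝ × T3 × V => gain (F p.1 p.2.1) p.2.2 := by
  have h0 : Measurable fun q : (ℝ × T3) × V => F q.1.1 q.1.2 q.2 :=
    hF.comp (measurable_fst.fst.prodMk (measurable_fst.snd.prodMk measurable_snd))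
  have h : Measurable fun q : (ℝ × T3) × V => gain (F q.1.1 q.1.2) q.2 :=
    measurable_gain (α := ℝ × T3) (f := fun a => F a.1 a.2) h0
  have h2 : Measurable fun p : ℝ × T3 × V => (((p.1, p.2.1), p.2.2) : (ℝ × T3) × V) := by fun_prop
  have h3 := h.comp h2
  have h4 : ((fun q : (ℝ × T3) × V => gain (F q.1.1 q.1.2) q.2) ∘
      fun p : ℝ × T3 × V => (((p.1, p.2.1), p.2.2) : (ℝ × T3) × V))
      = fun p : ℝ × T3 × V => gain (F p.1 p.2.1) p.2.2 := by
    funext p
    rfl
  rw [h4] at h3
  exact h3

theorem measurable_loss_st {F : ℝ → T3 → V → ℝ}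
    (hF : Measurable fun p : ℝ × T3 × V => F p.1 p.2.1 p.2.2) :
    Measurable fun p : ℝ × T3 × V => loss (F p.1 p.2.1) p.2.2 := by
  have h0 : Measurable fun q : (ℝ × T3) × V => F q.1.1 q.1.2 q.2 :=
    hF.comp (measurable_fst.fst.prodMk (measurable_fst.snd.prodMk measurable_snd))
  have h : Measurable fun q : (ℝ × T3) × V => loss (F q.1.1 q.1.2) q.2 :=
    measurable_loss (α := ℝ × T3) (f := fun a => F a.1 a.2) h0
  have h2 : Measurable fun p : ℝ × T3 × V => (((p.1, p.2.1), p.2.2) : (ℝ × T3) × V) := by fun_prop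
  have h3 := h.comp h2
  have h4 : ((fun q : (ℝ × T3) × V => loss (F q.1.1 q.1.2) q.2) ∘
      fun p : ℝ × T3 × V => (((p.1, p.2.1), p.2.2) : (ℝ × T3) × V))
      = fun p : ℝ × T3 × V => loss (F p.1 p.2.1) p.2.2 := by
    funext p
    rfl
  rw [h4] at h3
  exact h3

theorem measurable_coll_st {F : ℝ → T3 → V → ℝ}
    (hF : Measurable fun p : ℝ × T3 × V => F p.1 p.2.1 p.2.2) :
    Measurable fun p : ℝ × T3 × V => coll (F p.1 p.2.1) p.2.2 :=
  (measurable_gain_st hF).ennreal_toReal.sub (measurable_loss_st hF).ennreal_toReal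

/-- gain term along the free flow -/
def gainA (F : ℝ → T3 → V → ℝ) (q : ℝ × T3 × V) : ℝ≥0∞ :=
  gain (F q.1 (q.2.1 + toTorus (q.1 • q.2.2))) q.2.2

/-- loss term along the free flow -/
def lossA (F : ℝ → T3 → V → ℝ) (q : ℝ × T3 × V) : ℝ≥0∞ :=
  loss (F q.1 (q.2.1 + toTorus (q.1 • q.2.2))) q.2.2

theorem measurable_gainA {F : ℝ → T3 → V → ℝ}
    (hF : Measurable fun p : ℝ × T3 × V => F p.1 p.2.1 p.2.2) : Measurable (gainA F) :=
  (measurable_gain_st hF).comp measurable_stFlow

theorem measurable_lossA {F : ℝ → T3 → V → ℝ}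
    (hF : Measurable fun p : ℝ × T3 × V => F p.1 p.2.1 p.2.2) : Measurable (lossA F) :=
  (measurable_loss_st hF).comp measurable_stFlow

/-- mild solutions on `(0,T]` -/
structure IsMild (T : ℝ) (F0 : T3 → V → ℝ) (F : ℝ → T3 → V → ℝ) : Prop where
  measurable0 : Measurable fun p : T3 × V => F0 p.1 p.2
  nonneg0 : ∀ x v, 0 ≤ F0 x v
  measurable : Measurable fun p : ℝ × T3 × V => F p.1 p.2.1 p.2.2
  nonneg : ∀ t x v, 0 ≤ F t x v
  gain_fin : ∀ᵐ p : T3 × V, ∫⁻ s in Ioc 0 T, gainA F (s, p) < ⊤
  loss_fin : ∀ᵐ p : T3 × V, ∫⁻ s in Ioc 0 T, lossA F (s, p) < ⊤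
  mild : ∀ᵐ p : T3 × V, ∀ᵐ t ∂(volume.restrict (Ioc 0 T)),
    along F (t, p) = F0 p.1 p.2 + ∫ s in Ioc 0 t, ((gainA F (s, p)).toReal - (lossA F (s, p)).toReal)

section renorm

variable {F0 : T3 → V → ℝ} {F : ℝ → T3 → V → ℝ}

theorem derivWithin_logOne {z : ℝ} (hz : 0 ≤ z) :
    derivWithin (fun z => Real.log (1 + z)) (Ici 0) z = 1 / (1 + z) := by
  have h1 : HasDerivAt (fun z : ℝ => Real.log (1 + z)) (1 / (1 + z)) z := by
    have := ((hasDerivAt_id z).const_add 1).log (by simp only [id]; positivity)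
    simpa using this
  exact h1.hasDerivWithinAt.derivWithin (uniqueDiffOn_Ici 0 z hz)

theorem lintegral_F_lt_top (hF : IsRenormEntropySol F0 F) (T : ℝ) :
    ∫⁻ q : ℝ × T3 × V, ENNReal.ofReal (F q.1 q.2.1 q.2.2)
      ∂((volume.restrict (Ioc 0 T)).prod volume) < ⊤ := by
  obtain ⟨C, hC, hb⟩ := hF.bounded T
  rw [lintegral_prod _ (hF.measurable.ennreal_ofReal).aemeasurable]
  calc ∫⁻ t in Ioc 0 T, ∫⁻ p : T3 × V, ENNReal.ofReal (F t p.1 p.2)
      ≤ ∫⁻ t in Ioc 0 T, C := by
        apply setLIntegral_mono measurable_const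
        intro t ht
        refine le_trans (lintegral_mono fun p => ?_) (hb t ⟨ht.1.le, ht.2⟩)
        apply ENNReal.ofReal_le_ofReal
        have h0 := hF.nonneg t p.1 p.2
        have h1 : 0 ≤ ‖p.2‖ ^ 2 := by positivity
        have h2 : 0 ≤ |Real.log (F t p.1 p.2)| := abs_nonneg _
        linarith only [mul_nonneg h0 h2, mul_nonneg h0 h1]
    _ < ⊤ := by
        rw [setLIntegral_const, Real.volume_Ioc]
        exact ENNReal.mul_lt_top hC ENNReal.ofReal_lt_top

theorem lintegral_F0_lt_top (hF : IsDatum F0) :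
    ∫⁻ p : T3 × V, ENNReal.ofReal (F0 p.1 p.2) < ⊤ := by
  refine lt_of_le_of_lt (lintegral_mono fun p => ?_) hF.finite
  apply ENNReal.ofReal_le_ofReal
  have h0 := hF.nonneg p.1 p.2
  have h1 : 0 ≤ ‖p.2‖ ^ 2 := by positivity
  have h2 : 0 ≤ |Real.log (F0 p.1 p.2)| := abs_nonneg _
  linarith only [mul_nonneg h0 h2, mul_nonneg h0 h1]

theorem log_bound {m f : ℝ} (hm : 0 < m) (hf : 0 ≤ f) :
    0 ≤ m * Real.log (1 + f / m) ∧ m * Real.log (1 + f / m) ≤ f := by
  have h1 : 0 ≤ f / m := by positivity
  refine ⟨mul_nonneg hm.le (Real.log_nonneg (by linarith)), ?_⟩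
  have h2 := Real.log_le_sub_one_of_pos (show 0 < 1 + f / m by linarith)
  have h3 : m * Real.log (1 + f / m) ≤ m * (f / m) := by
    apply mul_le_mul_of_nonneg_left _ hm.le
    linarith
  rwa [mul_div_cancel₀ f hm.ne'] at h3

/-- the renormalized equation for `β(z) = log (1 + z)` in mild form -/
theorem mild_log (hF : IsRenormEntropySol F0 F) :
    ∀ᵐ q : ℝ × T3 × V, 0 < q.1 →
      Maxw q.2.2 * Real.log (1 + along F q / Maxw q.2.2)
        = Maxw q.2.2 * Real.log (1 + F0 q.2.1 q.2.2 / Maxw q.2.2)
          + ∫ s in Ioc 0 q.1, (1 / (1 + along F (s, q.2) / Maxw q.2.2))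
              * ((gainA F (s, q.2)).toReal - (lossA F (s, q.2)).toReal) := by
  have hw := hF.renorm (fun z => Real.log (1 + z))
    (by
      intro z hz
      have : 0 < 1 + z := by
        have : (0 : ℝ) ≤ z := hz
        linarith
      apply ContDiffWithinAt.log _ this.ne'
      exact (contDiff_const.add contDiff_id).contDiffWithinAt)
    (by simp) ⟨1, fun z hz => by
      rw [derivWithin_logOne hz, abs_of_nonneg (by positivity)]⟩
  have hUm : Measurable fun q : ℝ × T3 × V =>
      Maxw q.2.2 * Real.log (1 + F q.1 q.2.1 q.2.2 / Maxw q.2.2) := by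
    have hM : Measurable fun q : ℝ × T3 × V => Maxw q.2.2 := measurable_Maxw.comp (by fun_prop)
    exact hM.mul ((measurable_const.add (hF.measurable.div hM)).log)
  have hU0m : Measurable fun p : T3 × V => Maxw p.2 * Real.log (1 + F0 p.1 p.2 / Maxw p.2) := by
    have hM : Measurable fun q : T3 × V => Maxw q.2 := measurable_Maxw.comp (by fun_prop)
    exact hM.mul ((measurable_const.add (hF.datum.measurable.div hM)).log)
  -- replace the derivative of β
  have hR : (fun (t : ℝ) (x : T3) (v : V) =>
      derivWithin (fun z => Real.log (1 + z)) (Ici 0) (F t x v / Maxw v) * coll (F t x) v)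
      = fun (t : ℝ) (x : T3) (v : V) => (1 / (1 + F t x v / Maxw v)) * coll (F t x) v := by
    funext t x v
    rw [derivWithin_logOne (div_nonneg (hF.nonneg t x v) (Maxw_pos v).le)]
  rw [hR] at hw
  have hRm : Measurable fun q : ℝ × T3 × V =>
      (1 / (1 + F q.1 q.2.1 q.2.2 / Maxw q.2.2)) * coll (F q.1 q.2.1) q.2.2 := by
    have hM : Measurable fun q : ℝ × T3 × V => Maxw q.2.2 := measurable_Maxw.comp (by fun_prop)
    exact (measurable_const.div (measurable_const.add (hF.measurable.div hM))).mul
      (measurable_coll_st hF.measurable)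
  have hUi : ∀ T, Integrable (fun q : ℝ × T3 × V =>
      Maxw q.2.2 * Real.log (1 + F q.1 q.2.1 q.2.2 / Maxw q.2.2))
      ((volume.restrict (Ioc 0 T)).prod volume) := by
    intro T
    refine ⟨hUm.aestronglyMeasurable, ?_⟩
    refine lt_of_le_of_lt (lintegral_mono fun q => ?_) (lintegral_F_lt_top hF T)
    have hb := log_bound (Maxw_pos q.2.2) (hF.nonneg q.1 q.2.1 q.2.2)
    rw [Real.enorm_eq_ofReal hb.1]
    exact ENNReal.ofReal_le_ofReal hb.2
  have hU0i : Integrable (fun p : T3 × V => Maxw p.2 * Real.log (1 + F0 p.1 p.2 / Maxw p.2)) := by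
    refine ⟨hU0m.aestronglyMeasurable, ?_⟩
    refine lt_of_le_of_lt (lintegral_mono fun q => ?_) (lintegral_F0_lt_top hF.datum)
    have hb := log_bound (Maxw_pos q.2) (hF.datum.nonneg q.1 q.2)
    rw [Real.enorm_eq_ofReal hb.1]
    exact ENNReal.ofReal_le_ofReal hb.2
  have hRi : ∀ T, Integrable (fun q : ℝ × T3 × V =>
      (1 / (1 + F q.1 q.2.1 q.2.2 / Maxw q.2.2)) * coll (F q.1 q.2.1) q.2.2)
      ((volume.restrict (Ioc 0 T)).prod volume) := by
    intro T
    refine ⟨hRm.aestronglyMeasurable, ?_⟩
    have hsub : Ioc (0 : ℝ) T ×ˢ (univ : Set (T3 × V)) ⊆ Icc 0 T ×ˢ univ :=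
      Set.prod_mono Ioc_subset_Icc_self (Subset.refl _)
    have hg := lt_of_le_of_lt (lintegral_mono_set hsub) (hF.gain_int T)
    have hl := lt_of_le_of_lt (lintegral_mono_set hsub) (hF.loss_int T)
    rw [restrict_prod_univ] at hg hl
    have hgm : Measurable fun p : ℝ × T3 × V =>
        gain (F p.1 p.2.1) p.2.2 / ENNReal.ofReal (1 + F p.1 p.2.1 p.2.2 / Maxw p.2.2) := by
      have hM : Measurable fun q : ℝ × T3 × V => Maxw q.2.2 := measurable_Maxw.comp (by fun_prop)
      exact (measurable_gain_st hF.measurable).div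
        (measurable_const.add (hF.measurable.div hM)).ennreal_ofReal
    refine lt_of_le_of_lt (lintegral_mono fun q => ?_)
      (show ∫⁻ q : ℝ × T3 × V,
        (gain (F q.1 q.2.1) q.2.2 / ENNReal.ofReal (1 + F q.1 q.2.1 q.2.2 / Maxw q.2.2)
        + loss (F q.1 q.2.1) q.2.2 / ENNReal.ofReal (1 + F q.1 q.2.1 q.2.2 / Maxw q.2.2))
          ∂((volume.restrict (Ioc 0 T)).prod volume) < ⊤ by
        rw [lintegral_add_left hgm]
        exact ENNReal.add_lt_top.mpr ⟨hg, hl⟩)
    have hpos : 0 < 1 + F q.1 q.2.1 q.2.2 / Maxw q.2.2 := by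
      have := div_nonneg (hF.nonneg q.1 q.2.1 q.2.2) (Maxw_pos q.2.2).le
      linarith
    rw [← ENNReal.add_div, enorm_mul, one_div, Real.enorm_eq_ofReal (by positivity),
      ENNReal.ofReal_inv_of_pos hpos, ENNReal.div_eq_inv_mul]
    gcongr
    unfold coll
    refine (enorm_sub_le).trans ?_
    apply add_le_add
    · rw [Real.enorm_eq_ofReal ENNReal.toReal_nonneg]
      exact ENNReal.ofReal_toReal_le
    · rw [Real.enorm_eq_ofReal ENNReal.toReal_nonneg]
      exact ENNReal.ofReal_toReal_le
  have h := defect_ae_zero (U := fun t x v => Maxw v * Real.log (1 + F t x v / Maxw v))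
    (R := fun t x v => (1 / (1 + F t x v / Maxw v)) * coll (F t x) v)
    (U0 := fun x v => Maxw v * Real.log (1 + F0 x v / Maxw v))
    hUm hRm hU0m hUi hRi hU0i hw
  filter_upwards [h] with q hq hpos
  have := hq hpos
  unfold defect at this
  rw [sub_eq_zero] at this
  exact this

end renorm

end Vale.Agent.P140
end
end

section

open MeasureTheory Set Filter
open scoped ENNReal Topology NNReal

noncomputable section

namespace Vale.Agent.P140

/-- from the logarithmic to the plain mild formulation on one characteristic -/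
theorem one_dim_log {M f0 : ℝ} (hM : 0 < M) (hf0 : 0 ≤ f0) {f : ℝ → ℝ} (hf : ∀ t, 0 ≤ f t)
    (hfm : Measurable f) {g l : ℝ → ℝ≥0∞} (hg : Measurable g) (hl : Measurable l) {T : ℝ}
    (hgi : ∫⁻ s in Ioc 0 T, g s / ENNReal.ofReal (1 + f s / M) < ⊤)
    (hli : ∫⁻ s in Ioc 0 T, l s / ENNReal.ofReal (1 + f s / M) < ⊤)
    (hlog : ∀ᵐ t : ℝ, 0 < t → M * Real.log (1 + f t / M) = M * Real.log (1 + f0 / M)
      + ∫ s in Ioc 0 t, (1 / (1 + f s / M)) * ((g s).toReal - (l s).toReal)) :
    (∫⁻ s in Ioc 0 T, g s < ⊤) ∧ (∫⁻ s in Ioc 0 T, l s < ⊤) ∧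
      ∀ᵐ t ∂(volume.restrict (Ioc 0 T)), f t = f0 + ∫ s in Ioc 0 t, ((g s).toReal - (l s).toReal) := by
  rcases le_or_gt T 0 with hT | hT
  · rw [Ioc_eq_empty (not_lt.mpr hT)]
    simp
  have hpos : ∀ s, 0 < 1 + f s / M := fun s => by
    have := div_nonneg (hf s) hM.le
    linarith
  have hpos0 : 0 < 1 + f0 / M := by
    have := div_nonneg hf0 hM.le
    linarith
  set r : ℝ → ℝ := fun s => (1 / M) * ((1 / (1 + f s / M)) * ((g s).toReal - (l s).toReal)) with hr
  have hrm : Measurable r := by
    apply measurable_const.mul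
    apply Measurable.mul
    · exact measurable_const.div (measurable_const.add (hfm.div measurable_const))
    · exact hg.ennreal_toReal.sub hl.ennreal_toReal
  have hri : IntegrableOn r (Ioc 0 T) := by
    apply Integrable.const_mul
    refine ⟨Measurable.aestronglyMeasurable ?_, ?_⟩
    · apply Measurable.mul
      · exact measurable_const.div (measurable_const.add (hfm.div measurable_const))
      · exact hg.ennreal_toReal.sub hl.ennreal_toReal
    · refine lt_of_le_of_lt (lintegral_mono fun s => ?_)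
        (show ∫⁻ s in Ioc 0 T, (g s / ENNReal.ofReal (1 + f s / M)
          + l s / ENNReal.ofReal (1 + f s / M)) < ⊤ by
          rw [lintegral_add_left]
          · exact ENNReal.add_lt_top.mpr ⟨hgi, hli⟩
          · exact hg.div (measurable_const.add (hfm.div measurable_const)).ennreal_ofReal)
      rw [← ENNReal.add_div, enorm_mul, one_div, Real.enorm_eq_ofReal (inv_nonneg.mpr (hpos s).le),
        ENNReal.ofReal_inv_of_pos (hpos s), ENNReal.div_eq_inv_mul]
      gcongr
      refine (enorm_sub_le).trans ?_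
      apply add_le_add
      · rw [Real.enorm_eq_ofReal ENNReal.toReal_nonneg]
        exact ENNReal.ofReal_toReal_le
      · rw [Real.enorm_eq_ofReal ENNReal.toReal_nonneg]
        exact ENNReal.ofReal_toReal_le
  have hrii : IntervalIntegrable r volume 0 T := by
    rwa [intervalIntegrable_iff_integrableOn_Ioc_of_le hT.le]
  set S : ℝ → ℝ := fun t => Real.log (1 + f0 / M) + ∫ s in (0:ℝ)..t, r s with hS
  -- pointwise identification of `1 + f/M`
  have hid : ∀ᵐ t : ℝ, 0 < t → 1 + f t / M = Real.exp (S t) := by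
    filter_upwards [hlog] with t ht hpt
    have h1 := ht hpt
    have h2 : Real.log (1 + f t / M) = S t := by
      rw [hS]
      simp only
      rw [intervalIntegral.integral_of_le hpt.le, hr]
      simp only
      rw [integral_const_mul]
      have e : ∀ x : ℝ, (1 / M) * (M * x) = x := fun x => by field_simp
      calc Real.log (1 + f t / M) = (1 / M) * (M * Real.log (1 + f t / M)) := (e _).symm
        _ = _ := by rw [h1, mul_add, e]
    rw [← h2, Real.exp_log (hpos t)]
  obtain ⟨K, hK⟩ : ∃ K : ℝ, ∀ t ∈ Icc 0 T, S t ≤ K := by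
    have hc : ContinuousOn S (uIcc 0 T) := (ac_primitive hrii _).continuousOn
    obtain ⟨K, hK⟩ := isCompact_uIcc.bddAbove_image hc
    refine ⟨K, fun t ht => hK (mem_image_of_mem S ?_)⟩
    rwa [uIcc_of_le hT.le]
  have hbd : ∀ k : ℝ → ℝ≥0∞, ∫⁻ s in Ioc 0 T, k s / ENNReal.ofReal (1 + f s / M) < ⊤ →
      Measurable k → ∫⁻ s in Ioc 0 T, k s < ⊤ := by
    intro k hk hkm
    have h1 : ∫⁻ s in Ioc 0 T, k s ≤ ∫⁻ s in Ioc 0 T,
        (k s / ENNReal.ofReal (1 + f s / M)) * ENNReal.ofReal (Real.exp K) := by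
      apply lintegral_mono_ae
      rw [ae_restrict_iff' measurableSet_Ioc]
      filter_upwards [hid] with s hs hmem
      have h2 : 1 + f s / M ≤ Real.exp K := by
        rw [hs hmem.1]
        exact Real.exp_le_exp.mpr (hK s ⟨hmem.1.le, hmem.2⟩)
      calc k s = (k s / ENNReal.ofReal (1 + f s / M)) * ENNReal.ofReal (1 + f s / M) := by
            rw [ENNReal.div_mul_cancel]
            · exact (ENNReal.ofReal_pos.mpr (hpos s)).ne'
            · exact ENNReal.ofReal_ne_top
        _ ≤ _ := by
            gcongr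
    refine lt_of_le_of_lt h1 ?_
    have hkm2 : Measurable fun s => k s / ENNReal.ofReal (1 + f s / M) :=
      hkm.div (measurable_const.add (hfm.div measurable_const)).ennreal_ofReal
    rw [lintegral_mul_const _ hkm2]
    exact ENNReal.mul_lt_top hk ENNReal.ofReal_lt_top
  refine ⟨hbd g hgi hg, hbd l hli hl, ?_⟩
  rw [ae_restrict_iff' measurableSet_Ioc]
  filter_upwards [hid] with t ht hmem
  have h1 := ht hmem.1
  have hrt : IntervalIntegrable r volume 0 t := by
    apply hrii.mono_set
    rw [uIcc_of_le hmem.1.le, uIcc_of_le hT.le]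
    exact Icc_subset_Icc_right hmem.2
  have h2 := exp_primitive hrt (Real.log (1 + f0 / M))
  rw [Real.exp_log hpos0] at h2
  have h3 : ∫ x in (0:ℝ)..t, Real.exp (Real.log (1 + f0 / M) + ∫ s in (0:ℝ)..x, r s) * r x
      = (1 / M) * ∫ s in Ioc 0 t, ((g s).toReal - (l s).toReal) := by
    rw [intervalIntegral.integral_of_le hmem.1.le, ← integral_const_mul]
    apply setIntegral_congr_ae measurableSet_Ioc
    filter_upwards [hid] with s hs hsm
    have h4 := hs hsm.1
    have h5 : Real.exp (Real.log (1 + f0 / M) + ∫ s in (0:ℝ)..s, r s) = 1 + f s / M := h4.symm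
    rw [h5, hr]
    simp only
    have h7 : 1 / M * (1 / (1 + f s / M) * ((g s).toReal - (l s).toReal))
        = (1 / (1 + f s / M)) * (1 / M * ((g s).toReal - (l s).toReal)) := by ring
    rw [h7, ← mul_assoc, mul_one_div_cancel (hpos s).ne', one_mul]
  rw [h3] at h2
  have h6 : 1 + f t / M = 1 + f0 / M + (1 / M) * ∫ s in Ioc 0 t, ((g s).toReal - (l s).toReal) := by
    rw [h1]
    exact h2
  field_simp at h6
  linarith

theorem isMild_of_renorm {F0 : T3 → V → ℝ} {F : ℝ → T3 → V → ℝ} (hF : IsRenormEntropySol F0 F)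
    (T : ℝ) : IsMild T F0 F := by
  have hM : Measurable fun q : ℝ × T3 × V => Maxw q.2.2 := measurable_Maxw.comp (by fun_prop)
  -- finiteness of the renormalized collision integrals along a.e. characteristic
  have hfin : ∀ (k : ℝ × T3 × V → ℝ≥0∞), Measurable k →
      (∫⁻ q in Icc 0 T ×ˢ univ, k q / ENNReal.ofReal (1 + F q.1 q.2.1 q.2.2 / Maxw q.2.2) < ⊤) →
      ∀ᵐ p : T3 × V, ∫⁻ s in Ioc 0 T, k (stFlow (s, p))
        / ENNReal.ofReal (1 + along F (s, p) / Maxw p.2) < ⊤ := by
    intro k hk hki
    have hsub : Ioc (0 : ℝ) T ×ˢ (univ : Set (T3 × V)) ⊆ Icc 0 T ×ˢ univ :=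
      Set.prod_mono Ioc_subset_Icc_self (Subset.refl _)
    have h1 := lt_of_le_of_lt (lintegral_mono_set hsub) hki
    have hm : Measurable fun q : ℝ × T3 × V =>
        k q / ENNReal.ofReal (1 + F q.1 q.2.1 q.2.2 / Maxw q.2.2) :=
      hk.div (measurable_const.add (hF.measurable.div hM)).ennreal_ofReal
    have hm2 : Measurable fun q : ℝ × T3 × V => k (stFlow q)
        / ENNReal.ofReal (1 + F (stFlow q).1 (stFlow q).2.1 (stFlow q).2.2
          / Maxw (stFlow q).2.2) := hm.comp measurable_stFlow
    rw [restrict_prod_univ, ← (measurePreserving_stFlow _).lintegral_comp hm,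
      lintegral_prod_symm' _ hm2] at h1
    have h2 : Measurable fun p : T3 × V => ∫⁻ s in Ioc 0 T, k (stFlow (s, p))
        / ENNReal.ofReal (1 + F (stFlow (s, p)).1 (stFlow (s, p)).2.1 (stFlow (s, p)).2.2
          / Maxw (stFlow (s, p)).2.2) :=
      Measurable.lintegral_prod_left' (f := fun q : ℝ × T3 × V => k (stFlow q)
        / ENNReal.ofReal (1 + F (stFlow q).1 (stFlow q).2.1 (stFlow q).2.2
          / Maxw (stFlow q).2.2)) hm2
    exact ae_lt_top h2 h1.ne
  have hg := hfin _ (measurable_gain_st hF.measurable) (hF.gain_int T)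
  have hl := hfin _ (measurable_loss_st hF.measurable) (hF.loss_int T)
  have hlog : ∀ᵐ p : T3 × V, ∀ᵐ t : ℝ, 0 < t →
      Maxw p.2 * Real.log (1 + along F (t, p) / Maxw p.2)
        = Maxw p.2 * Real.log (1 + F0 p.1 p.2 / Maxw p.2)
          + ∫ s in Ioc 0 t, (1 / (1 + along F (s, p) / Maxw p.2))
              * ((gainA F (s, p)).toReal - (lossA F (s, p)).toReal) := by
    have h1 := mild_log hF
    have h2 := (Measure.measurePreserving_swap (μ := (volume : Measure (T3 × V)))
      (ν := (volume : Measure ℝ))).quasiMeasurePreserving.ae h1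
    exact Measure.ae_ae_of_ae_prod h2
  have hall : ∀ᵐ p : T3 × V, (∫⁻ s in Ioc 0 T, gainA F (s, p) < ⊤) ∧
      (∫⁻ s in Ioc 0 T, lossA F (s, p) < ⊤) ∧
      ∀ᵐ t ∂(volume.restrict (Ioc 0 T)), along F (t, p)
        = F0 p.1 p.2 + ∫ s in Ioc 0 t, ((gainA F (s, p)).toReal - (lossA F (s, p)).toReal) := by
    filter_upwards [hg, hl, hlog] with p hgp hlp hlogp
    have hpm : Measurable fun t : ℝ => (t, p) := by fun_prop
    exact one_dim_log (M := Maxw p.2) (f0 := F0 p.1 p.2) (Maxw_pos p.2) (hF.datum.nonneg _ _)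
      (f := fun t => along F (t, p)) (fun t => hF.nonneg _ _ _)
      ((measurable_along hF.measurable).comp hpm)
      ((measurable_gainA hF.measurable).comp hpm) ((measurable_lossA hF.measurable).comp hpm)
      hgp hlp hlogp
  exact
    { measurable0 := hF.datum.measurable
      nonneg0 := hF.datum.nonneg
      measurable := hF.measurable
      nonneg := hF.nonneg
      gain_fin := hall.mono fun p hp => hp.1
      loss_fin := hall.mono fun p hp => hp.2.1
      mild := hall.mono fun p hp => hp.2.2 }

end Vale.Agent.P140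
end
end

namespace Vale.Agent.P140.Sc
open MeasureTheory ENNReal Vale.Agent.P140
theorem a01 : FiniteDimensional ℝ V := inferInstance
attribute [local instance 5000] a01
theorem a02 : SigmaFinite (volume : Measure V) := inferInstance
theorem a03 : SFinite (volume : Measure V) := inferInstance
theorem a04 : SFinite surf := inferInstance
theorem a05 : SFinite (volume : Measure T3) := inferInstance
attribute [local instance 5000] a02 a03 a04 a05
theorem a06 : SFinite (volume : Measure (T3 × V)) := inferInstance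
theorem a07 : SFinite ((volume : Measure V).prod surf) := inferInstance
theorem a08 : SFinite ((volume : Measure V).prod ((volume : Measure V).prod surf)) := inferInstance
theorem a09 : ProperSpace V := inferInstance
theorem a10 : WeaklyLocallyCompactSpace V := inferInstance
theorem a11 : MeasurableAdd₂ V := inferInstance
theorem a12 : MeasurableSub₂ V := inferInstance
theorem a13 : MeasurableSMul₂ ℝ V := inferInstance
theorem a14 : MeasurableSMul ℝ V := inferInstance
theorem a15 : MeasurableAdd V := inferInstance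
theorem a16 : MeasurableSub V := inferInstance
theorem a17 : MeasurableNeg V := inferInstance
theorem a18 : ContinuousSMul ℝ V := inferInstance
theorem a19 : ContinuousSub V := inferInstance
theorem a20 : ContinuousAdd V := inferInstance
theorem a21 : MeasurableMul ℝ≥0∞ := inferInstance
theorem a22 : MeasurableSub ℝ≥0∞ := inferInstance
theorem a23 : MeasurableDiv₂ ℝ := inferInstance
theorem a24 : MeasurableAdd T3 := inferInstance
theorem a25 : MeasurableSub₂ T3 := inferInstance
theorem a26 : MeasurableAdd₂ T3 := inferInstance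
theorem a27 : (volume : Measure V).IsAddRightInvariant := inferInstance
theorem a28 : (volume : Measure T3).IsAddRightInvariant := inferInstance
theorem a29 : (volume : Measure V).IsNegInvariant := inferInstance
theorem a30 : AddRightStrictMono ℝ := inferInstance
theorem a31 : AddRightMono ℝ := inferInstance
theorem a32 : ClosedIicTopology ℝ := inferInstance
theorem a33 : IsTopologicalAddGroup V := inferInstance
theorem r01 : CharZero ℝ := inferInstance
theorem r02 : AddLeftMono ℝ := inferInstance
theorem r03 : AddRightMono ℝ := inferInstance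
theorem r04 : AddLeftStrictMono ℝ := inferInstance
theorem r05 : AddRightStrictMono ℝ := inferInstance
theorem r06 : PosMulReflectLT ℝ := inferInstance
theorem r07 : NoZeroDivisors ℝ := inferInstance
theorem r08 : NeZero (1:ℝ) := inferInstance
theorem r09 : NeZero (2:ℝ) := inferInstance
theorem r10 : OrderClosedTopology ℝ := inferInstance
theorem r11 : MulLeftMono ℝ≥0∞ := inferInstance
theorem r12 : MulRightMono ℝ≥0∞ := inferInstance
theorem r13 : AddLeftMono ℝ≥0∞ := inferInstance
theorem r14 : AddRightMono ℝ≥0∞ := inferInstance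
theorem r15 : MeasurableSingletonClass ℝ := inferInstance
theorem r16 : AddLeftMono ℕ := inferInstance
theorem r17 : AddRightMono ℕ := inferInstance
theorem r18 : SecondCountableTopology ℂ := inferInstance
end Vale.Agent.P140.Sc
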