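import Vale.Agent.P140.Bdl.B1

set_option linter.all false

attribute [local instance 5000] Vale.Agent.P140.Sc.a01 Vale.Agent.P140.Sc.a02 Vale.Agent.P140.Sc.a03 Vale.Agent.P140.Sc.a04 Vale.Agent.P140.Sc.a05 Vale.Agent.P140.Sc.a06 Vale.Agent.P140.Sc.a07 Vale.Agent.P140.Sc.a08 Vale.Agent.P140.Sc.a09 Vale.Agent.P140.Sc.a10 Vale.Agent.P140.Sc.a11 Vale.Agent.P140.Sc.a12 Vale.Agent.P140.Sc.a13 Vale.Agent.P140.Sc.a14 Vale.Agent.P140.Sc.a15 Vale.Agent.P140.Sc.a16 Vale.Agent.P140.Sc.a17 Vale.Agent.P140.Sc.a18 Vale.Agent.P140.Sc.a19 Vale.Agent.P140.Sc.a20 Vale.Agent.P140.Sc.a21 Vale.Agent.P140.Sc.a22 Vale.Agent.P140.Sc.a23 Vale.Agent.P140.Sc.a24 Vale.Agent.P140.Sc.a25 Vale.Agent.P140.Sc.a26 Vale.Agent.P140.Sc.a27 Vale.Agent.P140.Sc.a28 Vale.Agent.P140.Sc.a29 Vale.Agent.P140.Sc.a30 Vale.Agent.P140.Sc.a31 Vale.Agent.P140.Sc.a32 Vale.Agent.P140.Sc.a33 Vale.Agent.P140.Sc.r01 Vale.Agent.P140.Sc.r02 Vale.Agent.P140.Sc.r03 Vale.Agent.P140.Sc.r04 Vale.Agent.P140.Sc.r05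 Vale.Agent.P140.Sc.r06 Vale.Agent.P140.Sc.r07 Vale.Agent.P140.Sc.r08 Vale.Agent.P140.Sc.r09 Vale.Agent.P140.Sc.r10 Vale.Agent.P140.Sc.r11 Vale.Agent.P140.Sc.r12 Vale.Agent.P140.Sc.r13 Vale.Agent.P140.Sc.r14 Vale.Agent.P140.Sc.r15 Vale.Agent.P140.Sc.r16 Vale.Agent.P140.Sc.r17 Vale.Agent.P140.Sc.r18

section

open MeasureTheory Set Filter
open scoped ENNReal Topology NNReal

noncomputable section

namespace Vale.Agent.P140

/-- `ENNReal.ofReal` of a velocity distribution -/
def eR (f : V → ℝ) (v : V) : ℝ≥0∞ := ENNReal.ofReal (f v)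

theorem measurable_eR {f : V → ℝ} (hf : Measurable f) : Measurable (eR f) := hf.ennreal_ofReal

theorem gain_eq {f : V → ℝ} (hf : ∀ v, 0 ≤ f v) (v : V) :
    gain f v = ∫⁻ w, ∫⁻ o, kk v w o * (eR f (post v w o) * eR f (postStar v w o)) ∂surf := by
  unfold gain kk eR
  apply lintegral_congr; intro w
  apply lintegral_congr; intro o
  rw [ENNReal.ofReal_mul (abs_nonneg _), ENNReal.ofReal_mul (hf _)]

theorem loss_eq {f : V → ℝ} (hf : ∀ v, 0 ≤ f v) (v : V) :
    loss f v = ∫⁻ w, ∫⁻ o, kk v w o * (eR f v * eR f w) ∂surf := by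
  unfold loss kk eR
  apply lintegral_congr; intro w
  apply lintegral_congr; intro o
  rw [ENNReal.ofReal_mul (abs_nonneg _), ENNReal.ofReal_mul (hf _)]

/-- a weight which is a collision invariant -/
def CollInv (ψ : V → ℝ≥0∞) : Prop :=
  ∀ v w o, ψ (post v w o) + ψ (postStar v w o) = ψ v + ψ w

theorem measurable_triple {H : V × V × S2 → ℝ≥0∞} (hH : Measurable H) :
    Measurable fun v => ∫⁻ w, ∫⁻ o, H (v, w, o) ∂surf := by
  have h : Measurable fun z : (V × V) × S2 => H (z.1.1, z.1.2, z.2) := by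
    apply hH.comp
    fun_prop
  exact (h.lintegral_prod_right' (ν := surf)).lintegral_prod_right'

theorem measurable_double {H : V × V × S2 → ℝ≥0∞} (hH : Measurable H) (v : V) :
    Measurable fun w => ∫⁻ o, H (v, w, o) ∂surf := by
  have h : Measurable fun z : V × S2 => H (v, z.1, z.2) := by
    apply hH.comp
    fun_prop
  exact h.lintegral_prod_right' (ν := surf)

theorem measurable_single {H : V × V × S2 → ℝ≥0∞} (hH : Measurable H) (v w : V) :
    Measurable fun o => H (v, w, o) := by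
  apply hH.comp
  fun_prop

/-- additivity of the collision integral -/
theorem triple_add {H K : V × V × S2 → ℝ≥0∞} (hH : Measurable H) :
    ∫⁻ v, ∫⁻ w, ∫⁻ o, (H (v, w, o) + K (v, w, o)) ∂surf
      = (∫⁻ v, ∫⁻ w, ∫⁻ o, H (v, w, o) ∂surf) + ∫⁻ v, ∫⁻ w, ∫⁻ o, K (v, w, o) ∂surf := by
  rw [← lintegral_add_left (measurable_triple hH)]
  apply lintegral_congr; intro v
  rw [← lintegral_add_left (measurable_double hH v)]
  apply lintegral_congr; intro w
  rw [← lintegral_add_left (measurable_single hH v w)]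

theorem triple_mono {H K : V × V × S2 → ℝ≥0∞} (h : ∀ v w o, H (v, w, o) ≤ K (v, w, o)) :
    ∫⁻ v, ∫⁻ w, ∫⁻ o, H (v, w, o) ∂surf ≤ ∫⁻ v, ∫⁻ w, ∫⁻ o, K (v, w, o) ∂surf :=
  lintegral_mono fun v => lintegral_mono fun w => lintegral_mono fun o => h v w o

/-- symmetrization: for a collision invariant weight `ψ` and a symmetric function `X`,
`∫ |a| ψ(v) X(v',w') = ∫ |a| ψ(v) X(v,w)` -/
theorem symmetrize {ψ : V → ℝ≥0∞} (hψm : Measurable ψ) (hψ : CollInv ψ)
    {X : V × V → ℝ≥0∞} (hX : Measurable X) (hXs : ∀ v w, X (w, v) = X (v, w)) :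
    ∫⁻ v, ∫⁻ w, ∫⁻ o, kk v w o * (ψ v * X (post v w o, postStar v w o)) ∂surf
      = ∫⁻ v, ∫⁻ w, ∫⁻ o, kk v w o * (ψ v * X (v, w)) ∂surf := by
  have hmP : Measurable fun q : V × V × V × V => ψ q.1 * X (q.2.2.1, q.2.2.2) := by
    apply (hψm.comp measurable_fst).mul
    apply hX.comp
    fun_prop
  have h1 := lintegral_kk_post hmP
  simp only at h1
  rw [h1]
  -- now `∫ kk ψ(v') X(v,w)`
  have hmP2 : Measurable fun q : V × V × V × V => ψ q.2.2.1 * X (q.1, q.2.1) := by
    apply Measurable.mul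
    · apply hψm.comp
      fun_prop
    · apply hX.comp
      fun_prop
  have h2 := lintegral_kk_swap hmP2
  simp only at h2
  have hmP3 : Measurable fun q : V × V × V × V => ψ q.1 * X (q.1, q.2.1) := by
    apply Measurable.mul
    · apply hψm.comp
      fun_prop
    · apply hX.comp
      fun_prop
  have h3 := lintegral_kk_swap hmP3
  simp only at h3
  have hm1 : Measurable fun z : V × V × S2 =>
      kk z.1 z.2.1 z.2.2 * (ψ (post z.1 z.2.1 z.2.2) * X (z.1, z.2.1)) := by
    apply measurable_kk.mul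
    apply Measurable.mul
    · exact hψm.comp measurable_post
    · apply hX.comp
      fun_prop
  have hm2 : Measurable fun z : V × V × S2 => kk z.1 z.2.1 z.2.2 * (ψ z.1 * X (z.1, z.2.1)) := by
    apply measurable_kk.mul
    apply Measurable.mul
    · apply hψm.comp
      fun_prop
    · apply hX.comp
      fun_prop
  have h4 : (∫⁻ v, ∫⁻ w, ∫⁻ o, kk v w o * (ψ (post v w o) * X (v, w)) ∂surf)
      + (∫⁻ v, ∫⁻ w, ∫⁻ o, kk v w o * (ψ (post v w o) * X (v, w)) ∂surf)
      = (∫⁻ v, ∫⁻ w, ∫⁻ o, kk v w o * (ψ v * X (v, w)) ∂surf)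
      + (∫⁻ v, ∫⁻ w, ∫⁻ o, kk v w o * (ψ v * X (v, w)) ∂surf) := by
    nth_rewrite 2 [h2]
    nth_rewrite 2 [h3]
    rw [← triple_add (H := fun z => kk z.1 z.2.1 z.2.2 * (ψ (post z.1 z.2.1 z.2.2) * X (z.1, z.2.1)))
        (K := fun z => kk z.1 z.2.1 z.2.2 * (ψ (postStar z.1 z.2.1 z.2.2) * X (z.2.1, z.1))) hm1,
      ← triple_add (H := fun z => kk z.1 z.2.1 z.2.2 * (ψ z.1 * X (z.1, z.2.1)))
        (K := fun z => kk z.1 z.2.1 z.2.2 * (ψ z.2.1 * X (z.2.1, z.1))) hm2]
    apply lintegral_congr; intro v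
    apply lintegral_congr; intro w
    apply lintegral_congr; intro o
    simp only
    rw [hXs v w, ← mul_add, ← mul_add, ← add_mul, ← add_mul, hψ v w o]
  rw [← two_mul, ← two_mul] at h4
  exact (ENNReal.mul_right_inj two_ne_zero ENNReal.ofNat_ne_top).mp h4

/-- pointwise inequality behind the collision estimate -/
theorem pointwise_ineq {a b c d : ℝ} (ha : 0 ≤ a) (hb : 0 ≤ b) (hc : 0 ≤ c) (hd : 0 ≤ d) :
    max (a * b - c * d) 0 + (if c < a then c * d else 0)
      ≤ (if c < a then a * b else 0) + min a c * |b - d| := by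
  split_ifs with h
  · rw [min_eq_right h.le]
    rcases le_total (a * b - c * d) 0 with h1 | h1
    · rw [max_eq_right h1]
      have h2 : c * b ≤ a * b := mul_le_mul_of_nonneg_right h.le hb
      have h3 : c * (d - b) ≤ c * |b - d| := by
        apply mul_le_mul_of_nonneg_left _ hc
        rw [abs_sub_comm]
        exact le_abs_self _
      linarith
    · rw [max_eq_left h1]
      have : 0 ≤ c * |b - d| := mul_nonneg hc (abs_nonneg _)
      linarith only [this]
  · rw [not_lt] at h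
    rw [min_eq_left h]
    have h2 : a * d ≤ c * d := mul_le_mul_of_nonneg_right h hd
    have h3 : a * (b - d) ≤ a * |b - d| := mul_le_mul_of_nonneg_left (le_abs_self _) ha
    have h4 : 0 ≤ a * |b - d| := mul_nonneg ha (abs_nonneg _)
    rw [add_zero, zero_add]
    apply max_le
    · linarith
    · exact h4

theorem pointwise_ineq_ennreal {a b c d : ℝ} (ha : 0 ≤ a) (hb : 0 ≤ b) (hc : 0 ≤ c) (hd : 0 ≤ d) :
    (ENNReal.ofReal a * ENNReal.ofReal b - ENNReal.ofReal c * ENNReal.ofReal d)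
        + (if c < a then ENNReal.ofReal c * ENNReal.ofReal d else 0)
      ≤ (if c < a then ENNReal.ofReal a * ENNReal.ofReal b else 0)
        + ENNReal.ofReal (min a c) * ENNReal.ofReal |b - d| := by
  have h := pointwise_ineq ha hb hc hd
  have h1 : ENNReal.ofReal a * ENNReal.ofReal b - ENNReal.ofReal c * ENNReal.ofReal d
      = ENNReal.ofReal (max (a * b - c * d) 0) := by
    rw [← ENNReal.ofReal_mul ha, ← ENNReal.ofReal_mul hc,
      ← ENNReal.ofReal_sub _ (mul_nonneg hc hd)]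
    rcases le_total (a * b - c * d) 0 with h1 | h1
    · rw [max_eq_right h1, ENNReal.ofReal_of_nonpos h1, ENNReal.ofReal_zero]
    · rw [max_eq_left h1]
  rw [h1]
  have h2 : (if c < a then ENNReal.ofReal c * ENNReal.ofReal d else 0)
      = ENNReal.ofReal (if c < a then c * d else 0) := by
    split_ifs
    · rw [ENNReal.ofReal_mul hc]
    · simp
  have h3 : (if c < a then ENNReal.ofReal a * ENNReal.ofReal b else 0)
      = ENNReal.ofReal (if c < a then a * b else 0) := by
    split_ifs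
    · rw [ENNReal.ofReal_mul ha]
    · simp
  rw [h2, h3, ← ENNReal.ofReal_mul (le_min ha hc), ← ENNReal.ofReal_add (le_max_right _ _),
    ← ENNReal.ofReal_add]
  · exact ENNReal.ofReal_le_ofReal h
  · split_ifs
    · exact mul_nonneg ha hb
    · exact le_rfl
  · exact mul_nonneg (le_min ha hc) (abs_nonneg _)
  · split_ifs
    · exact mul_nonneg hc hd
    · exact le_rfl

/-- the cross term `∫ |a| ψ(v) min(f,g)(v) |f - g|(w)` -/
def cross (ψ : V → ℝ≥0∞) (f g : V → ℝ) : ℝ≥0∞ :=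
  ∫⁻ v, ∫⁻ w, ∫⁻ o, kk v w o * (ψ v * (eR (fun v => min (f v) (g v)) v
    * ENNReal.ofReal |f w - g w|)) ∂surf

theorem measurable_ite_lt {f g : V → ℝ} (hf : Measurable f) (hg : Measurable g) {H : V → ℝ≥0∞}
    (hH : Measurable H) : Measurable fun v => if g v < f v then H v else 0 :=
  Measurable.ite (measurableSet_lt hg hf) hH measurable_const

theorem measurable_gainV {f : V → ℝ} (hf : Measurable f) (hf0 : ∀ v, 0 ≤ f v) :
    Measurable (gain f) := by
  have : gain f = fun v => ∫⁻ w, ∫⁻ o, kk v w o * (eR f (post v w o) * eR f (postStar v w o)) ∂surf := by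
    funext v
    exact gain_eq hf0 v
  rw [this]
  exact measurable_triple (H := fun z => kk z.1 z.2.1 z.2.2
    * (eR f (post z.1 z.2.1 z.2.2) * eR f (postStar z.1 z.2.1 z.2.2)))
    (measurable_kk.mul (((measurable_eR hf).comp measurable_post).mul
      ((measurable_eR hf).comp measurable_postStar)))

theorem measurable_lossV {f : V → ℝ} (hf : Measurable f) (hf0 : ∀ v, 0 ≤ f v) :
    Measurable (loss f) := by
  have : loss f = fun v => ∫⁻ w, ∫⁻ o, kk v w o * (eR f v * eR f w) ∂surf := by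
    funext v
    exact loss_eq hf0 v
  rw [this]
  refine measurable_triple (H := fun z => kk z.1 z.2.1 z.2.2 * (eR f z.1 * eR f z.2.1)) ?_
  apply measurable_kk.mul
  exact ((measurable_eR hf).comp measurable_fst).mul ((measurable_eR hf).comp measurable_snd.fst)

theorem weighted_gain {ψ : V → ℝ≥0∞} (s : V → Prop) [DecidablePred s]
    {f : V → ℝ} (hf : Measurable f) (hf0 : ∀ v, 0 ≤ f v) :
    ∫⁻ v, ψ v * (if s v then gain f v else 0)
      = ∫⁻ v, ∫⁻ w, ∫⁻ o, kk v w o * (ψ v * (if s v then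
          eR f (post v w o) * eR f (postStar v w o) else 0)) ∂surf := by
  apply lintegral_congr; intro v
  have hm : Measurable fun z : V × V × S2 => kk z.1 z.2.1 z.2.2
    * (eR f (post z.1 z.2.1 z.2.2) * eR f (postStar z.1 z.2.1 z.2.2)) :=
    measurable_kk.mul (((measurable_eR hf).comp measurable_post).mul
      ((measurable_eR hf).comp measurable_postStar))
  split_ifs with h
  · rw [gain_eq hf0, ← lintegral_const_mul _ (measurable_double hm v)]
    apply lintegral_congr; intro w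
    rw [← lintegral_const_mul _ (measurable_single hm v w)]
    apply lintegral_congr; intro o
    ring
  · simp only [mul_zero, lintegral_const, zero_mul, measure_univ_of_isAddLeftInvariant]

theorem weighted_loss {ψ : V → ℝ≥0∞} (s : V → Prop) [DecidablePred s]
    {f : V → ℝ} (hf : Measurable f) (hf0 : ∀ v, 0 ≤ f v) :
    ∫⁻ v, ψ v * (if s v then loss f v else 0)
      = ∫⁻ v, ∫⁻ w, ∫⁻ o, kk v w o * (ψ v * (if s v then eR f v * eR f w else 0)) ∂surf := by
  apply lintegral_congr; intro v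
  have hm : Measurable fun z : V × V × S2 => kk z.1 z.2.1 z.2.2 * (eR f z.1 * eR f z.2.1) := by
    apply measurable_kk.mul
    exact ((measurable_eR hf).comp measurable_fst).mul ((measurable_eR hf).comp measurable_snd.fst)
  split_ifs with h
  · rw [loss_eq hf0, ← lintegral_const_mul _ (measurable_double hm v)]
    apply lintegral_congr; intro w
    rw [← lintegral_const_mul _ (measurable_single hm v w)]
    apply lintegral_congr; intro o
    ring
  · simp only [mul_zero, lintegral_const, zero_mul, measure_univ_of_isAddLeftInvariant]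

/-- **Collision inequality.** For a collision invariant weight `ψ`,
`∫ ψ 1_{f>g} (Q⁺(f) + Q⁻(g)) ≤ ∫ ψ 1_{f>g} (Q⁻(f) + Q⁺(g)) + ∫ |a| ψ min(f,g) |f-g|_*`. -/
theorem coll_ineq {ψ : V → ℝ≥0∞} (hψm : Measurable ψ) (hψ : CollInv ψ) {f g : V → ℝ}
    (hf : Measurable f) (hg : Measurable g) (hf0 : ∀ v, 0 ≤ f v) (hg0 : ∀ v, 0 ≤ g v) :
    ∫⁻ v, ψ v * (if g v < f v then gain f v + loss g v else 0)
      ≤ (∫⁻ v, ψ v * (if g v < f v then loss f v + gain g v else 0)) + cross ψ f g := by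
  classical
  have hF := measurable_eR hf
  have hG := measurable_eR hg
  -- measurability of all the pieces
  have hS : MeasurableSet {v | g v < f v} := measurableSet_lt hg hf
  have hSt : MeasurableSet {z : V × V × S2 | g z.1 < f z.1} :=
    measurableSet_lt (hg.comp measurable_fst) (hf.comp measurable_fst)
  have mψ : Measurable fun z : V × V × S2 => ψ z.1 := hψm.comp measurable_fst
  have mfp : Measurable fun z : V × V × S2 =>
      eR f (post z.1 z.2.1 z.2.2) * eR f (postStar z.1 z.2.1 z.2.2) :=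
    (hF.comp measurable_post).mul (hF.comp measurable_postStar)
  have mgp : Measurable fun z : V × V × S2 =>
      eR g (post z.1 z.2.1 z.2.2) * eR g (postStar z.1 z.2.1 z.2.2) :=
    (hG.comp measurable_post).mul (hG.comp measurable_postStar)
  have mf : Measurable fun z : V × V × S2 => eR f z.1 * eR f z.2.1 :=
    (hF.comp measurable_fst).mul (hF.comp measurable_snd.fst)
  have mg : Measurable fun z : V × V × S2 => eR g z.1 * eR g z.2.1 :=
    (hG.comp measurable_fst).mul (hG.comp measurable_snd.fst)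
  -- the positive part of the difference of products
  set X : V × V → ℝ≥0∞ := fun z => eR f z.1 * eR f z.2 - eR g z.1 * eR g z.2 with hX
  have hXm : Measurable X :=
    ((hF.comp measurable_fst).mul (hF.comp measurable_snd)).sub
      ((hG.comp measurable_fst).mul (hG.comp measurable_snd))
  have hXs : ∀ v w, X (w, v) = X (v, w) := by
    intro v w
    simp only [hX]
    rw [mul_comm (eR f w), mul_comm (eR g w)]
  have hsym := symmetrize hψm hψ hXm hXs
  -- splitting of both sides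
  have hL : ∫⁻ v, ψ v * (if g v < f v then gain f v + loss g v else 0)
      = (∫⁻ v, ψ v * (if g v < f v then gain f v else 0))
        + ∫⁻ v, ψ v * (if g v < f v then loss g v else 0) := by
    have m0 : Measurable fun v => ψ v * (if g v < f v then gain f v else 0) :=
      hψm.mul (measurable_ite_lt hf hg (measurable_gainV hf hf0))
    rw [← lintegral_add_left m0]
    apply lintegral_congr; intro v
    split_ifs <;> ring
  have hR : ∫⁻ v, ψ v * (if g v < f v then loss f v + gain g v else 0)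
      = (∫⁻ v, ψ v * (if g v < f v then loss f v else 0))
        + ∫⁻ v, ψ v * (if g v < f v then gain g v else 0) := by
    have m0 : Measurable fun v => ψ v * (if g v < f v then loss f v else 0) :=
      hψm.mul (measurable_ite_lt hf hg (measurable_lossV hf hf0))
    rw [← lintegral_add_left m0]
    apply lintegral_congr; intro v
    split_ifs <;> ring
  rw [hL, hR, weighted_gain _ hf hf0, weighted_gain _ hg hg0, weighted_loss _ hf hf0,
    weighted_loss _ hg hg0]
  -- gain of f against gain of g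
  have m1 : Measurable fun z : V × V × S2 => kk z.1 z.2.1 z.2.2 * (ψ z.1 * (if g z.1 < f z.1 then
      eR g (post z.1 z.2.1 z.2.2) * eR g (postStar z.1 z.2.1 z.2.2) else 0)) :=
    measurable_kk.mul (mψ.mul (Measurable.ite hSt mgp measurable_const))
  have m2 : Measurable fun z : V × V × S2 => kk z.1 z.2.1 z.2.2 * (ψ z.1 * X (z.1, z.2.1)) := by
    apply measurable_kk.mul
    apply mψ.mul
    apply hXm.comp
    fun_prop
  have m3 : Measurable fun z : V × V × S2 => kk z.1 z.2.1 z.2.2 * (ψ z.1 * (if g z.1 < f z.1 then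
      eR f z.1 * eR f z.2.1 else 0)) :=
    measurable_kk.mul (mψ.mul (Measurable.ite hSt mf measurable_const))
  have step1 : ∫⁻ v, ∫⁻ w, ∫⁻ o, kk v w o * (ψ v * (if g v < f v then
          eR f (post v w o) * eR f (postStar v w o) else 0)) ∂surf
      ≤ (∫⁻ v, ∫⁻ w, ∫⁻ o, kk v w o * (ψ v * (if g v < f v then
          eR g (post v w o) * eR g (postStar v w o) else 0)) ∂surf)
        + ∫⁻ v, ∫⁻ w, ∫⁻ o, kk v w o * (ψ v * X (v, w)) ∂surf := by
    rw [← hsym, ← triple_add (H := fun z => kk z.1 z.2.1 z.2.2 * (ψ z.1 * (if g z.1 < f z.1 then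
      eR g (post z.1 z.2.1 z.2.2) * eR g (postStar z.1 z.2.1 z.2.2) else 0)))
      (K := fun z => kk z.1 z.2.1 z.2.2 * (ψ z.1
        * X (post z.1 z.2.1 z.2.2, postStar z.1 z.2.1 z.2.2))) m1]
    apply triple_mono (H := fun z => kk z.1 z.2.1 z.2.2 * (ψ z.1 * (if g z.1 < f z.1 then
      eR f (post z.1 z.2.1 z.2.2) * eR f (postStar z.1 z.2.1 z.2.2) else 0)))
      (K := fun z => kk z.1 z.2.1 z.2.2 * (ψ z.1 * (if g z.1 < f z.1 then
      eR g (post z.1 z.2.1 z.2.2) * eR g (postStar z.1 z.2.1 z.2.2) else 0))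
        + kk z.1 z.2.1 z.2.2 * (ψ z.1 * X (post z.1 z.2.1 z.2.2, postStar z.1 z.2.1 z.2.2)))
    intro v w o
    simp only
    rw [← mul_add, ← mul_add]
    gcongr
    split_ifs
    · simp only [hX]
      exact le_add_tsub
    · exact zero_le
  have step2 : (∫⁻ v, ∫⁻ w, ∫⁻ o, kk v w o * (ψ v * X (v, w)) ∂surf)
      + ∫⁻ v, ∫⁻ w, ∫⁻ o, kk v w o * (ψ v * (if g v < f v then eR g v * eR g w else 0)) ∂surf
      ≤ (∫⁻ v, ∫⁻ w, ∫⁻ o, kk v w o * (ψ v * (if g v < f v then eR f v * eR f w else 0)) ∂surf)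
        + cross ψ f g := by
    unfold cross
    rw [← triple_add (H := fun z => kk z.1 z.2.1 z.2.2 * (ψ z.1 * X (z.1, z.2.1)))
        (K := fun z => kk z.1 z.2.1 z.2.2 * (ψ z.1 * (if g z.1 < f z.1 then
          eR g z.1 * eR g z.2.1 else 0))) m2,
      ← triple_add (H := fun z => kk z.1 z.2.1 z.2.2 * (ψ z.1 * (if g z.1 < f z.1 then
          eR f z.1 * eR f z.2.1 else 0)))
        (K := fun z => kk z.1 z.2.1 z.2.2 * (ψ z.1 * (eR (fun v => min (f v) (g v)) z.1
          * ENNReal.ofReal |f z.2.1 - g z.2.1|))) m3]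
    apply triple_mono (H := fun z => kk z.1 z.2.1 z.2.2 * (ψ z.1 * X (z.1, z.2.1))
        + kk z.1 z.2.1 z.2.2 * (ψ z.1 * (if g z.1 < f z.1 then eR g z.1 * eR g z.2.1 else 0)))
      (K := fun z => kk z.1 z.2.1 z.2.2 * (ψ z.1 * (if g z.1 < f z.1 then
          eR f z.1 * eR f z.2.1 else 0))
        + kk z.1 z.2.1 z.2.2 * (ψ z.1 * (eR (fun v => min (f v) (g v)) z.1
          * ENNReal.ofReal |f z.2.1 - g z.2.1|)))
    intro v w o
    simp only
    rw [← mul_add, ← mul_add, ← mul_add, ← mul_add]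
    apply mul_le_mul_right
    apply mul_le_mul_right
    exact pointwise_ineq_ennreal (hf0 v) (hf0 w) (hg0 v) (hg0 w)
  calc _ ≤ _ := add_le_add_left step1 _
    _ = _ := by rw [add_assoc]
    _ ≤ _ := add_le_add_right step2 _
    _ = _ := by ring

/-- the cross term is controlled by moments -/
theorem cross_le {ψ : V → ℝ≥0∞} (hψm : Measurable ψ) {f g : V → ℝ}
    (hf : Measurable f) (hg : Measurable g) :
    cross ψ f g ≤ surf univ * ((∫⁻ v, ENNReal.ofReal ‖v‖ * (ψ v * eR (fun v => min (f v) (g v)) v))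
        * (∫⁻ w, ENNReal.ofReal |f w - g w|)
      + (∫⁻ v, ψ v * eR (fun v => min (f v) (g v)) v)
        * ∫⁻ w, ENNReal.ofReal ‖w‖ * ENNReal.ofReal |f w - g w|) := by
  unfold cross
  set m : V → ℝ := fun v => min (f v) (g v) with hm
  have hF : Measurable (eR m) := measurable_eR (hf.min hg)
  have hc : Measurable fun w => ENNReal.ofReal |f w - g w| := (hf.sub hg).abs.ennreal_ofReal
  have hn : Measurable fun w : V => ENNReal.ofReal ‖w‖ := measurable_norm.ennreal_ofReal
  have h1 : ∀ v w, ∫⁻ o, kk v w o * (ψ v * (eR m v * ENNReal.ofReal |f w - g w|)) ∂surf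
      ≤ surf univ * ((ENNReal.ofReal ‖v‖ * (ψ v * eR m v)) * ENNReal.ofReal |f w - g w|
        + (ψ v * eR m v) * (ENNReal.ofReal ‖w‖ * ENNReal.ofReal |f w - g w|)) := by
    intro v w
    calc ∫⁻ o, kk v w o * (ψ v * (eR m v * ENNReal.ofReal |f w - g w|)) ∂surf
        ≤ ∫⁻ o, ((ENNReal.ofReal ‖v‖ + ENNReal.ofReal ‖w‖)
            * (ψ v * (eR m v * ENNReal.ofReal |f w - g w|))) ∂surf := by
          apply lintegral_mono
          intro o
          simp only
          gcongr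
          unfold kk
          rw [← ENNReal.ofReal_add (norm_nonneg _) (norm_nonneg _)]
          exact ENNReal.ofReal_le_ofReal (abs_relA_le v w o)
      _ = _ := by
          rw [lintegral_const]
          ring
  calc ∫⁻ v, ∫⁻ w, ∫⁻ o, kk v w o * (ψ v * (eR m v * ENNReal.ofReal |f w - g w|)) ∂surf
      ≤ ∫⁻ v, ∫⁻ w, surf univ * ((ENNReal.ofReal ‖v‖ * (ψ v * eR m v)) * ENNReal.ofReal |f w - g w|
        + (ψ v * eR m v) * (ENNReal.ofReal ‖w‖ * ENNReal.ofReal |f w - g w|)) :=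
        lintegral_mono fun v => lintegral_mono fun w => h1 v w
    _ = surf univ * ((∫⁻ v, ENNReal.ofReal ‖v‖ * (ψ v * eR m v))
        * (∫⁻ w, ENNReal.ofReal |f w - g w|)
      + (∫⁻ v, ψ v * eR m v) * ∫⁻ w, ENNReal.ofReal ‖w‖ * ENNReal.ofReal |f w - g w|) := by
        have h2 : ∀ v, ∫⁻ w, surf univ * ((ENNReal.ofReal ‖v‖ * (ψ v * eR m v))
              * ENNReal.ofReal |f w - g w|
            + (ψ v * eR m v) * (ENNReal.ofReal ‖w‖ * ENNReal.ofReal |f w - g w|))
            = surf univ * ((ENNReal.ofReal ‖v‖ * (ψ v * eR m v)) * (∫⁻ w, ENNReal.ofReal |f w - g w|)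
            + (ψ v * eR m v) * ∫⁻ w, ENNReal.ofReal ‖w‖ * ENNReal.ofReal |f w - g w|) := by
          intro v
          have k1 : Measurable fun w => (ENNReal.ofReal ‖v‖ * (ψ v * eR m v))
              * ENNReal.ofReal |f w - g w| := measurable_const.mul hc
          have k2 : Measurable fun w : V => ENNReal.ofReal ‖w‖ * ENNReal.ofReal |f w - g w| :=
            hn.mul hc
          have k3 : Measurable fun w => (ENNReal.ofReal ‖v‖ * (ψ v * eR m v))
              * ENNReal.ofReal |f w - g w|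
              + (ψ v * eR m v) * (ENNReal.ofReal ‖w‖ * ENNReal.ofReal |f w - g w|) :=
            k1.add (measurable_const.mul k2)
          rw [lintegral_const_mul _ k3, lintegral_add_left k1, lintegral_const_mul _ hc,
            lintegral_const_mul _ k2]
        simp_rw [h2]
        have m1 : Measurable fun v => ENNReal.ofReal ‖v‖ * (ψ v * eR m v) := hn.mul (hψm.mul hF)
        have m2 : Measurable fun v => ψ v * eR m v := hψm.mul hF
        have m3 : Measurable fun v => (ENNReal.ofReal ‖v‖ * (ψ v * eR m v))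
            * (∫⁻ w, ENNReal.ofReal |f w - g w|) := m1.mul_const _
        have m4 : Measurable fun v => (ENNReal.ofReal ‖v‖ * (ψ v * eR m v))
            * (∫⁻ w, ENNReal.ofReal |f w - g w|)
            + (ψ v * eR m v) * ∫⁻ w, ENNReal.ofReal ‖w‖ * ENNReal.ofReal |f w - g w| :=
          m3.add (m2.mul_const _)
        rw [lintegral_const_mul _ m4, lintegral_add_left m3, lintegral_mul_const _ m1,
          lintegral_mul_const _ m2]

end Vale.Agent.P140
end
end

section

open MeasureTheory Set Filter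
open scoped ENNReal Topology NNReal

noncomputable section

namespace Vale.Agent.P140

theorem integrableOn_toReal {g : ℝ → ℝ≥0∞} (hg : Measurable g) {s : Set ℝ}
    (h : ∫⁻ t in s, g t < ⊤) : IntegrableOn (fun t => (g t).toReal) s :=
  integrable_toReal_of_lintegral_ne_top hg.aemeasurable h.ne

/-- positive part of the difference of two mild solutions on one characteristic -/
theorem one_dim_pos {f g : ℝ → ℝ} {f0 g0 : ℝ} {gf lf gg lg : ℝ → ℝ≥0∞} {T : ℝ}
    (hf : Measurable f) (hg : Measurable g)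
    (mgf : Measurable gf) (mlf : Measurable lf) (mgg : Measurable gg) (mlg : Measurable lg)
    (igf : ∫⁻ s in Ioc 0 T, gf s < ⊤) (ilf : ∫⁻ s in Ioc 0 T, lf s < ⊤)
    (igg : ∫⁻ s in Ioc 0 T, gg s < ⊤) (ilg : ∫⁻ s in Ioc 0 T, lg s < ⊤)
    (ef : ∀ᵐ t ∂(volume.restrict (Ioc 0 T)), f t = f0 + ∫ s in Ioc 0 t, ((gf s).toReal - (lf s).toReal))
    (eg : ∀ᵐ t ∂(volume.restrict (Ioc 0 T)), g t = g0 + ∫ s in Ioc 0 t, ((gg s).toReal - (lg s).toReal))
    {τ t : ℝ} (hτ : 0 ≤ τ) (hτt : τ ≤ t) (htT : t ≤ T) :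
    ENNReal.ofReal ((f0 + ∫ s in Ioc 0 t, ((gf s).toReal - (lf s).toReal))
        - (g0 + ∫ s in Ioc 0 t, ((gg s).toReal - (lg s).toReal)))
      + ∫⁻ s in Ioc τ t, (if g s < f s then lf s + gg s else 0)
    = ENNReal.ofReal ((f0 + ∫ s in Ioc 0 τ, ((gf s).toReal - (lf s).toReal))
        - (g0 + ∫ s in Ioc 0 τ, ((gg s).toReal - (lg s).toReal)))
      + ∫⁻ s in Ioc τ t, (if g s < f s then gf s + lg s else 0) := by
  have hT : 0 ≤ T := hτ.trans (hτt.trans htT)
  have Igf := integrableOn_toReal mgf igf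
  have Ilf := integrableOn_toReal mlf ilf
  have Igg := integrableOn_toReal mgg igg
  have Ilg := integrableOn_toReal mlg ilg
  set q : ℝ → ℝ := fun s => ((gf s).toReal - (lf s).toReal) - ((gg s).toReal - (lg s).toReal) with hq
  have Iq : IntegrableOn q (Ioc 0 T) := (Igf.sub Ilf).sub (Igg.sub Ilg)
  have Iqi : ∀ a b, 0 ≤ a → a ≤ b → b ≤ T → IntervalIntegrable q volume a b := by
    intro a b ha hab hb
    rw [intervalIntegrable_iff_integrableOn_Ioc_of_le hab]
    exact Iq.mono_set (Ioc_subset_Ioc ha hb)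
  set w : ℝ → ℝ := fun r => (f0 + ∫ s in Ioc 0 r, ((gf s).toReal - (lf s).toReal))
        - (g0 + ∫ s in Ioc 0 r, ((gg s).toReal - (lg s).toReal)) with hw
  have hwq : ∀ r, 0 ≤ r → r ≤ T → w r = (f0 - g0) + ∫ s in (0:ℝ)..r, q s := by
    intro r hr hrT
    have i1 : IntegrableOn (fun s => (gf s).toReal - (lf s).toReal) (Ioc 0 r) :=
      (Igf.sub Ilf).mono_set (Ioc_subset_Ioc_right hrT)
    have i2 : IntegrableOn (fun s => (gg s).toReal - (lg s).toReal) (Ioc 0 r) :=
      (Igg.sub Ilg).mono_set (Ioc_subset_Ioc_right hrT)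
    rw [intervalIntegral.integral_of_le hr, hq]
    simp only [hw]
    rw [integral_sub i1 i2]
    ring
  have hwτ : ∀ r, τ ≤ r → r ≤ T → w r = w τ + ∫ s in τ..r, q s := by
    intro r hr hrT
    rw [hwq r (hτ.trans hr) hrT, hwq τ hτ (hτt.trans htT), add_assoc,
      intervalIntegral.integral_add_adjacent_intervals (Iqi 0 τ le_rfl hτ (hτt.trans htT))
        (Iqi τ r hτ hr hrT)]
  have key := posPart_primitive (Iqi τ t hτ hτt htT) (w τ)
  rw [← hwτ t hτt htT] at key
  -- the indicator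
  have hind : ∀ᵐ s, s ∈ Ioc τ t → (0 < w τ + ∫ r in τ..s, q r ↔ g s < f s) := by
    rw [ae_restrict_iff' measurableSet_Ioc] at ef eg
    filter_upwards [ef, eg] with s h1 h2 hs
    have hsT : s ∈ Ioc 0 T := ⟨hτ.trans_lt hs.1, hs.2.trans htT⟩
    rw [← hwτ s hs.1.le (hs.2.trans htT)]
    simp only [hw]
    rw [← h1 hsT, ← h2 hsT, sub_pos]
  -- split the integral
  have Sind : MeasurableSet {s | g s < f s} := measurableSet_lt hg hf
  set A : ℝ → ℝ := fun s => if g s < f s then (gf s).toReal + (lg s).toReal else 0 with hA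
  set B : ℝ → ℝ := fun s => if g s < f s then (lf s).toReal + (gg s).toReal else 0 with hB
  have hAi : IntegrableOn A (Ioc τ t) := by
    have : A = {s | g s < f s}.indicator (fun s => (gf s).toReal + (lg s).toReal) := by
      funext s
      simp only [hA, Set.indicator_apply, Set.mem_ofPred_eq]
    rw [this]
    exact ((Igf.add Ilg).mono_set (Ioc_subset_Ioc hτ htT)).indicator Sind
  have hBi : IntegrableOn B (Ioc τ t) := by
    have : B = {s | g s < f s}.indicator (fun s => (lf s).toReal + (gg s).toReal) := by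
      funext s
      simp only [hB, Set.indicator_apply, Set.mem_ofPred_eq]
    rw [this]
    exact ((Ilf.add Igg).mono_set (Ioc_subset_Ioc hτ htT)).indicator Sind
  have hsplit : ∫ s in τ..t, (if 0 < w τ + ∫ r in τ..s, q r then q s else 0)
      = (∫ s in Ioc τ t, A s) - ∫ s in Ioc τ t, B s := by
    rw [← integral_sub hAi hBi, intervalIntegral.integral_of_le hτt]
    apply setIntegral_congr_ae measurableSet_Ioc
    filter_upwards [hind] with s hs hmem
    simp only [hA, hB]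
    by_cases h : g s < f s
    · rw [if_pos ((hs hmem).mpr h), if_pos h, if_pos h, hq]
      ring
    · rw [if_neg (fun h' => h ((hs hmem).mp h')), if_neg h, if_neg h]
      ring
  rw [hsplit] at key
  have hA0 : ∀ s, 0 ≤ A s := by
    intro s
    simp only [hA]
    split_ifs <;> (clear * -; positivity)
  have hB0 : ∀ s, 0 ≤ B s := by
    intro s
    simp only [hB]
    split_ifs <;> (clear * -; positivity)
  -- convert integrals
  have hfin : ∀ k : ℝ → ℝ≥0∞, Measurable k → ∫⁻ s in Ioc 0 T, k s < ⊤ →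
      ∀ᵐ s ∂(volume.restrict (Ioc τ t)), k s < ⊤ := by
    intro k hk hki
    have : ∫⁻ s in Ioc τ t, k s < ⊤ :=
      lt_of_le_of_lt (lintegral_mono_set (Ioc_subset_Ioc hτ htT)) hki
    exact ae_lt_top hk this.ne
  have cA : ENNReal.ofReal (∫ s in Ioc τ t, A s)
      = ∫⁻ s in Ioc τ t, (if g s < f s then gf s + lg s else 0) := by
    rw [ofReal_integral_eq_lintegral_ofReal hAi (Eventually.of_forall hA0)]
    apply lintegral_congr_ae
    filter_upwards [hfin gf mgf igf, hfin lg mlg ilg] with s h1 h2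
    simp only [hA]
    split_ifs
    · rw [ENNReal.ofReal_add ENNReal.toReal_nonneg ENNReal.toReal_nonneg,
        ENNReal.ofReal_toReal h1.ne, ENNReal.ofReal_toReal h2.ne]
    · simp
  have cB : ENNReal.ofReal (∫ s in Ioc τ t, B s)
      = ∫⁻ s in Ioc τ t, (if g s < f s then lf s + gg s else 0) := by
    rw [ofReal_integral_eq_lintegral_ofReal hBi (Eventually.of_forall hB0)]
    apply lintegral_congr_ae
    filter_upwards [hfin lf mlf ilf, hfin gg mgg igg] with s h1 h2
    simp only [hB]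
    split_ifs
    · rw [ENNReal.ofReal_add ENNReal.toReal_nonneg ENNReal.toReal_nonneg,
        ENNReal.ofReal_toReal h1.ne, ENNReal.ofReal_toReal h2.ne]
    · simp
  rw [← cA, ← cB]
  have hmax : ∀ x : ℝ, ENNReal.ofReal x = ENNReal.ofReal (max x 0) := by
    intro x
    rcases le_total x 0 with h | h
    · rw [max_eq_right h, ENNReal.ofReal_of_nonpos h, ENNReal.ofReal_zero]
    · rw [max_eq_left h]
  change ENNReal.ofReal (w t) + _ = ENNReal.ofReal (w τ) + _
  rw [hmax (w t), hmax (w τ), ← ENNReal.ofReal_add (le_max_right _ _)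
    (integral_nonneg hB0), ← ENNReal.ofReal_add (le_max_right _ _) (integral_nonneg hA0)]
  congr 1
  linarith only [key]

end Vale.Agent.P140
end
end

section

open MeasureTheory Set Filter
open scoped ENNReal Topology NNReal

noncomputable section

namespace Vale.Agent.P140

/-- the mild representative along the free flow -/
def bar (F0 : T3 → V → ℝ) (F : ℝ → T3 → V → ℝ) (t : ℝ) (p : T3 × V) : ℝ :=
  F0 p.1 p.2 + ∫ s in Ioc 0 t, ((gainA F (s, p)).toReal - (lossA F (s, p)).toReal)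

theorem measurable_bar {F0 : T3 → V → ℝ} {F : ℝ → T3 → V → ℝ}
    (h0 : Measurable fun p : T3 × V => F0 p.1 p.2)
    (hF : Measurable fun p : ℝ × T3 × V => F p.1 p.2.1 p.2.2) :
    Measurable fun q : ℝ × T3 × V => bar F0 F q.1 q.2 := by
  unfold bar
  apply (h0.comp measurable_snd).add
  exact measurable_primitive (r := fun q : ℝ × T3 × V => (gainA F q).toReal - (lossA F q).toReal)
    ((measurable_gainA hF).ennreal_toReal.sub (measurable_lossA hF).ennreal_toReal)

theorem measurable_bar' {F0 : T3 → V → ℝ} {F : ℝ → T3 → V → ℝ}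
    (h0 : Measurable fun p : T3 × V => F0 p.1 p.2)
    (hF : Measurable fun p : ℝ × T3 × V => F p.1 p.2.1 p.2.2) (t : ℝ) :
    Measurable fun p : T3 × V => bar F0 F t p :=
  (measurable_bar h0 hF).comp (measurable_const.prodMk measurable_id)

/-- weighted integral of the positive part of the difference of the mild representatives -/
def posE (ψ : V → ℝ≥0∞) (F0 : T3 → V → ℝ) (F : ℝ → T3 → V → ℝ) (G0 : T3 → V → ℝ)
    (G : ℝ → T3 → V → ℝ) (t : ℝ) : ℝ≥0∞ :=
  ∫⁻ p : T3 × V, ψ p.2 * ENNReal.ofReal (bar F0 F t p - bar G0 G t p)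

/-- swap the time integral and the phase space integral and remove the free flow -/
theorem swap_flow {ψ : V → ℝ≥0∞} (hψm : Measurable ψ) {H : ℝ × T3 × V → ℝ≥0∞} (hH : Measurable H)
    (s : Set ℝ) :
    ∫⁻ p : T3 × V, ψ p.2 * ∫⁻ r in s, H (stFlow (r, p))
      = ∫⁻ r in s, ∫⁻ p : T3 × V, ψ p.2 * H (r, p) := by
  have hHf : Measurable fun q : ℝ × T3 × V => H (stFlow q) := hH.comp measurable_stFlow
  have h1 : ∀ p : T3 × V, ψ p.2 * ∫⁻ r in s, H (stFlow (r, p))
      = ∫⁻ r in s, ψ p.2 * H (stFlow (r, p)) := by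
    intro p
    rw [lintegral_const_mul]
    exact hHf.comp (by fun_prop : Measurable fun r : ℝ => (r, p))
  simp_rw [h1]
  rw [lintegral_lintegral_swap]
  · apply lintegral_congr
    intro r
    exact lintegral_flow r (f := fun p => ψ p.2 * H (r, p))
      ((hψm.comp measurable_snd).mul (hH.comp (by fun_prop : Measurable fun p : T3 × V => (r, p))))
  · apply Measurable.aemeasurable
    apply Measurable.mul
    · exact hψm.comp measurable_fst.snd
    · exact hHf.comp (by fun_prop : Measurable fun z : (T3 × V) × ℝ => (z.2, z.1))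

section

variable {T : ℝ} {F0 G0 : T3 → V → ℝ} {F G : ℝ → T3 → V → ℝ}

/-- the integrand `1_{F > G} (Q^-(F) + Q^+(G))` -/
def minusTerm (F G : ℝ → T3 → V → ℝ) (q : ℝ × T3 × V) : ℝ≥0∞ :=
  if G q.1 q.2.1 q.2.2 < F q.1 q.2.1 q.2.2 then
    loss (F q.1 q.2.1) q.2.2 + gain (G q.1 q.2.1) q.2.2 else 0

/-- the integrand `1_{F > G} (Q^+(F) + Q^-(G))` -/
def plusTerm (F G : ℝ → T3 → V → ℝ) (q : ℝ × T3 × V) : ℝ≥0∞ :=
  if G q.1 q.2.1 q.2.2 < F q.1 q.2.1 q.2.2 then
    gain (F q.1 q.2.1) q.2.2 + loss (G q.1 q.2.1) q.2.2 else 0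

theorem measurable_minusTerm (hF : Measurable fun p : ℝ × T3 × V => F p.1 p.2.1 p.2.2)
    (hG : Measurable fun p : ℝ × T3 × V => G p.1 p.2.1 p.2.2) : Measurable (minusTerm F G) :=
  Measurable.ite (measurableSet_lt hG hF) ((measurable_loss_st hF).add (measurable_gain_st hG))
    measurable_const

theorem measurable_plusTerm (hF : Measurable fun p : ℝ × T3 × V => F p.1 p.2.1 p.2.2)
    (hG : Measurable fun p : ℝ × T3 × V => G p.1 p.2.1 p.2.2) : Measurable (plusTerm F G) :=
  Measurable.ite (measurableSet_lt hG hF) ((measurable_gain_st hF).add (measurable_loss_st hG))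
    measurable_const

theorem pos_identity (hF : IsMild T F0 F) (hG : IsMild T G0 G) {ψ : V → ℝ≥0∞} (hψm : Measurable ψ)
    {τ t : ℝ} (hτ : 0 ≤ τ) (hτt : τ ≤ t) (htT : t ≤ T) :
    posE ψ F0 F G0 G t + ∫⁻ s in Ioc τ t, ∫⁻ p : T3 × V, ψ p.2 * minusTerm F G (s, p)
      = posE ψ F0 F G0 G τ + ∫⁻ s in Ioc τ t, ∫⁻ p : T3 × V, ψ p.2 * plusTerm F G (s, p) := by
  have mm := measurable_minusTerm hF.measurable hG.measurable
  have mp := measurable_plusTerm hF.measurable hG.measurable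
  rw [← swap_flow hψm mm, ← swap_flow hψm mp]
  unfold posE
  have mb : ∀ r, Measurable fun p : T3 × V =>
      ψ p.2 * ENNReal.ofReal (bar F0 F r p - bar G0 G r p) := fun r =>
    (hψm.comp measurable_snd).mul ((measurable_bar' hF.measurable0 hF.measurable r).sub
      (measurable_bar' hG.measurable0 hG.measurable r)).ennreal_ofReal
  rw [← lintegral_add_left (mb t), ← lintegral_add_left (mb τ)]
  apply lintegral_congr_ae
  filter_upwards [hF.gain_fin, hF.loss_fin, hG.gain_fin, hG.loss_fin, hF.mild, hG.mild]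
    with p h1 h2 h3 h4 h5 h6
  have hpm : Measurable fun t : ℝ => (t, p) := by fun_prop
  have h := one_dim_pos (f := fun t => along F (t, p)) (g := fun t => along G (t, p))
    ((measurable_along hF.measurable).comp hpm) ((measurable_along hG.measurable).comp hpm)
    ((measurable_gainA hF.measurable).comp hpm) ((measurable_lossA hF.measurable).comp hpm)
    ((measurable_gainA hG.measurable).comp hpm) ((measurable_lossA hG.measurable).comp hpm)
    h1 h2 h3 h4 h5 h6 hτ hτt htT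
  rw [← mul_add, ← mul_add]
  congr 1

/-- good times: the mild representative is the solution -/
theorem good_times (hF : IsMild T F0 F) :
    ∀ᵐ t ∂(volume.restrict (Ioc 0 T)), ∀ᵐ p : T3 × V, along F (t, p) = bar F0 F t p := by
  have h := hF.mild
  have hm : MeasurableSet {q : ℝ × T3 × V | along F q = bar F0 F q.1 q.2} :=
    measurableSet_eq_fun (measurable_along hF.measurable)
      (measurable_bar hF.measurable0 hF.measurable)
  have h1 : ∀ᵐ z ∂((volume : Measure (T3 × V)).prod (volume.restrict (Ioc 0 T))),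
      along F (z.2, z.1) = bar F0 F z.2 z.1 := by
    rw [Measure.ae_prod_iff_ae_ae (p := fun z : (T3 × V) × ℝ => along F (z.2, z.1) = bar F0 F z.2 z.1)
      (measurable_swap hm)]
    exact h
  have h2 := (Measure.measurePreserving_swap (μ := (volume.restrict (Ioc 0 T)))
      (ν := (volume : Measure (T3 × V)))).quasiMeasurePreserving.ae h1
  exact (Measure.ae_ae_of_ae_prod h2 :)

/-- at good times `posE` is the weighted integral of the positive part of the difference -/
theorem posE_eq {ψ : V → ℝ≥0∞} (hψm : Measurable ψ)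
    (mF : Measurable fun p : ℝ × T3 × V => F p.1 p.2.1 p.2.2)
    (mG : Measurable fun p : ℝ × T3 × V => G p.1 p.2.1 p.2.2) {t : ℝ}
    (h1 : ∀ᵐ p : T3 × V, along F (t, p) = bar F0 F t p)
    (h2 : ∀ᵐ p : T3 × V, along G (t, p) = bar G0 G t p) :
    posE ψ F0 F G0 G t = ∫⁻ p : T3 × V, ψ p.2 * ENNReal.ofReal (F t p.1 p.2 - G t p.1 p.2) := by
  unfold posE
  have h3 : ∫⁻ p : T3 × V, ψ p.2 * ENNReal.ofReal (bar F0 F t p - bar G0 G t p)
      = ∫⁻ p : T3 × V, ψ p.2 * ENNReal.ofReal (along F (t, p) - along G (t, p)) := by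
    apply lintegral_congr_ae
    filter_upwards [h1, h2] with p hp1 hp2
    rw [hp1, hp2]
  rw [h3]
  have hmt : Measurable fun p : T3 × V => (t, p) := by fun_prop
  exact lintegral_flow t (f := fun p => ψ p.2 * ENNReal.ofReal (F t p.1 p.2 - G t p.1 p.2))
    ((hψm.comp measurable_snd).mul ((mF.comp hmt).sub (mG.comp hmt)).ennreal_ofReal)

end

end Vale.Agent.P140
end
end

section

open MeasureTheory Set Filter
open scoped ENNReal Topology NNReal

noncomputable section

namespace Vale.Agent.P140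

variable {T : ℝ} {F0 G0 : T3 → V → ℝ} {F G : ℝ → T3 → V → ℝ} {ψ : V → ℝ≥0∞}

/-- weighted phase space integral of a nonnegative function -/
def wInt (ψ : V → ℝ≥0∞) (f : T3 → V → ℝ) : ℝ≥0∞ :=
  ∫⁻ p : T3 × V, ψ p.2 * ENNReal.ofReal (f p.1 p.2)

/-- weighted `L¹` distance on phase space -/
def wDist (ψ : V → ℝ≥0∞) (f g : T3 → V → ℝ) : ℝ≥0∞ :=
  ∫⁻ p : T3 × V, ψ p.2 * ENNReal.ofReal |f p.1 p.2 - g p.1 p.2|

theorem measurable_slice {F : ℝ → T3 → V → ℝ}
    (hF : Measurable fun p : ℝ × T3 × V => F p.1 p.2.1 p.2.2) (t : ℝ) (x : T3) :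
    Measurable (F t x) :=
  hF.comp (by fun_prop : Measurable fun v : V => (t, x, v))

theorem measurable_gain_slice {F : ℝ → T3 → V → ℝ}
    (hF : Measurable fun p : ℝ × T3 × V => F p.1 p.2.1 p.2.2) (s : ℝ) :
    Measurable fun p : T3 × V => gain (F s p.1) p.2 := by
  have h1 : Measurable fun p : T3 × V => ((s, p) : ℝ × T3 × V) := by fun_prop
  have h := (measurable_gain_st hF).comp h1
  have h4 : ((fun p : ℝ × T3 × V => gain (F p.1 p.2.1) p.2.2) ∘
      fun p : T3 × V => ((s, p) : ℝ × T3 × V)) = fun p : T3 × V => gain (F s p.1) p.2 := by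
    funext p
    rfl
  rw [h4] at h
  exact h

theorem measurable_loss_slice {F : ℝ → T3 → V → ℝ}
    (hF : Measurable fun p : ℝ × T3 × V => F p.1 p.2.1 p.2.2) (s : ℝ) :
    Measurable fun p : T3 × V => loss (F s p.1) p.2 := by
  have h1 : Measurable fun p : T3 × V => ((s, p) : ℝ × T3 × V) := by fun_prop
  have h := (measurable_loss_st hF).comp h1
  have h4 : ((fun p : ℝ × T3 × V => loss (F p.1 p.2.1) p.2.2) ∘
      fun p : T3 × V => ((s, p) : ℝ × T3 × V)) = fun p : T3 × V => loss (F s p.1) p.2 := by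
    funext p
    rfl
  rw [h4] at h
  exact h

/-- `∫ ψ Q⁺(f,f) = ∫ ψ Q⁻(f,f)` for collision invariant weights -/
theorem gain_loss_weight (hψm : Measurable ψ) (hψ : CollInv ψ) {f : V → ℝ} (hf : Measurable f)
    (hf0 : ∀ v, 0 ≤ f v) : ∫⁻ v, ψ v * gain f v = ∫⁻ v, ψ v * loss f v := by
  have h1 := weighted_gain (ψ := ψ) (fun _ => True) hf hf0
  have h2 := weighted_loss (ψ := ψ) (fun _ => True) hf hf0
  simp only [if_true] at h1 h2
  rw [h1, h2]
  have hF := measurable_eR hf
  exact symmetrize hψm hψ (X := fun z => eR f z.1 * eR f z.2)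
    ((hF.comp measurable_fst).mul (hF.comp measurable_snd)) (fun v w => mul_comm _ _)

/-- the basic differential inequality between two positive times -/
theorem posE_le (hF : IsMild T F0 F) (hG : IsMild T G0 G) (hψm : Measurable ψ) (hψ : CollInv ψ)
    {τ t : ℝ} (hτ : 0 ≤ τ) (hτt : τ ≤ t) (htT : t ≤ T) (hfin0 : posE ψ F0 F G0 G τ < ⊤)
    (hfin : ∫⁻ s in Ioc τ t, ∫⁻ p : T3 × V, ψ p.2 * plusTerm F G (s, p) < ⊤) :
    posE ψ F0 F G0 G t ≤ posE ψ F0 F G0 G τ
      + ∫⁻ s in Ioc τ t, ∫⁻ x : T3, cross ψ (F s x) (G s x) := by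
  have mm := measurable_minusTerm hF.measurable hG.measurable
  have mp := measurable_plusTerm hF.measurable hG.measurable
  have hid := pos_identity hF hG hψm hτ hτt htT
  have hB : ∫⁻ s in Ioc τ t, ∫⁻ p : T3 × V, ψ p.2 * minusTerm F G (s, p) < ⊤ := by
    have h1 : posE ψ F0 F G0 G t + ∫⁻ s in Ioc τ t, ∫⁻ p : T3 × V, ψ p.2 * minusTerm F G (s, p) < ⊤ := by
      rw [hid]
      exact ENNReal.add_lt_top.mpr ⟨hfin0, hfin⟩
    exact (ENNReal.add_lt_top.mp h1).2
  have hAB : ∫⁻ s in Ioc τ t, ∫⁻ p : T3 × V, ψ p.2 * plusTerm F G (s, p)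
      ≤ (∫⁻ s in Ioc τ t, ∫⁻ p : T3 × V, ψ p.2 * minusTerm F G (s, p))
        + ∫⁻ s in Ioc τ t, ∫⁻ x : T3, cross ψ (F s x) (G s x) := by
    have m1 : Measurable fun s : ℝ => ∫⁻ p : T3 × V, ψ p.2 * minusTerm F G (s, p) := by
      apply Measurable.lintegral_prod_right' (f := fun z : ℝ × T3 × V => ψ z.2.2 * minusTerm F G z)
      exact (hψm.comp measurable_snd.snd).mul mm
    rw [← lintegral_add_left m1]
    apply lintegral_mono
    intro s
    have hms : Measurable fun p : T3 × V => (s, p) := by fun_prop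
    have m2 : Measurable fun p : T3 × V => ψ p.2 * minusTerm F G (s, p) :=
      (hψm.comp measurable_snd).mul (mm.comp hms)
    have m3 : Measurable fun p : T3 × V => ψ p.2 * plusTerm F G (s, p) :=
      (hψm.comp measurable_snd).mul (mp.comp hms)
    simp only
    rw [Measure.volume_eq_prod, lintegral_prod _ m2.aemeasurable, lintegral_prod _ m3.aemeasurable,
      ← lintegral_add_left (m2.lintegral_prod_right')]
    apply lintegral_mono
    intro x
    exact coll_ineq hψm hψ (measurable_slice hF.measurable s x) (measurable_slice hG.measurable s x)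
      (hF.nonneg s x) (hG.nonneg s x)
  have h2 : posE ψ F0 F G0 G t + ∫⁻ s in Ioc τ t, ∫⁻ p : T3 × V, ψ p.2 * minusTerm F G (s, p)
      ≤ (posE ψ F0 F G0 G τ + ∫⁻ s in Ioc τ t, ∫⁻ x : T3, cross ψ (F s x) (G s x))
        + ∫⁻ s in Ioc τ t, ∫⁻ p : T3 × V, ψ p.2 * minusTerm F G (s, p) := by
    rw [hid]
    calc _ ≤ _ := add_le_add_right hAB _
      _ = _ := by ring
  exact (ENNReal.add_le_add_iff_right hB.ne).mp h2

/-- a good time: the mild representative coincides with the solution a.e. -/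
def Good (F0 : T3 → V → ℝ) (F : ℝ → T3 → V → ℝ) (t : ℝ) : Prop :=
  ∀ᵐ p : T3 × V, along F (t, p) = bar F0 F t p

theorem wInt_eq_bar (hψm : Measurable ψ) (mF : Measurable fun p : ℝ × T3 × V => F p.1 p.2.1 p.2.2)
    {t : ℝ} (h : Good F0 F t) :
    wInt ψ (F t) = ∫⁻ p : T3 × V, ψ p.2 * ENNReal.ofReal (bar F0 F t p) := by
  have h3 : ∫⁻ p : T3 × V, ψ p.2 * ENNReal.ofReal (bar F0 F t p)
      = ∫⁻ p : T3 × V, ψ p.2 * ENNReal.ofReal (along F (t, p)) := by
    apply lintegral_congr_ae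
    filter_upwards [h] with p hp1
    rw [hp1]
  rw [h3]
  have hmt : Measurable fun p : T3 × V => (t, p) := by fun_prop
  exact (lintegral_flow t (f := fun p => ψ p.2 * ENNReal.ofReal (F t p.1 p.2))
    ((hψm.comp measurable_snd).mul (mF.comp hmt).ennreal_ofReal)).symm

/-- the linear identity on one characteristic -/
theorem one_dim_lin {f0 : ℝ} {g l : ℝ → ℝ≥0∞} (mg : Measurable g) (ml : Measurable l)
    (ig : ∫⁻ s in Ioc 0 T, g s < ⊤) (il : ∫⁻ s in Ioc 0 T, l s < ⊤)
    {τ t : ℝ} (hτ : 0 ≤ τ) (hτt : τ ≤ t) (htT : t ≤ T)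
    (p1 : 0 ≤ f0 + ∫ s in Ioc 0 τ, ((g s).toReal - (l s).toReal))
    (p2 : 0 ≤ f0 + ∫ s in Ioc 0 t, ((g s).toReal - (l s).toReal)) :
    ENNReal.ofReal (f0 + ∫ s in Ioc 0 t, ((g s).toReal - (l s).toReal)) + ∫⁻ s in Ioc τ t, l s
      = ENNReal.ofReal (f0 + ∫ s in Ioc 0 τ, ((g s).toReal - (l s).toReal)) + ∫⁻ s in Ioc τ t, g s := by
  have Ig := integrableOn_toReal mg ig
  have Il := integrableOn_toReal ml il
  have hsub : Ioc τ t ⊆ Ioc 0 T := Ioc_subset_Ioc hτ htT
  have hfin : ∀ k : ℝ → ℝ≥0∞, Measurable k → ∫⁻ s in Ioc 0 T, k s < ⊤ →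
      ENNReal.ofReal (∫ s in Ioc τ t, (k s).toReal) = ∫⁻ s in Ioc τ t, k s := by
    intro k hk hki
    have h1 : ∫⁻ s in Ioc τ t, k s < ⊤ := lt_of_le_of_lt (lintegral_mono_set hsub) hki
    rw [ofReal_integral_eq_lintegral_ofReal (integrableOn_toReal hk h1)
      (Eventually.of_forall fun _ => ENNReal.toReal_nonneg)]
    apply lintegral_congr_ae
    filter_upwards [ae_lt_top hk h1.ne] with s hs
    exact ENNReal.ofReal_toReal hs.ne
  rw [← hfin g mg ig, ← hfin l ml il, ← ENNReal.ofReal_add p2 (integral_nonneg fun _ =>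
    ENNReal.toReal_nonneg), ← ENNReal.ofReal_add p1 (integral_nonneg fun _ => ENNReal.toReal_nonneg)]
  congr 1
  have hun : Ioc 0 t = Ioc 0 τ ∪ Ioc τ t := (Ioc_union_Ioc_eq_Ioc hτ hτt).symm
  have i1 : IntegrableOn (fun s => (g s).toReal - (l s).toReal) (Ioc 0 T) := Ig.sub Il
  rw [hun, setIntegral_union (Ioc_disjoint_Ioc_of_le le_rfl) measurableSet_Ioc
    (i1.mono_set (Ioc_subset_Ioc_right (hτt.trans htT))) (i1.mono_set hsub)]
  rw [integral_sub (Ig.mono_set hsub) (Il.mono_set hsub)]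
  ring

/-- conservation of weighted integrals between two times -/
theorem wInt_conserved (hF : IsMild T F0 F) (hψm : Measurable ψ) (hψ : CollInv ψ)
    {τ t : ℝ} (hτ : 0 ≤ τ) (hτt : τ ≤ t) (htT : t ≤ T)
    (p1 : ∀ᵐ p : T3 × V, 0 ≤ bar F0 F τ p) (p2 : ∀ᵐ p : T3 × V, 0 ≤ bar F0 F t p)
    (hfin : ∫⁻ s in Ioc τ t, ∫⁻ p : T3 × V, ψ p.2 * loss (F s p.1) p.2 < ⊤) :
    ∫⁻ p : T3 × V, ψ p.2 * ENNReal.ofReal (bar F0 F t p)
      = ∫⁻ p : T3 × V, ψ p.2 * ENNReal.ofReal (bar F0 F τ p) := by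
  have mg := measurable_gain_st hF.measurable
  have ml := measurable_loss_st hF.measurable
  have h1 : (∫⁻ p : T3 × V, ψ p.2 * ENNReal.ofReal (bar F0 F t p))
        + ∫⁻ s in Ioc τ t, ∫⁻ p : T3 × V, ψ p.2 * loss (F s p.1) p.2
      = (∫⁻ p : T3 × V, ψ p.2 * ENNReal.ofReal (bar F0 F τ p))
        + ∫⁻ s in Ioc τ t, ∫⁻ p : T3 × V, ψ p.2 * gain (F s p.1) p.2 := by
    have e1 := swap_flow hψm ml (Ioc τ t)
    have e2 := swap_flow hψm mg (Ioc τ t)
    simp only at e1 e2
    rw [← e1, ← e2]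
    have mb : ∀ r, Measurable fun p : T3 × V => ψ p.2 * ENNReal.ofReal (bar F0 F r p) := fun r =>
      (hψm.comp measurable_snd).mul (measurable_bar' hF.measurable0 hF.measurable r).ennreal_ofReal
    rw [← lintegral_add_left (mb t), ← lintegral_add_left (mb τ)]
    apply lintegral_congr_ae
    filter_upwards [hF.gain_fin, hF.loss_fin, p1, p2] with p q1 q2 q3 q4
    have hpm : Measurable fun t : ℝ => (t, p) := by fun_prop
    have h := one_dim_lin ((measurable_gainA hF.measurable).comp hpm)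
      ((measurable_lossA hF.measurable).comp hpm) q1 q2 hτ hτt htT q3 q4
    rw [← mul_add, ← mul_add]
    congr 1
  have h2 : ∫⁻ s in Ioc τ t, ∫⁻ p : T3 × V, ψ p.2 * gain (F s p.1) p.2
      = ∫⁻ s in Ioc τ t, ∫⁻ p : T3 × V, ψ p.2 * loss (F s p.1) p.2 := by
    apply lintegral_congr
    intro s
    have k1 : Measurable fun p : T3 × V => ψ p.2 * gain (F s p.1) p.2 :=
      (hψm.comp measurable_snd).mul (measurable_gain_slice hF.measurable s)
    have k2 : Measurable fun p : T3 × V => ψ p.2 * loss (F s p.1) p.2 :=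
      (hψm.comp measurable_snd).mul (measurable_loss_slice hF.measurable s)
    rw [Measure.volume_eq_prod, lintegral_prod _ k1.aemeasurable, lintegral_prod _ k2.aemeasurable]
    apply lintegral_congr
    intro x
    exact gain_loss_weight hψm hψ (measurable_slice hF.measurable s x) (hF.nonneg s x)
  rw [h2] at h1
  exact (ENNReal.add_left_inj hfin.ne).mp h1

theorem bar_zero (F0 : T3 → V → ℝ) (F : ℝ → T3 → V → ℝ) (p : T3 × V) : bar F0 F 0 p = F0 p.1 p.2 := by
  simp only [bar, lt_self_iff_false, not_false_eq_true, Ioc_eq_empty, Measure.restrict_empty, integral_zero_measure, add_zero]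

/-- the mild representative is continuous at time zero from the right -/
theorem tendsto_bar_zero (hT : 0 < T) (hF : IsMild T F0 F) :
    ∀ᵐ p : T3 × V, Tendsto (fun t => bar F0 F t p) (𝓝[>] 0) (𝓝 (F0 p.1 p.2)) := by
  · filter_upwards [hF.gain_fin, hF.loss_fin] with p q1 q2
    have hpm : Measurable fun t : ℝ => (t, p) := by fun_prop
    have Ig := integrableOn_toReal ((measurable_gainA hF.measurable).comp hpm) q1
    have Il := integrableOn_toReal ((measurable_lossA hF.measurable).comp hpm) q2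
    have i1 : IntegrableOn (fun s => (gainA F (s, p)).toReal - (lossA F (s, p)).toReal) (Ioc 0 T) :=
      Ig.sub Il
    have hii : IntervalIntegrable (fun s => (gainA F (s, p)).toReal - (lossA F (s, p)).toReal)
        volume 0 T := by
      rwa [intervalIntegrable_iff_integrableOn_Ioc_of_le hT.le]
    have hc : ContinuousOn (fun t => F0 p.1 p.2 + ∫ s in (0:ℝ)..t,
        ((gainA F (s, p)).toReal - (lossA F (s, p)).toReal)) (uIcc 0 T) :=
      (ac_primitive hii _).continuousOn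
    have h0 : (0 : ℝ) ∈ uIcc 0 T := by simp only [left_mem_uIcc]
    have h1 := hc 0 h0
    rw [ContinuousWithinAt] at h1
    simp only [intervalIntegral.integral_same, add_zero] at h1
    have h2 : 𝓝[>] (0 : ℝ) ≤ 𝓝[uIcc 0 T] 0 := by
      rw [uIcc_of_le hT.le]
      exact nhdsWithin_le_of_mem (Icc_mem_nhdsGT hT)
    refine (h1.mono_left h2).congr' ?_
    filter_upwards [self_mem_nhdsWithin] with t ht
    unfold bar
    rw [intervalIntegral.integral_of_le (le_of_lt ht)]

theorem bar_nonneg_of_good (hF : IsMild T F0 F) {t : ℝ} (h : Good F0 F t) :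
    ∀ᵐ p : T3 × V, 0 ≤ bar F0 F t p := by
  filter_upwards [h] with p hp
  rw [← hp]
  exact hF.nonneg _ _ _

theorem ofReal_min_add {a b : ℝ} (hb : 0 ≤ b) :
    ENNReal.ofReal (min a b) + ENNReal.ofReal (a - b) = ENNReal.ofReal a := by
  rcases le_total a b with h | h
  · rw [min_eq_left h, ENNReal.ofReal_of_nonpos (sub_nonpos.mpr h), add_zero]
  · rw [min_eq_right h, ← ENNReal.ofReal_add hb (sub_nonneg.mpr h)]
    congr 1
    ring

theorem ofReal_abs_add {a b : ℝ} (ha : 0 ≤ a) (hb : 0 ≤ b) :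
    ENNReal.ofReal |a - b| + ENNReal.ofReal a = 2 * ENNReal.ofReal (a - b) + ENNReal.ofReal b := by
  rcases le_total a b with h | h
  · rw [ENNReal.ofReal_of_nonpos (sub_nonpos.mpr h), mul_zero, zero_add,
      abs_of_nonpos (sub_nonpos.mpr h), ← ENNReal.ofReal_add (by linarith) ha]
    congr 1
    ring
  · rw [abs_of_nonneg (sub_nonneg.mpr h), two_mul, ← ENNReal.ofReal_add (by linarith only [h]) ha,
      ← ENNReal.ofReal_add (by linarith) (by linarith), ← ENNReal.ofReal_add (by linarith only [h]) hb]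
    congr 1
    ring

theorem exists_seq_good {P : ℝ → Prop} (hT : 0 < T)
    (h : ∀ᵐ t ∂(volume.restrict (Ioc 0 T)), P t) :
    ∃ τ : ℕ → ℝ, (∀ n, P (τ n)) ∧ (∀ n, τ n ∈ Ioc 0 T) ∧ Tendsto τ atTop (𝓝[>] 0) := by
  have h1 : ∀ n : ℕ, ∃ τ, P τ ∧ τ ∈ Ioc 0 T ∧ τ ≤ 1 / ((n : ℝ) + 1) := by
    intro n
    by_contra hcon
    push Not at hcon
    set δ : ℝ := min T (1 / ((n : ℝ) + 1)) with hδ
    have hδ0 : 0 < δ := lt_min hT (by positivity)
    have h2 : ∀ᵐ t ∂(volume.restrict (Ioc 0 T)), t ∉ Ioc 0 δ := by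
      filter_upwards [h] with t ht hmem
      have h3 := hcon t ht ⟨hmem.1, hmem.2.trans (min_le_left _ _)⟩
      exact absurd (hmem.2.trans (min_le_right _ _)) (not_le.mpr h3)
    rw [ae_iff] at h2
    simp only [not_not, Set.ofPred_mem_eq] at h2
    rw [Measure.restrict_apply measurableSet_Ioc,
      inter_eq_left.mpr (Ioc_subset_Ioc_right (min_le_left _ _)), Real.volume_Ioc] at h2
    have h4 : 0 < ENNReal.ofReal (δ - 0) := by
      rw [ENNReal.ofReal_pos]
      linarith only [hδ0]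
    exact absurd h2 h4.ne'
  choose τ h2 h3 h4 using h1
  refine ⟨τ, h2, h3, ?_⟩
  rw [tendsto_nhdsWithin_iff]
  refine ⟨?_, Eventually.of_forall fun n => (h3 n).1⟩
  exact squeeze_zero (fun n => (h3 n).1.le) h4 tendsto_one_div_add_atTop_nhds_zero_nat

theorem fatou_bar {f : ℕ → T3 × V → ℝ≥0∞} {g : T3 × V → ℝ≥0∞} (hf : ∀ n, Measurable (f n))
    (h : ∀ᵐ p : T3 × V, Tendsto (fun n => f n p) atTop (𝓝 (g p))) :
    ∫⁻ p, g p ≤ liminf (fun n => ∫⁻ p, f n p) atTop := by
  calc ∫⁻ p, g p = ∫⁻ p, liminf (fun n => f n p) atTop := by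
        apply lintegral_congr_ae
        filter_upwards [h] with p hp
        exact hp.liminf_eq.symm
    _ ≤ _ := lintegral_liminf_le hf

end Vale.Agent.P140
end
end

section

open MeasureTheory Set Filter
open scoped ENNReal Topology NNReal

noncomputable section

namespace Vale.Agent.P140

variable {T : ℝ} {F0 G0 : T3 → V → ℝ} {F G : ℝ → T3 → V → ℝ} {ψ : V → ℝ≥0∞}

theorem wDist_add (hψm : Measurable ψ) {f g : T3 → V → ℝ}
    (hf : Measurable fun p : T3 × V => f p.1 p.2) (hg : Measurable fun p : T3 × V => g p.1 p.2)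
    (hf0 : ∀ x v, 0 ≤ f x v) (hg0 : ∀ x v, 0 ≤ g x v) :
    wDist ψ f g + wInt ψ f
      = 2 * (∫⁻ p : T3 × V, ψ p.2 * ENNReal.ofReal (f p.1 p.2 - g p.1 p.2)) + wInt ψ g := by
  unfold wDist wInt
  have mψ : Measurable fun p : T3 × V => ψ p.2 := hψm.comp measurable_snd
  have m1 : Measurable fun p : T3 × V => ψ p.2 * ENNReal.ofReal |f p.1 p.2 - g p.1 p.2| :=
    mψ.mul (hf.sub hg).abs.ennreal_ofReal
  have m2 : Measurable fun p : T3 × V => ψ p.2 * ENNReal.ofReal (f p.1 p.2 - g p.1 p.2) :=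
    mψ.mul (hf.sub hg).ennreal_ofReal
  have m3 : Measurable fun p : T3 × V => 2 * (ψ p.2 * ENNReal.ofReal (f p.1 p.2 - g p.1 p.2)) :=
    m2.const_mul _
  rw [← lintegral_const_mul _ m2, ← lintegral_add_left m1, ← lintegral_add_left m3]
  apply lintegral_congr
  intro p
  have h := ofReal_abs_add (hf0 p.1 p.2) (hg0 p.1 p.2)
  rw [← mul_add, h]
  ring

/-- **General stability inequality.** -/
theorem stab_general (hT : 0 < T) (hF : IsMild T F0 F) (hG : IsMild T G0 G)
    (hψm : Measurable ψ) (hψf : ∀ v, ψ v ≠ ⊤) (hψ : CollInv ψ) (fF0 : wInt ψ F0 < ⊤)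
    (eF : ∀ᵐ t ∂(volume.restrict (Ioc 0 T)), wInt ψ (F t) ≤ wInt ψ F0)
    (eG : ∀ᵐ t ∂(volume.restrict (Ioc 0 T)), wInt ψ (G t) ≤ wInt ψ G0)
    (hl : ∀ τ, 0 < τ → ∫⁻ s in Ioc τ T, ∫⁻ p : T3 × V, ψ p.2 * loss (F s p.1) p.2 < ⊤)
    (hlG : ∀ τ, 0 < τ → ∫⁻ s in Ioc τ T, ∫⁻ p : T3 × V, ψ p.2 *
      (if G s p.1 p.2 < F s p.1 p.2 then loss (G s p.1) p.2 else 0) < ⊤) :
    ∀ᵐ t ∂(volume.restrict (Ioc 0 T)), wDist ψ (F t) (G t) ≤ wDist ψ F0 G0
      + 2 * ∫⁻ s in Ioc 0 t, ∫⁻ x : T3, cross ψ (F s x) (G s x) := by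
  have hmt : ∀ t : ℝ, Measurable fun p : T3 × V => (t, p) := fun t => by fun_prop
  have mFt : ∀ t, Measurable fun p : T3 × V => F t p.1 p.2 := fun t => hF.measurable.comp (hmt t)
  have mGt : ∀ t, Measurable fun p : T3 × V => G t p.1 p.2 := fun t => hG.measurable.comp (hmt t)
  have mψ : Measurable fun p : T3 × V => ψ p.2 := hψm.comp measurable_snd
  have mbF := fun t => measurable_bar' hF.measurable0 hF.measurable t
  have mbG := fun t => measurable_bar' hG.measurable0 hG.measurable t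
  have hgood : ∀ᵐ t ∂(volume.restrict (Ioc 0 T)), Good F0 F t ∧ Good G0 G t ∧
      wInt ψ (F t) ≤ wInt ψ F0 ∧ wInt ψ (G t) ≤ wInt ψ G0 := by
    filter_upwards [good_times hF, good_times hG, eF, eG] with t h1 h2 h3 h4
    exact ⟨h1, h2, h3, h4⟩
  obtain ⟨τ, hτg, hτm, hτlim⟩ := exists_seq_good hT hgood
  -- the two collision integrals are finite away from time zero
  have hplus : ∀ n t, t ≤ T →
      ∫⁻ s in Ioc (τ n) t, ∫⁻ p : T3 × V, ψ p.2 * plusTerm F G (s, p) < ⊤ := by
    intro n t ht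
    have h1 : ∀ s, ∫⁻ p : T3 × V, ψ p.2 * plusTerm F G (s, p)
        ≤ (∫⁻ p : T3 × V, ψ p.2 * loss (F s p.1) p.2) + ∫⁻ p : T3 × V, ψ p.2 *
          (if G s p.1 p.2 < F s p.1 p.2 then loss (G s p.1) p.2 else 0) := by
      intro s
      have k1 : Measurable fun p : T3 × V => ψ p.2 * gain (F s p.1) p.2 :=
        mψ.mul (measurable_gain_slice hF.measurable s)
      have k2 : Measurable fun p : T3 × V => ψ p.2 * loss (F s p.1) p.2 :=
        mψ.mul (measurable_loss_slice hF.measurable s)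
      have h2 : ∫⁻ p : T3 × V, ψ p.2 * loss (F s p.1) p.2
          = ∫⁻ p : T3 × V, ψ p.2 * gain (F s p.1) p.2 := by
        rw [Measure.volume_eq_prod, lintegral_prod _ k1.aemeasurable,
          lintegral_prod _ k2.aemeasurable]
        apply lintegral_congr
        intro x
        exact (gain_loss_weight hψm hψ (measurable_slice hF.measurable s x) (hF.nonneg s x)).symm
      rw [h2, ← lintegral_add_left k1]
      apply lintegral_mono
      intro p
      simp only
      rw [← mul_add]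
      gcongr
      unfold plusTerm
      simp only
      split_ifs
      · exact le_rfl
      · exact zero_le
    have m1 : Measurable fun s : ℝ => ∫⁻ p : T3 × V, ψ p.2 * loss (F s p.1) p.2 := by
      apply Measurable.lintegral_prod_right'
        (f := fun z : ℝ × T3 × V => ψ z.2.2 * loss (F z.1 z.2.1) z.2.2)
      exact (hψm.comp measurable_snd.snd).mul (measurable_loss_st hF.measurable)
    calc ∫⁻ s in Ioc (τ n) t, ∫⁻ p : T3 × V, ψ p.2 * plusTerm F G (s, p)
        ≤ ∫⁻ s in Ioc (τ n) T, ∫⁻ p : T3 × V, ψ p.2 * plusTerm F G (s, p) :=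
          lintegral_mono_set (Ioc_subset_Ioc_right ht)
      _ ≤ ∫⁻ s in Ioc (τ n) T, ((∫⁻ p : T3 × V, ψ p.2 * loss (F s p.1) p.2)
            + ∫⁻ p : T3 × V, ψ p.2 *
          (if G s p.1 p.2 < F s p.1 p.2 then loss (G s p.1) p.2 else 0)) :=
          lintegral_mono fun s => h1 s
      _ < ⊤ := by
          rw [lintegral_add_left m1]
          exact ENNReal.add_lt_top.mpr ⟨hl _ (hτm n).1, hlG _ (hτm n).1⟩
  -- splitting of the weighted integral of `F`
  have hsplit : ∀ r, (∀ᵐ p : T3 × V, 0 ≤ bar G0 G r p) →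
      (∫⁻ p : T3 × V, ψ p.2 * ENNReal.ofReal (min (bar F0 F r p) (bar G0 G r p)))
        + posE ψ F0 F G0 G r = ∫⁻ p : T3 × V, ψ p.2 * ENNReal.ofReal (bar F0 F r p) := by
    intro r h2
    unfold posE
    have m1 : Measurable fun p : T3 × V =>
        ψ p.2 * ENNReal.ofReal (min (bar F0 F r p) (bar G0 G r p)) :=
      mψ.mul ((mbF r).min (mbG r)).ennreal_ofReal
    rw [← lintegral_add_left m1]
    apply lintegral_congr_ae
    filter_upwards [h2] with p hp
    rw [← mul_add, ofReal_min_add hp]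
  -- value at time zero
  have hb0F : ∫⁻ p : T3 × V, ψ p.2 * ENNReal.ofReal (bar F0 F 0 p) = wInt ψ F0 := by
    unfold wInt
    simp only [bar_zero]
  have hsplit0 := hsplit 0 (Eventually.of_forall fun p => by
    rw [bar_zero]; exact hG.nonneg0 _ _)
  rw [hb0F] at hsplit0
  have hcF := tendsto_bar_zero hT hF
  have hcG := tendsto_bar_zero hT hG
  -- Fatou for the minimum
  have hfat1 : ∫⁻ p : T3 × V, ψ p.2 * ENNReal.ofReal (min (bar F0 F 0 p) (bar G0 G 0 p))
      ≤ liminf (fun n => ∫⁻ p : T3 × V, ψ p.2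
        * ENNReal.ofReal (min (bar F0 F (τ n) p) (bar G0 G (τ n) p))) atTop := by
    apply fatou_bar
    · intro n
      exact mψ.mul ((mbF (τ n)).min (mbG (τ n))).ennreal_ofReal
    · filter_upwards [hcF, hcG] with p h1 h2
      rw [bar_zero, bar_zero]
      apply ENNReal.Tendsto.const_mul
      · exact ENNReal.tendsto_ofReal ((h1.comp hτlim).min (h2.comp hτlim))
      · right
        exact hψf _
  have hfat2 : wInt ψ F0 ≤ liminf (fun n => ∫⁻ p : T3 × V, ψ p.2
        * ENNReal.ofReal (bar F0 F (τ n) p)) atTop := by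
    rw [← hb0F]
    apply fatou_bar
    · intro n
      exact mψ.mul (mbF (τ n)).ennreal_ofReal
    · filter_upwards [hcF] with p h1
      rw [bar_zero]
      apply ENNReal.Tendsto.const_mul
      · exact ENNReal.tendsto_ofReal (h1.comp hτlim)
      · right
        exact hψf _
  rw [ae_restrict_iff' measurableSet_Ioc] at hgood ⊢
  filter_upwards [hgood] with t htg ht
  obtain ⟨gF, gG, wF, wG⟩ := htg ht
  have hτt : ∀ᶠ n in atTop, τ n < t := by
    have h1 : Tendsto τ atTop (𝓝 0) := hτlim.mono_right nhdsWithin_le_nhds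
    exact h1.eventually_lt_const ht.1
  have hlτ : ∀ n, τ n < t → ∫⁻ s in Ioc (τ n) t, ∫⁻ p : T3 × V, ψ p.2 * loss (F s p.1) p.2 < ⊤ := by
    intro n _
    exact lt_of_le_of_lt (lintegral_mono_set (Ioc_subset_Ioc_right ht.2)) (hl _ (hτm n).1)
  -- conservation
  have hcons : wInt ψ (F t) = wInt ψ F0 := by
    apply le_antisymm wF
    refine hfat2.trans ?_
    have h1 : ∀ᶠ n in atTop, ∫⁻ p : T3 × V, ψ p.2 * ENNReal.ofReal (bar F0 F (τ n) p)
        = wInt ψ (F t) := by
      filter_upwards [hτt] with n hn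
      rw [wInt_eq_bar hψm hF.measurable gF]
      exact (wInt_conserved hF hψm hψ (hτm n).1.le hn.le ht.2
        (bar_nonneg_of_good hF (hτg n).1) (bar_nonneg_of_good hF gF) (hlτ n hn)).symm
    rw [liminf_congr h1]
    simp
  -- the positive part at time `t`
  have hpt : posE ψ F0 F G0 G t = ∫⁻ p : T3 × V, ψ p.2 * ENNReal.ofReal (F t p.1 p.2 - G t p.1 p.2) :=
    posE_eq hψm hF.measurable hG.measurable gF gG
  have hpfin : ∀ r, Good F0 F r → Good G0 G r → wInt ψ (F r) ≤ wInt ψ F0 →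
      posE ψ F0 F G0 G r < ⊤ := by
    intro r h1 h2 h3
    rw [posE_eq hψm hF.measurable hG.measurable h1 h2]
    refine lt_of_le_of_lt (lintegral_mono fun p => ?_) (lt_of_le_of_lt h3 fF0)
    gcongr
    have := hG.nonneg r p.1 p.2
    linarith only [this]
  set D : ℝ≥0∞ := ∫⁻ s in Ioc 0 t, ∫⁻ x : T3, cross ψ (F s x) (G s x) with hD
  have hpos : posE ψ F0 F G0 G t ≤ posE ψ F0 F G0 G 0 + D := by
    set μ0 := ∫⁻ p : T3 × V, ψ p.2 * ENNReal.ofReal (min (bar F0 F 0 p) (bar G0 G 0 p)) with hμ0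
    have hμfin : μ0 < ⊤ := by
      refine lt_of_le_of_lt ?_ fF0
      rw [← hsplit0]
      exact le_self_add
    have h1 : ∀ᶠ n in atTop, (∫⁻ p : T3 × V, ψ p.2
        * ENNReal.ofReal (min (bar F0 F (τ n) p) (bar G0 G (τ n) p)))
          + posE ψ F0 F G0 G t ≤ μ0 + (posE ψ F0 F G0 G 0 + D) := by
      filter_upwards [hτt] with n hn
      have h2 := posE_le hF hG hψm hψ (hτm n).1.le hn.le ht.2
        (hpfin _ (hτg n).1 (hτg n).2.1 (hτg n).2.2.1) (hplus n t ht.2)
      have h3 : ∫⁻ s in Ioc (τ n) t, ∫⁻ x : T3, cross ψ (F s x) (G s x) ≤ D :=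
        lintegral_mono_set (Ioc_subset_Ioc_left (hτm n).1.le)
      have h4 := hsplit (τ n) (bar_nonneg_of_good hG (hτg n).2.1)
      have h5 : ∫⁻ p : T3 × V, ψ p.2 * ENNReal.ofReal (bar F0 F (τ n) p) ≤ wInt ψ F0 := by
        rw [← wInt_eq_bar hψm hF.measurable (hτg n).1]
        exact (hτg n).2.2.1
      calc _ ≤ (∫⁻ p : T3 × V, ψ p.2
              * ENNReal.ofReal (min (bar F0 F (τ n) p) (bar G0 G (τ n) p)))
            + (posE ψ F0 F G0 G (τ n) + D) := by
            gcongr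
            exact h2.trans (by (clear * - h3; gcongr))
        _ = (∫⁻ p : T3 × V, ψ p.2 * ENNReal.ofReal (bar F0 F (τ n) p)) + D := by
            rw [← add_assoc, h4]
        _ ≤ wInt ψ F0 + D := by (clear * - h5; gcongr)
        _ = _ := by rw [← hsplit0, add_assoc]
    have hpf := (hpfin t gF gG wF).ne
    have h6 : μ0 ≤ (μ0 + (posE ψ F0 F G0 G 0 + D)) - posE ψ F0 F G0 G t := by
      refine hfat1.trans ?_
      apply liminf_le_of_le
      · exact ⟨0, by simp only [ge_iff_le, zero_le, ENNReal.ofReal_min, eventually_map, eventually_atTop, implies_true, exists_const]⟩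
      · intro b hb
        obtain ⟨n, hn1, hn2⟩ := (hb.and h1).exists
        exact hn1.trans (ENNReal.le_sub_of_add_le_right hpf hn2)
    have h7 : posE ψ F0 F G0 G t ≤ μ0 + (posE ψ F0 F G0 G 0 + D) := by
      obtain ⟨n, hn⟩ := h1.exists
      exact le_add_self.trans hn
    have h8 := add_le_of_le_tsub_right_of_le h7 h6
    exact (ENNReal.add_le_add_iff_left hμfin.ne).mp h8
  -- conclusion
  have a1 := wDist_add hψm (mFt t) (mGt t) (hF.nonneg t) (hG.nonneg t)
  have a2 := wDist_add hψm hF.measurable0 hG.measurable0 hF.nonneg0 hG.nonneg0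
  have hp0 : posE ψ F0 F G0 G 0 = ∫⁻ p : T3 × V, ψ p.2 * ENNReal.ofReal (F0 p.1 p.2 - G0 p.1 p.2) := by
    unfold posE
    simp only [bar_zero]
  rw [← hpt, hcons] at a1
  rw [← hp0] at a2
  have h9 : wDist ψ (F t) (G t) + wInt ψ F0 ≤ (wDist ψ F0 G0 + 2 * D) + wInt ψ F0 := by
    calc wDist ψ (F t) (G t) + wInt ψ F0 = 2 * posE ψ F0 F G0 G t + wInt ψ (G t) := a1
      _ ≤ 2 * (posE ψ F0 F G0 G 0 + D) + wInt ψ G0 := by (clear * - hpos wG; gcongr)
      _ = (2 * posE ψ F0 F G0 G 0 + wInt ψ G0) + 2 * D := by ring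
      _ = (wDist ψ F0 G0 + wInt ψ F0) + 2 * D := by rw [a2]
      _ = _ := by ring
  exact (ENNReal.add_le_add_iff_right fF0.ne).mp h9

end Vale.Agent.P140
end
end

section

open MeasureTheory Set Filter
open scoped ENNReal Topology NNReal

noncomputable section

namespace Vale.Agent.P140

/-- Gronwall's inequality with an integrable coefficient and an a.e. hypothesis -/
theorem gronwall_real {φ W : ℝ → ℝ} {T A : ℝ} (hφ0 : ∀ t, 0 ≤ φ t)
    (hφ : IntegrableOn φ (Ioc 0 T)) (hφW : IntegrableOn (fun t => φ t * W t) (Ioc 0 T))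
    (h : ∀ᵐ t, t ∈ Ioc 0 T → W t ≤ A + ∫ s in (0:ℝ)..t, φ s * W s) :
    ∀ t ∈ Icc 0 T, A + ∫ s in (0:ℝ)..t, φ s * W s ≤ A * Real.exp (∫ s in (0:ℝ)..t, φ s) := by
  intro t ht
  have ht0 : 0 ≤ t := ht.1
  have i1 : IntervalIntegrable φ volume 0 t := by
    rw [intervalIntegrable_iff_integrableOn_Ioc_of_le ht0]
    exact hφ.mono_set (Ioc_subset_Ioc_right ht.2)
  have i2 : IntervalIntegrable (fun t => φ t * W t) volume 0 t := by
    rw [intervalIntegrable_iff_integrableOn_Ioc_of_le ht0]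
    exact hφW.mono_set (Ioc_subset_Ioc_right ht.2)
  have ac1 := ac_primitive i1 0
  have ac2 := ac_primitive i2 A
  -- `exp (-κ)`
  have hcont := ac1.continuousOn
  obtain ⟨K, hK⟩ : ∃ K : ℝ≥0, LipschitzOnWith K (fun x => Real.exp (-x))
      ((fun t => 0 + ∫ s in (0:ℝ)..t, φ s) '' uIcc 0 t) := by
    have hcomp : IsCompact ((fun t => 0 + ∫ s in (0:ℝ)..t, φ s) '' uIcc 0 t) :=
      isCompact_uIcc.image_of_continuousOn hcont
    obtain ⟨R, hR⟩ := hcomp.isBounded.subset_closedBall 0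
    have hcd : ContDiff ℝ 1 (fun x : ℝ => Real.exp (-x)) := by (clear * -; fun_prop)
    obtain ⟨K, hK⟩ := hcd.contDiffOn.exists_lipschitzOnWith (n := 1) (by decide)
      (convex_closedBall 0 R) (isCompact_closedBall 0 R)
    exact ⟨K, hK.mono hR⟩
  have ac3 := ac_comp ac1 hK
  have ac4 := ac2.mul ac3
  have hftc := ac4.integral_deriv_eq_sub
  have hle : ∫ x in (0:ℝ)..t, deriv ((fun t => A + ∫ s in (0:ℝ)..t, φ s * W s)
      * fun x => Real.exp (-(0 + ∫ s in (0:ℝ)..x, φ s))) x ≤ 0 := by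
    have hae : ∀ᵐ x, x ∈ Ioc 0 t → deriv ((fun t => A + ∫ s in (0:ℝ)..t, φ s * W s)
        * fun x => Real.exp (-(0 + ∫ s in (0:ℝ)..x, φ s))) x ≤ 0 := by
      filter_upwards [ae_hasDerivAt_primitive i1 0, ae_hasDerivAt_primitive i2 A, h]
        with x h1 h2 h3 hx
      have hxu : x ∈ uIcc 0 t := by
        rw [uIcc_of_le ht0]
        exact Ioc_subset_Icc_self hx
      have d1 := h1 hxu
      have d2 := h2 hxu
      have d1' : HasDerivAt (fun t => -(0 + ∫ s in (0:ℝ)..t, φ s)) (-φ x) x := d1.neg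
      have d3 := d2.mul d1'.exp
      rw [d3.deriv]
      have h4 := h3 ⟨hx.1, hx.2.trans ht.2⟩
      have h5 := Real.exp_pos (-(0 + ∫ s in (0:ℝ)..x, φ s))
      have h6 := hφ0 x
      have h7 : φ x * (W x - (A + ∫ s in (0:ℝ)..x, φ s * W s)) ≤ 0 :=
        mul_nonpos_of_nonneg_of_nonpos h6 (by linarith only [h4])
      linarith [mul_nonneg (sub_nonneg.2 h7) (le_of_lt (sub_pos.2 h5))]
    rw [intervalIntegral.integral_of_le ht0]
    apply integral_nonpos_of_ae
    rw [Filter.EventuallyLE, ae_restrict_iff' measurableSet_Ioc]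
    exact hae
  rw [hftc] at hle
  simp only [Pi.mul_apply, intervalIntegral.integral_same, add_zero, neg_zero, Real.exp_zero,
    mul_one, zero_add] at hle
  have h8 := Real.exp_pos (∫ s in (0:ℝ)..t, φ s)
  have h9 : (A + ∫ s in (0:ℝ)..t, φ s * W s) * Real.exp (-∫ s in (0:ℝ)..t, φ s) ≤ A := by linarith only [hle]
  calc A + ∫ s in (0:ℝ)..t, φ s * W s
      = ((A + ∫ s in (0:ℝ)..t, φ s * W s) * Real.exp (-∫ s in (0:ℝ)..t, φ s))
        * Real.exp (∫ s in (0:ℝ)..t, φ s) := by
        rw [mul_assoc, ← Real.exp_add]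
        simp only [neg_add_cancel, Real.exp_zero, mul_one]
    _ ≤ A * Real.exp (∫ s in (0:ℝ)..t, φ s) := mul_le_mul_of_nonneg_right h9 h8.le

/-- Gronwall's inequality in `[0,∞]` -/
theorem gronwall_ennreal {Φ W : ℝ → ℝ≥0∞} {T : ℝ} {A K : ℝ≥0∞} (hΦm : Measurable Φ)
    (hWm : Measurable W) (hΦ : ∫⁻ t in Ioc 0 T, Φ t < ⊤) (hA : A < ⊤) (hK : K < ⊤)
    (hWK : ∀ᵐ t, t ∈ Ioc 0 T → W t ≤ K)
    (h : ∀ᵐ t, t ∈ Ioc 0 T → W t ≤ A + ∫⁻ s in Ioc 0 t, Φ s * W s) :
    ∀ᵐ t, t ∈ Ioc 0 T → W t ≤ A * ENNReal.ofReal (Real.exp (∫⁻ s in Ioc 0 t, Φ s).toReal) := by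
  have hΦW : ∫⁻ t in Ioc 0 T, Φ t * W t < ⊤ := by
    calc ∫⁻ t in Ioc 0 T, Φ t * W t ≤ ∫⁻ t in Ioc 0 T, Φ t * K := by
          apply lintegral_mono_ae
          rw [ae_restrict_iff' measurableSet_Ioc]
          filter_upwards [hWK] with t ht hmem
          gcongr
          exact ht hmem
      _ = (∫⁻ t in Ioc 0 T, Φ t) * K := lintegral_mul_const _ hΦm
      _ < ⊤ := ENNReal.mul_lt_top hΦ hK
  have i1 : IntegrableOn (fun t => (Φ t).toReal) (Ioc 0 T) :=
    integrable_toReal_of_lintegral_ne_top hΦm.aemeasurable hΦ.ne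
  have i2 : IntegrableOn (fun t => (Φ t).toReal * (W t).toReal) (Ioc 0 T) := by
    have := integrable_toReal_of_lintegral_ne_top (μ := volume.restrict (Ioc 0 T))
      (hΦm.mul hWm).aemeasurable hΦW.ne
    simpa only [IntegrableOn, Pi.mul_apply, ENNReal.toReal_mul] using this
  have hW2 : ∀ᵐ t, t ∈ Ioc 0 T → W t < ⊤ := by
    filter_upwards [hWK] with t ht hmem
    exact lt_of_le_of_lt (ht hmem) hK
  have cv : ∀ (f : ℝ → ℝ≥0∞), Measurable f → ∫⁻ s in Ioc 0 T, f s < ⊤ → ∀ t, 0 ≤ t → t ≤ T →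
      ENNReal.ofReal (∫ s in (0:ℝ)..t, (f s).toReal) = ∫⁻ s in Ioc 0 t, f s := by
    intro f hf hfi t h0 htT
    have h1 : ∫⁻ s in Ioc 0 t, f s < ⊤ :=
      lt_of_le_of_lt (lintegral_mono_set (Ioc_subset_Ioc_right htT)) hfi
    rw [intervalIntegral.integral_of_le h0, ofReal_integral_eq_lintegral_ofReal
      (integrable_toReal_of_lintegral_ne_top hf.aemeasurable h1.ne)
      (Eventually.of_forall fun _ => ENNReal.toReal_nonneg)]
    apply lintegral_congr_ae
    filter_upwards [ae_lt_top hf h1.ne] with s hs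
    exact ENNReal.ofReal_toReal hs.ne
  have hnn : ∀ (f : ℝ → ℝ≥0∞) (t : ℝ), 0 ≤ t → 0 ≤ ∫ s in (0:ℝ)..t, (f s).toReal := by
    intro f t h0
    rw [intervalIntegral.integral_of_le h0]
    exact integral_nonneg fun _ => ENNReal.toReal_nonneg
  have hreal : ∀ᵐ t, t ∈ Ioc 0 T → (W t).toReal ≤ A.toReal
      + ∫ s in (0:ℝ)..t, (Φ s).toReal * (W s).toReal := by
    filter_upwards [h, hW2] with t h1 h2 hmem
    have h3 := h1 hmem
    have h4 : A + ∫⁻ s in Ioc 0 t, Φ s * W s
        = ENNReal.ofReal (A.toReal + ∫ s in (0:ℝ)..t, (Φ s).toReal * (W s).toReal) := by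
      have h5 := cv (fun s => Φ s * W s) (hΦm.mul hWm) hΦW t hmem.1.le hmem.2
      simp only [ENNReal.toReal_mul] at h5
      have h6 : 0 ≤ ∫ s in (0:ℝ)..t, (Φ s).toReal * (W s).toReal := by
        have := hnn (fun s => Φ s * W s) t hmem.1.le
        simpa only [ENNReal.toReal_mul] using this
      rw [ENNReal.ofReal_add ENNReal.toReal_nonneg h6, h5, ENNReal.ofReal_toReal hA.ne]
    rw [h4] at h3
    have h7 : 0 ≤ ∫ s in (0:ℝ)..t, (Φ s).toReal * (W s).toReal := by
      have := hnn (fun s => Φ s * W s) t hmem.1.le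
      simpa only [ENNReal.toReal_mul] using this
    exact ENNReal.toReal_le_of_le_ofReal (add_nonneg ENNReal.toReal_nonneg h7) h3
  have hg := gronwall_real (φ := fun t => (Φ t).toReal) (W := fun t => (W t).toReal) (T := T)
    (A := A.toReal) (fun _ => ENNReal.toReal_nonneg) i1 i2 hreal
  filter_upwards [hreal, hW2] with t h1 h2 hmem
  have h3 := (h1 hmem).trans (hg t (Ioc_subset_Icc_self hmem))
  rw [← ENNReal.ofReal_toReal (h2 hmem).ne, ← ENNReal.ofReal_toReal hA.ne,
    ← ENNReal.ofReal_mul ENNReal.toReal_nonneg]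
  apply ENNReal.ofReal_le_ofReal
  have h4 := cv Φ hΦm hΦ t hmem.1.le hmem.2
  rw [← h4, ENNReal.toReal_ofReal (hnn Φ t hmem.1.le)]
  exact h3

end Vale.Agent.P140
end
end

section

open MeasureTheory Set Filter
open scoped ENNReal Topology NNReal

noncomputable section

namespace Vale.Agent.P140

/-- `k`-th velocity moment `∫ (1+|v|)^k f(v) dv` -/
def vmom (k : ℕ) (f : V → ℝ) : ℝ≥0∞ := ∫⁻ v : V, ENNReal.ofReal ((1 + ‖v‖) ^ k * f v)

/-- the weight `1` -/
def psi0 (_ : V) : ℝ≥0∞ := 1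

/-- the weight `1 + |v|²` -/
def psi2 (v : V) : ℝ≥0∞ := ENNReal.ofReal (1 + ‖v‖ ^ 2)

theorem measurable_psi0 : Measurable psi0 := measurable_const

theorem measurable_psi2 : Measurable psi2 := by
  unfold psi2
  fun_prop

theorem psi0_ne_top (v : V) : psi0 v ≠ ⊤ := by simp [psi0]

theorem psi2_ne_top (v : V) : psi2 v ≠ ⊤ := by simp [psi2]

theorem collInv_psi0 : CollInv psi0 := fun _ _ _ => rfl

theorem collInv_psi2 : CollInv psi2 := by
  intro v w o
  unfold psi2
  rw [← ENNReal.ofReal_add (by positivity) (by positivity),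
    ← ENNReal.ofReal_add (by positivity) (by positivity)]
  congr 1
  have := energy_post v w o
  linarith

theorem psi0_le_psi2 (v : V) : psi0 v ≤ psi2 v := by
  unfold psi0 psi2
  rw [← ENNReal.ofReal_one]
  apply ENNReal.ofReal_le_ofReal
  linarith only [sq_nonneg ‖v‖]

theorem norm_le_psi2 (v : V) : ENNReal.ofReal ‖v‖ ≤ psi2 v := by
  unfold psi2
  apply ENNReal.ofReal_le_ofReal
  linarith only [norm_nonneg v, sq_nonneg (‖v‖ - 1)]

/-- collision integral of a product bounded by moments -/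
theorem triple_kk_le {a b : V → ℝ≥0∞} (ha : Measurable a) (hb : Measurable b) :
    ∫⁻ v, ∫⁻ w, ∫⁻ o, kk v w o * (a v * b w) ∂surf
      ≤ surf univ * ((∫⁻ v, ENNReal.ofReal ‖v‖ * a v) * (∫⁻ w, b w)
        + (∫⁻ v, a v) * ∫⁻ w, ENNReal.ofReal ‖w‖ * b w) := by
  have hn : Measurable fun w : V => ENNReal.ofReal ‖w‖ := measurable_norm.ennreal_ofReal
  have h1 : ∀ v w, ∫⁻ o, kk v w o * (a v * b w) ∂surf
      ≤ surf univ * ((ENNReal.ofReal ‖v‖ * a v) * b w + a v * (ENNReal.ofReal ‖w‖ * b w)) := by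
    intro v w
    calc ∫⁻ o, kk v w o * (a v * b w) ∂surf
        ≤ ∫⁻ o, ((ENNReal.ofReal ‖v‖ + ENNReal.ofReal ‖w‖) * (a v * b w)) ∂surf := by
          apply lintegral_mono
          intro o
          simp only
          gcongr
          unfold kk
          rw [← ENNReal.ofReal_add (norm_nonneg _) (norm_nonneg _)]
          exact ENNReal.ofReal_le_ofReal (abs_relA_le v w o)
      _ = _ := by
          rw [lintegral_const]
          ring
  calc ∫⁻ v, ∫⁻ w, ∫⁻ o, kk v w o * (a v * b w) ∂surf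
      ≤ ∫⁻ v, ∫⁻ w, surf univ * ((ENNReal.ofReal ‖v‖ * a v) * b w
          + a v * (ENNReal.ofReal ‖w‖ * b w)) :=
        lintegral_mono fun v => lintegral_mono fun w => h1 v w
    _ = _ := by
        have h2 : ∀ v, ∫⁻ w, surf univ * ((ENNReal.ofReal ‖v‖ * a v) * b w
            + a v * (ENNReal.ofReal ‖w‖ * b w))
            = surf univ * ((ENNReal.ofReal ‖v‖ * a v) * (∫⁻ w, b w)
            + a v * ∫⁻ w, ENNReal.ofReal ‖w‖ * b w) := by
          intro v
          have k1 : Measurable fun w => (ENNReal.ofReal ‖v‖ * a v) * b w := measurable_const.mul hb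
          have k2 : Measurable fun w : V => ENNReal.ofReal ‖w‖ * b w := hn.mul hb
          have k3 : Measurable fun w => (ENNReal.ofReal ‖v‖ * a v) * b w
              + a v * (ENNReal.ofReal ‖w‖ * b w) := k1.add (measurable_const.mul k2)
          rw [lintegral_const_mul _ k3, lintegral_add_left k1, lintegral_const_mul _ hb,
            lintegral_const_mul _ k2]
        simp_rw [h2]
        have m1 : Measurable fun v => ENNReal.ofReal ‖v‖ * a v := hn.mul ha
        have m3 : Measurable fun v => (ENNReal.ofReal ‖v‖ * a v) * (∫⁻ w, b w) := m1.mul_const _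
        have m4 : Measurable fun v => (ENNReal.ofReal ‖v‖ * a v) * (∫⁻ w, b w)
            + a v * ∫⁻ w, ENNReal.ofReal ‖w‖ * b w := m3.add (ha.mul_const _)
        rw [lintegral_const_mul _ m4, lintegral_add_left m3, lintegral_mul_const _ m1,
          lintegral_mul_const _ ha]

/-- a pointwise bound on a weight gives a bound by a moment -/
theorem weight_le_vmom {a : V → ℝ≥0∞} {f : V → ℝ} {k : ℕ}
    (h : ∀ v, a v ≤ ENNReal.ofReal ((1 + ‖v‖) ^ k)) :
    ∫⁻ v, a v * eR f v ≤ vmom k f := by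
  unfold vmom eR
  apply lintegral_mono
  intro v
  simp only
  rw [ENNReal.ofReal_mul (by positivity)]
  gcongr
  exact h v

theorem w_psi2 (v : V) : psi2 v ≤ ENNReal.ofReal ((1 + ‖v‖) ^ 2) := by
  unfold psi2
  apply ENNReal.ofReal_le_ofReal
  linarith only [norm_nonneg v]

theorem w_norm_psi2 (v : V) : ENNReal.ofReal ‖v‖ * psi2 v ≤ ENNReal.ofReal ((1 + ‖v‖) ^ 3) := by
  unfold psi2
  rw [← ENNReal.ofReal_mul (norm_nonneg _)]
  apply ENNReal.ofReal_le_ofReal
  have h := norm_nonneg v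
  linarith only [mul_nonneg h h, h]

theorem w_psi0 (v : V) : psi0 v ≤ ENNReal.ofReal ((1 + ‖v‖) ^ 1) := by
  unfold psi0
  rw [← ENNReal.ofReal_one]
  apply ENNReal.ofReal_le_ofReal
  have h := norm_nonneg v
  simp only [pow_one]
  linarith

theorem w_norm_psi0 (v : V) : ENNReal.ofReal ‖v‖ * psi0 v ≤ ENNReal.ofReal ((1 + ‖v‖) ^ 1) := by
  unfold psi0
  rw [mul_one]
  apply ENNReal.ofReal_le_ofReal
  have h := norm_nonneg v
  simp only [pow_one]
  linarith

theorem vmom_mono {k l : ℕ} (hkl : k ≤ l) {f : V → ℝ} (hf : ∀ v, 0 ≤ f v) : vmom k f ≤ vmom l f := by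
  unfold vmom
  apply lintegral_mono
  intro v
  apply ENNReal.ofReal_le_ofReal
  apply mul_le_mul_of_nonneg_right _ (hf v)
  exact pow_le_pow_right₀ (by linarith only [norm_nonneg v]) hkl

theorem vmom_mono_fun {k : ℕ} {f g : V → ℝ} (h : ∀ v, f v ≤ g v) : vmom k f ≤ vmom k g := by
  unfold vmom
  apply lintegral_mono
  intro v
  apply ENNReal.ofReal_le_ofReal
  apply mul_le_mul_of_nonneg_left (h v) (by (clear * -; positivity))

/-- velocity distances -/
def d0 (f g : V → ℝ) : ℝ≥0∞ := ∫⁻ w, ENNReal.ofReal |f w - g w|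
def d1 (f g : V → ℝ) : ℝ≥0∞ := ∫⁻ w, ENNReal.ofReal ‖w‖ * ENNReal.ofReal |f w - g w|

theorem cross_psi2_le {f g : V → ℝ} (hf : Measurable f) (hg : Measurable g) :
    cross psi2 f g ≤ surf univ * (vmom 3 (fun v => min (f v) (g v)) * d0 f g
      + vmom 2 (fun v => min (f v) (g v)) * d1 f g) := by
  have hm : Measurable (eR fun v => min (f v) (g v)) := measurable_eR (hf.min hg)
  have h := triple_kk_le (a := fun v => psi2 v * eR (fun v => min (f v) (g v)) v)
    (b := fun w => ENNReal.ofReal |f w - g w|) (measurable_psi2.mul hm)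
    (hf.sub hg).abs.ennreal_ofReal
  unfold cross
  simp only [← mul_assoc] at h ⊢
  refine h.trans ?_
  gcongr
  · exact weight_le_vmom (fun v => w_norm_psi2 v)
  · exact le_rfl
  · exact weight_le_vmom (fun v => w_psi2 v)
  · exact le_rfl

theorem cross_psi0_le {f g : V → ℝ} (hf : Measurable f) (hg : Measurable g) :
    cross psi0 f g ≤ surf univ * (vmom 1 (fun v => min (f v) (g v)) * d0 f g
      + vmom 1 (fun v => min (f v) (g v)) * d1 f g) := by
  have hm : Measurable (eR fun v => min (f v) (g v)) := measurable_eR (hf.min hg)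
  have h := triple_kk_le (a := fun v => psi0 v * eR (fun v => min (f v) (g v)) v)
    (b := fun w => ENNReal.ofReal |f w - g w|) (measurable_psi0.mul hm)
    (hf.sub hg).abs.ennreal_ofReal
  unfold cross
  simp only [← mul_assoc] at h ⊢
  refine h.trans ?_
  gcongr
  · exact weight_le_vmom (fun v => w_norm_psi0 v)
  · exact le_rfl
  · exact weight_le_vmom (fun v => w_psi0 v)
  · exact le_rfl

end Vale.Agent.P140
end
end

section

open MeasureTheory Set Filter
open scoped ENNReal Topology NNReal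

noncomputable section

namespace Vale.Agent.P140

variable {T : ℝ} {F0 G0 : T3 → V → ℝ} {F G : ℝ → T3 → V → ℝ} {ψ : V → ℝ≥0∞}

/-- the minimum of two time dependent densities -/
def minF (F G : ℝ → T3 → V → ℝ) (t : ℝ) (x : T3) (v : V) : ℝ := min (F t x v) (G t x v)

theorem wInt_psi0_le (f : T3 → V → ℝ) : wInt psi0 f ≤ wInt psi2 f := by
  unfold wInt
  apply lintegral_mono
  intro p
  simp only
  gcongr
  exact psi0_le_psi2 _

theorem wDist_psi0_le (f g : T3 → V → ℝ) : wDist psi0 f g ≤ wDist psi2 f g := by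
  unfold wDist
  apply lintegral_mono
  intro p
  simp only
  gcongr
  exact psi0_le_psi2 _

theorem lintegral_d0 {f g : T3 → V → ℝ} (hf : Measurable fun p : T3 × V => f p.1 p.2)
    (hg : Measurable fun p : T3 × V => g p.1 p.2) :
    ∫⁻ x : T3, d0 (f x) (g x) = wDist psi0 f g := by
  unfold wDist d0 psi0
  rw [Measure.volume_eq_prod, lintegral_prod]
  · simp only [one_mul]
  · exact (measurable_const.mul (hf.sub hg).abs.ennreal_ofReal).aemeasurable

theorem lintegral_d1 {f g : T3 → V → ℝ} (hf : Measurable fun p : T3 × V => f p.1 p.2)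
    (hg : Measurable fun p : T3 × V => g p.1 p.2) :
    ∫⁻ x : T3, d1 (f x) (g x) ≤ wDist psi2 f g := by
  unfold wDist d1
  have h := measurable_psi2.comp (measurable_snd : Measurable fun p : T3 × V => p.2)
  have h2 : Measurable fun p : T3 × V => psi2 p.2 * ENNReal.ofReal |f p.1 p.2 - g p.1 p.2| :=
    h.mul (hf.sub hg).abs.ennreal_ofReal
  rw [Measure.volume_eq_prod, lintegral_prod _ h2.aemeasurable]
  apply lintegral_mono
  intro x
  apply lintegral_mono
  intro v
  simp only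
  gcongr
  exact norm_le_psi2 v

theorem measurable_d0 {f g : T3 → V → ℝ} (hf : Measurable fun p : T3 × V => f p.1 p.2)
    (hg : Measurable fun p : T3 × V => g p.1 p.2) : Measurable fun x => d0 (f x) (g x) :=
  Measurable.lintegral_prod_right' (f := fun p : T3 × V => ENNReal.ofReal |f p.1 p.2 - g p.1 p.2|)
    (hf.sub hg).abs.ennreal_ofReal

theorem measurable_d1 {f g : T3 → V → ℝ} (hf : Measurable fun p : T3 × V => f p.1 p.2)
    (hg : Measurable fun p : T3 × V => g p.1 p.2) : Measurable fun x => d1 (f x) (g x) := by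
  apply Measurable.lintegral_prod_right' (f := fun p : T3 × V =>
    ENNReal.ofReal ‖p.2‖ * ENNReal.ofReal |f p.1 p.2 - g p.1 p.2|)
  exact (measurable_snd.norm.ennreal_ofReal).mul (hf.sub hg).abs.ennreal_ofReal

theorem measurable_slice2 {F : ℝ → T3 → V → ℝ}
    (hF : Measurable fun p : ℝ × T3 × V => F p.1 p.2.1 p.2.2) (t : ℝ) :
    Measurable fun p : T3 × V => F t p.1 p.2 :=
  hF.comp (by fun_prop : Measurable fun p : T3 × V => (t, p))

theorem measurable_wDist (hψm : Measurable ψ)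
    (hF : Measurable fun p : ℝ × T3 × V => F p.1 p.2.1 p.2.2)
    (hG : Measurable fun p : ℝ × T3 × V => G p.1 p.2.1 p.2.2) :
    Measurable fun t => wDist ψ (F t) (G t) := by
  unfold wDist
  apply Measurable.lintegral_prod_right' (f := fun p : ℝ × T3 × V =>
    ψ p.2.2 * ENNReal.ofReal |F p.1 p.2.1 p.2.2 - G p.1 p.2.1 p.2.2|)
  exact (hψm.comp measurable_snd.snd).mul (hF.sub hG).abs.ennreal_ofReal

/-- integral over the torus of the cross term -/
theorem lintegral_cross_psi2 (hF : Measurable fun p : ℝ × T3 × V => F p.1 p.2.1 p.2.2)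
    (hG : Measurable fun p : ℝ × T3 × V => G p.1 p.2.1 p.2.2) {s : ℝ} {a b : ℝ≥0∞}
    (ha : ∀ᵐ x : T3, vmom 3 (minF F G s x) ≤ a) (hb : ∀ᵐ x : T3, vmom 2 (minF F G s x) ≤ b) :
    ∫⁻ x : T3, cross psi2 (F s x) (G s x)
      ≤ surf univ * (a * wDist psi0 (F s) (G s) + b * wDist psi2 (F s) (G s)) := by
  have m0 := measurable_d0 (measurable_slice2 hF s) (measurable_slice2 hG s)
  have m1 := measurable_d1 (measurable_slice2 hF s) (measurable_slice2 hG s)
  calc ∫⁻ x : T3, cross psi2 (F s x) (G s x)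
      ≤ ∫⁻ x : T3, surf univ * (a * d0 (F s x) (G s x) + b * d1 (F s x) (G s x)) := by
        apply lintegral_mono_ae
        filter_upwards [ha, hb] with x hxa hxb
        refine (cross_psi2_le (measurable_slice hF s x) (measurable_slice hG s x)).trans ?_
        gcongr
        · exact hxa
        · exact hxb
    _ = surf univ * (a * (∫⁻ x : T3, d0 (F s x) (G s x)) + b * ∫⁻ x : T3, d1 (F s x) (G s x)) := by
        have k : Measurable fun x => a * d0 (F s x) (G s x) + b * d1 (F s x) (G s x) :=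
          (m0.const_mul a).add (m1.const_mul b)
        rw [lintegral_const_mul _ k, lintegral_add_left (m0.const_mul a), lintegral_const_mul _ m0,
          lintegral_const_mul _ m1]
    _ ≤ _ := by
        rw [lintegral_d0 (measurable_slice2 hF s) (measurable_slice2 hG s)]
        gcongr
        exact lintegral_d1 (measurable_slice2 hF s) (measurable_slice2 hG s)

theorem lintegral_cross_psi0 (hF : Measurable fun p : ℝ × T3 × V => F p.1 p.2.1 p.2.2)
    (hG : Measurable fun p : ℝ × T3 × V => G p.1 p.2.1 p.2.2) {s : ℝ} {a : ℝ≥0∞}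
    (ha : ∀ᵐ x : T3, vmom 1 (minF F G s x) ≤ a) :
    ∫⁻ x : T3, cross psi0 (F s x) (G s x)
      ≤ surf univ * (2 * (a * wDist psi2 (F s) (G s))) := by
  have m0 := measurable_d0 (measurable_slice2 hF s) (measurable_slice2 hG s)
  have m1 := measurable_d1 (measurable_slice2 hF s) (measurable_slice2 hG s)
  calc ∫⁻ x : T3, cross psi0 (F s x) (G s x)
      ≤ ∫⁻ x : T3, surf univ * (a * d0 (F s x) (G s x) + a * d1 (F s x) (G s x)) := by
        apply lintegral_mono_ae
        filter_upwards [ha] with x hxa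
        refine (cross_psi0_le (measurable_slice hF s x) (measurable_slice hG s x)).trans ?_
        gcongr
        · exact hxa
        · exact hxa
    _ = surf univ * (a * (∫⁻ x : T3, d0 (F s x) (G s x)) + a * ∫⁻ x : T3, d1 (F s x) (G s x)) := by
        have k : Measurable fun x => a * d0 (F s x) (G s x) + a * d1 (F s x) (G s x) :=
          (m0.const_mul a).add (m1.const_mul a)
        rw [lintegral_const_mul _ k, lintegral_add_left (m0.const_mul a), lintegral_const_mul _ m0,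
          lintegral_const_mul _ m1]
    _ ≤ surf univ * (a * wDist psi2 (F s) (G s) + a * wDist psi2 (F s) (G s)) := by
        rw [lintegral_d0 (measurable_slice2 hF s) (measurable_slice2 hG s)]
        gcongr
        · exact wDist_psi0_le _ _
        · exact lintegral_d1 (measurable_slice2 hF s) (measurable_slice2 hG s)
    _ = _ := by ring

/-- the loss term of `G` where `G < F` -/
theorem lossG_bound (hψm : Measurable ψ)
    (hF : Measurable fun p : ℝ × T3 × V => F p.1 p.2.1 p.2.2)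
    (hG : Measurable fun p : ℝ × T3 × V => G p.1 p.2.1 p.2.2)
    (hG0 : ∀ t x v, 0 ≤ G t x v) {k l : ℕ}
    (hk : ∀ v, ENNReal.ofReal ‖v‖ * ψ v ≤ ENNReal.ofReal ((1 + ‖v‖) ^ k))
    (hl : ∀ v, ψ v ≤ ENNReal.ofReal ((1 + ‖v‖) ^ l)) {s : ℝ} {a b : ℝ≥0∞}
    (ha : ∀ᵐ x : T3, vmom k (minF F G s x) ≤ a) (hb : ∀ᵐ x : T3, vmom l (minF F G s x) ≤ b) :
    ∫⁻ p : T3 × V, ψ p.2 * (if G s p.1 p.2 < F s p.1 p.2 then loss (G s p.1) p.2 else 0)
      ≤ surf univ * ((a + b) * wInt psi2 (G s)) := by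
  classical
  have mk : Measurable fun p : T3 × V =>
      ψ p.2 * (if G s p.1 p.2 < F s p.1 p.2 then loss (G s p.1) p.2 else 0) :=
    (hψm.comp measurable_snd).mul (Measurable.ite
      (measurableSet_lt (measurable_slice2 hG s) (measurable_slice2 hF s))
      (measurable_loss_slice hG s) measurable_const)
  have mg0 : Measurable fun x : T3 => ∫⁻ w, eR (G s x) w :=
    Measurable.lintegral_prod_right' (f := fun p : T3 × V => ENNReal.ofReal (G s p.1 p.2))
      (measurable_slice2 hG s).ennreal_ofReal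
  have mg1 : Measurable fun x : T3 => ∫⁻ w, ENNReal.ofReal ‖w‖ * eR (G s x) w :=
    Measurable.lintegral_prod_right'
      (f := fun p : T3 × V => ENNReal.ofReal ‖p.2‖ * ENNReal.ofReal (G s p.1 p.2))
      (measurable_snd.norm.ennreal_ofReal.mul (measurable_slice2 hG s).ennreal_ofReal)
  rw [Measure.volume_eq_prod, lintegral_prod _ mk.aemeasurable]
  calc ∫⁻ x : T3, ∫⁻ v : V, ψ v * (if G s x v < F s x v then loss (G s x) v else 0)
      ≤ ∫⁻ x : T3, surf univ * (a * (∫⁻ w, eR (G s x) w)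
          + b * ∫⁻ w, ENNReal.ofReal ‖w‖ * eR (G s x) w) := by
        apply lintegral_mono_ae
        filter_upwards [ha, hb] with x hxa hxb
        have mf := measurable_slice hF s x
        have mg := measurable_slice hG s x
        have hm : Measurable (eR (minF F G s x)) := measurable_eR (mf.min mg)
        rw [weighted_loss (fun v => G s x v < F s x v) mg (hG0 s x)]
        refine le_trans (triple_mono (H := fun z => kk z.1 z.2.1 z.2.2 * (ψ z.1 *
          (if G s x z.1 < F s x z.1 then eR (G s x) z.1 * eR (G s x) z.2.1 else 0)))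
          (K := fun z => kk z.1 z.2.1 z.2.2 * ((ψ z.1 * eR (minF F G s x) z.1)
            * eR (G s x) z.2.1)) ?_) ?_
        · intro v w o
          simp only
          rw [mul_assoc (ψ v)]
          apply mul_le_mul_right
          apply mul_le_mul_right
          split_ifs with h
          · have : minF F G s x v = G s x v := min_eq_right h.le
            unfold eR
            rw [this]
          · exact zero_le
        · refine (triple_kk_le (a := fun v => ψ v * eR (minF F G s x) v) (b := eR (G s x))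
            (hψm.mul hm) (measurable_eR mg)).trans ?_
          gcongr
          · simp only [← mul_assoc]
            exact (weight_le_vmom hk).trans hxa
          · exact (weight_le_vmom hl).trans hxb
    _ = surf univ * (a * (∫⁻ x : T3, ∫⁻ w, eR (G s x) w)
          + b * ∫⁻ x : T3, ∫⁻ w, ENNReal.ofReal ‖w‖ * eR (G s x) w) := by
        have k : Measurable fun x : T3 => a * (∫⁻ w, eR (G s x) w)
          + b * ∫⁻ w, ENNReal.ofReal ‖w‖ * eR (G s x) w := (mg0.const_mul a).add (mg1.const_mul b)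
        rw [lintegral_const_mul _ k, lintegral_add_left (mg0.const_mul a),
          lintegral_const_mul _ mg0, lintegral_const_mul _ mg1]
    _ ≤ surf univ * (a * wInt psi2 (G s) + b * wInt psi2 (G s)) := by
        unfold wInt eR
        have m2 : Measurable fun p : T3 × V => psi2 p.2 * ENNReal.ofReal (G s p.1 p.2) :=
          (measurable_psi2.comp measurable_snd).mul (measurable_slice2 hG s).ennreal_ofReal
        rw [Measure.volume_eq_prod, lintegral_prod _ m2.aemeasurable]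
        gcongr with x w x w
        · have := psi0_le_psi2 w
          calc ENNReal.ofReal (G s x w) = psi0 w * ENNReal.ofReal (G s x w) := by simp only [psi0, one_mul]
            _ ≤ _ := by (clear * - this; gcongr)
        · exact norm_le_psi2 w
    _ = _ := by ring

/-- **Core estimates.** -/
theorem core_estimates (hT : 0 < T) (hF : IsMild T F0 F) (hG : IsMild T G0 G)
    (fF0 : wInt psi2 F0 < ⊤) (fG0 : wInt psi2 G0 < ⊤)
    (eF2 : ∀ᵐ t ∂(volume.restrict (Ioc 0 T)), wInt psi2 (F t) ≤ wInt psi2 F0)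
    (eG2 : ∀ᵐ t ∂(volume.restrict (Ioc 0 T)), wInt psi2 (G t) ≤ wInt psi2 G0)
    (eF0 : ∀ᵐ t ∂(volume.restrict (Ioc 0 T)), wInt psi0 (F t) ≤ wInt psi0 F0)
    (eG0 : ∀ᵐ t ∂(volume.restrict (Ioc 0 T)), wInt psi0 (G t) ≤ wInt psi0 G0)
    (hl : ∀ τ, 0 < τ → ∫⁻ s in Ioc τ T, ∫⁻ p : T3 × V, psi2 p.2 * loss (F s p.1) p.2 < ⊤)
    {M1 M2 M3 : ℝ → ℝ≥0∞} (m1 : Measurable M1) (m2 : Measurable M2) (m3 : Measurable M3)
    (b1 : ∀ᵐ t ∂(volume.restrict (Ioc 0 T)), ∀ᵐ x : T3, vmom 1 (minF F G t x) ≤ M1 t)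
    (b2 : ∀ᵐ t ∂(volume.restrict (Ioc 0 T)), ∀ᵐ x : T3, vmom 2 (minF F G t x) ≤ M2 t)
    (b3 : ∀ᵐ t ∂(volume.restrict (Ioc 0 T)), ∀ᵐ x : T3, vmom 3 (minF F G t x) ≤ M3 t)
    (i1 : ∫⁻ t in Ioc 0 T, M1 t < ⊤) (i2 : ∫⁻ t in Ioc 0 T, M2 t < ⊤)
    (i3 : ∀ τ, 0 < τ → ∫⁻ t in Ioc τ T, M3 t < ⊤) :
    (∀ᵐ t ∂(volume.restrict (Ioc 0 T)), wDist psi0 (F t) (G t) ≤ wDist psi0 F0 G0
      + 4 * surf univ * ∫⁻ s in Ioc 0 t, M1 s * wDist psi2 (F s) (G s)) ∧
    (∀ᵐ t ∂(volume.restrict (Ioc 0 T)), wDist psi2 (F t) (G t) ≤ wDist psi2 F0 G0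
      + 2 * surf univ * ∫⁻ s in Ioc 0 t,
        (M3 s * wDist psi0 (F s) (G s) + M2 s * wDist psi2 (F s) (G s))) := by
  have mF := hF.measurable
  have mG := hG.measurable
  have mD0 := measurable_wDist measurable_psi0 mF mG
  have mD2 := measurable_wDist measurable_psi2 mF mG
  have fF00 : wInt psi0 F0 < ⊤ := lt_of_le_of_lt (wInt_psi0_le F0) fF0
  have hl0 : ∀ τ, 0 < τ → ∫⁻ s in Ioc τ T, ∫⁻ p : T3 × V, psi0 p.2 * loss (F s p.1) p.2 < ⊤ := by
    intro τ hτ
    refine lt_of_le_of_lt ?_ (hl τ hτ)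
    apply lintegral_mono
    intro s
    apply lintegral_mono
    intro p
    simp only
    gcongr
    exact psi0_le_psi2 _
  have hres : ∀ τ : ℝ, 0 < τ → ∀ P : ℝ → Prop, (∀ᵐ t ∂(volume.restrict (Ioc 0 T)), P t) →
      ∀ᵐ t ∂(volume.restrict (Ioc τ T)), P t := by
    intro τ hτ P h
    exact ae_restrict_of_ae_restrict_of_subset (Ioc_subset_Ioc_left hτ.le) h
  have hlG0 : ∀ τ, 0 < τ → ∫⁻ s in Ioc τ T, ∫⁻ p : T3 × V, psi0 p.2 *
      (if G s p.1 p.2 < F s p.1 p.2 then loss (G s p.1) p.2 else 0) < ⊤ := by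
    intro τ hτ
    calc ∫⁻ s in Ioc τ T, ∫⁻ p : T3 × V, psi0 p.2 *
          (if G s p.1 p.2 < F s p.1 p.2 then loss (G s p.1) p.2 else 0)
        ≤ ∫⁻ s in Ioc τ T, surf univ * ((M1 s + M1 s) * wInt psi2 G0) := by
          apply lintegral_mono_ae
          filter_upwards [hres τ hτ _ b1, hres τ hτ _ eG2] with s h1 h2
          refine (lossG_bound measurable_psi0 mF mG hG.nonneg (k := 1) (l := 1) w_norm_psi0
            w_psi0 h1 h1).trans ?_
          (clear * - h2; gcongr)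
      _ = surf univ * ((∫⁻ s in Ioc τ T, (M1 s + M1 s)) * wInt psi2 G0) := by
          have k1 : Measurable fun s => M1 s + M1 s := m1.add m1
          have k2 : Measurable fun s => (M1 s + M1 s) * wInt psi2 G0 := k1.mul_const _
          rw [lintegral_const_mul _ k2, lintegral_mul_const _ k1]
      _ < ⊤ := by
          rw [lintegral_add_left m1]
          have h3 : ∫⁻ s in Ioc τ T, M1 s < ⊤ :=
            lt_of_le_of_lt (lintegral_mono_set (Ioc_subset_Ioc_left hτ.le)) i1
          exact ENNReal.mul_lt_top (measure_lt_top _ _)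
            (ENNReal.mul_lt_top (ENNReal.add_lt_top.mpr ⟨h3, h3⟩) fG0)
  have hlG2 : ∀ τ, 0 < τ → ∫⁻ s in Ioc τ T, ∫⁻ p : T3 × V, psi2 p.2 *
      (if G s p.1 p.2 < F s p.1 p.2 then loss (G s p.1) p.2 else 0) < ⊤ := by
    intro τ hτ
    calc ∫⁻ s in Ioc τ T, ∫⁻ p : T3 × V, psi2 p.2 *
          (if G s p.1 p.2 < F s p.1 p.2 then loss (G s p.1) p.2 else 0)
        ≤ ∫⁻ s in Ioc τ T, surf univ * ((M3 s + M2 s) * wInt psi2 G0) := by
          apply lintegral_mono_ae
          filter_upwards [hres τ hτ _ b3, hres τ hτ _ b2, hres τ hτ _ eG2] with s h1 h1' h2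
          refine (lossG_bound measurable_psi2 mF mG hG.nonneg (k := 3) (l := 2) w_norm_psi2
            w_psi2 h1 h1').trans ?_
          (clear * - h2; gcongr)
      _ = surf univ * ((∫⁻ s in Ioc τ T, (M3 s + M2 s)) * wInt psi2 G0) := by
          have k1 : Measurable fun s => M3 s + M2 s := m3.add m2
          have k2 : Measurable fun s => (M3 s + M2 s) * wInt psi2 G0 := k1.mul_const _
          rw [lintegral_const_mul _ k2, lintegral_mul_const _ k1]
      _ < ⊤ := by
          rw [lintegral_add_left m3]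
          have h3 : ∫⁻ s in Ioc τ T, M2 s < ⊤ :=
            lt_of_le_of_lt (lintegral_mono_set (Ioc_subset_Ioc_left hτ.le)) i2
          exact ENNReal.mul_lt_top (measure_lt_top _ _)
            (ENNReal.mul_lt_top (ENNReal.add_lt_top.mpr ⟨i3 τ hτ, h3⟩) fG0)
  have s0 := stab_general hT hF hG measurable_psi0 psi0_ne_top collInv_psi0 fF00 eF0 eG0 hl0 hlG0
  have s2 := stab_general hT hF hG measurable_psi2 psi2_ne_top collInv_psi2 fF0 eF2 eG2 hl hlG2
  have hsub : ∀ t, t ∈ Ioc 0 T → ∀ P : ℝ → Prop, (∀ᵐ t ∂(volume.restrict (Ioc 0 T)), P t) →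
      ∀ᵐ t ∂(volume.restrict (Ioc 0 t)), P t := by
    intro t ht P h
    exact ae_restrict_of_ae_restrict_of_subset (Ioc_subset_Ioc_right ht.2) h
  constructor
  · filter_upwards [s0, ae_restrict_mem measurableSet_Ioc] with t ht hmem
    refine ht.trans ?_
    gcongr wDist psi0 F0 G0 + ?_
    calc 2 * ∫⁻ s in Ioc 0 t, ∫⁻ x : T3, cross psi0 (F s x) (G s x)
        ≤ 2 * ∫⁻ s in Ioc 0 t, surf univ * (2 * (M1 s * wDist psi2 (F s) (G s))) := by
          gcongr 2 * ?_
          apply lintegral_mono_ae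
          filter_upwards [hsub t hmem _ b1] with s h1
          exact lintegral_cross_psi0 mF mG h1
      _ = _ := by
          have k1 : Measurable fun s => M1 s * wDist psi2 (F s) (G s) := m1.mul mD2
          have k2 : Measurable fun s => 2 * (M1 s * wDist psi2 (F s) (G s)) := k1.const_mul 2
          rw [lintegral_const_mul _ k2, lintegral_const_mul _ k1]
          ring
  · filter_upwards [s2, ae_restrict_mem measurableSet_Ioc] with t ht hmem
    refine ht.trans ?_
    gcongr wDist psi2 F0 G0 + ?_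
    calc 2 * ∫⁻ s in Ioc 0 t, ∫⁻ x : T3, cross psi2 (F s x) (G s x)
        ≤ 2 * ∫⁻ s in Ioc 0 t, surf univ * (M3 s * wDist psi0 (F s) (G s)
            + M2 s * wDist psi2 (F s) (G s)) := by
          gcongr 2 * ?_
          apply lintegral_mono_ae
          filter_upwards [hsub t hmem _ b3, hsub t hmem _ b2] with s h1 h2
          exact lintegral_cross_psi2 mF mG h1 h2
      _ = _ := by
          have k1 : Measurable fun s => M3 s * wDist psi0 (F s) (G s)
              + M2 s * wDist psi2 (F s) (G s) := (m3.mul mD0).add (m2.mul mD2)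
          rw [lintegral_const_mul _ k1]
          ring

end Vale.Agent.P140
end
end

section

open MeasureTheory Set Filter
open scoped ENNReal Topology NNReal

noncomputable section

namespace Vale.Agent.P140

variable {T : ℝ} {F0 G0 : T3 → V → ℝ} {F G : ℝ → T3 → V → ℝ} {ψ : V → ℝ≥0∞}

theorem wDist_le (hψm : Measurable ψ) {f g : T3 → V → ℝ}
    (hf : Measurable fun p : T3 × V => f p.1 p.2)
    (hf0 : ∀ x v, 0 ≤ f x v) (hg0 : ∀ x v, 0 ≤ g x v) :
    wDist ψ f g ≤ wInt ψ f + wInt ψ g := by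
  unfold wDist wInt
  have m1 : Measurable fun p : T3 × V => ψ p.2 * ENNReal.ofReal (f p.1 p.2) :=
    (hψm.comp measurable_snd).mul hf.ennreal_ofReal
  rw [← lintegral_add_left m1]
  apply lintegral_mono
  intro p
  simp only
  rw [← mul_add, ← ENNReal.ofReal_add (hf0 _ _) (hg0 _ _)]
  gcongr
  rw [abs_le]
  have h1 := hf0 p.1 p.2
  have h2 := hg0 p.1 p.2
  constructor <;> linarith only [h1, h2]

theorem measurable_prim {f : ℝ → ℝ≥0∞} : Measurable fun t => ∫⁻ s in Ioc 0 t, f s := by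
  apply Monotone.measurable
  intro a b hab
  exact lintegral_mono_set (Ioc_subset_Ioc_right hab)

/-- **Uniqueness of mild solutions under moment bounds of the minimum.** -/
theorem mild_unique (hT : 0 < T) (hF : IsMild T F0 F) (hG : IsMild T F0 G)
    (fF0 : wInt psi2 F0 < ⊤)
    (eF2 : ∀ᵐ t ∂(volume.restrict (Ioc 0 T)), wInt psi2 (F t) ≤ wInt psi2 F0)
    (eG2 : ∀ᵐ t ∂(volume.restrict (Ioc 0 T)), wInt psi2 (G t) ≤ wInt psi2 F0)
    (eF0 : ∀ᵐ t ∂(volume.restrict (Ioc 0 T)), wInt psi0 (F t) ≤ wInt psi0 F0)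
    (eG0 : ∀ᵐ t ∂(volume.restrict (Ioc 0 T)), wInt psi0 (G t) ≤ wInt psi0 F0)
    (hl : ∀ τ, 0 < τ → ∫⁻ s in Ioc τ T, ∫⁻ p : T3 × V, psi2 p.2 * loss (F s p.1) p.2 < ⊤)
    {M1 M2 M3 : ℝ → ℝ≥0∞} (m1 : Measurable M1) (m2 : Measurable M2) (m3 : Measurable M3)
    (b1 : ∀ᵐ t ∂(volume.restrict (Ioc 0 T)), ∀ᵐ x : T3, vmom 1 (minF F G t x) ≤ M1 t)
    (b2 : ∀ᵐ t ∂(volume.restrict (Ioc 0 T)), ∀ᵐ x : T3, vmom 2 (minF F G t x) ≤ M2 t)
    (b3 : ∀ᵐ t ∂(volume.restrict (Ioc 0 T)), ∀ᵐ x : T3, vmom 3 (minF F G t x) ≤ M3 t)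
    (i1 : ∫⁻ t in Ioc 0 T, M1 t < ⊤) (i2 : ∫⁻ t in Ioc 0 T, M2 t < ⊤)
    (i3 : ∀ τ, 0 < τ → ∫⁻ t in Ioc τ T, M3 t < ⊤)
    (i31 : ∫⁻ t in Ioc 0 T, M3 t * ∫⁻ s in Ioc 0 t, M1 s < ⊤) :
    ∀ᵐ t ∂(volume.restrict (Ioc 0 T)), wDist psi2 (F t) (G t) = 0 := by
  obtain ⟨h1, h2⟩ := core_estimates hT hF hG fF0 fF0 eF2 eG2 eF0 eG0 hl m1 m2 m3 b1 b2 b3 i1 i2 i3
  have hz0 : ∀ ψ : V → ℝ≥0∞, wDist ψ F0 F0 = 0 := by
    intro ψ
    simp only [wDist, sub_self, abs_zero, ENNReal.ofReal_zero, mul_zero, lintegral_const, zero_mul]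
  rw [hz0] at h1 h2
  simp only [zero_add] at h1 h2
  have mD0 := measurable_wDist measurable_psi0 hF.measurable hG.measurable
  have mD2 := measurable_wDist measurable_psi2 hF.measurable hG.measurable
  set C : ℝ≥0∞ := surf univ with hC
  have hCf : C < ⊤ := measure_lt_top _ _
  set Y0 : ℝ → ℝ≥0∞ := fun t => wDist psi0 (F t) (G t) with hY0
  set Y : ℝ → ℝ≥0∞ := fun t => wDist psi2 (F t) (G t) with hY
  set κ : ℝ → ℝ≥0∞ := fun t => ∫⁻ s in Ioc 0 t, M1 s with hκ
  have mκ : Measurable κ := measurable_prim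
  set W : ℝ → ℝ≥0∞ := fun t => 2 * C * ∫⁻ s in Ioc 0 t, (M3 s * Y0 s + M2 s * Y s) with hW
  have mW : Measurable W := measurable_prim.const_mul _
  have hWmono : Monotone W := by
    intro a b hab
    simp only [hW]
    (clear * - hab; gcongr)
  set Φ : ℝ → ℝ≥0∞ := fun t => 2 * C * (4 * C * (M3 t * κ t) + M2 t) with hΦ
  have mΦ : Measurable Φ := (((m3.mul mκ).const_mul _).add m2).const_mul _
  have hΦi : ∫⁻ t in Ioc 0 T, Φ t < ⊤ := by
    simp only [hΦ]
    have k1 : Measurable fun t => M3 t * κ t := m3.mul mκ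
    have k2 : Measurable fun t => 4 * C * (M3 t * κ t) := k1.const_mul _
    have k3 : Measurable fun t => 4 * C * (M3 t * κ t) + M2 t := k2.add m2
    rw [lintegral_const_mul _ k3, lintegral_add_left k2, lintegral_const_mul _ k1]
    have h2C : 2 * C < ⊤ := ENNReal.mul_lt_top (by simp) hCf
    have h4C : 4 * C < ⊤ := ENNReal.mul_lt_top (by simp) hCf
    exact ENNReal.mul_lt_top h2C (ENNReal.add_lt_top.mpr ⟨ENNReal.mul_lt_top h4C i31, i2⟩)
  -- boundedness of `Y`
  set K : ℝ≥0∞ := wInt psi2 F0 + wInt psi2 F0 with hK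
  have hKf : K < ⊤ := ENNReal.add_lt_top.mpr ⟨fF0, fF0⟩
  have hYK : ∀ᵐ t ∂(volume.restrict (Ioc 0 T)), Y t ≤ K := by
    filter_upwards [eF2, eG2] with t ht1 ht2
    exact (wDist_le measurable_psi2 (measurable_slice2 hF.measurable t) (hF.nonneg t)
      (hG.nonneg t)).trans (add_le_add ht1 ht2)
  have hsub : ∀ t, t ∈ Ioc 0 T → ∀ P : ℝ → Prop, (∀ᵐ t ∂(volume.restrict (Ioc 0 T)), P t) →
      ∀ᵐ t ∂(volume.restrict (Ioc 0 t)), P t := by
    intro t ht P h
    exact ae_restrict_of_ae_restrict_of_subset (Ioc_subset_Ioc_right ht.2) h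
  -- `Y0` in terms of a bound of `Y`
  have hY0bd : ∀ᵐ t ∂(volume.restrict (Ioc 0 T)), ∀ B : ℝ≥0∞,
      (∀ᵐ s ∂(volume.restrict (Ioc 0 t)), Y s ≤ B) → Y0 t ≤ 4 * C * (κ t * B) := by
    filter_upwards [h1] with t ht B hB
    refine ht.trans ?_
    gcongr 4 * C * ?_
    rw [hκ]
    simp only
    rw [← lintegral_mul_const _ m1]
    apply lintegral_mono_ae
    filter_upwards [hB] with s hs
    (clear * - hs; gcongr)
  have hWΦ : ∀ t ∈ Ioc 0 T, W t ≤ ∫⁻ s in Ioc 0 t, Φ s * W s := by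
    intro t ht
    simp only [hW]
    have k1 : Measurable fun s => M3 s * Y0 s + M2 s * Y s := (m3.mul mD0).add (m2.mul mD2)
    rw [← lintegral_const_mul _ k1]
    apply lintegral_mono_ae
    filter_upwards [hsub t ht _ hY0bd, hsub t ht _ h2, ae_restrict_mem measurableSet_Ioc]
      with s hs1 hs2 hmem
    have hsT : s ∈ Ioc 0 T := ⟨hmem.1, hmem.2.trans ht.2⟩
    have hYW : Y s ≤ W s := hs2
    have hY0W : Y0 s ≤ 4 * C * (κ s * W s) := by
      apply hs1
      filter_upwards [hsub s hsT _ h2, ae_restrict_mem measurableSet_Ioc] with r hr hrm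
      exact (show Y r ≤ W r from hr).trans (hWmono hrm.2)
    calc 2 * C * (M3 s * Y0 s + M2 s * Y s)
        ≤ 2 * C * (M3 s * (4 * C * (κ s * W s)) + M2 s * W s) := by (clear * - hY0W hs2; gcongr)
      _ = Φ s * W s := by simp only [hΦ]; ring
  have hWK : ∀ t ∈ Ioc 0 T, W t ≤ (∫⁻ s in Ioc 0 T, Φ s) * K := by
    intro t ht
    simp only [hW]
    have k1 : Measurable fun s => M3 s * Y0 s + M2 s * Y s := (m3.mul mD0).add (m2.mul mD2)
    rw [← lintegral_const_mul _ k1, ← lintegral_mul_const _ mΦ]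
    refine le_trans (lintegral_mono_ae ?_) (lintegral_mono_set (Ioc_subset_Ioc_right ht.2))
    filter_upwards [hsub t ht _ hY0bd, hsub t ht _ hYK, ae_restrict_mem measurableSet_Ioc]
      with s hs1 hs2 hmem
    have hsT : s ∈ Ioc 0 T := ⟨hmem.1, hmem.2.trans ht.2⟩
    have hY0W : Y0 s ≤ 4 * C * (κ s * K) := hs1 K (hsub s hsT _ hYK)
    calc 2 * C * (M3 s * Y0 s + M2 s * Y s)
        ≤ 2 * C * (M3 s * (4 * C * (κ s * K)) + M2 s * K) := by (clear * - hY0W hs2; gcongr)
      _ = Φ s * K := by simp only [hΦ]; ring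
  have hg := gronwall_ennreal (Φ := Φ) (W := W) (T := T) (A := 0)
    (K := (∫⁻ s in Ioc 0 T, Φ s) * K) mΦ mW hΦi (by simp) (ENNReal.mul_lt_top hΦi hKf)
    (Eventually.of_forall hWK) (Eventually.of_forall fun t ht => by
      rw [zero_add]; exact hWΦ t ht)
  rw [ae_restrict_iff' measurableSet_Ioc] at h2 ⊢
  filter_upwards [h2, hg] with t ht1 ht2 hmem
  have h3 := ht2 hmem
  rw [zero_mul] at h3
  exact le_antisymm ((ht1 hmem).trans h3) (zero_le)

/-- **Stability of mild solutions.** -/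
theorem mild_stable (hT : 0 < T) (hF : IsMild T F0 F) (hG : IsMild T G0 G)
    (fF0 : wInt psi2 F0 < ⊤) (fG0 : wInt psi2 G0 < ⊤)
    (eF2 : ∀ᵐ t ∂(volume.restrict (Ioc 0 T)), wInt psi2 (F t) ≤ wInt psi2 F0)
    (eG2 : ∀ᵐ t ∂(volume.restrict (Ioc 0 T)), wInt psi2 (G t) ≤ wInt psi2 G0)
    (eF0 : ∀ᵐ t ∂(volume.restrict (Ioc 0 T)), wInt psi0 (F t) ≤ wInt psi0 F0)
    (eG0 : ∀ᵐ t ∂(volume.restrict (Ioc 0 T)), wInt psi0 (G t) ≤ wInt psi0 G0)
    (hl : ∀ τ, 0 < τ → ∫⁻ s in Ioc τ T, ∫⁻ p : T3 × V, psi2 p.2 * loss (F s p.1) p.2 < ⊤)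
    {M : ℝ → ℝ≥0∞} (m : Measurable M)
    (b : ∀ᵐ t ∂(volume.restrict (Ioc 0 T)), ∀ᵐ x : T3, vmom 3 (minF F G t x) ≤ M t)
    (i : ∫⁻ t in Ioc 0 T, M t < ⊤) :
    ∀ᵐ t ∂(volume.restrict (Ioc 0 T)), wDist psi2 (F t) (G t) ≤ wDist psi2 F0 G0
      * ENNReal.ofReal (Real.exp (∫⁻ s in Ioc 0 t, 4 * surf univ * M s).toReal) := by
  have hmn : ∀ t x v, 0 ≤ minF F G t x v := fun t x v => le_min (hF.nonneg t x v) (hG.nonneg t x v)
  have b1 : ∀ᵐ t ∂(volume.restrict (Ioc 0 T)), ∀ᵐ x : T3, vmom 1 (minF F G t x) ≤ M t := by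
    filter_upwards [b] with t ht
    filter_upwards [ht] with x hx
    exact (vmom_mono (by norm_num) (hmn t x)).trans hx
  have b2 : ∀ᵐ t ∂(volume.restrict (Ioc 0 T)), ∀ᵐ x : T3, vmom 2 (minF F G t x) ≤ M t := by
    filter_upwards [b] with t ht
    filter_upwards [ht] with x hx
    exact (vmom_mono (by norm_num) (hmn t x)).trans hx
  have i3 : ∀ τ, 0 < τ → ∫⁻ t in Ioc τ T, M t < ⊤ := fun τ hτ =>
    lt_of_le_of_lt (lintegral_mono_set (Ioc_subset_Ioc_left hτ.le)) i
  obtain ⟨-, h2⟩ := core_estimates hT hF hG fF0 fG0 eF2 eG2 eF0 eG0 hl m m m b1 b2 b i i i3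
  have mD2 := measurable_wDist measurable_psi2 hF.measurable hG.measurable
  have hCf : surf univ < ⊤ := measure_lt_top surf _
  have hA : wDist psi2 F0 G0 < ⊤ := lt_of_le_of_lt
    (wDist_le measurable_psi2 hF.measurable0 hF.nonneg0 hG.nonneg0)
    (ENNReal.add_lt_top.mpr ⟨fF0, fG0⟩)
  have hYK : ∀ᵐ t ∂(volume.restrict (Ioc 0 T)), wDist psi2 (F t) (G t)
      ≤ wInt psi2 F0 + wInt psi2 G0 := by
    filter_upwards [eF2, eG2] with t ht1 ht2
    exact (wDist_le measurable_psi2 (measurable_slice2 hF.measurable t) (hF.nonneg t)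
      (hG.nonneg t)).trans (add_le_add ht1 ht2)
  have hΦi : ∫⁻ t in Ioc 0 T, 4 * surf univ * M t < ⊤ := by
    rw [lintegral_const_mul _ m]
    exact ENNReal.mul_lt_top (ENNReal.mul_lt_top (by simp) hCf) i
  have hmain : ∀ᵐ t, t ∈ Ioc 0 T → wDist psi2 (F t) (G t) ≤ wDist psi2 F0 G0
      + ∫⁻ s in Ioc 0 t, (4 * surf univ * M s) * wDist psi2 (F s) (G s) := by
    rw [ae_restrict_iff' measurableSet_Ioc] at h2
    filter_upwards [h2] with t ht hmem
    refine (ht hmem).trans ?_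
    gcongr wDist psi2 F0 G0 + ?_
    have k : Measurable fun s => M s * wDist psi0 (F s) (G s) + M s * wDist psi2 (F s) (G s) :=
      (m.mul (measurable_wDist measurable_psi0 hF.measurable hG.measurable)).add (m.mul mD2)
    rw [← lintegral_const_mul _ k]
    apply lintegral_mono
    intro s
    simp only
    calc 2 * surf univ * (M s * wDist psi0 (F s) (G s) + M s * wDist psi2 (F s) (G s))
        ≤ 2 * surf univ * (M s * wDist psi2 (F s) (G s) + M s * wDist psi2 (F s) (G s)) := by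
          gcongr
          exact wDist_psi0_le _ _
      _ = _ := by ring
  have hg := gronwall_ennreal (Φ := fun s => 4 * surf univ * M s)
    (W := fun t => wDist psi2 (F t) (G t)) (T := T) (A := wDist psi2 F0 G0)
    (K := wInt psi2 F0 + wInt psi2 G0) (m.const_mul _) mD2 hΦi hA
    (ENNReal.add_lt_top.mpr ⟨fF0, fG0⟩)
    ((ae_restrict_iff' measurableSet_Ioc).mp hYK) hmain
  rw [ae_restrict_iff' measurableSet_Ioc]
  exact hg

end Vale.Agent.P140
end
end
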