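import Mathlib
import Vale.Agent.P140.Bdl.B2
import Vale.Agent.P140.Bdl.B1

set_option linter.all false

attribute [local instance 5000] Vale.Agent.P140.Sc.a01 Vale.Agent.P140.Sc.a02 Vale.Agent.P140.Sc.a03 Vale.Agent.P140.Sc.a04 Vale.Agent.P140.Sc.a05 Vale.Agent.P140.Sc.a06 Vale.Agent.P140.Sc.a07 Vale.Agent.P140.Sc.a08 Vale.Agent.P140.Sc.a09 Vale.Agent.P140.Sc.a10 Vale.Agent.P140.Sc.a11 Vale.Agent.P140.Sc.a12 Vale.Agent.P140.Sc.a13 Vale.Agent.P140.Sc.a14 Vale.Agent.P140.Sc.a15 Vale.Agent.P140.Sc.a16 Vale.Agent.P140.Sc.a17 Vale.Agent.P140.Sc.a18 Vale.Agent.P140.Sc.a19 Vale.Agent.P140.Sc.a20 Vale.Agent.P140.Sc.a21 Vale.Agent.P140.Sc.a22 Vale.Agent.P140.Sc.a23 Vale.Agent.P140.Sc.a24 Vale.Agent.P140.Sc.a25 Vale.Agent.P140.Sc.a26 Vale.Agent.P140.Sc.a27 Vale.Agent.P140.Sc.a28 Vale.Agent.P140.Sc.a29 Vale.Agent.P140.Sc.a30 Vale.Agent.P140.Sc.a31 Vale.Agent.P140.Sc.a32 Vale.Agent.P140.Sc.a33 Vale.Agent.P140.Sc.r01 Vale.Agent.P140.Sc.r02 Vale.Agent.P140.Sc.r03 Vale.Agent.P140.Sc.r04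 Vale.Agent.P140.Sc.r05 Vale.Agent.P140.Sc.r06 Vale.Agent.P140.Sc.r07 Vale.Agent.P140.Sc.r08 Vale.Agent.P140.Sc.r09 Vale.Agent.P140.Sc.r10 Vale.Agent.P140.Sc.r11 Vale.Agent.P140.Sc.r12 Vale.Agent.P140.Sc.r13 Vale.Agent.P140.Sc.r14 Vale.Agent.P140.Sc.r15 Vale.Agent.P140.Sc.r16 Vale.Agent.P140.Sc.r17 Vale.Agent.P140.Sc.r18

section

/-! Consequences of the definition of renormalized entropy solutions used in the uniqueness proof. -/

open MeasureTheory Set Filter
open scoped ENNReal Topology NNReal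

noncomputable section

namespace Vale.Agent.P140

variable {T : ℝ} {F0 G0 : T3 → V → ℝ} {F G : ℝ → T3 → V → ℝ}

theorem continuousOn_mass (hF : IsRenormEntropySol F0 F) :
    ContinuousOn (fun t => ∫ p : T3 × V, F t p.1 p.2) (Ici 0) := by
  have h := hF.weak_cont (fun _ => 1) measurable_const ⟨1, fun _ => by simp⟩
  simpa using h

theorem integrable_datum (hF : IsRenormEntropySol F0 F) :
    Integrable fun p : T3 × V => F0 p.1 p.2 :=
  (hF.integrable 0 le_rfl).congr hF.initial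

theorem transport_of_time (ζ : ℝ → ℝ) (t : ℝ) (x : T3) (v : V) :
    transport (fun t _ => ζ t) t x v = deriv ζ t := by
  unfold transport
  have := deriv_comp_const_add ζ t 0
  simpa using this

theorem mass_test (hF : IsRenormEntropySol F0 F) {θ : ℝ → ℝ} (hθ : ContDiff ℝ (⊤ : ℕ∞) θ)
    (hc : HasCompactSupport θ) :
    ∫ t in Ioi (0 : ℝ), θ t * ((∫ p : T3 × V, F t p.1 p.2) - ∫ p : T3 × V, F0 p.1 p.2) = 0 := by
  -- primitive
  have h1 : ContDiff ℝ (⊤ : ℕ∞) fun q : ℝ × ℝ => θ q.1 * (θ q.2) :=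
    (hθ.comp contDiff_fst).mul (hθ.comp contDiff_snd)
  obtain ⟨R, hR⟩ : ∃ R, ∀ q : ℝ, R < |q| → θ q = 0 := by
    obtain ⟨R, hR⟩ := hc.isCompact.isBounded.exists_norm_le
    refine ⟨R, fun q hq => ?_⟩
    by_contra h
    exact absurd (hR q (subset_tsupport _ h)) (not_le.mpr hq)
  obtain ⟨ζ, hζ, ⟨R', hR'⟩, hz, hd⟩ : ∃ ζ : ℝ → ℝ, ContDiff ℝ (⊤ : ℕ∞) ζ ∧
      (∃ R, ∀ t, R < |t| → ζ t = 0) ∧
      (ζ 0 = -∫ s in Ioi (0 : ℝ), θ s) ∧ (∀ t, 0 ≤ t → HasDerivAt ζ (θ t) t) := by
    have hcs : HasCompactSupport fun q : ℝ × PUnit.{1} => θ q.1 := by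
      apply HasCompactSupport.intro (K := Icc (-R) R ×ˢ (univ : Set PUnit.{1}))
      · exact isCompact_Icc.prod isCompact_univ
      · intro q hq
        apply hR
        by_contra hcon
        apply hq
        rw [not_lt, abs_le] at hcon
        exact ⟨hcon, mem_univ _⟩
    obtain ⟨ζ, h1, ⟨R', h2⟩, h3, h4⟩ := exists_primitive (P := PUnit.{1}) (θ := fun q => θ q.1)
      (hθ.comp contDiff_fst) hcs
    refine ⟨fun t => ζ (t, PUnit.unit), h1.comp (contDiff_id.prodMk contDiff_const), ⟨R', ?_⟩, ?_, ?_⟩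
    · intro t ht
      exact h2 t _ (Or.inl ht)
    · exact h3 0 _ le_rfl
    · intro t ht
      exact h4 t _ ht
  have hφ : IsTestX fun t _ => ζ t := by
    refine ⟨hζ.comp contDiff_fst, ⟨R', fun t x ht => hR' t ht⟩⟩
  have hm := hF.mass _ hφ
  have e1 : ∫ p : ℝ × T3 × V in Ioi 0 ×ˢ univ, F p.1 p.2.1 p.2.2
        * transport (fun t _ => ζ t) p.1 p.2.1 p.2.2
      = ∫ p : ℝ × T3 × V in Ioi 0 ×ˢ univ, F p.1 p.2.1 p.2.2 * θ p.1 := by
    apply setIntegral_congr_fun (measurableSet_Ioi.prod MeasurableSet.univ)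
    intro p hp
    simp only
    rw [transport_of_time, (hd p.1 (le_of_lt hp.1)).deriv]
  rw [e1] at hm
  have hint : Integrable (fun p : ℝ × T3 × V => F p.1 p.2.1 p.2.2 * θ p.1)
      ((volume.restrict (Ioi (0 : ℝ))).prod volume) := by
    obtain ⟨K, hK⟩ : ∃ K, ∀ t, |θ t| ≤ K := by
      have := hθ.continuous.norm.bddAbove_range_of_hasCompactSupport hc.norm
      obtain ⟨K, hK⟩ := this
      exact ⟨K, fun t => hK ⟨t, rfl⟩⟩
    have hFl := lintegral_F_lt_top hF (max R 1)
    have hFi : Integrable (fun p : ℝ × T3 × V => F p.1 p.2.1 p.2.2)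
        ((volume.restrict (Ioc 0 (max R 1))).prod volume) := by
      refine ⟨hF.measurable.aestronglyMeasurable, ?_⟩
      rw [hasFiniteIntegral_iff_ofReal (Eventually.of_forall fun p => hF.nonneg _ _ _)]
      exact hFl
    have h2 : Integrable (fun p : ℝ × T3 × V => F p.1 p.2.1 p.2.2 * θ p.1)
        ((volume.restrict (Ioc 0 (max R 1))).prod volume) := by
      apply hFi.mul_bdd (c := K)
      · exact (hθ.continuous.measurable.comp measurable_fst).aestronglyMeasurable
      · exact Eventually.of_forall fun p => hK _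
    have e3 : ((volume.restrict (Ioi (0 : ℝ))).prod (volume : Measure (T3 × V)))
        = (volume.prod volume).restrict (Ioi 0 ×ˢ univ) := by
      rw [← Measure.prod_restrict, Measure.restrict_univ]
    have e4 : ((volume.restrict (Ioc 0 (max R 1))).prod (volume : Measure (T3 × V)))
        = (volume.prod volume).restrict (Ioc 0 (max R 1) ×ˢ univ) := by
      rw [← Measure.prod_restrict, Measure.restrict_univ]
    rw [e3]
    rw [e4] at h2
    apply IntegrableOn.of_forall_sdiff_eq_zero (s := Ioc 0 (max R 1) ×ˢ univ) h2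
    · exact measurableSet_Ioi.prod MeasurableSet.univ
    · intro p hp
      have hp1 : 0 < p.1 := hp.1.1
      have hp2 : max R 1 < p.1 := by
        by_contra hcon
        exact hp.2 ⟨⟨hp1, not_lt.mp hcon⟩, mem_univ _⟩
      rw [hR p.1 (lt_of_lt_of_le (lt_of_le_of_lt (le_max_left _ _) hp2) (le_abs_self _)), mul_zero]
  have e2 : ∫ p : ℝ × T3 × V in Ioi 0 ×ˢ univ, F p.1 p.2.1 p.2.2 * θ p.1
      = ∫ t in Ioi (0 : ℝ), θ t * ∫ p : T3 × V, F t p.1 p.2 := by
    have e3 : (volume : Measure (ℝ × T3 × V)).restrict (Ioi 0 ×ˢ univ)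
        = (volume.restrict (Ioi (0 : ℝ))).prod volume := by
      have e4 : ((volume.restrict (Ioi (0 : ℝ))).prod (volume : Measure (T3 × V)))
          = (volume.prod volume).restrict (Ioi 0 ×ˢ univ) := by
        rw [← Measure.prod_restrict, Measure.restrict_univ]
      rw [e4]
      rfl
    rw [e3, integral_prod _ hint]
    apply setIntegral_congr_fun measurableSet_Ioi
    intro t ht
    simp only
    rw [integral_mul_const, mul_comm]
  have i1 : IntegrableOn (fun t => θ t * ∫ p : T3 × V, F t p.1 p.2) (Ioi 0) := by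
    have := hint.integral_prod_left
    apply this.congr
    filter_upwards with t
    rw [integral_mul_const, mul_comm]
  have i2 : IntegrableOn (fun t => θ t * ∫ p : T3 × V, F0 p.1 p.2) (Ioi 0) :=
    ((hθ.continuous.integrable_of_hasCompactSupport hc).mul_const _).integrableOn
  have e5 : ∫ p : T3 × V, F0 p.1 p.2 * ζ 0 = (∫ p : T3 × V, F0 p.1 p.2) * ζ 0 :=
    integral_mul_const _ _
  rw [e2, e5, hz] at hm
  simp_rw [mul_sub]
  rw [integral_sub i1 i2, integral_mul_const]
  linarith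

/-- conservation of mass -/
theorem mass_conserved (hF : IsRenormEntropySol F0 F) {t : ℝ} (ht : 0 ≤ t) :
    ∫ p : T3 × V, F t p.1 p.2 = ∫ p : T3 × V, F0 p.1 p.2 := by
  have hc := continuousOn_mass hF
  have hae : ∀ᵐ t : ℝ, t ∈ Ioi (0 : ℝ) →
      (∫ p : T3 × V, F t p.1 p.2) - ∫ p : T3 × V, F0 p.1 p.2 = 0 := by
    apply isOpen_Ioi.ae_eq_zero_of_integral_contDiff_smul_eq_zero
    · have h1 : ContinuousOn (fun t => (∫ p : T3 × V, F t p.1 p.2) - ∫ p : T3 × V, F0 p.1 p.2)
          (Ioi 0) := (hc.mono Ioi_subset_Ici_self).sub continuousOn_const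
      exact h1.locallyIntegrableOn measurableSet_Ioi
    · intro g hg hgc hgs
      have h1 := mass_test hF hg hgc
      have h2 : ∫ t, g t • ((∫ p : T3 × V, F t p.1 p.2) - ∫ p : T3 × V, F0 p.1 p.2)
          = ∫ t in Ioi (0:ℝ), g t * ((∫ p : T3 × V, F t p.1 p.2) - ∫ p : T3 × V, F0 p.1 p.2) := by
        rw [← integral_indicator measurableSet_Ioi]
        congr 1
        ext t
        by_cases h : t ∈ Ioi (0 : ℝ)
        · rw [indicator_of_mem h, smul_eq_mul]
        · rw [indicator_of_notMem h]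
          have : g t = 0 := by
            by_contra hcon
            exact h (hgs (subset_tsupport _ hcon))
          rw [this, zero_smul]
      rw [h2, h1]
  have hae2 : (fun t => ∫ p : T3 × V, F t p.1 p.2) =ᵐ[volume.restrict (Icc 0 (t + 1))]
      fun _ => ∫ p : T3 × V, F0 p.1 p.2 := by
    have h3 : ∀ᵐ s : ℝ, s ≠ 0 := by
      rw [ae_iff]
      simp
    rw [Filter.EventuallyEq, ae_restrict_iff' measurableSet_Icc]
    filter_upwards [hae, h3] with s hs hs0 hmem
    have := hs (lt_of_le_of_ne hmem.1 (Ne.symm hs0))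
    linarith
  have := Measure.eqOn_Icc_of_ae_eq volume (by linarith : (0 : ℝ) ≠ t + 1) hae2
    (hc.mono Icc_subset_Ici_self) continuousOn_const
  exact this ⟨ht, by linarith⟩

theorem wInt_psi0_eq {f : T3 → V → ℝ} (hf : Integrable fun p : T3 × V => f p.1 p.2)
    (h0 : ∀ x v, 0 ≤ f x v) : wInt psi0 f = ENNReal.ofReal (∫ p : T3 × V, f p.1 p.2) := by
  unfold wInt psi0
  simp only [one_mul]
  exact (ofReal_integral_eq_lintegral_ofReal hf (Eventually.of_forall fun p => h0 _ _)).symm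

theorem wInt_psi0_renorm (hF : IsRenormEntropySol F0 F) {t : ℝ} (ht : 0 ≤ t) :
    wInt psi0 (F t) = wInt psi0 F0 := by
  rw [wInt_psi0_eq (hF.integrable t ht) (hF.nonneg t),
    wInt_psi0_eq (integrable_datum hF) hF.datum.nonneg, mass_conserved hF ht]

theorem wInt_psi2_split {f : T3 → V → ℝ} (hf : Measurable fun p : T3 × V => f p.1 p.2)
    (h0 : ∀ x v, 0 ≤ f x v) : wInt psi2 f
      = wInt psi0 f + ∫⁻ p : T3 × V, ENNReal.ofReal (‖p.2‖ ^ 2 * f p.1 p.2) := by
  unfold wInt psi0 psi2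
  simp only [one_mul]
  rw [← lintegral_add_left hf.ennreal_ofReal]
  apply lintegral_congr
  intro p
  rw [← ENNReal.ofReal_mul (by positivity),
    ← ENNReal.ofReal_add (h0 _ _) (mul_nonneg (by positivity) (h0 _ _))]
  congr 1
  ring

theorem measurable_t (hF : IsRenormEntropySol F0 F) (t : ℝ) :
    Measurable fun p : T3 × V => F t p.1 p.2 := measurable_slice2 hF.measurable t

theorem wInt_psi2_renorm (hF : IsRenormEntropySol F0 F) {t : ℝ} (ht : 0 ≤ t) :
    wInt psi2 (F t) ≤ wInt psi2 F0 := by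
  rw [wInt_psi2_split (measurable_t hF t) (hF.nonneg t),
    wInt_psi2_split hF.datum.measurable hF.datum.nonneg, wInt_psi0_renorm hF ht]
  gcongr wInt psi0 F0 + ?_
  exact hF.energy t ht

theorem wInt_datum_lt_top {F0 : T3 → V → ℝ} (h : IsDatum F0) : wInt psi2 F0 < ⊤ := by
  refine lt_of_le_of_lt ?_ h.finite
  unfold wInt psi2
  apply lintegral_mono
  intro p
  simp only
  rw [← ENNReal.ofReal_mul (by positivity)]
  apply ENNReal.ofReal_le_ofReal
  rw [mul_comm]
  apply mul_le_mul_of_nonneg_left _ (h.nonneg _ _)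
  have := abs_nonneg (Real.log (F0 p.1 p.2))
  linarith

/-- weighted bound of the loss term -/
theorem loss_weight_bound (hF : Measurable fun p : ℝ × T3 × V => F p.1 p.2.1 p.2.2)
    (hF0 : ∀ t x v, 0 ≤ F t x v) {s : ℝ} {a : ℝ≥0∞}
    (ha : ∀ᵐ x : T3, vmom 3 (F s x) ≤ a) :
    ∫⁻ p : T3 × V, psi2 p.2 * loss (F s p.1) p.2 ≤ surf univ * ((a + a) * wInt psi2 (F s)) := by
  classical
  have h := lossG_bound (ψ := psi2) (F := fun t x v => F t x v + 1) (G := F) measurable_psi2
    (hF.add_const 1) hF hF0 (k := 3) (l := 2) w_norm_psi2 w_psi2 (s := s) (a := a) (b := a)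
    (by
      filter_upwards [ha] with x hx
      refine (vmom_mono_fun fun v => ?_).trans hx
      exact min_le_right _ _)
    (by
      filter_upwards [ha] with x hx
      refine ((vmom_mono_fun fun v => ?_).trans (vmom_mono (by norm_num) (hF0 s x))).trans hx
      exact min_le_right _ _)
  simpa using h

end Vale.Agent.P140
end
end

section

/-! Uniqueness and stability for renormalized entropy solutions. -/

open MeasureTheory Set Filter
open scoped ENNReal Topology NNReal

noncomputable section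

namespace Vale.Agent.P140

variable {T : ℝ} {F0 G0 : T3 → V → ℝ} {F G : ℝ → T3 → V → ℝ}

theorem cont_pair (hF : IsRenormEntropySol F0 F) (hG : IsRenormEntropySol G0 G)
    {θ : T3 × V → ℝ} (hθ : Measurable θ) (hb : ∃ C, ∀ p, |θ p| ≤ C) :
    ContinuousOn (fun t => ∫ p : T3 × V, (F t p.1 p.2 - G t p.1 p.2) * θ p) (Ici 0) := by
  have h1 := (hF.weak_cont θ hθ hb).sub (hG.weak_cont θ hθ hb)
  apply h1.congr
  intro t ht
  simp only
  obtain ⟨C, hC⟩ := hb
  have i1 : Integrable fun p : T3 × V => F t p.1 p.2 * θ p :=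
    (hF.integrable t ht).mul_bdd (c := C) hθ.aestronglyMeasurable (Eventually.of_forall hC)
  have i2 : Integrable fun p : T3 × V => G t p.1 p.2 * θ p :=
    (hG.integrable t ht).mul_bdd (c := C) hθ.aestronglyMeasurable (Eventually.of_forall hC)
  rw [Pi.sub_apply, ← integral_sub i1 i2]
  congr 1
  ext p
  ring

theorem ofReal_integral_le_wDist {f g : T3 → V → ℝ} {θ : T3 × V → ℝ} (hθ : ∀ p, |θ p| ≤ (1 + ‖p.2‖ ^ 2)) :
    ENNReal.ofReal (∫ p : T3 × V, (f p.1 p.2 - g p.1 p.2) * θ p) ≤ wDist psi2 f g := by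
  refine (ENNReal.ofReal_le_ofReal (le_abs_self _)).trans ?_
  rw [← Real.enorm_eq_ofReal_abs]
  refine (enorm_integral_le_lintegral_enorm _).trans ?_
  unfold wDist psi2
  apply lintegral_mono
  intro p
  simp only
  rw [Real.enorm_eq_ofReal_abs, abs_mul, ← ENNReal.ofReal_mul (by positivity), mul_comm]
  apply ENNReal.ofReal_le_ofReal
  gcongr
  exact hθ p

/-- passing from almost every time to every time -/
theorem all_times (hT : 0 < T) (hF : IsRenormEntropySol F0 F) (hG : IsRenormEntropySol G0 G)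
    {B : ℝ≥0∞} (h : ∀ᵐ t ∂(volume.restrict (Ioc 0 T)), wDist psi2 (F t) (G t) ≤ B) :
    ∀ t ∈ Icc 0 T, wDist psi2 (F t) (G t) ≤ B := by
  intro t ht
  by_cases hB : B = ⊤
  · rw [hB]; exact le_top
  -- truncated weights
  have key : ∀ n : ℕ, ∫⁻ p : T3 × V, (if ‖p.2‖ ≤ n then psi2 p.2 else 0)
      * ENNReal.ofReal |F t p.1 p.2 - G t p.1 p.2| ≤ B := by
    intro n
    set θ : T3 × V → ℝ := fun p => if ‖p.2‖ ≤ n then
      (1 + ‖p.2‖ ^ 2) * SignType.sign (F t p.1 p.2 - G t p.1 p.2) else 0 with hθ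
    have hmd : Measurable fun p : T3 × V => F t p.1 p.2 - G t p.1 p.2 :=
      (measurable_t hF t).sub (measurable_t hG t)
    have hθm : Measurable θ := by
      apply Measurable.ite
      · exact measurableSet_le measurable_snd.norm measurable_const
      · apply Measurable.mul
        · exact measurable_const.add (measurable_snd.norm.pow_const 2)
        · have h1 : Measurable fun x : ℝ => ((SignType.sign x : SignType) : ℝ) := by
            have : (fun x : ℝ => ((SignType.sign x : SignType) : ℝ))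
                = fun x => if 0 < x then (1 : ℝ) else if x < 0 then -1 else 0 := by
              funext x
              rcases lt_trichotomy x 0 with h | h | h
              · rw [sign_neg h, if_neg (not_lt.mpr h.le), if_pos h]; simp
              · rw [h]; simp
              · rw [sign_pos h, if_pos h]; simp
            rw [this]
            exact Measurable.ite measurableSet_Ioi measurable_const
              (Measurable.ite measurableSet_Iio measurable_const measurable_const)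
          exact h1.comp hmd
      · exact measurable_const
    have hsg : ∀ x : ℝ, |((SignType.sign x : SignType) : ℝ)| ≤ 1 := by
      intro x
      rcases lt_trichotomy x 0 with h | h | h
      · rw [sign_neg h]; simp
      · rw [h]; simp
      · rw [sign_pos h]; simp
    have hθb : ∀ p, |θ p| ≤ 1 + ‖p.2‖ ^ 2 := by
      intro p
      simp only [hθ]
      split_ifs with hp
      · rw [abs_mul, abs_of_nonneg (by positivity : (0:ℝ) ≤ 1 + ‖p.2‖ ^ 2)]
        calc (1 + ‖p.2‖ ^ 2) * |((SignType.sign (F t p.1 p.2 - G t p.1 p.2) : SignType) : ℝ)|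
            ≤ (1 + ‖p.2‖ ^ 2) * 1 := by gcongr; exact hsg _
          _ = _ := mul_one _
      · rw [abs_zero]; positivity
    have hθb2 : ∃ C, ∀ p, |θ p| ≤ C := by
      refine ⟨1 + (n : ℝ) ^ 2, fun p => ?_⟩
      by_cases hp : ‖p.2‖ ≤ n
      · refine (hθb p).trans ?_
        gcongr
      · simp only [hθ, if_neg hp, abs_zero]
        positivity
    have hc := cont_pair hF hG hθm hθb2
    have hle : ∀ s ∈ Icc 0 T, ∫ p : T3 × V, (F s p.1 p.2 - G s p.1 p.2) * θ p ≤ B.toReal := by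
      by_contra hcon
      push Not at hcon
      obtain ⟨s, hs, hlt⟩ := hcon
      -- the set where the inequality fails is open in `Icc 0 T`
      set m : ℝ → ℝ := fun s => ∫ p : T3 × V, (F s p.1 p.2 - G s p.1 p.2) * θ p with hm
      have hae : (fun s => max (m s) B.toReal) =ᵐ[volume.restrict (Icc 0 T)] fun _ => B.toReal := by
        have h3 : ∀ᵐ s : ℝ, s ≠ 0 := by
          rw [ae_iff]
          simp
        rw [Filter.EventuallyEq, ae_restrict_iff' measurableSet_Icc]
        rw [ae_restrict_iff' measurableSet_Ioc] at h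
        filter_upwards [h, h3] with r hr hr0 hmem
        have h4 := hr ⟨lt_of_le_of_ne hmem.1 (Ne.symm hr0), hmem.2⟩
        have h5 := (ofReal_integral_le_wDist (f := F r) (g := G r) hθb).trans h4
        have h6 : m r ≤ B.toReal := by
          rw [← ENNReal.ofReal_toReal hB] at h5
          rcases le_or_gt (m r) 0 with h7 | h7
          · exact h7.trans ENNReal.toReal_nonneg
          · exact (ENNReal.ofReal_le_ofReal_iff ENNReal.toReal_nonneg).mp h5
        exact max_eq_right h6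
      have hcc : ContinuousOn (fun s => max (m s) B.toReal) (Icc 0 T) := by
        have : ContinuousOn m (Icc 0 T) := hc.mono Icc_subset_Ici_self
        exact this.sup continuousOn_const
      have h8 := Measure.eqOn_Icc_of_ae_eq volume (by linarith : (0 : ℝ) ≠ T) hae
        hcc continuousOn_const hs
      simp only at h8
      have := le_max_left (m s) B.toReal
      rw [h8] at this
      exact absurd this (not_le.mpr hlt)
    have h9 := hle t ht
    have hint : Integrable fun p : T3 × V => (F t p.1 p.2 - G t p.1 p.2) * θ p := by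
      obtain ⟨C, hC⟩ := hθb2
      exact ((hF.integrable t ht.1).sub (hG.integrable t ht.1)).mul_bdd (c := C)
        hθm.aestronglyMeasurable (Eventually.of_forall hC)
    have hnn : ∀ p : T3 × V, (F t p.1 p.2 - G t p.1 p.2) * θ p
        = if ‖p.2‖ ≤ n then (1 + ‖p.2‖ ^ 2) * |F t p.1 p.2 - G t p.1 p.2| else 0 := by
      intro p
      simp only [hθ]
      split_ifs with hp
      · have : (F t p.1 p.2 - G t p.1 p.2)
            * ((1 + ‖p.2‖ ^ 2) * ((SignType.sign (F t p.1 p.2 - G t p.1 p.2) : SignType) : ℝ))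
            = (1 + ‖p.2‖ ^ 2) * (((SignType.sign (F t p.1 p.2 - G t p.1 p.2) : SignType) : ℝ)
              * (F t p.1 p.2 - G t p.1 p.2)) := by ring
        rw [this, sign_mul_self]
      · rw [mul_zero]
    have hnn2 : ∀ p : T3 × V, 0 ≤ (F t p.1 p.2 - G t p.1 p.2) * θ p := by
      intro p
      rw [hnn]
      split_ifs
      · (clear * -; positivity)
      · exact le_rfl
    calc ∫⁻ p : T3 × V, (if ‖p.2‖ ≤ n then psi2 p.2 else 0)
          * ENNReal.ofReal |F t p.1 p.2 - G t p.1 p.2|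
        = ∫⁻ p : T3 × V, ENNReal.ofReal ((F t p.1 p.2 - G t p.1 p.2) * θ p) := by
          apply lintegral_congr
          intro p
          rw [hnn]
          split_ifs with hp
          · unfold psi2
            rw [← ENNReal.ofReal_mul (by positivity)]
          · simp
      _ = ENNReal.ofReal (∫ p : T3 × V, (F t p.1 p.2 - G t p.1 p.2) * θ p) :=
          (ofReal_integral_eq_lintegral_ofReal hint (Eventually.of_forall hnn2)).symm
      _ ≤ B := by
          rw [← ENNReal.ofReal_toReal hB]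
          exact ENNReal.ofReal_le_ofReal h9
  -- monotone limit
  have hmono : ∫⁻ p : T3 × V, ⨆ n : ℕ, (if ‖p.2‖ ≤ n then psi2 p.2 else 0)
      * ENNReal.ofReal |F t p.1 p.2 - G t p.1 p.2|
      = ⨆ n : ℕ, ∫⁻ p : T3 × V, (if ‖p.2‖ ≤ n then psi2 p.2 else 0)
      * ENNReal.ofReal |F t p.1 p.2 - G t p.1 p.2| := by
    apply lintegral_iSup
    · intro n
      apply Measurable.mul
      · exact Measurable.ite (measurableSet_le measurable_snd.norm measurable_const)
          (measurable_psi2.comp measurable_snd) measurable_const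
      · exact ((measurable_t hF t).sub (measurable_t hG t)).abs.ennreal_ofReal
    · intro a b hab p
      simp only
      gcongr
      split_ifs with h1 h2 h2
      · exact le_rfl
      · exact absurd (h1.trans (by exact_mod_cast hab)) h2
      · exact zero_le
      · exact le_rfl
  unfold wDist
  calc ∫⁻ p : T3 × V, psi2 p.2 * ENNReal.ofReal |F t p.1 p.2 - G t p.1 p.2|
      ≤ ∫⁻ p : T3 × V, ⨆ n : ℕ, (if ‖p.2‖ ≤ n then psi2 p.2 else 0)
        * ENNReal.ofReal |F t p.1 p.2 - G t p.1 p.2| := by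
        apply lintegral_mono
        intro p
        obtain ⟨n, hn⟩ := exists_nat_ge ‖p.2‖
        refine le_trans ?_ (le_iSup _ n)
        simp only
        rw [if_pos hn]
    _ ≤ B := by
        rw [hmono]
        exact iSup_le key

/-- **General uniqueness criterion**: moments of `min(F,G)` and one integrable weighted loss. -/
theorem renorm_unique (hT : 0 < T) (hF : IsRenormEntropySol F0 F) (hG : IsRenormEntropySol F0 G)
    (hl : ∀ τ, 0 < τ → ∫⁻ s in Ioc τ T, ∫⁻ p : T3 × V, psi2 p.2 * loss (F s p.1) p.2 < ⊤)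
    {M1 M2 M3 : ℝ → ℝ≥0∞} (m1 : Measurable M1) (m2 : Measurable M2) (m3 : Measurable M3)
    (b1 : ∀ᵐ t ∂(volume.restrict (Ioc 0 T)), ∀ᵐ x : T3, vmom 1 (minF F G t x) ≤ M1 t)
    (b2 : ∀ᵐ t ∂(volume.restrict (Ioc 0 T)), ∀ᵐ x : T3, vmom 2 (minF F G t x) ≤ M2 t)
    (b3 : ∀ᵐ t ∂(volume.restrict (Ioc 0 T)), ∀ᵐ x : T3, vmom 3 (minF F G t x) ≤ M3 t)
    (i1 : ∫⁻ t in Ioc 0 T, M1 t < ⊤) (i2 : ∫⁻ t in Ioc 0 T, M2 t < ⊤)
    (i3 : ∀ τ, 0 < τ → ∫⁻ t in Ioc τ T, M3 t < ⊤)
    (i31 : ∫⁻ t in Ioc 0 T, M3 t * ∫⁻ s in Ioc 0 t, M1 s < ⊤) :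
    ∀ t ∈ Icc 0 T, ∀ᵐ p : T3 × V, F t p.1 p.2 = G t p.1 p.2 := by
  have e : ∀ {H : ℝ → T3 → V → ℝ}, IsRenormEntropySol F0 H →
      (∀ᵐ t ∂(volume.restrict (Ioc 0 T)), wInt psi2 (H t) ≤ wInt psi2 F0) ∧
      (∀ᵐ t ∂(volume.restrict (Ioc 0 T)), wInt psi0 (H t) ≤ wInt psi0 F0) := by
    intro H hH
    constructor
    · filter_upwards [ae_restrict_mem measurableSet_Ioc] with t ht
      exact wInt_psi2_renorm hH ht.1.le
    · filter_upwards [ae_restrict_mem measurableSet_Ioc] with t ht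
      exact (wInt_psi0_renorm hH ht.1.le).le
  have h := mild_unique hT (isMild_of_renorm hF T) (isMild_of_renorm hG T)
    (wInt_datum_lt_top hF.datum) (e hF).1 (e hG).1 (e hF).2 (e hG).2 hl m1 m2 m3 b1 b2 b3 i1 i2
    i3 i31
  have h2 := all_times hT hF hG (B := 0) (by
    filter_upwards [h] with t ht
    exact ht.le)
  intro t ht
  have h3 := le_antisymm (h2 t ht) (zero_le)
  unfold wDist at h3
  rw [lintegral_eq_zero_iff] at h3
  · filter_upwards [h3] with p hp
    simp only [Pi.zero_apply, mul_eq_zero] at hp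
    rcases hp with hp | hp
    · exfalso
      unfold psi2 at hp
      rw [ENNReal.ofReal_eq_zero] at hp
      have : 0 < 1 + ‖p.2‖ ^ 2 := by positivity
      linarith
    · rw [ENNReal.ofReal_eq_zero] at hp
      have := abs_nonneg (F t p.1 p.2 - G t p.1 p.2)
      have h4 : |F t p.1 p.2 - G t p.1 p.2| = 0 := le_antisymm hp this
      exact sub_eq_zero.mp (abs_eq_zero.mp h4)
  · exact (measurable_psi2.comp measurable_snd).mul
      ((measurable_t hF t).sub (measurable_t hG t)).abs.ennreal_ofReal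

/-- **Uniqueness if one of the solutions has bounded moments.** -/
theorem renorm_unique_strong (hT : 0 < T) (hF : IsRenormEntropySol F0 F)
    (hG : IsRenormEntropySol F0 G)
    {M2 M3 : ℝ → ℝ≥0∞} (m2 : Measurable M2) (m3 : Measurable M3)
    (b2 : ∀ᵐ t ∂(volume.restrict (Ioc 0 T)), ∀ᵐ x : T3, vmom 2 (F t x) ≤ M2 t)
    (b3 : ∀ᵐ t ∂(volume.restrict (Ioc 0 T)), ∀ᵐ x : T3, vmom 3 (F t x) ≤ M3 t)
    (i2 : ∫⁻ t in Ioc 0 T, M2 t < ⊤)
    (i3 : ∀ τ, 0 < τ → ∫⁻ t in Ioc τ T, M3 t < ⊤)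
    (i32 : ∫⁻ t in Ioc 0 T, M3 t * ∫⁻ s in Ioc 0 t, M2 s < ⊤) :
    ∀ t ∈ Icc 0 T, ∀ᵐ p : T3 × V, F t p.1 p.2 = G t p.1 p.2 := by
  have hmin : ∀ k t x, vmom k (minF F G t x) ≤ vmom k (F t x) := by
    intro k t x
    exact vmom_mono_fun fun v => min_le_left _ _
  apply renorm_unique hT hF hG ?_ m2 m2 m3 ?_ ?_ ?_ i2 i2 i3 i32
  · intro τ hτ
    calc ∫⁻ s in Ioc τ T, ∫⁻ p : T3 × V, psi2 p.2 * loss (F s p.1) p.2
        ≤ ∫⁻ s in Ioc τ T, surf univ * ((M3 s + M3 s) * wInt psi2 F0) := by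
          apply lintegral_mono_ae
          filter_upwards [ae_restrict_of_ae_restrict_of_subset (Ioc_subset_Ioc_left hτ.le) b3,
            ae_restrict_mem measurableSet_Ioc] with s hs hmem
          refine (loss_weight_bound hF.measurable hF.nonneg hs).trans ?_
          gcongr
          exact wInt_psi2_renorm hF (hτ.le.trans hmem.1.le)
      _ = surf univ * ((∫⁻ s in Ioc τ T, (M3 s + M3 s)) * wInt psi2 F0) := by
          have k1 : Measurable fun s => M3 s + M3 s := m3.add m3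
          have k2 : Measurable fun s => (M3 s + M3 s) * wInt psi2 F0 := k1.mul_const _
          rw [lintegral_const_mul _ k2, lintegral_mul_const _ k1]
      _ < ⊤ := by
          rw [lintegral_add_left m3]
          exact ENNReal.mul_lt_top (measure_lt_top _ _)
            (ENNReal.mul_lt_top (ENNReal.add_lt_top.mpr ⟨i3 τ hτ, i3 τ hτ⟩)
              (wInt_datum_lt_top hF.datum))
  · filter_upwards [b2] with t ht
    filter_upwards [ht] with x hx
    exact (vmom_mono (by norm_num) fun v => le_min (hF.nonneg t x v) (hG.nonneg t x v)).trans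
      ((hmin 2 t x).trans hx)
  · filter_upwards [b2] with t ht
    filter_upwards [ht] with x hx
    exact (hmin 2 t x).trans hx
  · filter_upwards [b3] with t ht
    filter_upwards [ht] with x hx
    exact (hmin 3 t x).trans hx

/-- **Stability in `L¹((1+|v|²) dx dv)` around a strong solution.** -/
theorem renorm_stable (hT : 0 < T) (hF : IsRenormEntropySol F0 F) (hG : IsRenormEntropySol G0 G)
    {M : ℝ → ℝ≥0∞} (m : Measurable M)
    (b : ∀ᵐ t ∂(volume.restrict (Ioc 0 T)), ∀ᵐ x : T3, vmom 3 (F t x) ≤ M t)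
    (i : ∫⁻ t in Ioc 0 T, M t < ⊤) :
    ∀ t ∈ Icc 0 T, wDist psi2 (F t) (G t) ≤ wDist psi2 F0 G0
      * ENNReal.ofReal (Real.exp (∫⁻ s in Ioc 0 T, 4 * surf univ * M s).toReal) := by
  have e : ∀ {H0 : T3 → V → ℝ} {H : ℝ → T3 → V → ℝ}, IsRenormEntropySol H0 H →
      (∀ᵐ t ∂(volume.restrict (Ioc 0 T)), wInt psi2 (H t) ≤ wInt psi2 H0) ∧
      (∀ᵐ t ∂(volume.restrict (Ioc 0 T)), wInt psi0 (H t) ≤ wInt psi0 H0) := by
    intro H0 H hH
    constructor
    · filter_upwards [ae_restrict_mem measurableSet_Ioc] with t ht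
      exact wInt_psi2_renorm hH ht.1.le
    · filter_upwards [ae_restrict_mem measurableSet_Ioc] with t ht
      exact (wInt_psi0_renorm hH ht.1.le).le
  have hmin : ∀ k t x, vmom k (minF F G t x) ≤ vmom k (F t x) := by
    intro k t x
    exact vmom_mono_fun fun v => min_le_left _ _
  have hCf : surf univ < ⊤ := measure_lt_top surf _
  have hΦi : ∫⁻ t in Ioc 0 T, 4 * surf univ * M t < ⊤ := by
    rw [lintegral_const_mul _ m]
    exact ENNReal.mul_lt_top (ENNReal.mul_lt_top (by simp) hCf) i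
  have h := mild_stable hT (isMild_of_renorm hF T) (isMild_of_renorm hG T)
    (wInt_datum_lt_top hF.datum) (wInt_datum_lt_top hG.datum) (e hF).1 (e hG).1 (e hF).2 (e hG).2
    (by
      intro τ hτ
      calc ∫⁻ s in Ioc τ T, ∫⁻ p : T3 × V, psi2 p.2 * loss (F s p.1) p.2
          ≤ ∫⁻ s in Ioc τ T, surf univ * ((M s + M s) * wInt psi2 F0) := by
            apply lintegral_mono_ae
            filter_upwards [ae_restrict_of_ae_restrict_of_subset (Ioc_subset_Ioc_left hτ.le) b,
              ae_restrict_mem measurableSet_Ioc] with s hs hmem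
            refine (loss_weight_bound hF.measurable hF.nonneg hs).trans ?_
            gcongr
            exact wInt_psi2_renorm hF (hτ.le.trans hmem.1.le)
        _ = surf univ * ((∫⁻ s in Ioc τ T, (M s + M s)) * wInt psi2 F0) := by
            have k1 : Measurable fun s => M s + M s := m.add m
            have k2 : Measurable fun s => (M s + M s) * wInt psi2 F0 := k1.mul_const _
            rw [lintegral_const_mul _ k2, lintegral_mul_const _ k1]
        _ < ⊤ := by
            rw [lintegral_add_left m]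
            have h3 : ∫⁻ s in Ioc τ T, M s < ⊤ :=
              lt_of_le_of_lt (lintegral_mono_set (Ioc_subset_Ioc_left hτ.le)) i
            exact ENNReal.mul_lt_top (measure_lt_top _ _)
              (ENNReal.mul_lt_top (ENNReal.add_lt_top.mpr ⟨h3, h3⟩)
                (wInt_datum_lt_top hF.datum)))
    m (by
      filter_upwards [b] with t ht
      filter_upwards [ht] with x hx
      exact (hmin 3 t x).trans hx) i
  apply all_times hT hF hG
  filter_upwards [h, ae_restrict_mem measurableSet_Ioc] with t ht hmem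
  refine ht.trans ?_
  gcongr
  · exact hΦi.ne
  · exact hmem.2

end Vale.Agent.P140
end
end

section

open MeasureTheory Set

namespace Vale.Agent.P140

noncomputable def ph (v : V) : ENNReal := ENNReal.ofReal (1 + ‖v‖ ^ 2)

theorem ph_ne_top (v : V) : ph v ≠ ⊤ := ENNReal.ofReal_ne_top

theorem one_le_ph (v : V) : 1 ≤ ph v := by
  unfold ph
  rw [ENNReal.one_le_ofReal]
  linarith only [sq_nonneg ‖v‖]

theorem ph_ne_zero (v : V) : ph v ≠ 0 := by
  intro h
  have := one_le_ph v
  rw [h] at this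
  simp at this

theorem measurable_ph : Measurable ph := by
  unfold ph
  apply ENNReal.measurable_ofReal.comp
  apply Continuous.measurable
  fun_prop

theorem ph_post_add (v w : V) (o : S2) : ph (post v w o) + ph (postStar v w o) = ph v + ph w := by
  unfold ph
  rw [← ENNReal.ofReal_add (by positivity) (by positivity),
    ← ENNReal.ofReal_add (by positivity) (by positivity)]
  congr 1
  have := energy_post v w o
  linarith

theorem kk_le_add (v w : V) (o : S2) : kk v w o ≤ ph v + ph w := by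
  unfold kk ph
  rw [← ENNReal.ofReal_add (by positivity) (by positivity)]
  apply ENNReal.ofReal_le_ofReal
  have := abs_relA_le v w o
  linarith only [sq_nonneg ‖w‖, sq_nonneg ‖v‖, sq_nonneg (‖w‖ - 1), sq_nonneg (‖v‖ - 1), this]

theorem kk_le_mul (v w : V) (o : S2) : kk v w o ≤ ph v * ph w := by
  unfold kk ph
  rw [← ENNReal.ofReal_mul (by positivity)]
  apply ENNReal.ofReal_le_ofReal
  have := abs_relA_le v w o
  linarith only [mul_nonneg (sq_nonneg ‖v‖) (sq_nonneg ‖w‖), sq_nonneg ‖w‖, sq_nonneg ‖v‖, sq_nonneg (‖w‖ - 1), sq_nonneg (‖v‖ - 1), this]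

/-- triple integral over velocities and directions -/
noncomputable def I3 (H : V × V × S2 → ENNReal) : ENNReal :=
  ∫⁻ v, ∫⁻ w, ∫⁻ o, H (v, w, o) ∂surf

theorem I3_mono {H K : V × V × S2 → ENNReal} (h : ∀ p, H p ≤ K p) : I3 H ≤ I3 K := by
  unfold I3
  apply lintegral_mono; intro v
  apply lintegral_mono; intro w
  apply lintegral_mono; intro o
  exact h _

theorem I3_congr {H K : V × V × S2 → ENNReal} (h : ∀ p, H p = K p) : I3 H = I3 K := by
  rw [show H = K from funext h]

theorem meas_inner_int {H : V × V × S2 → ENNReal} (hH : Measurable H) :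
    Measurable fun p : V × V => ∫⁻ o, H (p.1, p.2, o) ∂surf := by
  have hH' : Measurable fun q : (V × V) × S2 => H (q.1.1, q.1.2, q.2) := by
    apply hH.comp
    fun_prop
  exact Measurable.lintegral_prod_right' (f := fun q : (V × V) × S2 => H (q.1.1, q.1.2, q.2)) hH'

theorem meas_inner_int2 {H : V × V × S2 → ENNReal} (hH : Measurable H) :
    Measurable fun v : V => ∫⁻ w, ∫⁻ o, H (v, w, o) ∂surf :=
  Measurable.lintegral_prod_right' (f := fun p : V × V => ∫⁻ o, H (p.1, p.2, o) ∂surf)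
    (meas_inner_int hH)

theorem meas_sec_w {H : V × V × S2 → ENNReal} (hH : Measurable H) (v : V) :
    Measurable fun w : V => ∫⁻ o, H (v, w, o) ∂surf :=
  (meas_inner_int hH).comp (by fun_prop : Measurable fun w : V => (v, w))

theorem meas_sec_o {H : V × V × S2 → ENNReal} (hH : Measurable H) (v w : V) :
    Measurable fun o : S2 => H (v, w, o) :=
  hH.comp (by fun_prop : Measurable fun o : S2 => (v, w, o))

theorem I3_add {H K : V × V × S2 → ENNReal} (hH : Measurable H) :
    I3 (fun p => H p + K p) = I3 H + I3 K := by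
  unfold I3
  rw [← lintegral_add_left (meas_inner_int2 hH)]
  apply lintegral_congr; intro v
  rw [← lintegral_add_left (meas_sec_w hH v)]
  apply lintegral_congr; intro w
  rw [← lintegral_add_left (meas_sec_o hH v w)]

theorem I3_swap {H : V × V × S2 → ENNReal} (hH : Measurable H) :
    I3 (fun p => H (p.2.1, p.1, p.2.2)) = I3 H := lintegral_swap hH

theorem I3_coll {H : V × V × S2 → ENNReal} (hH : Measurable H) :
    I3 (fun p => H (post p.1 p.2.1 p.2.2, postStar p.1 p.2.1 p.2.2, p.2.2)) = I3 H :=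
  lintegral_coll hH

theorem I3_const_mul {H : V × V × S2 → ENNReal} (hH : Measurable H) (c : ENNReal) :
    I3 (fun p => c * H p) = c * I3 H := by
  unfold I3
  rw [← lintegral_const_mul c (meas_inner_int2 hH)]
  apply lintegral_congr; intro v
  rw [← lintegral_const_mul c (meas_sec_w hH v)]
  apply lintegral_congr; intro w
  rw [← lintegral_const_mul c (meas_sec_o hH v w)]

noncomputable def Ss : ENNReal := surf univ

theorem Ss_ne_top : Ss ≠ ⊤ := by
  unfold Ss
  exact measure_ne_top _ _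

/-- product integrand -/
theorem I3_prod {f g : V → ENNReal} (hf : Measurable f) (hg : Measurable g) :
    I3 (fun p => f p.1 * g p.2.1) = Ss * ((∫⁻ v, f v) * ∫⁻ w, g w) := by
  unfold I3 Ss
  simp only [lintegral_const]
  have h1 : ∀ v, ∫⁻ w, f v * g w * surf univ = (f v * ∫⁻ w, g w) * surf univ := by
    intro v
    rw [lintegral_mul_const _ (hg.const_mul _), lintegral_const_mul _ hg]
  simp only [h1]
  rw [lintegral_mul_const _ (hf.mul_const _), lintegral_mul_const _ hf]
  ring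

/-- positive part of the collision operator after adding the damping `ph v * ph w` -/
noncomputable def Ga (f : V → ENNReal) (v : V) : ENNReal :=
  ∫⁻ w, ∫⁻ o, (kk v w o * (f (post v w o) * f (postStar v w o)) +
    (ph v * ph w - kk v w o) * (f v * f w)) ∂surf

noncomputable def Qp (f : V → ENNReal) (v : V) : ENNReal :=
  ∫⁻ w, ∫⁻ o, kk v w o * (f (post v w o) * f (postStar v w o)) ∂surf

noncomputable def Qm (f : V → ENNReal) (v : V) : ENNReal :=
  ∫⁻ w, ∫⁻ o, kk v w o * (f v * f w) ∂surf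

noncomputable def Mo (j : ℕ) (f : V → ENNReal) : ENNReal := ∫⁻ v, f v * ph v ^ j

theorem Ga_mono {f g : V → ENNReal} (h : ∀ v, f v ≤ g v) (v : V) : Ga f v ≤ Ga g v := by
  unfold Ga
  apply lintegral_mono; intro w
  apply lintegral_mono; intro o
  simp only
  gcongr <;> apply h

theorem meas_post_comp {f : V → ENNReal} (hf : Measurable f) :
    Measurable fun p : V × V × S2 => f (post p.1 p.2.1 p.2.2) := hf.comp measurable_post

theorem meas_postStar_comp {f : V → ENNReal} (hf : Measurable f) :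
    Measurable fun p : V × V × S2 => f (postStar p.1 p.2.1 p.2.2) := hf.comp measurable_postStar

theorem meas_1 {f : V → ENNReal} (hf : Measurable f) :
    Measurable fun p : V × V × S2 => f p.1 := hf.comp measurable_fst

theorem meas_2 {f : V → ENNReal} (hf : Measurable f) :
    Measurable fun p : V × V × S2 => f p.2.1 := hf.comp (measurable_fst.comp measurable_snd)

noncomputable def dd (p : V × V × S2) : ENNReal := ph p.1 * ph p.2.1 - kk p.1 p.2.1 p.2.2

theorem measurable_dd : Measurable dd :=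
  ((meas_1 measurable_ph).mul (meas_2 measurable_ph)).sub measurable_kk

theorem dd_swap (v w : V) (o : S2) : dd (w, v, o) = dd (v, w, o) := by
  unfold dd; simp only; rw [kk_swap v w o, mul_comm (ph w) (ph v)]

/-- first form: integrate a weight in `v` against an `(w, o)` integral -/
theorem I3_weight {H : V × V × S2 → ENNReal} (hH : Measurable H) (ψ : V → ENNReal) :
    ∫⁻ v, (∫⁻ w, ∫⁻ o, H (v, w, o) ∂surf) * ψ v = I3 (fun p => H p * ψ p.1) := by
  unfold I3
  apply lintegral_congr; intro v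
  rw [← lintegral_mul_const _ (meas_sec_w hH v)]
  apply lintegral_congr; intro w
  rw [← lintegral_mul_const _ (meas_sec_o hH v w)]

theorem meas_gainI {f : V → ENNReal} (hf : Measurable f) :
    Measurable fun p : V × V × S2 =>
      kk p.1 p.2.1 p.2.2 * (f (post p.1 p.2.1 p.2.2) * f (postStar p.1 p.2.1 p.2.2)) :=
  measurable_kk.mul ((meas_post_comp hf).mul (meas_postStar_comp hf))

theorem meas_lossI {f : V → ENNReal} (hf : Measurable f) :
    Measurable fun p : V × V × S2 => kk p.1 p.2.1 p.2.2 * (f p.1 * f p.2.1) :=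
  measurable_kk.mul ((meas_1 hf).mul (meas_2 hf))

theorem meas_dampI {f : V → ENNReal} (hf : Measurable f) :
    Measurable fun p : V × V × S2 => dd p * (f p.1 * f p.2.1) :=
  measurable_dd.mul ((meas_1 hf).mul (meas_2 hf))

theorem measurable_Ga {f : V → ENNReal} (hf : Measurable f) : Measurable (Ga f) :=
  meas_inner_int2 ((meas_gainI hf).add (meas_dampI hf))

theorem measurable_Qp {f : V → ENNReal} (hf : Measurable f) : Measurable (Qp f) :=
  meas_inner_int2 (meas_gainI hf)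

theorem measurable_Qm {f : V → ENNReal} (hf : Measurable f) : Measurable (Qm f) :=
  meas_inner_int2 (meas_lossI hf)

/-- weak form of the gain term -/
theorem Qp_weak {f ψ : V → ENNReal} (hf : Measurable f) (hψ : Measurable ψ) :
    ∫⁻ v, Qp f v * ψ v = I3 (fun p => kk p.1 p.2.1 p.2.2 * (f p.1 * f p.2.1) *
      ψ (post p.1 p.2.1 p.2.2)) := by
  have h1 : ∫⁻ v, Qp f v * ψ v = I3 (fun p =>
      kk p.1 p.2.1 p.2.2 * (f (post p.1 p.2.1 p.2.2) * f (postStar p.1 p.2.1 p.2.2)) * ψ p.1) :=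
    I3_weight (meas_gainI hf) ψ
  rw [h1]
  have m : Measurable fun p : V × V × S2 =>
      kk p.1 p.2.1 p.2.2 * (f p.1 * f p.2.1) * ψ (post p.1 p.2.1 p.2.2) :=
    (meas_lossI hf).mul (meas_post_comp hψ)
  rw [← I3_coll m]
  apply I3_congr
  intro p
  simp only [kk_post, post_post]

theorem Qp_weak_star {f ψ : V → ENNReal} (hf : Measurable f) (hψ : Measurable ψ) :
    ∫⁻ v, Qp f v * ψ v = I3 (fun p => kk p.1 p.2.1 p.2.2 * (f p.1 * f p.2.1) *
      ψ (postStar p.1 p.2.1 p.2.2)) := by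
  rw [Qp_weak hf hψ]
  have m : Measurable fun p : V × V × S2 =>
      kk p.1 p.2.1 p.2.2 * (f p.1 * f p.2.1) * ψ (post p.1 p.2.1 p.2.2) :=
    (meas_lossI hf).mul (meas_post_comp hψ)
  rw [← I3_swap m]
  apply I3_congr
  intro p
  simp only
  rw [kk_swap p.1 p.2.1, post_swap p.1 p.2.1, mul_comm (f p.2.1) (f p.1)]

theorem Qm_weak {f : V → ENNReal} (hf : Measurable f) (ψ : V → ENNReal) :
    ∫⁻ v, Qm f v * ψ v = I3 (fun p => kk p.1 p.2.1 p.2.2 * (f p.1 * f p.2.1) * ψ p.1) :=
  I3_weight (meas_lossI hf) ψ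

theorem Qm_weak_star {f ψ : V → ENNReal} (hf : Measurable f) (hψ : Measurable ψ) :
    ∫⁻ v, Qm f v * ψ v = I3 (fun p => kk p.1 p.2.1 p.2.2 * (f p.1 * f p.2.1) * ψ p.2.1) := by
  rw [Qm_weak hf ψ]
  have m : Measurable fun p : V × V × S2 =>
      kk p.1 p.2.1 p.2.2 * (f p.1 * f p.2.1) * ψ p.1 :=
    (meas_lossI hf).mul (meas_1 hψ)
  rw [← I3_swap m]
  apply I3_congr
  intro p
  simp only
  rw [kk_swap p.1 p.2.1, mul_comm (f p.2.1) (f p.1)]

/-- weak form of the damping part -/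
theorem damp_weak {f ψ : V → ENNReal} (hf : Measurable f) :
    ∫⁻ v, (∫⁻ w, ∫⁻ o, dd (v, w, o) * (f v * f w) ∂surf) * ψ v =
      I3 (fun p => dd p * (f p.1 * f p.2.1) * ψ p.1) :=
  I3_weight (H := fun p => dd p * (f p.1 * f p.2.1)) (meas_dampI hf) ψ

theorem damp_weak_star {f ψ : V → ENNReal} (hf : Measurable f) (hψ : Measurable ψ) :
    ∫⁻ v, (∫⁻ w, ∫⁻ o, dd (v, w, o) * (f v * f w) ∂surf) * ψ v =
      I3 (fun p => dd p * (f p.1 * f p.2.1) * ψ p.2.1) := by
  rw [damp_weak hf]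
  have m : Measurable fun p : V × V × S2 => dd p * (f p.1 * f p.2.1) * ψ p.1 :=
    (meas_dampI hf).mul (meas_1 hψ)
  rw [← I3_swap m]
  apply I3_congr
  intro p
  simp only
  rw [dd_swap p.1 p.2.1, mul_comm (f p.2.1) (f p.1)]

theorem Ga_split {f : V → ENNReal} (hf : Measurable f) (v : V) :
    Ga f v = Qp f v + ∫⁻ w, ∫⁻ o, dd (v, w, o) * (f v * f w) ∂surf := by
  have h1 : Qp f v + ∫⁻ w, ∫⁻ o, dd (v, w, o) * (f v * f w) ∂surf =
      ∫⁻ w, ((∫⁻ o, kk v w o * (f (post v w o) * f (postStar v w o)) ∂surf) +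
        ∫⁻ o, dd (v, w, o) * (f v * f w) ∂surf) :=
    (lintegral_add_left (meas_sec_w (meas_gainI hf) v) _).symm
  rw [h1]
  unfold Ga
  apply lintegral_congr; intro w
  exact lintegral_add_left (meas_sec_o (meas_gainI hf) v w) _

/-- weak form of `Ga`, symmetrized -/
theorem Ga_weak {f ψ : V → ENNReal} (hf : Measurable f) (hψ : Measurable ψ) :
    2 * ∫⁻ v, Ga f v * ψ v = I3 (fun p =>
      (kk p.1 p.2.1 p.2.2 * (ψ (post p.1 p.2.1 p.2.2) + ψ (postStar p.1 p.2.1 p.2.2)) +
        dd p * (ψ p.1 + ψ p.2.1)) * (f p.1 * f p.2.1)) := by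
  have e0 : ∫⁻ v, Ga f v * ψ v = (∫⁻ v, Qp f v * ψ v) +
      ∫⁻ v, (∫⁻ w, ∫⁻ o, dd (v, w, o) * (f v * f w) ∂surf) * ψ v := by
    have hm : Measurable fun v => Qp f v * ψ v := (measurable_Qp hf).mul hψ
    rw [← lintegral_add_left hm]
    apply lintegral_congr; intro v
    rw [Ga_split hf, add_mul]
  have mA : Measurable fun p : V × V × S2 =>
      kk p.1 p.2.1 p.2.2 * (f p.1 * f p.2.1) * ψ (post p.1 p.2.1 p.2.2) :=
    (meas_lossI hf).mul (meas_post_comp hψ)
  have mB : Measurable fun p : V × V × S2 =>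
      kk p.1 p.2.1 p.2.2 * (f p.1 * f p.2.1) * ψ (postStar p.1 p.2.1 p.2.2) :=
    (meas_lossI hf).mul (meas_postStar_comp hψ)
  have mC : Measurable fun p : V × V × S2 => dd p * (f p.1 * f p.2.1) * ψ p.1 :=
    (meas_dampI hf).mul (meas_1 hψ)
  calc 2 * ∫⁻ v, Ga f v * ψ v
      = ((∫⁻ v, Qp f v * ψ v) + ∫⁻ v, Qp f v * ψ v) +
        ((∫⁻ v, (∫⁻ w, ∫⁻ o, dd (v, w, o) * (f v * f w) ∂surf) * ψ v) +
          ∫⁻ v, (∫⁻ w, ∫⁻ o, dd (v, w, o) * (f v * f w) ∂surf) * ψ v) := by
        rw [e0]; ring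
    _ = (I3 (fun p => kk p.1 p.2.1 p.2.2 * (f p.1 * f p.2.1) * ψ (post p.1 p.2.1 p.2.2)) +
          I3 (fun p => kk p.1 p.2.1 p.2.2 * (f p.1 * f p.2.1) * ψ (postStar p.1 p.2.1 p.2.2))) +
        (I3 (fun p => dd p * (f p.1 * f p.2.1) * ψ p.1) +
          I3 (fun p => dd p * (f p.1 * f p.2.1) * ψ p.2.1)) := by
        congr 1
        · conv_lhs =>
            congr
            · rw [Qp_weak hf hψ]
            · rw [Qp_weak_star hf hψ]
        · conv_lhs =>
            congr
            · rw [damp_weak hf]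
            · rw [damp_weak_star hf hψ]
    _ = _ := by
        have mAB : Measurable fun p : V × V × S2 =>
            kk p.1 p.2.1 p.2.2 * (f p.1 * f p.2.1) * ψ (post p.1 p.2.1 p.2.2) +
            kk p.1 p.2.1 p.2.2 * (f p.1 * f p.2.1) * ψ (postStar p.1 p.2.1 p.2.2) := mA.add mB
        rw [← I3_add mA, ← I3_add mC, ← I3_add mAB]
        apply I3_congr
        intro p
        ring

end Vale.Agent.P140
end

section

open MeasureTheory Set

namespace Vale.Agent.P140

theorem kk_add_dd (p : V × V × S2) : kk p.1 p.2.1 p.2.2 + dd p = ph p.1 * ph p.2.1 := by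
  unfold dd
  exact add_tsub_cancel_of_le (kk_le_mul _ _ _)

theorem measurable_phpow (j : ℕ) : Measurable fun v => ph v ^ j := measurable_ph.pow_const j

theorem I3_mom {f : V → ENNReal} (hf : Measurable f) (i j : ℕ) :
    I3 (fun p => (ph p.1 ^ i * ph p.2.1 ^ j) * (f p.1 * f p.2.1)) = Ss * (Mo i f * Mo j f) := by
  have h := I3_prod (f := fun v => f v * ph v ^ i) (g := fun v => f v * ph v ^ j)
    (hf.mul (measurable_phpow i)) (hf.mul (measurable_phpow j))
  unfold Mo
  rw [← h]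
  apply I3_congr
  intro p
  ring

theorem meas_momI {f : V → ENNReal} (hf : Measurable f) (i j : ℕ) :
    Measurable fun p : V × V × S2 => (ph p.1 ^ i * ph p.2.1 ^ j) * (f p.1 * f p.2.1) :=
  ((meas_1 (measurable_phpow i)).mul (meas_2 (measurable_phpow j))).mul ((meas_1 hf).mul (meas_2 hf))

theorem Ga_mom1 {f : V → ENNReal} (hf : Measurable f) :
    ∫⁻ v, Ga f v * ph v = Ss * (Mo 1 f * Mo 2 f) := by
  have h := Ga_weak hf measurable_ph
  have h2 : I3 (fun p =>
      (kk p.1 p.2.1 p.2.2 * (ph (post p.1 p.2.1 p.2.2) + ph (postStar p.1 p.2.1 p.2.2)) +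
        dd p * (ph p.1 + ph p.2.1)) * (f p.1 * f p.2.1)) =
      Ss * (Mo 2 f * Mo 1 f) + Ss * (Mo 1 f * Mo 2 f) := by
    rw [← I3_mom hf 2 1, ← I3_mom hf 1 2, ← I3_add (meas_momI hf 2 1)]
    apply I3_congr
    intro p
    rw [ph_post_add, ← add_mul, kk_add_dd]
    ring
  rw [h2] at h
  have h3 : 2 * ∫⁻ v, Ga f v * ph v = 2 * (Ss * (Mo 1 f * Mo 2 f)) := by
    rw [h]; ring
  exact (ENNReal.mul_right_inj (by norm_num) (by norm_num)).mp h3

theorem Ga_mom0 {f : V → ENNReal} (hf : Measurable f) :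
    ∫⁻ v, Ga f v = Ss * (Mo 1 f * Mo 1 f) := by
  have h := Ga_weak hf (measurable_const (a := (1 : ENNReal)))
  have h2 : I3 (fun p =>
      (kk p.1 p.2.1 p.2.2 * (1 + 1) + dd p * (1 + 1)) * (f p.1 * f p.2.1)) =
      Ss * (Mo 1 f * Mo 1 f) + Ss * (Mo 1 f * Mo 1 f) := by
    rw [← I3_mom hf 1 1, ← I3_add (meas_momI hf 1 1)]
    apply I3_congr
    intro p
    rw [← add_mul, kk_add_dd]
    ring
  rw [h2] at h
  have h3 : 2 * ∫⁻ v, Ga f v = 2 * (Ss * (Mo 1 f * Mo 1 f)) := by
    simp only [mul_one] at h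
    rw [h]; ring
  exact (ENNReal.mul_right_inj (by norm_num) (by norm_num)).mp h3

theorem ph_post_sq (v w : V) (o : S2) :
    ph (post v w o) ^ 2 + ph (postStar v w o) ^ 2 ≤ ph v ^ 2 + ph w ^ 2 + 2 * (ph v * ph w) := by
  have h := ph_post_add v w o
  calc ph (post v w o) ^ 2 + ph (postStar v w o) ^ 2
      ≤ (ph (post v w o) + ph (postStar v w o)) ^ 2 := by
        rw [add_sq]
        have : (0:ENNReal) ≤ 2 * ph (post v w o) * ph (postStar v w o) := zero_le
        calc ph (post v w o) ^ 2 + ph (postStar v w o) ^ 2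
            = ph (post v w o) ^ 2 + 0 + ph (postStar v w o) ^ 2 := by ring
          _ ≤ _ := by gcongr
    _ = ph v ^ 2 + ph w ^ 2 + 2 * (ph v * ph w) := by
        rw [h]; ring

theorem Ga_mom2 {f : V → ENNReal} (hf : Measurable f) :
    ∫⁻ v, Ga f v * ph v ^ 2 ≤ Ss * (Mo 1 f * Mo 3 f) + 2 * (Ss * (Mo 1 f * Mo 2 f)) := by
  have h := Ga_weak hf (measurable_phpow 2)
  have m13 := meas_momI hf 1 3
  have m31 := meas_momI hf 3 1
  have m21 := meas_momI hf 2 1
  have m12 := meas_momI hf 1 2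
  have h2 : I3 (fun p =>
      (kk p.1 p.2.1 p.2.2 * (ph (post p.1 p.2.1 p.2.2) ^ 2 + ph (postStar p.1 p.2.1 p.2.2) ^ 2) +
        dd p * (ph p.1 ^ 2 + ph p.2.1 ^ 2)) * (f p.1 * f p.2.1)) ≤
      Ss * (Mo 3 f * Mo 1 f) + (Ss * (Mo 1 f * Mo 3 f) + 2 * (Ss * (Mo 2 f * Mo 1 f) +
        Ss * (Mo 1 f * Mo 2 f))) := by
    rw [← I3_mom hf 3 1, ← I3_mom hf 1 3, ← I3_mom hf 2 1, ← I3_mom hf 1 2]
    have m5 : Measurable fun p : V × V × S2 =>
      (ph p.1 ^ 2 * ph p.2.1 ^ 1) * (f p.1 * f p.2.1) +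
        (ph p.1 ^ 1 * ph p.2.1 ^ 2) * (f p.1 * f p.2.1) := m21.add m12
    rw [← I3_add m21, ← I3_const_mul m5, ← I3_add m13, ← I3_add m31]
    apply I3_mono
    intro p
    have e1 := ph_post_sq p.1 p.2.1 p.2.2
    have e2 := kk_le_add p.1 p.2.1 p.2.2
    have e3 := kk_add_dd p
    calc (kk p.1 p.2.1 p.2.2 * (ph (post p.1 p.2.1 p.2.2) ^ 2 + ph (postStar p.1 p.2.1 p.2.2) ^ 2) +
        dd p * (ph p.1 ^ 2 + ph p.2.1 ^ 2)) * (f p.1 * f p.2.1)
        ≤ (kk p.1 p.2.1 p.2.2 * (ph p.1 ^ 2 + ph p.2.1 ^ 2 + 2 * (ph p.1 * ph p.2.1)) +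
        dd p * (ph p.1 ^ 2 + ph p.2.1 ^ 2)) * (f p.1 * f p.2.1) := by gcongr
      _ = ((kk p.1 p.2.1 p.2.2 + dd p) * (ph p.1 ^ 2 + ph p.2.1 ^ 2) +
          kk p.1 p.2.1 p.2.2 * (2 * (ph p.1 * ph p.2.1))) * (f p.1 * f p.2.1) := by ring
      _ ≤ ((kk p.1 p.2.1 p.2.2 + dd p) * (ph p.1 ^ 2 + ph p.2.1 ^ 2) +
          (ph p.1 + ph p.2.1) * (2 * (ph p.1 * ph p.2.1))) * (f p.1 * f p.2.1) := by gcongr
      _ = _ := by rw [e3]; ring
  have h3 : 2 * ∫⁻ v, Ga f v * ph v ^ 2 ≤
      2 * (Ss * (Mo 1 f * Mo 3 f) + 2 * (Ss * (Mo 1 f * Mo 2 f))) := by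
    calc 2 * ∫⁻ v, Ga f v * ph v ^ 2 ≤ _ := h.le.trans h2
      _ = _ := by ring
  exact (ENNReal.mul_le_mul_iff_right (by norm_num) (by norm_num)).mp h3

theorem Mo_mono {f : V → ENNReal} {i j : ℕ} (hij : i ≤ j) : Mo i f ≤ Mo j f := by
  unfold Mo
  apply lintegral_mono; intro v
  simp only
  gcongr
  exact one_le_ph v

theorem Mo_le_of_le {f g : V → ENNReal} (h : ∀ v, f v ≤ g v) (j : ℕ) : Mo j f ≤ Mo j g := by
  unfold Mo
  apply lintegral_mono; intro v
  simp only
  gcongr
  exact h v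

/-- `Ga + Qm = Qp + damping` -/
theorem Ga_add_Qm {f : V → ENNReal} (hf : Measurable f) (v : V) :
    Ga f v + Qm f v = Qp f v + Ss * (Mo 1 f * (ph v * f v)) := by
  rw [Ga_split hf, add_assoc]
  congr 1
  have h1 : (∫⁻ w, ∫⁻ o, dd (v, w, o) * (f v * f w) ∂surf) + Qm f v =
      ∫⁻ w, ((∫⁻ o, dd (v, w, o) * (f v * f w) ∂surf) +
        ∫⁻ o, kk v w o * (f v * f w) ∂surf) :=
    (lintegral_add_left (meas_sec_w (meas_dampI hf) v) _).symm
  rw [h1]
  have h2 : ∀ w, ((∫⁻ o, dd (v, w, o) * (f v * f w) ∂surf) +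
        ∫⁻ o, kk v w o * (f v * f w) ∂surf) = (ph v * f v * Ss) * (f w * ph w ^ 1) := by
    intro w
    have h3 : (∫⁻ o, dd (v, w, o) * (f v * f w) ∂surf) + ∫⁻ o, kk v w o * (f v * f w) ∂surf =
        ∫⁻ o, (dd (v, w, o) * (f v * f w) + kk v w o * (f v * f w)) ∂surf :=
      (lintegral_add_left (meas_sec_o (meas_dampI hf) v w) _).symm
    rw [h3]
    have h4 : ∀ o, dd (v, w, o) * (f v * f w) + kk v w o * (f v * f w) =
        ph v * f v * (f w * ph w) := by
      intro o
      have := kk_add_dd (v, w, o)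
      simp only at this
      rw [← add_mul, add_comm (dd (v, w, o)), this]
      ring
    simp only [h4]
    rw [lintegral_const]
    unfold Ss
    ring
  simp only [h2]
  have hm : Measurable fun w => f w * ph w ^ 1 := hf.mul (measurable_phpow 1)
  rw [lintegral_const_mul _ hm]
  unfold Mo
  ring

theorem Qp_mass {f : V → ENNReal} (hf : Measurable f) :
    ∫⁻ v, Qp f v ≤ 2 * (Ss * (Mo 0 f * Mo 1 f)) := by
  have h := Qp_weak hf (measurable_const (a := (1 : ENNReal)))
  simp only [mul_one] at h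
  rw [h]
  have e : 2 * (Ss * (Mo 0 f * Mo 1 f)) = Ss * (Mo 1 f * Mo 0 f) + Ss * (Mo 0 f * Mo 1 f) := by ring
  rw [e, ← I3_mom hf 1 0, ← I3_mom hf 0 1, ← I3_add (meas_momI hf 1 0)]
  apply I3_mono
  intro p
  simp only [pow_one, pow_zero, mul_one, one_mul]
  rw [← add_mul]
  gcongr
  exact kk_le_add _ _ _

theorem Qm_mass {f : V → ENNReal} (hf : Measurable f) :
    ∫⁻ v, Qm f v = ∫⁻ v, Qp f v := by
  have h := Qp_weak hf (measurable_const (a := (1 : ENNReal)))
  have h' := Qm_weak hf (fun _ => (1 : ENNReal))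
  simp only [mul_one] at h h'
  rw [h, h']

end Vale.Agent.P140
end

section

open MeasureTheory Set

namespace Vale.Agent.P140

/-- Tonelli on the triangle. -/
theorem lintegral_triangle {F : ℝ × ℝ → ENNReal} (hF : Measurable F) (t : ℝ) :
    ∫⁻ τ in Ioc 0 t, ∫⁻ s in Ioc 0 τ, F (τ, s) = ∫⁻ s in Ioc 0 t, ∫⁻ τ in Ioc s t, F (τ, s) := by
  have h1 : ∀ τ ∈ Ioc (0:ℝ) t, ∫⁻ s in Ioc 0 τ, F (τ, s) =
      ∫⁻ s in Ioc 0 t, (Iic τ).indicator (fun s => F (τ, s)) s := by
    intro τ hτ
    rw [← lintegral_indicator measurableSet_Ioc, ← lintegral_indicator measurableSet_Ioc]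
    apply lintegral_congr
    intro s
    simp only [indicator, mem_Ioc, mem_Iic]
    by_cases h : 0 < s <;> by_cases h' : s ≤ τ <;> simp [h, h']
    intro h3
    exact absurd (h'.trans hτ.2) (not_le.mpr h3)
  rw [setLIntegral_congr_fun measurableSet_Ioc h1]
  have hm : Measurable fun p : ℝ × ℝ => (Iic p.1).indicator (fun s => F (p.1, s)) p.2 := by
    have : (fun p : ℝ × ℝ => (Iic p.1).indicator (fun s => F (p.1, s)) p.2) =
        {p : ℝ × ℝ | p.2 ≤ p.1}.indicator F := by
      ext p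
      simp only [indicator, mem_Iic, mem_ofPred_eq]
    rw [this]
    exact hF.indicator (measurableSet_le measurable_snd measurable_fst)
  rw [lintegral_lintegral_swap hm.aemeasurable]
  apply setLIntegral_congr_fun measurableSet_Ioc
  intro s hs
  have h2 : ∀ τ, (Iic τ).indicator (fun s => F (τ, s)) s = (Ici s).indicator (fun τ => F (τ, s)) τ := by
    intro τ
    simp only [indicator, mem_Iic, mem_Ici]
  simp only [h2]
  rw [← lintegral_indicator measurableSet_Ioc, ← lintegral_indicator measurableSet_Ioc]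
  have hae : ∀ᵐ τ : ℝ, τ ≠ s := by
    exact (Measure.ae_ne volume s)
  apply lintegral_congr_ae
  filter_upwards [hae] with τ hτ
  simp only [indicator, mem_Ioc, mem_Ici]
  by_cases h : s < τ
  · have : 0 < τ := hs.1.trans h
    by_cases h' : τ ≤ t <;> simp [h, h', h.le, this]
  · have h4 : ¬ s ≤ τ := by
      intro h5
      exact h (lt_of_le_of_ne h5 (Ne.symm hτ))
    simp [h, h4]

theorem lintegral_exp_aux (l s t : ℝ) (hl : 0 ≤ l) (hst : s ≤ t) :
    ENNReal.ofReal (Real.exp (-l * (t - s))) +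
      ENNReal.ofReal l * ∫⁻ τ in Ioc s t, ENNReal.ofReal (Real.exp (-l * (τ - s))) = 1 := by
  have h1 : ∫⁻ τ in Ioc s t, ENNReal.ofReal (Real.exp (-l * (τ - s))) =
      ENNReal.ofReal (∫ τ in s..t, Real.exp (-l * (τ - s))) := by
    rw [intervalIntegral.integral_of_le hst]
    rw [ofReal_integral_eq_lintegral_ofReal]
    · apply Continuous.integrableOn_Ioc
      fun_prop
    · exact Filter.Eventually.of_forall fun τ => (Real.exp_pos _).le
  rw [h1, ← ENNReal.ofReal_mul hl, ← ENNReal.ofReal_add (Real.exp_pos _).le]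
  · have h2 : ∀ τ ∈ uIcc s t, HasDerivAt (fun τ => -Real.exp (-l * (τ - s)))
        (l * Real.exp (-l * (τ - s))) τ := by
      intro τ _
      have h3 : HasDerivAt (fun τ : ℝ => -l * (τ - s)) (-l) τ := by
        have := ((hasDerivAt_id τ).sub_const s).const_mul (-l)
        simpa using this
      have h4 := (h3.exp).neg
      have h6 : l * Real.exp (-l * (τ - s)) = -(Real.exp (-l * (τ - s)) * -l) := by ring
      rw [h6]
      exact h4
    have h5 : ∫ τ in s..t, l * Real.exp (-l * (τ - s)) = 1 - Real.exp (-l * (t - s)) := by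
      rw [intervalIntegral.integral_eq_sub_of_hasDerivAt h2]
      · simp; ring
      · apply Continuous.intervalIntegrable
        fun_prop
    rw [← intervalIntegral.integral_const_mul, h5]
    simp
  · apply mul_nonneg hl
    apply intervalIntegral.integral_nonneg hst
    intro u _
    exact (Real.exp_pos _).le

/-- Duhamel kernel -/
noncomputable def duh (l : ℝ) (h0 : ENNReal) (G : ℝ → ENNReal) (t : ℝ) : ENNReal :=
  ENNReal.ofReal (Real.exp (-l * t)) * h0 +
    ∫⁻ s in Ioc 0 t, ENNReal.ofReal (Real.exp (-l * (t - s))) * G s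

theorem duh_mono (l : ℝ) (h0 : ENNReal) {G H : ℝ → ENNReal} (h : ∀ s, G s ≤ H s) (t : ℝ) :
    duh l h0 G t ≤ duh l h0 H t := by
  unfold duh
  gcongr
  exact h _

theorem measurable_duh_aux (l : ℝ) {G : ℝ → ENNReal} (hG : Measurable G) :
    Measurable fun t => ∫⁻ s in Ioc 0 t, ENNReal.ofReal (Real.exp (-l * (t - s))) * G s := by
  have h1 : ∀ t, ∫⁻ s in Ioc 0 t, ENNReal.ofReal (Real.exp (-l * (t - s))) * G s =
      ∫⁻ s, {p : ℝ × ℝ | 0 < p.2 ∧ p.2 ≤ p.1}.indicator
        (fun p => ENNReal.ofReal (Real.exp (-l * (p.1 - p.2))) * G p.2) (t, s) := by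
    intro t
    rw [← lintegral_indicator measurableSet_Ioc]
    apply lintegral_congr
    intro s
    simp only [indicator, mem_Ioc, mem_ofPred_eq]
  simp only [h1]
  apply Measurable.lintegral_prod_right'
    (f := fun q : ℝ × ℝ => {p : ℝ × ℝ | 0 < p.2 ∧ p.2 ≤ p.1}.indicator
        (fun p => ENNReal.ofReal (Real.exp (-l * (p.1 - p.2))) * G p.2) q)
  apply Measurable.indicator
  · apply Measurable.mul
    · apply ENNReal.measurable_ofReal.comp
      apply Continuous.measurable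
      fun_prop
    · exact hG.comp measurable_snd
  · exact (measurableSet_lt measurable_const measurable_snd).inter
      (measurableSet_le measurable_snd measurable_fst)

theorem measurable_duh (l : ℝ) (h0 : ENNReal) {G : ℝ → ENNReal} (hG : Measurable G) :
    Measurable (duh l h0 G) := by
  unfold duh
  apply Measurable.add
  · apply Measurable.mul_const
    apply ENNReal.measurable_ofReal.comp
    apply Continuous.measurable
    fun_prop
  · exact measurable_duh_aux l hG

/-- integrated form of the linear damped equation -/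
theorem duh_integrated (l : ℝ) (hl : 0 ≤ l) (h0 : ENNReal) {G : ℝ → ENNReal} (hG : Measurable G)
    {t : ℝ} (ht : 0 ≤ t) :
    duh l h0 G t + ENNReal.ofReal l * ∫⁻ τ in Ioc 0 t, duh l h0 G τ =
      h0 + ∫⁻ s in Ioc 0 t, G s := by
  have e1 : ∫⁻ τ in Ioc 0 t, duh l h0 G τ =
      (∫⁻ τ in Ioc 0 t, ENNReal.ofReal (Real.exp (-l * (τ - 0)))) * h0 +
      ∫⁻ s in Ioc 0 t, (∫⁻ τ in Ioc s t, ENNReal.ofReal (Real.exp (-l * (τ - s)))) * G s := by
    unfold duh
    rw [lintegral_add_right _ (measurable_duh_aux l hG)]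
    congr 1
    · rw [lintegral_mul_const]
      · simp
      · apply ENNReal.measurable_ofReal.comp
        apply Continuous.measurable
        fun_prop
    · rw [lintegral_triangle (F := fun p : ℝ × ℝ => ENNReal.ofReal (Real.exp (-l * (p.1 - p.2))) * G p.2)]
      · apply lintegral_congr
        intro s
        simp only
        rw [lintegral_mul_const]
        apply ENNReal.measurable_ofReal.comp
        apply Continuous.measurable
        fun_prop
      · apply Measurable.mul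
        · apply ENNReal.measurable_ofReal.comp
          apply Continuous.measurable
          fun_prop
        · exact hG.comp measurable_snd
  rw [e1]
  have e2 := lintegral_exp_aux l 0 t hl ht
  have e3 : ∫⁻ s in Ioc 0 t, G s = ∫⁻ s in Ioc 0 t, (ENNReal.ofReal (Real.exp (-l * (t - s))) * G s +
      ENNReal.ofReal l * ((∫⁻ τ in Ioc s t, ENNReal.ofReal (Real.exp (-l * (τ - s)))) * G s)) := by
    apply setLIntegral_congr_fun measurableSet_Ioc
    intro s hs
    have := lintegral_exp_aux l s t hl hs.2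
    simp only
    rw [← mul_assoc, ← add_mul, this, one_mul]
  rw [e3, lintegral_add_left, lintegral_const_mul']
  · rw [mul_add]
    conv_rhs => rw [← one_mul h0, ← e2, add_mul]
    unfold duh
    simp only [sub_zero]
    ring
  · exact ENNReal.ofReal_ne_top
  · apply Measurable.mul _ hG
    apply ENNReal.measurable_ofReal.comp
    apply Continuous.measurable
    fun_prop

/-- monotone limits commute with the Duhamel operator -/
theorem duh_iSup (l : ℝ) (h0 : ENNReal) {G : ℕ → ℝ → ENNReal} (hG : ∀ n, Measurable (G n))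
    (hmono : Monotone G) (t : ℝ) :
    ⨆ n, duh l h0 (G n) t = duh l h0 (fun s => ⨆ n, G n s) t := by
  unfold duh
  rw [← ENNReal.add_iSup]
  congr 1
  rw [← lintegral_iSup]
  · apply lintegral_congr
    intro s
    rw [ENNReal.mul_iSup]
  · intro n
    apply Measurable.mul _ (hG n)
    apply ENNReal.measurable_ofReal.comp
    apply Continuous.measurable
    fun_prop
  · intro i j hij s
    simp only
    gcongr
    exact hmono hij s

end Vale.Agent.P140
end

section

open MeasureTheory Set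

namespace Vale.Agent.P140

section joint
variable {α : Type*} [MeasurableSpace α] {f : α → V → ENNReal}

theorem joint_post (hf : Measurable fun p : α × V => f p.1 p.2) :
    Measurable fun q : ((α × V) × V) × S2 => f q.1.1.1 (post q.1.1.2 q.1.2 q.2) := by
  have h1 : Measurable fun q : ((α × V) × V) × S2 => post q.1.1.2 q.1.2 q.2 :=
    measurable_post.comp (by fun_prop :
      Measurable fun q : ((α × V) × V) × S2 => (q.1.1.2, q.1.2, q.2))
  exact hf.comp ((by fun_prop : Measurable fun q : ((α × V) × V) × S2 => q.1.1.1).prodMk h1)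

theorem joint_postStar (hf : Measurable fun p : α × V => f p.1 p.2) :
    Measurable fun q : ((α × V) × V) × S2 => f q.1.1.1 (postStar q.1.1.2 q.1.2 q.2) := by
  have h1 : Measurable fun q : ((α × V) × V) × S2 => postStar q.1.1.2 q.1.2 q.2 :=
    measurable_postStar.comp (by fun_prop :
      Measurable fun q : ((α × V) × V) × S2 => (q.1.1.2, q.1.2, q.2))
  exact hf.comp ((by fun_prop : Measurable fun q : ((α × V) × V) × S2 => q.1.1.1).prodMk h1)

theorem joint_v (hf : Measurable fun p : α × V => f p.1 p.2) :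
    Measurable fun q : ((α × V) × V) × S2 => f q.1.1.1 q.1.1.2 :=
  hf.comp (by fun_prop : Measurable fun q : ((α × V) × V) × S2 => (q.1.1.1, q.1.1.2))

theorem joint_w (hf : Measurable fun p : α × V => f p.1 p.2) :
    Measurable fun q : ((α × V) × V) × S2 => f q.1.1.1 q.1.2 :=
  hf.comp (by fun_prop : Measurable fun q : ((α × V) × V) × S2 => (q.1.1.1, q.1.2))

theorem joint_proj :
    Measurable fun q : ((α × V) × V) × S2 => (q.1.1.2, q.1.2, q.2) := by fun_prop

theorem joint_kk :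
    Measurable fun q : ((α × V) × V) × S2 => kk q.1.1.2 q.1.2 q.2 := by
  have h := measurable_kk.comp (joint_proj (α := α))
  exact h

theorem joint_dd :
    Measurable fun q : ((α × V) × V) × S2 => dd (q.1.1.2, q.1.2, q.2) :=
  measurable_dd.comp (by fun_prop :
      Measurable fun q : ((α × V) × V) × S2 => (q.1.1.2, q.1.2, q.2))

theorem joint_int {H : ((α × V) × V) × S2 → ENNReal} (hH : Measurable H) :
    Measurable fun p : α × V => ∫⁻ w, ∫⁻ o, H ((p, w), o) ∂surf := by
  apply Measurable.lintegral_prod_right'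
    (f := fun q : (α × V) × V => ∫⁻ o, H (q, o) ∂surf)
  exact Measurable.lintegral_prod_right' hH

theorem joint_Ga (hf : Measurable fun p : α × V => f p.1 p.2) :
    Measurable fun p : α × V => Ga (f p.1) p.2 :=
  joint_int (H := fun q => kk q.1.1.2 q.1.2 q.2 * (f q.1.1.1 (post q.1.1.2 q.1.2 q.2) *
    f q.1.1.1 (postStar q.1.1.2 q.1.2 q.2)) + dd (q.1.1.2, q.1.2, q.2) *
    (f q.1.1.1 q.1.1.2 * f q.1.1.1 q.1.2))
    ((joint_kk.mul ((joint_post hf).mul (joint_postStar hf))).add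
      (joint_dd.mul ((joint_v hf).mul (joint_w hf))))

theorem joint_Qp (hf : Measurable fun p : α × V => f p.1 p.2) :
    Measurable fun p : α × V => Qp (f p.1) p.2 :=
  joint_int (H := fun q => kk q.1.1.2 q.1.2 q.2 * (f q.1.1.1 (post q.1.1.2 q.1.2 q.2) *
    f q.1.1.1 (postStar q.1.1.2 q.1.2 q.2)))
    (joint_kk.mul ((joint_post hf).mul (joint_postStar hf)))

theorem joint_Qm (hf : Measurable fun p : α × V => f p.1 p.2) :
    Measurable fun p : α × V => Qm (f p.1) p.2 :=
  joint_int (H := fun q => kk q.1.1.2 q.1.2 q.2 *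
    (f q.1.1.1 q.1.1.2 * f q.1.1.1 q.1.2))
    (joint_kk.mul ((joint_v hf).mul (joint_w hf)))

theorem joint_Mo (hf : Measurable fun p : α × V => f p.1 p.2) (j : ℕ) :
    Measurable fun a : α => Mo j (f a) := by
  unfold Mo
  apply Measurable.lintegral_prod_right' (f := fun q : α × V => f q.1 q.2 * ph q.2 ^ j)
  exact hf.mul ((measurable_phpow j).comp measurable_snd)

end joint

/-- damping rate -/
noncomputable def lam (κ : ENNReal) (v : V) : ℝ := (Ss * κ).toReal * (1 + ‖v‖ ^ 2)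

theorem lam_nonneg (κ : ENNReal) (v : V) : 0 ≤ lam κ v := by
  unfold lam; positivity

theorem ofReal_lam {κ : ENNReal} (hκ : κ ≠ ⊤) (v : V) :
    ENNReal.ofReal (lam κ v) = Ss * κ * ph v := by
  unfold lam ph
  rw [ENNReal.ofReal_mul ENNReal.toReal_nonneg, ENNReal.ofReal_toReal]
  exact ENNReal.mul_ne_top Ss_ne_top hκ

theorem measurable_lam (κ : ENNReal) : Measurable (lam κ) := by
  unfold lam
  apply Continuous.measurable
  fun_prop

theorem measurable_duh_joint {κ : ENNReal} {g0 : V → ENNReal} (hg0 : Measurable g0)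
    {G : ℝ → V → ENNReal} (hG : Measurable fun p : ℝ × V => G p.1 p.2) :
    Measurable fun p : ℝ × V => duh (lam κ p.2) (g0 p.2) (fun s => G s p.2) p.1 := by
  unfold duh
  apply Measurable.add
  · apply Measurable.mul
    · apply ENNReal.measurable_ofReal.comp
      apply Real.measurable_exp.comp
      exact (((measurable_lam κ).comp measurable_snd).neg).mul measurable_fst
    · exact hg0.comp measurable_snd
  · have h1 : ∀ p : ℝ × V, ∫⁻ s in Ioc 0 p.1,
        ENNReal.ofReal (Real.exp (-lam κ p.2 * (p.1 - s))) * G s p.2 =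
        ∫⁻ s, {q : (ℝ × V) × ℝ | 0 < q.2 ∧ q.2 ≤ q.1.1}.indicator
          (fun q => ENNReal.ofReal (Real.exp (-lam κ q.1.2 * (q.1.1 - q.2))) * G q.2 q.1.2)
          (p, s) := by
      intro p
      rw [← lintegral_indicator measurableSet_Ioc]
      apply lintegral_congr
      intro s
      simp only [indicator, mem_Ioc, mem_ofPred_eq]
    simp only [h1]
    apply Measurable.lintegral_prod_right'
    apply Measurable.indicator
    · apply Measurable.mul
      · apply ENNReal.measurable_ofReal.comp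
        apply Real.measurable_exp.comp
        apply Measurable.mul
        · exact ((measurable_lam κ).comp (measurable_snd.comp measurable_fst)).neg
        · exact (measurable_fst.comp measurable_fst).sub measurable_snd
      · exact hG.comp (by fun_prop : Measurable fun q : (ℝ × V) × ℝ => (q.2, q.1.2))
    · exact (measurableSet_lt measurable_const measurable_snd).inter
        (measurableSet_le measurable_snd (measurable_fst.comp measurable_fst))

/-- the monotone iteration -/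
noncomputable def it (g0 : V → ENNReal) : ℕ → ℝ → V → ENNReal
  | 0 => fun _ _ => 0
  | k + 1 => fun t v => duh (lam (Mo 1 g0) v) (g0 v) (fun s => Ga (it g0 k s) v) t

theorem it_zero (g0 : V → ENNReal) (t : ℝ) (v : V) : it g0 0 t v = 0 := rfl

theorem it_succ (g0 : V → ENNReal) (k : ℕ) (t : ℝ) (v : V) :
    it g0 (k + 1) t v = duh (lam (Mo 1 g0) v) (g0 v) (fun s => Ga (it g0 k s) v) t := rfl

theorem measurable_it {g0 : V → ENNReal} (hg0 : Measurable g0) (k : ℕ) :
    Measurable fun p : ℝ × V => it g0 k p.1 p.2 := by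
  induction k with
  | zero => exact measurable_const
  | succ k ih =>
    simp only [it_succ]
    exact measurable_duh_joint hg0 (joint_Ga ih)

theorem it_mono_succ (g0 : V → ENNReal) (k : ℕ) (t : ℝ) (v : V) :
    it g0 k t v ≤ it g0 (k + 1) t v := by
  induction k generalizing t v with
  | zero => rw [it_zero]; exact zero_le
  | succ k ih =>
    rw [it_succ, it_succ]
    apply duh_mono
    intro s
    apply Ga_mono
    intro v
    exact ih s v

theorem it_monotone (g0 : V → ENNReal) (t : ℝ) (v : V) : Monotone fun k => it g0 k t v :=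
  monotone_nat_of_le_succ fun k => it_mono_succ g0 k t v

/-- the limit of the iteration -/
noncomputable def lim (g0 : V → ENNReal) (t : ℝ) (v : V) : ENNReal := ⨆ k, it g0 k t v

theorem measurable_lim {g0 : V → ENNReal} (hg0 : Measurable g0) :
    Measurable fun p : ℝ × V => lim g0 p.1 p.2 := by
  unfold lim
  exact Measurable.iSup fun k => measurable_it hg0 k

theorem it_le_lim (g0 : V → ENNReal) (k : ℕ) (t : ℝ) (v : V) : it g0 k t v ≤ lim g0 t v :=
  le_iSup (fun k => it g0 k t v) k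

end Vale.Agent.P140
end

section

open MeasureTheory Set

namespace Vale.Agent.P140

theorem iSup_mul_iSup_mono {a b : ℕ → ENNReal} (ha : Monotone a) (hb : Monotone b) :
    (⨆ k, a k) * (⨆ k, b k) = ⨆ k, a k * b k := by
  apply le_antisymm
  · rw [ENNReal.iSup_mul]
    apply iSup_le; intro i
    rw [ENNReal.mul_iSup]
    apply iSup_le; intro j
    calc a i * b j ≤ a (max i j) * b (max i j) := by
          gcongr
          · exact ha (le_max_left _ _)
          · exact hb (le_max_right _ _)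
      _ ≤ ⨆ k, a k * b k := le_iSup (fun k => a k * b k) _
  · apply iSup_le; intro k
    gcongr
    · exact le_iSup a k
    · exact le_iSup b k

theorem Ga_iSup {f : ℕ → V → ENNReal} (hf : ∀ k, Measurable (f k))
    (hmono : ∀ v, Monotone fun k => f k v) (v : V) :
    Ga (fun v => ⨆ k, f k v) v = ⨆ k, Ga (f k) v := by
  have mm : ∀ k, Measurable fun p : V × V × S2 =>
      kk p.1 p.2.1 p.2.2 * (f k (post p.1 p.2.1 p.2.2) * f k (postStar p.1 p.2.1 p.2.2)) +
        dd p * (f k p.1 * f k p.2.1) := fun k => (meas_gainI (hf k)).add (meas_dampI (hf k))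
  have mo : ∀ w o, Monotone fun k =>
      (kk v w o * (f k (post v w o) * f k (postStar v w o)) +
        (ph v * ph w - kk v w o) * (f k v * f k w)) := by
    intro w o i j hij
    simp only
    gcongr <;> apply hmono _ hij
  unfold Ga
  rw [← lintegral_iSup]
  · apply lintegral_congr; intro w
    rw [← lintegral_iSup]
    · apply lintegral_congr; intro o
      have h1 : (⨆ k, f k (post v w o)) * (⨆ k, f k (postStar v w o)) =
          ⨆ k, f k (post v w o) * f k (postStar v w o) := iSup_mul_iSup_mono (hmono _) (hmono _)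
      have h2 : (⨆ k, f k v) * (⨆ k, f k w) = ⨆ k, f k v * f k w :=
        iSup_mul_iSup_mono (hmono _) (hmono _)
      rw [h1, h2, ENNReal.mul_iSup, ENNReal.mul_iSup, ENNReal.iSup_add_iSup_of_monotone]
      · intro i j hij
        simp only
        gcongr <;> apply hmono _ hij
      · intro i j hij
        simp only
        gcongr <;> apply hmono _ hij
    · intro k
      exact meas_sec_o (mm k) v w
    · intro i j hij o
      exact mo w o hij
  · intro k
    exact meas_sec_w (mm k) v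
  · intro i j hij w
    apply lintegral_mono; intro o
    exact mo w o hij

theorem sec_s {f : ℝ → V → ENNReal} (hf : Measurable fun p : ℝ × V => f p.1 p.2) (v : V) :
    Measurable fun s : ℝ => f s v := by
  have h := hf.comp (by fun_prop : Measurable fun s : ℝ => (s, v))
  exact h

theorem sec_v {f : ℝ → V → ENNReal} (hf : Measurable fun p : ℝ × V => f p.1 p.2) (s : ℝ) :
    Measurable (f s) := by
  have h := hf.comp (by fun_prop : Measurable fun v : V => (s, v))
  exact h

theorem sec_Ga {f : ℝ → V → ENNReal} (hf : Measurable fun p : ℝ × V => f p.1 p.2) (v : V) :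
    Measurable fun s : ℝ => Ga (f s) v :=
  sec_s (f := fun s v => Ga (f s) v) (joint_Ga hf) v

theorem it_meas_v {g0 : V → ENNReal} (hg0 : Measurable g0) (k : ℕ) (t : ℝ) :
    Measurable (it g0 k t) :=
  (measurable_it hg0 k).comp (by fun_prop : Measurable fun v : V => (t, v))

theorem lim_meas_v {g0 : V → ENNReal} (hg0 : Measurable g0) (t : ℝ) :
    Measurable (lim g0 t) :=
  (measurable_lim hg0).comp (by fun_prop : Measurable fun v : V => (t, v))

theorem lim_fixed {g0 : V → ENNReal} (hg0 : Measurable g0) (t : ℝ) (v : V) :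
    lim g0 t v = duh (lam (Mo 1 g0) v) (g0 v) (fun s => Ga (lim g0 s) v) t := by
  have h1 : (fun s => Ga (lim g0 s) v) = fun s => ⨆ k, Ga (it g0 k s) v := by
    ext s
    exact Ga_iSup (fun k => it_meas_v hg0 k s) (fun v => it_monotone g0 s v) v
  rw [h1, ← duh_iSup]
  · unfold lim
    apply le_antisymm
    · apply iSup_le; intro k
      calc it g0 k t v ≤ it g0 (k + 1) t v := it_mono_succ g0 k t v
        _ = duh (lam (Mo 1 g0) v) (g0 v) (fun s => Ga (it g0 k s) v) t := it_succ g0 k t v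
        _ ≤ _ := le_iSup (fun n => duh (lam (Mo 1 g0) v) (g0 v) (fun s => Ga (it g0 n s) v) t) k
    · apply iSup_le; intro k
      rw [← it_succ]
      exact le_iSup (fun k => it g0 k t v) (k + 1)
  · intro k
    exact sec_Ga (measurable_it hg0 k) v
  · intro i j hij s
    apply Ga_mono
    intro v
    exact it_monotone g0 s v hij

/-- integrated form for the iterates -/
theorem it_integrated {g0 : V → ENNReal} (hg0 : Measurable g0) (hκ : Mo 1 g0 ≠ ⊤) (k : ℕ)
    {t : ℝ} (ht : 0 ≤ t) (v : V) :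
    it g0 (k + 1) t v + Ss * Mo 1 g0 * ph v * ∫⁻ s in Ioc 0 t, it g0 (k + 1) s v =
      g0 v + ∫⁻ s in Ioc 0 t, Ga (it g0 k s) v := by
  have h := duh_integrated (lam (Mo 1 g0) v) (lam_nonneg _ _) (g0 v)
    (G := fun s => Ga (it g0 k s) v)
    (sec_Ga (measurable_it hg0 k) v) ht
  rw [ofReal_lam hκ] at h
  exact h

theorem lim_integrated {g0 : V → ENNReal} (hg0 : Measurable g0) (hκ : Mo 1 g0 ≠ ⊤)
    {t : ℝ} (ht : 0 ≤ t) (v : V) :
    lim g0 t v + Ss * Mo 1 g0 * ph v * ∫⁻ s in Ioc 0 t, lim g0 s v =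
      g0 v + ∫⁻ s in Ioc 0 t, Ga (lim g0 s) v := by
  have h := duh_integrated (lam (Mo 1 g0) v) (lam_nonneg _ _) (g0 v)
    (G := fun s => Ga (lim g0 s) v)
    (sec_Ga (measurable_lim hg0) v) ht
  rw [ofReal_lam hκ] at h
  simp only [← lim_fixed hg0] at h
  exact h

/-- moment identity from an integrated equation -/
theorem mom_integrated {g : ℝ → V → ENNReal} (hg : Measurable fun p : ℝ × V => g p.1 p.2)
    {G : ℝ → V → ENNReal} (hG : Measurable fun p : ℝ × V => G p.1 p.2)
    {g0 : V → ENNReal} (hg0 : Measurable g0) {c : ENNReal} {t : ℝ}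
    (h : ∀ v, g t v + c * ph v * ∫⁻ s in Ioc 0 t, g s v = g0 v + ∫⁻ s in Ioc 0 t, G s v) (j : ℕ) :
    Mo j (g t) + c * ∫⁻ s in Ioc 0 t, Mo (j + 1) (g s) =
      Mo j g0 + ∫⁻ s in Ioc 0 t, ∫⁻ v, G s v * ph v ^ j := by
  have hgt : Measurable (g t) := hg.comp (by fun_prop : Measurable fun v : V => (t, v))
  have hint : Measurable fun v => ∫⁻ s in Ioc 0 t, g s v :=
    Measurable.lintegral_prod_left' (f := fun p : ℝ × V => g p.1 p.2) hg
  have e1 : c * ∫⁻ s in Ioc 0 t, Mo (j + 1) (g s) =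
      ∫⁻ v, (c * ph v * ∫⁻ s in Ioc 0 t, g s v) * ph v ^ j := by
    have e2 : ∫⁻ s in Ioc 0 t, Mo (j + 1) (g s) = ∫⁻ v, (∫⁻ s in Ioc 0 t, g s v) * ph v ^ (j + 1) := by
      unfold Mo
      rw [lintegral_lintegral_swap]
      · apply lintegral_congr; intro v
        rw [lintegral_mul_const _ (sec_s hg v)]
      · exact (hg.mul ((measurable_phpow (j + 1)).comp measurable_snd)).aemeasurable
    rw [e2, ← lintegral_const_mul]
    · apply lintegral_congr; intro v
      ring
    · exact hint.mul (measurable_phpow (j + 1))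
  have e3 : ∫⁻ s in Ioc 0 t, ∫⁻ v, G s v * ph v ^ j =
      ∫⁻ v, (∫⁻ s in Ioc 0 t, G s v) * ph v ^ j := by
    rw [lintegral_lintegral_swap]
    · apply lintegral_congr; intro v
      rw [lintegral_mul_const _ (sec_s hG v)]
    · exact (hG.mul ((measurable_phpow j).comp measurable_snd)).aemeasurable
  rw [e1, e3]
  unfold Mo
  have m1 : Measurable fun v => g t v * ph v ^ j := hgt.mul (measurable_phpow j)
  have m2 : Measurable fun v => g0 v * ph v ^ j := hg0.mul (measurable_phpow j)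
  rw [← lintegral_add_left m1, ← lintegral_add_left m2]
  apply lintegral_congr; intro v
  rw [← add_mul, ← add_mul, h v]

end Vale.Agent.P140
end

section

open MeasureTheory Set

namespace Vale.Agent.P140

theorem lintegral_exp_pos (K t : ℝ) (hK : 0 ≤ K) (ht : 0 ≤ t) :
    1 + ENNReal.ofReal K * ∫⁻ s in Ioc 0 t, ENNReal.ofReal (Real.exp (K * s)) =
      ENNReal.ofReal (Real.exp (K * t)) := by
  have h1 : ∫⁻ s in Ioc 0 t, ENNReal.ofReal (Real.exp (K * s)) =
      ENNReal.ofReal (∫ s in (0:ℝ)..t, Real.exp (K * s)) := by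
    rw [intervalIntegral.integral_of_le ht]
    rw [ofReal_integral_eq_lintegral_ofReal]
    · apply Continuous.integrableOn_Ioc
      fun_prop
    · exact Filter.Eventually.of_forall fun τ => (Real.exp_pos _).le
  have h0 : 0 ≤ ∫ s in (0:ℝ)..t, Real.exp (K * s) := by
    apply intervalIntegral.integral_nonneg ht
    intro u _
    exact (Real.exp_pos _).le
  rw [h1, ← ENNReal.ofReal_mul hK, ← ENNReal.ofReal_one, ← ENNReal.ofReal_add zero_le_one
    (mul_nonneg hK h0)]
  have h2 : ∀ τ ∈ uIcc 0 t, HasDerivAt (fun τ => Real.exp (K * τ)) (K * Real.exp (K * τ)) τ := by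
    intro τ _
    have h3 : HasDerivAt (fun τ : ℝ => K * τ) K τ := by
      have := (hasDerivAt_id τ).const_mul K
      simpa using this
    have h4 := h3.exp
    rw [mul_comm]
    exact h4
  have h5 : ∫ τ in (0:ℝ)..t, K * Real.exp (K * τ) = Real.exp (K * t) - 1 := by
    rw [intervalIntegral.integral_eq_sub_of_hasDerivAt h2]
    · simp
    · apply Continuous.intervalIntegrable
      fun_prop
  rw [← intervalIntegral.integral_const_mul, h5]
  simp

/-- Gronwall with constant coefficient, zero initial value -/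
theorem gronwall_zero {y : ℝ → ENNReal} {T : ℝ} {C B : ENNReal} (hB : B ≠ ⊤) (hC : C ≠ ⊤)
    (hy : ∀ t ∈ Icc 0 T, y t ≤ B)
    (h : ∀ t ∈ Icc 0 T, y t ≤ C * ∫⁻ s in Ioc 0 t, y s) :
    ∀ t ∈ Icc 0 T, y t = 0 := by
  set K : ℝ := 2 * C.toReal + 1 with hKdef
  have hK : 0 < K := by positivity
  set N : ENNReal := ⨆ t ∈ Icc 0 T, ENNReal.ofReal (Real.exp (-(K * t))) * y t with hN
  have hNB : N ≤ B := by
    apply iSup₂_le
    intro t ht
    calc ENNReal.ofReal (Real.exp (-(K * t))) * y t ≤ 1 * B := by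
          gcongr
          · rw [ENNReal.ofReal_le_one, Real.exp_le_one_iff]
            have := ht.1
            linarith only [mul_nonneg (le_of_lt (sub_pos.2 hK)) (sub_nonneg.2 this)]
          · exact hy t ht
      _ = B := one_mul B
  have hyN : ∀ t ∈ Icc 0 T, y t ≤ ENNReal.ofReal (Real.exp (K * t)) * N := by
    intro t ht
    have h1 : ENNReal.ofReal (Real.exp (-(K * t))) * y t ≤ N :=
      le_iSup₂ (f := fun t (_ : t ∈ Icc 0 T) => ENNReal.ofReal (Real.exp (-(K * t))) * y t) t ht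
    calc y t = ENNReal.ofReal (Real.exp (K * t)) *
          (ENNReal.ofReal (Real.exp (-(K * t))) * y t) := by
            rw [← mul_assoc, ← ENNReal.ofReal_mul (Real.exp_pos _).le, ← Real.exp_add]
            simp
      _ ≤ _ := by gcongr
  have hNh : 2 * N ≤ N := by
    rw [hN, ENNReal.mul_iSup]
    apply iSup_le
    intro t
    rw [ENNReal.mul_iSup]
    apply iSup_le
    intro ht
    rw [← hN]
    have h2 : y t ≤ C * (N * ∫⁻ s in Ioc 0 t, ENNReal.ofReal (Real.exp (K * s))) := by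
      refine (h t ht).trans ?_
      gcongr
      rw [← lintegral_const_mul' _ _ (ne_top_of_le_ne_top hB hNB)]
      apply setLIntegral_mono' measurableSet_Ioc
      intro s hs
      rw [mul_comm]
      exact hyN s ⟨hs.1.le, hs.2.trans ht.2⟩
    have h3 := lintegral_exp_pos K t hK.le ht.1
    have h4 : ENNReal.ofReal K * ∫⁻ s in Ioc 0 t, ENNReal.ofReal (Real.exp (K * s)) ≤
        ENNReal.ofReal (Real.exp (K * t)) := by
      rw [← h3]; exact le_add_self
    have h5 : 2 * C ≤ ENNReal.ofReal K := by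
      rw [← ENNReal.ofReal_toReal hC, show (2 : ENNReal) = ENNReal.ofReal 2 by simp,
        ← ENNReal.ofReal_mul (by norm_num)]
      apply ENNReal.ofReal_le_ofReal
      linarith
    calc 2 * (ENNReal.ofReal (Real.exp (-(K * t))) * y t)
        ≤ 2 * (ENNReal.ofReal (Real.exp (-(K * t))) *
            (C * (N * ∫⁻ s in Ioc 0 t, ENNReal.ofReal (Real.exp (K * s))))) := by gcongr
      _ = ENNReal.ofReal (Real.exp (-(K * t))) * (N *
            (2 * C * ∫⁻ s in Ioc 0 t, ENNReal.ofReal (Real.exp (K * s)))) := by ring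
      _ ≤ ENNReal.ofReal (Real.exp (-(K * t))) * (N *
            (ENNReal.ofReal K * ∫⁻ s in Ioc 0 t, ENNReal.ofReal (Real.exp (K * s)))) := by gcongr
      _ ≤ ENNReal.ofReal (Real.exp (-(K * t))) * (N * ENNReal.ofReal (Real.exp (K * t))) := by
          gcongr
      _ = (ENNReal.ofReal (Real.exp (-(K * t))) * ENNReal.ofReal (Real.exp (K * t))) * N := by ring
      _ = N := by
          rw [← ENNReal.ofReal_mul (Real.exp_pos _).le, ← Real.exp_add]
          simp
  have hN0 : N = 0 := by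
    by_contra hne
    have hNt : N ≠ ⊤ := ne_top_of_le_ne_top hB hNB
    have h6 : N + N ≤ N + 0 := by
      rw [add_zero, ← two_mul]; exact hNh
    have h7 : N ≤ 0 := ENNReal.le_of_add_le_add_left hNt h6
    exact hne (le_antisymm h7 zero_le)
  intro t ht
  have := hyN t ht
  rw [hN0, mul_zero] at this
  exact le_antisymm this zero_le

theorem Mo_zero_fun (j : ℕ) : Mo j (fun _ => 0) = 0 := by
  unfold Mo; simp

theorem it_bounds {g0 : V → ENNReal} (hg0 : Measurable g0) (hκ : Mo 1 g0 ≠ ⊤) (hZ : Mo 2 g0 ≠ ⊤)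
    (k : ℕ) : ∀ t, 0 ≤ t → Mo 1 (it g0 k t) ≤ Mo 1 g0 ∧
      Ss * Mo 1 g0 * (∫⁻ s in Ioc 0 t, Mo 2 (it g0 k s)) ≠ ⊤ ∧
      Ss * Mo 1 g0 * (∫⁻ s in Ioc 0 t, Mo 3 (it g0 k s)) ≠ ⊤ ∧
      Mo 2 (it g0 k t) ≤ Mo 2 g0 * ENNReal.ofReal (Real.exp ((2 * (Ss * Mo 1 g0).toReal) * t)) := by
  induction k with
  | zero =>
    intro t _
    have h0 : ∀ s j, Mo j (it g0 0 s) = 0 := fun s j => Mo_zero_fun j
    simp [h0]
  | succ k ih =>
    intro t ht
    set κ := Mo 1 g0 with hκdef
    have hK : Ss * κ ≠ ⊤ := ENNReal.mul_ne_top Ss_ne_top hκ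
    have hmk := fun s => it_meas_v hg0 k s
    have hMo := fun j => joint_Mo (measurable_it hg0 k) j
    have hI := fun v => it_integrated hg0 hκ k ht v
    have h1 := mom_integrated (measurable_it hg0 (k + 1)) (joint_Ga (measurable_it hg0 k)) hg0
      (c := Ss * κ) (t := t) hI 1
    have h2 := mom_integrated (measurable_it hg0 (k + 1)) (joint_Ga (measurable_it hg0 k)) hg0
      (c := Ss * κ) (t := t) hI 2
    obtain ⟨i1, i2, i3, i4⟩ := ih t ht
    have e1 : ∫⁻ s in Ioc 0 t, ∫⁻ v, Ga (it g0 k s) v * ph v ^ 1 ≤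
        Ss * κ * ∫⁻ s in Ioc 0 t, Mo 2 (it g0 k s) := by
      rw [← lintegral_const_mul' _ _ hK]
      apply setLIntegral_mono' measurableSet_Ioc
      intro s hs
      simp only [pow_one]
      rw [Ga_mom1 (hmk s), mul_assoc]
      gcongr
      exact (ih s hs.1.le).1
    have e2 : ∫⁻ s in Ioc 0 t, ∫⁻ v, Ga (it g0 k s) v * ph v ^ 2 ≤
        Ss * κ * (∫⁻ s in Ioc 0 t, Mo 3 (it g0 k s)) +
          2 * (Ss * κ) * ∫⁻ s in Ioc 0 t, Mo 2 (it g0 k s) := by
      rw [← lintegral_const_mul' _ _ hK, ← lintegral_const_mul' _ _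
        (ENNReal.mul_ne_top (by norm_num) hK), ← lintegral_add_left ((hMo 3).const_mul _)]
      apply setLIntegral_mono' measurableSet_Ioc
      intro s hs
      refine (Ga_mom2 (hmk s)).trans ?_
      have := (ih s hs.1.le).1
      calc Ss * (Mo 1 (it g0 k s) * Mo 3 (it g0 k s)) +
            2 * (Ss * (Mo 1 (it g0 k s) * Mo 2 (it g0 k s)))
          ≤ Ss * (κ * Mo 3 (it g0 k s)) + 2 * (Ss * (κ * Mo 2 (it g0 k s))) := by gcongr
        _ = _ := by ring
    simp only [Nat.reduceAdd] at h1 h2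
    have b1 : Ss * κ * (∫⁻ s in Ioc 0 t, Mo 2 (it g0 (k + 1) s)) ≤
        κ + Ss * κ * ∫⁻ s in Ioc 0 t, Mo 2 (it g0 k s) := by
      calc _ ≤ Mo 1 (it g0 (k + 1) t) + Ss * κ * (∫⁻ s in Ioc 0 t, Mo 2 (it g0 (k + 1) s)) :=
            le_add_self
        _ = _ := h1
        _ ≤ _ := by gcongr
    have b2 : Ss * κ * (∫⁻ s in Ioc 0 t, Mo 3 (it g0 (k + 1) s)) ≤
        Mo 2 g0 + (Ss * κ * (∫⁻ s in Ioc 0 t, Mo 3 (it g0 k s)) +
          2 * (Ss * κ) * ∫⁻ s in Ioc 0 t, Mo 2 (it g0 k s)) := by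
      calc _ ≤ Mo 2 (it g0 (k + 1) t) + Ss * κ * (∫⁻ s in Ioc 0 t, Mo 3 (it g0 (k + 1) s)) :=
            le_add_self
        _ = _ := h2
        _ ≤ _ := by gcongr
    have c1 : Ss * κ * (∫⁻ s in Ioc 0 t, Mo 2 (it g0 (k + 1) s)) ≠ ⊤ :=
      ne_top_of_le_ne_top (ENNReal.add_ne_top.mpr ⟨hκ, i2⟩) b1
    have c2 : Ss * κ * (∫⁻ s in Ioc 0 t, Mo 3 (it g0 (k + 1) s)) ≠ ⊤ := by
      refine ne_top_of_le_ne_top (ENNReal.add_ne_top.mpr ⟨hZ, ENNReal.add_ne_top.mpr ⟨i3, ?_⟩⟩) b2
      rw [mul_assoc]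
      exact ENNReal.mul_ne_top (by norm_num) i2
    have mono2 : ∀ j, ∫⁻ s in Ioc 0 t, Mo j (it g0 k s) ≤ ∫⁻ s in Ioc 0 t, Mo j (it g0 (k + 1) s) := by
      intro j
      apply lintegral_mono; intro s
      exact Mo_le_of_le (fun v => it_mono_succ g0 k s v) j
    refine ⟨?_, c1, c2, ?_⟩
    · apply ENNReal.le_of_add_le_add_right c1
      calc _ = _ := h1
        _ ≤ κ + Ss * κ * ∫⁻ s in Ioc 0 t, Mo 2 (it g0 k s) := by
            have : Mo 1 g0 = κ := rfl
            rw [this]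
            gcongr
        _ ≤ _ := add_le_add le_rfl (mul_le_mul_right (mono2 2) _)
    · have d1 : Mo 2 (it g0 (k + 1) t) ≤ Mo 2 g0 + 2 * (Ss * κ) * ∫⁻ s in Ioc 0 t, Mo 2 (it g0 k s) := by
        apply ENNReal.le_of_add_le_add_right c2
        calc _ = _ := h2
          _ ≤ Mo 2 g0 + (Ss * κ * (∫⁻ s in Ioc 0 t, Mo 3 (it g0 k s)) +
              2 * (Ss * κ) * ∫⁻ s in Ioc 0 t, Mo 2 (it g0 k s)) := by gcongr
          _ ≤ Mo 2 g0 + (Ss * κ * (∫⁻ s in Ioc 0 t, Mo 3 (it g0 (k + 1) s)) +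
              2 * (Ss * κ) * ∫⁻ s in Ioc 0 t, Mo 2 (it g0 k s)) :=
                add_le_add le_rfl (add_le_add (mul_le_mul_right (mono2 3) _) le_rfl)
          _ = _ := by ring
      refine d1.trans ?_
      have d2 := lintegral_exp_pos (2 * (Ss * κ).toReal) t (by positivity) ht
      rw [← d2, mul_add, mul_one]
      refine add_le_add le_rfl ?_
      have d3 : ∫⁻ s in Ioc 0 t, Mo 2 (it g0 k s) ≤
          Mo 2 g0 * ∫⁻ s in Ioc 0 t, ENNReal.ofReal (Real.exp (2 * (Ss * κ).toReal * s)) := by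
        rw [← lintegral_const_mul' _ _ hZ]
        apply setLIntegral_mono' measurableSet_Ioc
        intro s hs
        exact (ih s hs.1.le).2.2.2
      have d4 : ENNReal.ofReal (2 * (Ss * κ).toReal) = 2 * (Ss * κ) := by
        rw [ENNReal.ofReal_mul (by norm_num), ENNReal.ofReal_toReal hK]
        simp
      rw [d4]
      calc 2 * (Ss * κ) * ∫⁻ s in Ioc 0 t, Mo 2 (it g0 k s)
          ≤ 2 * (Ss * κ) * (Mo 2 g0 *
            ∫⁻ s in Ioc 0 t, ENNReal.ofReal (Real.exp (2 * (Ss * κ).toReal * s))) := by gcongr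
        _ = _ := by ring

end Vale.Agent.P140
end

section

open MeasureTheory Set

namespace Vale.Agent.P140

theorem Mo_lim {g0 : V → ENNReal} (hg0 : Measurable g0) (j : ℕ) (t : ℝ) :
    Mo j (lim g0 t) = ⨆ k, Mo j (it g0 k t) := by
  unfold Mo lim
  simp only [ENNReal.iSup_mul]
  rw [lintegral_iSup]
  · intro k
    exact (it_meas_v hg0 k t).mul (measurable_phpow j)
  · intro i k hik v
    simp only
    gcongr
    exact it_monotone g0 t v hik

theorem Mo1_lim_le {g0 : V → ENNReal} (hg0 : Measurable g0) (hκ : Mo 1 g0 ≠ ⊤) (hZ : Mo 2 g0 ≠ ⊤)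
    {t : ℝ} (ht : 0 ≤ t) : Mo 1 (lim g0 t) ≤ Mo 1 g0 := by
  rw [Mo_lim hg0]
  exact iSup_le fun k => (it_bounds hg0 hκ hZ k t ht).1

theorem Mo2_lim_le {g0 : V → ENNReal} (hg0 : Measurable g0) (hκ : Mo 1 g0 ≠ ⊤) (hZ : Mo 2 g0 ≠ ⊤)
    {t : ℝ} (ht : 0 ≤ t) : Mo 2 (lim g0 t) ≤
      Mo 2 g0 * ENNReal.ofReal (Real.exp ((2 * (Ss * Mo 1 g0).toReal) * t)) := by
  rw [Mo_lim hg0]
  exact iSup_le fun k => (it_bounds hg0 hκ hZ k t ht).2.2.2

theorem Mo2_lim_le' {g0 : V → ENNReal} (hg0 : Measurable g0) (hκ : Mo 1 g0 ≠ ⊤) (hZ : Mo 2 g0 ≠ ⊤)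
    {t T : ℝ} (ht : 0 ≤ t) (htT : t ≤ T) : Mo 2 (lim g0 t) ≤
      Mo 2 g0 * ENNReal.ofReal (Real.exp ((2 * (Ss * Mo 1 g0).toReal) * T)) := by
  refine (Mo2_lim_le hg0 hκ hZ ht).trans ?_
  gcongr

theorem Mo1_lim {g0 : V → ENNReal} (hg0 : Measurable g0) (hκ : Mo 1 g0 ≠ ⊤) (hZ : Mo 2 g0 ≠ ⊤)
    {t : ℝ} (ht : 0 ≤ t) : Mo 1 (lim g0 t) = Mo 1 g0 := by
  set κ := Mo 1 g0 with hκdef
  have hml := measurable_lim hg0
  have hMo := fun j => joint_Mo hml j
  have hle : ∀ s, 0 ≤ s → Mo 1 (lim g0 s) ≤ κ := fun s hs => Mo1_lim_le hg0 hκ hZ hs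
  set E := Mo 2 g0 * ENNReal.ofReal (Real.exp ((2 * (Ss * Mo 1 g0).toReal) * t)) with hE
  have hEt : E ≠ ⊤ := ENNReal.mul_ne_top hZ ENNReal.ofReal_ne_top
  have hD : ∀ s ∈ Icc 0 t, κ - Mo 1 (lim g0 s) = 0 := by
    apply gronwall_zero (y := fun s => κ - Mo 1 (lim g0 s)) (T := t) (C := Ss * E) (B := κ) hκ
      (ENNReal.mul_ne_top Ss_ne_top hEt)
    · intro s _
      exact tsub_le_self
    · intro s hs
      have hI := fun v => lim_integrated hg0 hκ hs.1 v
      have h1 := mom_integrated hml (joint_Ga hml) hg0 (c := Ss * κ) (t := s) hI 1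
      simp only [Nat.reduceAdd, pow_one] at h1
      have e1 : ∫⁻ r in Ioc 0 s, ∫⁻ v, Ga (lim g0 r) v * ph v =
          Ss * ∫⁻ r in Ioc 0 s, Mo 1 (lim g0 r) * Mo 2 (lim g0 r) := by
        rw [← lintegral_const_mul' _ _ Ss_ne_top]
        apply setLIntegral_congr_fun measurableSet_Ioc
        intro r _
        exact Ga_mom1 (lim_meas_v hg0 r)
      have e2 : Ss * κ * ∫⁻ r in Ioc 0 s, Mo 2 (lim g0 r) =
          Ss * (∫⁻ r in Ioc 0 s, (κ - Mo 1 (lim g0 r)) * Mo 2 (lim g0 r)) +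
          Ss * ∫⁻ r in Ioc 0 s, Mo 1 (lim g0 r) * Mo 2 (lim g0 r) := by
        have m12 : Measurable fun r => Mo 1 (lim g0 r) * Mo 2 (lim g0 r) := (hMo 1).mul (hMo 2)
        rw [← mul_add, ← lintegral_add_right _ m12, mul_assoc]
        congr 1
        rw [← lintegral_const_mul' _ _ hκ]
        apply setLIntegral_congr_fun measurableSet_Ioc
        intro r hr
        simp only
        rw [← add_mul, tsub_add_cancel_of_le (hle r hr.1.le)]
      rw [e1, e2, ← add_assoc] at h1
      have hfin : Ss * ∫⁻ r in Ioc 0 s, Mo 1 (lim g0 r) * Mo 2 (lim g0 r) ≠ ⊤ := by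
        apply ENNReal.mul_ne_top Ss_ne_top
        refine ne_top_of_le_ne_top (b := ∫⁻ r in Ioc 0 s, κ * E) ?_ ?_
        · rw [setLIntegral_const]
          exact ENNReal.mul_ne_top (ENNReal.mul_ne_top hκ hEt) (by simp)
        · apply setLIntegral_mono' measurableSet_Ioc
          intro r hr
          gcongr
          · exact hle r hr.1.le
          · exact Mo2_lim_le' hg0 hκ hZ hr.1.le (hr.2.trans hs.2)
      have h2 := (ENNReal.add_left_inj hfin).mp h1
      have h3 : κ - Mo 1 (lim g0 s) = Ss * (∫⁻ r in Ioc 0 s, (κ - Mo 1 (lim g0 r)) * Mo 2 (lim g0 r)) := by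
        have hk : Mo 1 (lim g0 s) ≠ ⊤ := ne_top_of_le_ne_top hκ (hle s hs.1)
        have : κ = Mo 1 (lim g0 s) +
          Ss * ∫⁻ r in Ioc 0 s, (κ - Mo 1 (lim g0 r)) * Mo 2 (lim g0 r) := h2.symm
        conv_lhs => rw [this]
        exact ENNReal.add_sub_cancel_left hk
      rw [h3, mul_assoc]
      gcongr
      rw [← lintegral_const_mul' _ _ hEt]
      apply setLIntegral_mono' measurableSet_Ioc
      intro r hr
      rw [mul_comm]
      gcongr
      exact Mo2_lim_le' hg0 hκ hZ hr.1.le (hr.2.trans hs.2)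
  have := hD t ⟨ht, le_rfl⟩
  exact le_antisymm (hle t ht) (tsub_eq_zero_iff_le.mp this)

theorem Mo0_lim {g0 : V → ENNReal} (hg0 : Measurable g0) (hκ : Mo 1 g0 ≠ ⊤) (hZ : Mo 2 g0 ≠ ⊤)
    {t : ℝ} (ht : 0 ≤ t) : Mo 0 (lim g0 t) = Mo 0 g0 := by
  have hml := measurable_lim hg0
  have hI := fun v => lim_integrated hg0 hκ ht v
  have h1 := mom_integrated hml (joint_Ga hml) hg0 (c := Ss * Mo 1 g0) (t := t) hI 0
  have e1 : ∫⁻ r in Ioc 0 t, ∫⁻ v, Ga (lim g0 r) v * ph v ^ 0 =
      Ss * Mo 1 g0 * ∫⁻ r in Ioc 0 t, Mo (0 + 1) (lim g0 r) := by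
    rw [← lintegral_const_mul' _ _ (ENNReal.mul_ne_top Ss_ne_top hκ)]
    apply setLIntegral_congr_fun measurableSet_Ioc
    intro r hr
    simp only [pow_zero, mul_one, zero_add]
    rw [Ga_mom0 (lim_meas_v hg0 r), Mo1_lim hg0 hκ hZ hr.1.le]
    ring
  rw [e1] at h1
  have hfin : Ss * Mo 1 g0 * ∫⁻ r in Ioc 0 t, Mo (0 + 1) (lim g0 r) ≠ ⊤ := by
    apply ENNReal.mul_ne_top (ENNReal.mul_ne_top Ss_ne_top hκ)
    have : ∫⁻ r in Ioc 0 t, Mo (0 + 1) (lim g0 r) = ∫⁻ r in Ioc 0 t, Mo 1 g0 := by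
      apply setLIntegral_congr_fun measurableSet_Ioc
      intro r hr
      exact Mo1_lim hg0 hκ hZ hr.1.le
    rw [this, setLIntegral_const]
    exact ENNReal.mul_ne_top hκ (by simp)
  exact (ENNReal.add_left_inj hfin).mp h1

/-- the set of velocities where everything is finite -/
theorem ae_finite_lim {g0 : V → ENNReal} (hg0 : Measurable g0) (hκ : Mo 1 g0 ≠ ⊤)
    (hZ : Mo 2 g0 ≠ ⊤) :
    ∀ᵐ v : V, g0 v ≠ ⊤ ∧ ∀ t, 0 ≤ t → lim g0 t v ≠ ⊤ ∧
      (∫⁻ s in Ioc 0 t, lim g0 s v) ≠ ⊤ ∧ (∫⁻ s in Ioc 0 t, Ga (lim g0 s) v) ≠ ⊤ := by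
  have hml := measurable_lim hg0
  have hMo0 : Mo 0 g0 ≠ ⊤ := ne_top_of_le_ne_top hκ (Mo_mono (by norm_num))
  have h0 : ∀ᵐ v : V, g0 v ≠ ⊤ := by
    have : ∫⁻ v, g0 v ≠ ⊤ := by
      have e : ∫⁻ v, g0 v = Mo 0 g0 := by unfold Mo; simp
      rw [e]; exact hMo0
    filter_upwards [ae_lt_top hg0 this] with v hv using hv.ne
  have hn : ∀ n : ℕ, ∀ᵐ v : V, (∫⁻ s in Ioc 0 (n : ℝ), lim g0 s v) < ⊤ ∧
      (∫⁻ s in Ioc 0 (n : ℝ), Ga (lim g0 s) v) < ⊤ := by
    intro n
    have m1 : Measurable fun v => ∫⁻ s in Ioc 0 (n : ℝ), lim g0 s v :=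
      Measurable.lintegral_prod_left' (f := fun p : ℝ × V => lim g0 p.1 p.2) hml
    have m2 : Measurable fun v => ∫⁻ s in Ioc 0 (n : ℝ), Ga (lim g0 s) v :=
      Measurable.lintegral_prod_left' (f := fun p : ℝ × V => Ga (lim g0 p.1) p.2) (joint_Ga hml)
    have f1 : ∫⁻ v, ∫⁻ s in Ioc 0 (n : ℝ), lim g0 s v ≠ ⊤ := by
      rw [lintegral_lintegral_swap (measurable_swap_iff.mp hml).aemeasurable]
      have : ∫⁻ s in Ioc 0 (n : ℝ), ∫⁻ v, lim g0 s v = ∫⁻ s in Ioc 0 (n : ℝ), Mo 0 g0 := by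
        apply setLIntegral_congr_fun measurableSet_Ioc
        intro s hs
        simp only
        rw [← Mo0_lim hg0 hκ hZ hs.1.le]
        unfold Mo; simp
      rw [this, setLIntegral_const]
      exact ENNReal.mul_ne_top hMo0 (by simp)
    have f2 : ∫⁻ v, ∫⁻ s in Ioc 0 (n : ℝ), Ga (lim g0 s) v ≠ ⊤ := by
      rw [lintegral_lintegral_swap (measurable_swap_iff.mp (joint_Ga hml)).aemeasurable]
      have : ∫⁻ s in Ioc 0 (n : ℝ), ∫⁻ v, Ga (lim g0 s) v =
          ∫⁻ s in Ioc 0 (n : ℝ), Ss * (Mo 1 g0 * Mo 1 g0) := by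
        apply setLIntegral_congr_fun measurableSet_Ioc
        intro s hs
        simp only
        rw [Ga_mom0 (lim_meas_v hg0 s), Mo1_lim hg0 hκ hZ hs.1.le]
      rw [this, setLIntegral_const]
      exact ENNReal.mul_ne_top (ENNReal.mul_ne_top Ss_ne_top (ENNReal.mul_ne_top hκ hκ)) (by simp)
    filter_upwards [ae_lt_top m1 f1, ae_lt_top m2 f2] with v h1 h2 using ⟨h1, h2⟩
  filter_upwards [h0, ae_all_iff.mpr hn] with v hv0 hvn
  refine ⟨hv0, ?_⟩
  intro t ht
  obtain ⟨n, hn⟩ := exists_nat_ge t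
  have a1 : (∫⁻ s in Ioc 0 t, lim g0 s v) ≠ ⊤ :=
    ne_top_of_le_ne_top (hvn n).1.ne (lintegral_mono_set (Ioc_subset_Ioc_right hn))
  have a2 : (∫⁻ s in Ioc 0 t, Ga (lim g0 s) v) ≠ ⊤ :=
    ne_top_of_le_ne_top (hvn n).2.ne (lintegral_mono_set (Ioc_subset_Ioc_right hn))
  refine ⟨?_, a1, a2⟩
  have h3 := lim_integrated hg0 hκ ht v
  refine ne_top_of_le_ne_top (ENNReal.add_ne_top.mpr ⟨hv0, a2⟩) ?_
  rw [← h3]
  exact le_self_add

/-- the Boltzmann equation in integrated form -/
theorem lim_equation {g0 : V → ENNReal} (hg0 : Measurable g0) (hκ : Mo 1 g0 ≠ ⊤)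
    (hZ : Mo 2 g0 ≠ ⊤) :
    ∀ᵐ v : V, ∀ t, 0 ≤ t →
      lim g0 t v + ∫⁻ s in Ioc 0 t, Qm (lim g0 s) v = g0 v + ∫⁻ s in Ioc 0 t, Qp (lim g0 s) v := by
  have hml := measurable_lim hg0
  filter_upwards [ae_finite_lim hg0 hκ hZ] with v hv
  intro t ht
  obtain ⟨hv1, hv2, hv3⟩ := hv.2 t ht
  have h3 := lim_integrated hg0 hκ ht v
  have mQm : Measurable fun s => Qm (lim g0 s) v :=
    sec_s (f := fun s v => Qm (lim g0 s) v) (joint_Qm hml) v
  have mQp : Measurable fun s => Qp (lim g0 s) v :=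
    sec_s (f := fun s v => Qp (lim g0 s) v) (joint_Qp hml) v
  have e1 : (∫⁻ s in Ioc 0 t, Ga (lim g0 s) v) + ∫⁻ s in Ioc 0 t, Qm (lim g0 s) v =
      (∫⁻ s in Ioc 0 t, Qp (lim g0 s) v) + Ss * Mo 1 g0 * ph v * ∫⁻ s in Ioc 0 t, lim g0 s v := by
    rw [← lintegral_add_right _ mQm, ← lintegral_const_mul _ (sec_s hml v),
      ← lintegral_add_left mQp]
    apply setLIntegral_congr_fun measurableSet_Ioc
    intro s hs
    simp only
    rw [Ga_add_Qm (lim_meas_v hg0 s), Mo1_lim hg0 hκ hZ hs.1.le]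
    ring
  have hfin : Ss * Mo 1 g0 * ph v * ∫⁻ s in Ioc 0 t, lim g0 s v ≠ ⊤ :=
    ENNReal.mul_ne_top (ENNReal.mul_ne_top (ENNReal.mul_ne_top Ss_ne_top hκ) (ph_ne_top v)) hv2
  have e2 : (lim g0 t v + ∫⁻ s in Ioc 0 t, Qm (lim g0 s) v) +
      Ss * Mo 1 g0 * ph v * ∫⁻ s in Ioc 0 t, lim g0 s v =
      (g0 v + ∫⁻ s in Ioc 0 t, Qp (lim g0 s) v) +
      Ss * Mo 1 g0 * ph v * ∫⁻ s in Ioc 0 t, lim g0 s v := by
    calc _ = (lim g0 t v + Ss * Mo 1 g0 * ph v * ∫⁻ s in Ioc 0 t, lim g0 s v) +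
          ∫⁻ s in Ioc 0 t, Qm (lim g0 s) v := by ring
      _ = g0 v + ((∫⁻ s in Ioc 0 t, Ga (lim g0 s) v) + ∫⁻ s in Ioc 0 t, Qm (lim g0 s) v) := by
          rw [h3]; ring
      _ = _ := by rw [e1]; ring
  exact (ENNReal.add_left_inj hfin).mp e2

end Vale.Agent.P140
end
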