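import Vale.Agent.P140.Bdl.B4
import Vale.Agent.P140.Bdl.B2
import Vale.Agent.P140.Bdl.B1
attribute [-instance] ProperSMul.toContinuousSMul IsTopologicalTorsor.toContinuousSMul IdemSemiring.toCanonicallyOrderedAdd IdemSemiring.toMulLeftMono IdemSemiring.toMulRightMono AddQuantale.instAddLeftMono AddQuantale.instAddRightMono Quantale.instMulLeftMono Quantale.instMulRightMono FiniteDimensional.rclike_to_real IsScalarTower.complexToReal FiniteDimensional.complexToReal

set_option linter.all false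

attribute [local instance 5000] Vale.Agent.P140.Sc.a01 Vale.Agent.P140.Sc.a02 Vale.Agent.P140.Sc.a03 Vale.Agent.P140.Sc.a04 Vale.Agent.P140.Sc.a05 Vale.Agent.P140.Sc.a06 Vale.Agent.P140.Sc.a07 Vale.Agent.P140.Sc.a08 Vale.Agent.P140.Sc.a09 Vale.Agent.P140.Sc.a10 Vale.Agent.P140.Sc.a11 Vale.Agent.P140.Sc.a12 Vale.Agent.P140.Sc.a13 Vale.Agent.P140.Sc.a14 Vale.Agent.P140.Sc.a15 Vale.Agent.P140.Sc.a16 Vale.Agent.P140.Sc.a17 Vale.Agent.P140.Sc.a18 Vale.Agent.P140.Sc.a19 Vale.Agent.P140.Sc.a20 Vale.Agent.P140.Sc.a21 Vale.Agent.P140.Sc.a22 Vale.Agent.P140.Sc.a23 Vale.Agent.P140.Sc.a24 Vale.Agent.P140.Sc.a25 Vale.Agent.P140.Sc.a26 Vale.Agent.P140.Sc.a27 Vale.Agent.P140.Sc.a28 Vale.Agent.P140.Sc.a29 Vale.Agent.P140.Sc.a30 Vale.Agent.P140.Sc.a31 Vale.Agent.P140.Sc.a32 Vale.Agent.P140.Sc.a33 Vale.Agent.P140.Sc.r01 Vale.Agent.P140.Sc.r02 Vale.Agent.P140.Sc.r03 Vale.Agent.P140.Sc.r04 Vale.Agent.P140.Sc.r05 Vale.Agent.P140.Sc.r06 Vale.Agent.P140.Sc.r07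 Vale.Agent.P140.Sc.r08 Vale.Agent.P140.Sc.r09 Vale.Agent.P140.Sc.r10 Vale.Agent.P140.Sc.r11 Vale.Agent.P140.Sc.r12 Vale.Agent.P140.Sc.r13 Vale.Agent.P140.Sc.r14 Vale.Agent.P140.Sc.r15 Vale.Agent.P140.Sc.r16 Vale.Agent.P140.Sc.r17 Vale.Agent.P140.Sc.r18

section

open MeasureTheory Set Filter
open scoped ENNReal Topology NNReal

noncomputable section

namespace Vale.Agent.P140

variable {g0 : V → ℝ}

theorem wDist_tri {ψ : V → ℝ≥0∞} (hψm : Measurable ψ) {f g h : T3 → V → ℝ}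
    (hf : Measurable fun p : T3 × V => f p.1 p.2) (hg : Measurable fun p : T3 × V => g p.1 p.2) :
    wDist ψ f h ≤ wDist ψ g f + wDist ψ g h := by
  unfold wDist
  have m1 : Measurable fun p : T3 × V => ψ p.2 * ENNReal.ofReal |g p.1 p.2 - f p.1 p.2| :=
    (hψm.comp measurable_snd).mul (hg.sub hf).abs.ennreal_ofReal
  rw [← lintegral_add_left m1]
  apply lintegral_mono
  intro p
  simp only
  rw [← mul_add, ← ENNReal.ofReal_add (abs_nonneg _) (abs_nonneg _)]
  gcongr
  have h1 := abs_sub_le (f p.1 p.2) (g p.1 p.2) (h p.1 p.2)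
  rw [abs_sub_comm (f p.1 p.2) (g p.1 p.2)] at h1
  exact h1

/-- the constant of the estimate -/
def cstZ (T : ℝ) (K C : ℝ≥0∞) : ℝ≥0∞ :=
  (1 + 2 * Ss * (4 * (K * ENNReal.ofReal (Real.exp ((2 * (Ss * K).toReal) * T))
    * ENNReal.ofReal T))) * ENNReal.ofReal (Real.exp (2 * Ss * (8 * Ss * K * (K * ENNReal.ofReal T
      + 2 * (C * ENNReal.ofReal T)) + 2 * K * ENNReal.ofReal T)).toReal)

theorem cstZ_ne_top {T : ℝ} {K C : ℝ≥0∞} (hK : K ≠ ⊤) : cstZ T K C ≠ ⊤ := by
  unfold cstZ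
  apply ENNReal.mul_ne_top _ ENNReal.ofReal_ne_top
  apply ENNReal.add_ne_top.mpr ⟨by simp, _⟩
  exact ENNReal.mul_ne_top (ENNReal.mul_ne_top (by simp) Ss_ne_top) (ENNReal.mul_ne_top (by simp)
    (ENNReal.mul_ne_top (ENNReal.mul_ne_top hK ENNReal.ofReal_ne_top) ENNReal.ofReal_ne_top))

/-- quantitative estimate for one truncation level -/
theorem apx_estimate {T : ℝ} (hT : 0 < T) (mg0 : Measurable g0) (ng0 : ∀ v, 0 ≤ g0 v)
    {K : ℝ≥0∞} (hKe : K = Mo 1 (fun v => ENNReal.ofReal (g0 v))) (hK : K ≠ ⊤) {C : ℝ≥0∞} (hC : C ≠ ⊤)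
    {n : ℕ} (hp : ∫⁻ s in Ioc 0 T, ENNReal.ofReal (s ^ 2) *
      Mo 2 (lim (fun v => ENNReal.ofReal (truncR g0 n v)) s) ≤ C * ENNReal.ofReal T)
    {F : ℝ → T3 → V → ℝ} (hF : IsMild T (fun _ v => g0 v) F)
    (e2 : ∀ᵐ t ∂(volume.restrict (Ioc 0 T)), wInt psi2 (F t)
      ≤ wInt psi2 (fun (_ : T3) v => g0 v))
    (e0 : ∀ᵐ t ∂(volume.restrict (Ioc 0 T)), wInt psi0 (F t)
      ≤ wInt psi0 (fun (_ : T3) v => g0 v)) :
    ∀ᵐ t ∂(volume.restrict (Ioc 0 T)), wDist psi2 (apx g0 n t) (F t) ≤ tailE g0 n * cstZ T K C := by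
  have mt := measurable_truncR mg0 n
  have mGn : Measurable fun v => ENNReal.ofReal (truncR g0 n v) := mt.ennreal_ofReal
  have h3 : Mo 3 (fun v => ENNReal.ofReal (truncR g0 n v)) ≠ ⊤ := by
    apply ne_top_of_le_ne_top _ (Mo_truncR n 2)
    rw [← hKe]
    exact ENNReal.mul_ne_top (ENNReal.pow_ne_top ENNReal.ofReal_ne_top) hK
  have h2 : Mo 2 (fun v => ENNReal.ofReal (truncR g0 n v)) ≠ ⊤ :=
    ne_top_of_le_ne_top h3 (Mo_mono (by norm_num))
  have h1 : Mo 1 (fun v => ENNReal.ofReal (truncR g0 n v)) ≠ ⊤ :=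
    ne_top_of_le_ne_top h3 (Mo_mono (by norm_num))
  have hK1 : Mo 1 (fun v => ENNReal.ofReal (truncR g0 n v)) ≤ K := by
    rw [hKe]
    exact Mo_truncR_le ng0 n 1
  have hK2 : Mo 2 (fun v => ENNReal.ofReal (truncR g0 n v)) ≤ ENNReal.ofReal (1 + (n : ℝ) ^ 2) * K := by
    have := Mo_truncR (g0 := g0) n 1
    rw [pow_one, ← hKe] at this
    exact this
  have hKt : K < ⊤ := lt_top_iff_ne_top.mpr hK
  have hSt : Ss < ⊤ := lt_top_iff_ne_top.mpr Ss_ne_top
  set E : ℝ≥0∞ := ENNReal.ofReal (Real.exp ((2 * (Ss * K).toReal) * T)) with hE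
  have hX : ∀ s ∈ Ioc 0 T, Mo 2 (lim (fun v => ENNReal.ofReal (truncR g0 n v)) s)
      ≤ ENNReal.ofReal (1 + (n : ℝ) ^ 2) * K * E := by
    intro s hs
    refine (Mo2_lim_le' mGn h1 h2 hs.1.le hs.2).trans ?_
    refine mul_le_mul' hK2 (ENNReal.ofReal_le_ofReal (Real.exp_le_exp.mpr ?_))
    gcongr
    exact ENNReal.mul_ne_top Ss_ne_top hK
  have hXt : ENNReal.ofReal (1 + (n : ℝ) ^ 2) * K * E < ⊤ :=
    ENNReal.mul_lt_top (ENNReal.mul_lt_top ENNReal.ofReal_lt_top hKt) ENNReal.ofReal_lt_top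
  have hGK : wInt psi2 (fun (_ : T3) v => g0 v) < ⊤ := by
    rw [wInt_hom mg0, ← hKe]
    exact hKt
  obtain ⟨c0, c2⟩ := core_hom hT mt (truncR_nonneg ng0 n) h2 hKt hK1 hX hXt hF hGK e2 e0
    (R := apx g0 n) rfl
  rw [wDist_trunc2 mg0 n] at c2
  have hK2' : wInt psi2 (fun (_ : T3) v => g0 v) = K := by rw [wInt_hom mg0, hKe]
  have mapx : Measurable fun p : ℝ × T3 × V => apx g0 n p.1 p.2.1 p.2.2 :=
    ((measurable_homR mGn).comp (measurable_fst.prodMk measurable_snd.snd) :)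
  have hb2 : ∀ᵐ t ∂(volume.restrict (Ioc 0 T)), wDist psi2 (apx g0 n t) (F t) ≤ K + K := by
    filter_upwards [e2, ae_restrict_mem measurableSet_Ioc] with t ht hmem
    refine (wDist_le measurable_psi2 (measurable_slice2 mapx t)
      (fun x v => homR_nonneg _ t v) (hF.nonneg t)).trans ?_
    gcongr
    · have := wInt2_homR mGn h2 hmem.1.le
      unfold apx
      rw [this]
      exact hK1
    · exact ht.trans hK2'.le
  have hb0 : ∀ᵐ t ∂(volume.restrict (Ioc 0 T)), wDist psi0 (apx g0 n t) (F t) ≤ K + K := by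
    filter_upwards [hb2] with t ht
    exact (wDist_psi0_le _ _).trans ht
  have hM3 := vmom3_int mGn h2 hX
  have hM3t : ∫⁻ s in Ioc 0 T, vmom 3 (homR (fun v => ENNReal.ofReal (truncR g0 n v)) s) < ⊤ :=
    lt_of_le_of_lt hM3 (ENNReal.mul_lt_top (ENNReal.mul_lt_top (by simp) hXt) (by simp))
  have hMs := vmom3_time_int mGn h2 hK1 hp
  have hD2 : tailE g0 n < ⊤ := by
    rw [← wDist_trunc2 mg0 n]
    refine lt_of_le_of_lt (wDist_le measurable_psi2 (mt.comp measurable_snd)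
      (fun x v => truncR_nonneg ng0 n v) (fun x v => ng0 v)) ?_
    rw [wInt_hom mt]
    exact ENNReal.add_lt_top.mpr ⟨lt_of_le_of_lt hK1 hKt, hGK⟩
  have hD0 : wDist psi0 (fun (_ : T3) v => truncR g0 n v) (fun _ v => g0 v) < ⊤ := by
    refine lt_of_le_of_lt (wDist_psi0_le _ _) ?_
    rw [wDist_trunc2 mg0 n]
    exact hD2
  have mD0 := measurable_wDist measurable_psi0 mapx hF.measurable
  have mD2 := measurable_wDist measurable_psi2 mapx hF.measurable
  have hL : K * ENNReal.ofReal T + 2 * (C * ENNReal.ofReal T) < ⊤ :=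
    ENNReal.add_lt_top.mpr ⟨ENNReal.mul_lt_top hKt (by simp),
      ENNReal.mul_lt_top (by simp) (ENNReal.mul_lt_top (lt_top_iff_ne_top.mpr hC) (by simp))⟩
  have hg := gronwall_two hSt hKt hD0 hD2 hL (ENNReal.add_lt_top.mpr ⟨hKt, hKt⟩) mD0 mD2
    (measurable_vmom_homR mGn 3) hM3t hMs hb0 hb2 c0 c2
  filter_upwards [hg] with t ht
  refine ht.trans ?_
  unfold cstZ
  rw [← mul_assoc (tailE g0 n)]
  refine mul_le_mul' ?_ le_rfl
  have hD : wDist psi0 (fun (_ : T3) v => truncR g0 n v) (fun _ v => g0 v) *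
      ∫⁻ s in Ioc 0 T, vmom 3 (homR (fun v => ENNReal.ofReal (truncR g0 n v)) s)
      ≤ 4 * (K * E * ENNReal.ofReal T) * tailE g0 n := by
    calc _ ≤ wDist psi0 (fun (_ : T3) v => truncR g0 n v) (fun _ v => g0 v) *
          (4 * (ENNReal.ofReal (1 + (n : ℝ) ^ 2) * K * E) * ENNReal.ofReal T) := by (clear * - hM3; gcongr)
      _ = 4 * (K * E * ENNReal.ofReal T) * (ENNReal.ofReal (1 + (n : ℝ) ^ 2) *
          wDist psi0 (fun (_ : T3) v => truncR g0 n v) (fun _ v => g0 v)) := by ring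
      _ ≤ _ := by
          gcongr
          exact wDist_trunc0 mg0 n
  calc tailE g0 n + 2 * Ss * (wDist psi0 (fun (_ : T3) v => truncR g0 n v) (fun _ v => g0 v) *
        ∫⁻ s in Ioc 0 T, vmom 3 (homR (fun v => ENNReal.ofReal (truncR g0 n v)) s))
      ≤ tailE g0 n + 2 * Ss * (4 * (K * E * ENNReal.ofReal T) * tailE g0 n) := by (clear * - hD; gcongr)
    _ = _ := by ring

/-- **Uniqueness for every homogeneous datum** (mild solutions with the conservation
inequalities). -/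
theorem hom_all {T : ℝ} (hT : 0 < T) (mg0 : Measurable g0) (ng0 : ∀ v, 0 ≤ g0 v)
    (hK : Mo 1 (fun v => ENNReal.ofReal (g0 v)) ≠ ⊤)
    {F G : ℝ → T3 → V → ℝ} (hF : IsMild T (fun _ v => g0 v) F)
    (hG : IsMild T (fun _ v => g0 v) G)
    (eF2 : ∀ᵐ t ∂(volume.restrict (Ioc 0 T)), wInt psi2 (F t)
      ≤ wInt psi2 (fun (_ : T3) v => g0 v))
    (eG2 : ∀ᵐ t ∂(volume.restrict (Ioc 0 T)), wInt psi2 (G t)
      ≤ wInt psi2 (fun (_ : T3) v => g0 v))
    (eF0 : ∀ᵐ t ∂(volume.restrict (Ioc 0 T)), wInt psi0 (F t)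
      ≤ wInt psi0 (fun (_ : T3) v => g0 v))
    (eG0 : ∀ᵐ t ∂(volume.restrict (Ioc 0 T)), wInt psi0 (G t)
      ≤ wInt psi0 (fun (_ : T3) v => g0 v)) :
    ∀ᵐ t ∂(volume.restrict (Ioc 0 T)), wDist psi2 (F t) (G t) = 0 := by
  by_cases hz : Mo 0 (fun v => ENNReal.ofReal (g0 v)) = 0
  · -- zero mass
    have h0 : ∀ᵐ v, ENNReal.ofReal (g0 v) = 0 := by
      unfold Mo at hz
      simp only [pow_zero, mul_one] at hz
      exact (lintegral_eq_zero_iff mg0.ennreal_ofReal).mp hz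
    have h1 : wInt psi2 (fun (_ : T3) v => g0 v) = 0 := by
      rw [wInt_hom mg0]
      unfold Mo
      rw [← lintegral_zero (μ := (volume : Measure V))]
      apply lintegral_congr_ae
      filter_upwards [h0] with v hv
      simp only [hv, zero_mul]
    filter_upwards [eF2, eG2] with t h2 h3
    have h4 := wDist_le (f := F t) (g := G t) measurable_psi2 (measurable_slice2 hF.measurable t)
      (hF.nonneg t) (hG.nonneg t)
    rw [h1] at h2 h3
    have h5 : wDist psi2 (F t) (G t) ≤ 0 + 0 := h4.trans (add_le_add h2 h3)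
    simpa only [add_zero, nonpos_iff_eq_zero] using h5
  have hM0t : Mo 0 (fun v => ENNReal.ofReal (g0 v)) ≠ ⊤ :=
    ne_top_of_le_ne_top hK (Mo_mono (by norm_num))
  set μ0 : ℝ≥0∞ := Mo 0 (fun v => ENNReal.ofReal (g0 v)) / 2 with hμ0
  have hμlt : μ0 < Mo 0 (fun v => ENNReal.ofReal (g0 v)) := ENNReal.half_lt_self hz hM0t
  have hμ0z : μ0 ≠ 0 := by
    rw [hμ0]
    simp only [ne_eq, ENNReal.div_eq_zero_iff, hz, ENNReal.ofNat_ne_top, or_self, not_false_eq_true]
  obtain ⟨C, hC, hprod⟩ := production hT hK hμ0z hμlt.ne_top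
  have hZ := cstZ_ne_top (T := T) (C := C) hK
  have hlim : Tendsto (fun n => tailE g0 n * cstZ T (Mo 1 (fun v => ENNReal.ofReal (g0 v))) C)
      atTop (𝓝 0) := by
    have := ENNReal.Tendsto.mul_const (tailE_tendsto mg0 hK ng0) (Or.inr hZ)
    simpa only [zero_mul] using this
  have key : ∀ k : ℕ, ∀ᵐ t ∂(volume.restrict (Ioc 0 T)), wDist psi2 (F t) (G t)
      ≤ 2 * ((k : ℝ≥0∞) + 1)⁻¹ := by
    intro k
    have hpos : (0 : ℝ≥0∞) < ((k : ℝ≥0∞) + 1)⁻¹ := by
      rw [ENNReal.inv_pos]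
      exact ENNReal.add_ne_top.mpr ⟨ENNReal.natCast_ne_top k, by simp⟩
    obtain ⟨n, hn1, hn2⟩ := ((exists_mass_trunc ng0 mg0 hμlt).and
      (hlim.eventually (gt_mem_nhds hpos))).exists
    have mt := measurable_truncR mg0 n
    have mGn : Measurable fun v => ENNReal.ofReal (truncR g0 n v) := mt.ennreal_ofReal
    have h3 : Mo 3 (fun v => ENNReal.ofReal (truncR g0 n v)) ≠ ⊤ := by
      apply ne_top_of_le_ne_top _ (Mo_truncR n 2)
      exact ENNReal.mul_ne_top (ENNReal.pow_ne_top ENNReal.ofReal_ne_top) hK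
    have hp := (hprod _ mGn h3 (Mo_truncR_le ng0 n 1) hn1 T ⟨hT.le, le_rfl⟩).2
    have a1 := apx_estimate hT mg0 ng0 rfl hK hC hp hF eF2 eF0
    have a2 := apx_estimate hT mg0 ng0 rfl hK hC hp hG eG2 eG0
    filter_upwards [a1, a2] with t h1 h2
    have mapx : Measurable fun p : ℝ × T3 × V => apx g0 n p.1 p.2.1 p.2.2 :=
      ((measurable_homR mGn).comp (measurable_fst.prodMk measurable_snd.snd) :)
    refine (wDist_tri measurable_psi2 (measurable_slice2 hF.measurable t)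
      (measurable_slice2 mapx t)).trans ?_
    rw [two_mul]
    exact add_le_add (h1.trans hn2.le) (h2.trans hn2.le)
  rw [← ae_all_iff] at key
  filter_upwards [key] with t ht
  have hl : Tendsto (fun k : ℕ => 2 * ((k : ℝ≥0∞) + 1)⁻¹) atTop (𝓝 0) := by
    have h1 : Tendsto (fun k : ℕ => ((k : ℝ≥0∞) + 1)⁻¹) atTop (𝓝 0) := by
      have h2 : Tendsto (fun k : ℕ => ((k + 1 : ℕ) : ℝ≥0∞)⁻¹) atTop (𝓝 0) :=
        ENNReal.tendsto_inv_nat_nhds_zero.comp (tendsto_add_atTop_nat 1)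
      simpa only [Nat.cast_add, Nat.cast_one] using h2
    have h3 := ENNReal.Tendsto.const_mul h1 (Or.inr (by simp : (2 : ℝ≥0∞) ≠ ⊤))
    simpa only [mul_zero] using h3
  exact le_antisymm (ge_of_tendsto' hl ht) zero_le

end Vale.Agent.P140
end
end

section

open MeasureTheory Set Filter
open scoped ENNReal Topology NNReal

noncomputable section

namespace Vale.Agent.P140

variable {F0 : T3 → V → ℝ} {F G : ℝ → T3 → V → ℝ}

theorem massC (hF : IsRenormEntropySol F0 F) :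
    ContinuousOn (fun t => ∫ p : T3 × V, F t p.1 p.2) (Ici 0) := by
  have := hF.weak_cont (fun _ => 1) measurable_const ⟨1, fun _ => by simp⟩
  simpa only [mul_one] using this

theorem mass0 (hF : IsRenormEntropySol F0 F) :
    ∫ p : T3 × V, F 0 p.1 p.2 = ∫ p : T3 × V, F0 p.1 p.2 :=
  integral_congr_ae hF.initial

theorem transport_time_deriv {ζ : ℝ → ℝ} {t : ℝ} {c : ℝ} (h : HasDerivAt ζ c t) (x : T3) (v : V) :
    transport (fun t _ => ζ t) t x v = c := by
  unfold transport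
  have h2 : HasDerivAt (fun s => ζ (t + s)) c 0 := by
    have h3 : HasDerivAt ζ c (t + 0) := by simpa using h
    exact h3.comp_const_add t 0
  exact h2.deriv

theorem integrable_time (hF : IsRenormEntropySol F0 F) (T : ℝ) :
    Integrable (fun q : ℝ × T3 × V => F q.1 q.2.1 q.2.2)
      ((volume.restrict (Ioc 0 T)).prod volume) := by
  refine ⟨hF.measurable.aestronglyMeasurable, ?_⟩
  have := lintegral_F_lt_top hF T
  unfold HasFiniteIntegral
  refine lt_of_le_of_lt (lintegral_mono fun q => ?_) this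
  rw [← ofReal_norm, Real.norm_of_nonneg (hF.nonneg _ _ _)]

theorem mass_ae (hF : IsRenormEntropySol F0 F) :
    ∀ᵐ t : ℝ, t ∈ Ioi (0 : ℝ) →
      (∫ p : T3 × V, F t p.1 p.2) - ∫ p : T3 × V, F0 p.1 p.2 = 0 := by
  set m0 := ∫ p : T3 × V, F0 p.1 p.2 with hm0
  have hint : ∀ T, IntegrableOn (fun t => ∫ p : T3 × V, F t p.1 p.2) (Ioc 0 T) := fun T =>
    (integrable_time hF T).integral_prod_left
  have hloc : LocallyIntegrableOn (fun t => (∫ p : T3 × V, F t p.1 p.2) - m0) (Ioi 0) volume := by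
    intro t ht
    refine ⟨Ioo 0 (t + 1), mem_nhdsWithin_of_mem_nhds (isOpen_Ioo.mem_nhds ⟨ht, by linarith only []⟩), ?_⟩
    apply IntegrableOn.sub
    · exact (hint (t + 1)).mono_set Ioo_subset_Ioc_self
    · exact integrableOn_const (by simp only [Real.volume_Ioo, sub_zero, ne_eq, ENNReal.ofReal_ne_top, not_false_eq_true])
  apply isOpen_Ioi.ae_eq_zero_of_integral_contDiff_smul_eq_zero hloc
  intro g hg hgc hgs
  set θ : ℝ × (Fin 0 → ℝ) → ℝ := fun q => g q.1 with hθ
  obtain ⟨R, hR⟩ : ∃ R, ∀ s, R < ‖s‖ → g s = 0 := by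
    obtain ⟨R, hR⟩ := hgc.isCompact.isBounded.exists_norm_le
    refine ⟨R, fun q hq => ?_⟩
    by_contra h
    exact absurd (hR q (subset_tsupport _ h)) (not_le.mpr hq)
  have hθc : HasCompactSupport θ := by
    apply HasCompactSupport.intro (K := Icc (-R) R ×ˢ (univ : Set (Fin 0 → ℝ)))
    · exact isCompact_Icc.prod isCompact_univ
    · intro q hq
      apply hR
      by_contra h
      exact hq ⟨abs_le.mp (not_lt.mp h), mem_univ _⟩
  obtain ⟨ζ', hζs, ⟨R', hR'⟩, hζ0, hζd⟩ := exists_primitive (θ := θ) (hg.comp contDiff_fst) hθc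
  set ζ : ℝ → ℝ := fun t => ζ' (t, 0) with hζ
  have htest : IsTestX (fun t _ => ζ t) := by
    constructor
    · exact hζs.comp (contDiff_fst.prodMk contDiff_const)
    · exact ⟨R', fun t _ ht => hR' t 0 (Or.inl ht)⟩
  have hm := hF.mass _ htest
  have h1 : ∫ p : ℝ × T3 × V in Ioi 0 ×ˢ univ,
      F p.1 p.2.1 p.2.2 * transport (fun t _ => ζ t) p.1 p.2.1 p.2.2
      = ∫ t in Ioi 0, g t * ∫ p : T3 × V, F t p.1 p.2 := by
    have hmR : Ioi (0 : ℝ) = Ioc 0 (max R 0) ∪ Ioi (max R 0) := by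
      rw [Ioc_union_Ioi_eq_Ioi (le_max_right _ _)]
    have e1 : ∫ p : ℝ × T3 × V in Ioi 0 ×ˢ univ,
        F p.1 p.2.1 p.2.2 * transport (fun t _ => ζ t) p.1 p.2.1 p.2.2
        = ∫ p : ℝ × T3 × V in Ioi 0 ×ˢ univ, F p.1 p.2.1 p.2.2 * g p.1 := by
      apply setIntegral_congr_fun (measurableSet_Ioi.prod MeasurableSet.univ)
      intro p hp
      simp only
      rw [transport_time_deriv (hζd p.1 0 (le_of_lt hp.1))]
    have e2 : ∫ p : ℝ × T3 × V in Ioi 0 ×ˢ univ, F p.1 p.2.1 p.2.2 * g p.1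
        = ∫ p : ℝ × T3 × V in Ioc 0 (max R 0) ×ˢ univ, F p.1 p.2.1 p.2.2 * g p.1 := by
      apply setIntegral_eq_of_subset_of_forall_sdiff_eq_zero
        (measurableSet_Ioi.prod MeasurableSet.univ)
      · exact Set.prod_mono Ioc_subset_Ioi_self (Subset.refl _)
      · intro p hp
        have h2 : g p.1 = 0 := by
          apply hR
          by_contra h
          apply hp.2
          have h3 := (not_lt.mp h)
          rw [Real.norm_eq_abs, abs_of_pos hp.1.1] at h3
          exact ⟨⟨hp.1.1, h3.trans (le_max_left _ _)⟩, mem_univ _⟩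
        rw [h2, mul_zero]
    have e3 : ∫ t in Ioi 0, g t * ∫ p : T3 × V, F t p.1 p.2
        = ∫ t in Ioc 0 (max R 0), g t * ∫ p : T3 × V, F t p.1 p.2 := by
      apply setIntegral_eq_of_subset_of_forall_sdiff_eq_zero measurableSet_Ioi Ioc_subset_Ioi_self
      intro t ht
      have h2 : g t = 0 := by
        apply hR
        by_contra h
        apply ht.2
        have h3 := (not_lt.mp h)
        rw [Real.norm_eq_abs, abs_of_pos ht.1] at h3
        exact ⟨ht.1, h3.trans (le_max_left _ _)⟩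
      rw [h2, zero_mul]
    obtain ⟨C, hC⟩ := hgc.exists_bound_of_continuous hg.continuous
    have hi : Integrable (fun q : ℝ × T3 × V => F q.1 q.2.1 q.2.2 * g q.1)
        ((volume.restrict (Ioc 0 (max R 0))).prod volume) :=
      (integrable_time hF _).mul_bdd (c := C)
        ((hg.continuous.comp continuous_fst).aestronglyMeasurable)
        (Eventually.of_forall fun q => hC q.1)
    rw [e1, e2, e3, Measure.volume_eq_prod ℝ (T3 × V), ← Measure.prod_restrict,
      Measure.restrict_univ, integral_prod _ hi]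
    congr 1
    ext t
    simp only
    rw [integral_mul_const, mul_comm]
  have h2 : ∫ p : T3 × V, F0 p.1 p.2 * ζ 0 = m0 * ζ 0 := integral_mul_const _ _
  have h3 : ζ 0 = -∫ s in Ioi 0, g s := hζ0 0 0 le_rfl
  have hgi : Integrable g := hg.continuous.integrable_of_hasCompactSupport hgc
  have h5 : ∫ t, g t • ((∫ p : T3 × V, F t p.1 p.2) - m0)
      = ∫ t in Ioi 0, g t • ((∫ p : T3 × V, F t p.1 p.2) - m0) := by
    symm
    apply setIntegral_eq_integral_of_forall_compl_eq_zero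
    intro t ht
    have : g t = 0 := by
      by_contra h
      exact ht (hgs (subset_tsupport g h))
    rw [this, zero_smul]
  rw [h5]
  have hi2 : IntegrableOn (fun t => g t * ∫ p : T3 × V, F t p.1 p.2) (Ioi 0) := by
    have hmR : Ioi (0 : ℝ) = Ioc 0 (max R 0) ∪ Ioi (max R 0) := by
      rw [Ioc_union_Ioi_eq_Ioi (le_max_right _ _)]
    rw [hmR]
    apply IntegrableOn.union
    · obtain ⟨C, hC⟩ := hgc.exists_bound_of_continuous hg.continuous
      exact (hint _).bdd_mul (c := C) hg.continuous.aestronglyMeasurable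
        (Eventually.of_forall fun q => hC q)
    · apply (integrableOn_zero (μ := volume)).congr_fun _ measurableSet_Ioi
      intro t ht
      have h2 : g t = 0 := by
        apply hR
        have h0 : (0 : ℝ) ≤ t := (le_max_right R 0).trans (le_of_lt ht)
        rw [Real.norm_eq_abs, abs_of_nonneg h0]
        exact (le_max_left R 0).trans_lt ht
      simp [h2]
  simp only [smul_eq_mul, mul_sub]
  rw [integral_sub hi2 (hgi.integrableOn.mul_const _), integral_mul_const, ← h1]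
  have h6 := hm
  rw [h2, h3] at h6
  linarith

/-- conservation of mass -/
theorem mass_eq (hF : IsRenormEntropySol F0 F) {t : ℝ} (ht : 0 ≤ t) :
    ∫ p : T3 × V, F t p.1 p.2 = ∫ p : T3 × V, F0 p.1 p.2 := by
  set m : ℝ → ℝ := fun t => ∫ p : T3 × V, F t p.1 p.2 with hm
  have h1 : ∀ᵐ t ∂(volume.restrict (Ioi (0 : ℝ))), m t = ∫ p : T3 × V, F0 p.1 p.2 := by
    rw [ae_restrict_iff' measurableSet_Ioi]
    filter_upwards [mass_ae hF] with t ht hpos
    have := ht hpos
    simp only [hm]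
    linarith only [this]
  have hc : ContinuousOn m (Ici 0) := massC hF
  have h2 : EqOn m (fun _ => ∫ p : T3 × V, F0 p.1 p.2) (Ioi 0) := by
    apply Measure.eqOn_of_ae_eq h1 (hc.mono Ioi_subset_Ici_self) continuousOn_const
    rw [isOpen_Ioi.interior_eq]
    exact subset_closure
  rcases eq_or_lt_of_le ht with h | h
  · rw [← h]
    exact mass0 hF
  · exact h2 h

theorem lintegral_mass (hF : IsRenormEntropySol F0 F) {t : ℝ} (ht : 0 ≤ t) :
    ∫⁻ p : T3 × V, ENNReal.ofReal (F t p.1 p.2) = ∫⁻ p : T3 × V, ENNReal.ofReal (F0 p.1 p.2) := by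
  have h1 := hF.integrable t ht
  have h0 : Integrable fun p : T3 × V => F0 p.1 p.2 :=
    (hF.integrable 0 le_rfl).congr hF.initial
  rw [← ofReal_integral_eq_lintegral_ofReal h1 (Eventually.of_forall fun p => hF.nonneg _ _ _),
    ← ofReal_integral_eq_lintegral_ofReal h0 (Eventually.of_forall fun p => hF.datum.nonneg _ _),
    mass_eq hF ht]

theorem wInt0_eq (hF : IsRenormEntropySol F0 F) {t : ℝ} (ht : 0 ≤ t) :
    wInt psi0 (F t) = wInt psi0 F0 := by
  unfold wInt psi0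
  simp only [one_mul]
  exact lintegral_mass hF ht

theorem wInt2_split {f : T3 → V → ℝ} (hf : Measurable fun p : T3 × V => f p.1 p.2)
    (hf0 : ∀ x v, 0 ≤ f x v) : wInt psi2 f = (∫⁻ p : T3 × V, ENNReal.ofReal (f p.1 p.2))
      + ∫⁻ p : T3 × V, ENNReal.ofReal (‖p.2‖ ^ 2 * f p.1 p.2) := by
  unfold wInt psi2
  rw [← lintegral_add_left hf.ennreal_ofReal]
  apply lintegral_congr
  intro p
  rw [← ENNReal.ofReal_mul (by (clear * -; positivity)), ← ENNReal.ofReal_add (hf0 _ _)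
    (mul_nonneg (by positivity) (hf0 _ _))]
  congr 1
  ring

theorem wInt2_le (hF : IsRenormEntropySol F0 F) {t : ℝ} (ht : 0 ≤ t) :
    wInt psi2 (F t) ≤ wInt psi2 F0 := by
  rw [wInt2_split (measurable_slice2 hF.measurable t) (hF.nonneg t),
    wInt2_split hF.datum.measurable hF.datum.nonneg, lintegral_mass hF ht]
  exact add_le_add le_rfl (hF.energy t ht)

theorem wInt2_datum (hF : IsDatum F0) : wInt psi2 F0 < ⊤ := by
  refine lt_of_le_of_lt ?_ hF.finite
  unfold wInt psi2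
  apply lintegral_mono
  intro p
  simp only
  rw [← ENNReal.ofReal_mul (by positivity)]
  apply ENNReal.ofReal_le_ofReal
  have h0 := hF.nonneg p.1 p.2
  have h1 : 0 ≤ |Real.log (F0 p.1 p.2)| := abs_nonneg _
  linarith only [mul_nonneg (sub_nonneg.2 h0) (sub_nonneg.2 h1)]

/-- equality for almost every time gives equality for every time -/
theorem eq_of_ae_eq (hF : IsRenormEntropySol F0 F) (hG : IsRenormEntropySol F0 G) {T : ℝ}
    (h : ∀ᵐ t ∂(volume.restrict (Ioc 0 T)), wDist psi2 (F t) (G t) = 0) {t : ℝ} (ht : 0 ≤ t)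
    (htT : t < T) : ∀ᵐ p : T3 × V, F t p.1 p.2 = G t p.1 p.2 := by
  have mF := measurable_slice2 hF.measurable
  have mG := measurable_slice2 hG.measurable
  have h1 : ∀ᵐ s ∂(volume.restrict (Ioo t T)), ∀ θ : T3 × V → ℝ,
      ∫ p : T3 × V, F s p.1 p.2 * θ p = ∫ p : T3 × V, G s p.1 p.2 * θ p := by
    have hsub : Ioo t T ⊆ Ioc 0 T := fun s hs => ⟨ht.trans_lt hs.1, hs.2.le⟩
    filter_upwards [ae_restrict_of_ae_restrict_of_subset hsub h] with s hs θ
    unfold wDist at hs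
    have hz : Measurable fun p : T3 × V => psi2 p.2 * ENNReal.ofReal |F s p.1 p.2 - G s p.1 p.2| :=
      (measurable_psi2.comp measurable_snd).mul ((mF s).sub (mG s)).abs.ennreal_ofReal
    rw [lintegral_eq_zero_iff hz] at hs
    apply integral_congr_ae
    filter_upwards [hs] with p hp
    have h2 : psi2 p.2 ≠ 0 := by
      unfold psi2
      rw [Ne, ENNReal.ofReal_eq_zero, not_le]
      (clear * -; positivity)
    have h3 : |F s p.1 p.2 - G s p.1 p.2| ≤ 0 := by
      have h4 : psi2 p.2 * ENNReal.ofReal |F s p.1 p.2 - G s p.1 p.2| = 0 := hp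
      rcases mul_eq_zero.mp h4 with h5 | h5
      · exact absurd h5 h2
      · exact ENNReal.ofReal_eq_zero.mp h5
    have h6 : F s p.1 p.2 = G s p.1 p.2 := by
      have := abs_nonneg (F s p.1 p.2 - G s p.1 p.2)
      have h7 : |F s p.1 p.2 - G s p.1 p.2| = 0 := le_antisymm h3 this
      have := abs_eq_zero.mp h7
      linarith only [this]
    rw [h6]
  -- test with the sign of the difference
  set θ : T3 × V → ℝ := fun p => if G t p.1 p.2 ≤ F t p.1 p.2 then 1 else -1 with hθ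
  have mθ : Measurable θ := Measurable.ite (measurableSet_le (mG t) (mF t)) measurable_const
    measurable_const
  have bθ : ∀ p, |θ p| ≤ 1 := by
    intro p
    simp only [hθ]
    split_ifs <;> simp
  have cF := hF.weak_cont θ mθ ⟨1, bθ⟩
  have cG := hG.weak_cont θ mθ ⟨1, bθ⟩
  have hsub2 : Ico t T ⊆ Ici 0 := fun s hs => ht.trans hs.1
  have h2 : EqOn (fun s => ∫ p : T3 × V, F s p.1 p.2 * θ p)
      (fun s => ∫ p : T3 × V, G s p.1 p.2 * θ p) (Ico t T) := by
    have h3 : ∀ᵐ s ∂(volume.restrict (Ico t T)), (∫ p : T3 × V, F s p.1 p.2 * θ p)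
        = ∫ p : T3 × V, G s p.1 p.2 * θ p := by
      rw [← restrict_Ioo_eq_restrict_Ico]
      filter_upwards [h1] with s hs
      exact hs θ
    apply Measure.eqOn_of_ae_eq h3 (cF.mono hsub2) (cG.mono hsub2)
    rw [interior_Ico, closure_Ioo htT.ne]
    exact Ico_subset_Icc_self
  have h3 := h2 ⟨le_rfl, htT⟩
  simp only at h3
  have iF := (hF.integrable t ht).mul_bdd (c := 1) mθ.aestronglyMeasurable
    (Eventually.of_forall fun p => by rw [Real.norm_eq_abs]; exact bθ p)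
  have iG := (hG.integrable t ht).mul_bdd (c := 1) mθ.aestronglyMeasurable
    (Eventually.of_forall fun p => by rw [Real.norm_eq_abs]; exact bθ p)
  have h4 : ∫ p : T3 × V, (F t p.1 p.2 * θ p - G t p.1 p.2 * θ p) = 0 := by
    rw [integral_sub iF iG, h3, sub_self]
  have h5 : ∀ p : T3 × V, F t p.1 p.2 * θ p - G t p.1 p.2 * θ p = |F t p.1 p.2 - G t p.1 p.2| := by
    intro p
    simp only [hθ]
    split_ifs with hc
    · rw [abs_of_nonneg (by linarith only [hc])]
      ring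
    · rw [abs_of_neg (by linarith only [hc])]
      ring
  have i2 : Integrable fun p : T3 × V => F t p.1 p.2 * θ p - G t p.1 p.2 * θ p := iF.sub iG
  rw [integral_eq_zero_iff_of_nonneg (fun p => by
    simp only [Pi.zero_apply]
    rw [h5]
    exact abs_nonneg _) i2] at h4
  filter_upwards [h4] with p hp
  have h6 : F t p.1 p.2 * θ p - G t p.1 p.2 * θ p = 0 := hp
  rw [h5] at h6
  have := abs_eq_zero.mp h6
  linarith only [this]

end Vale.Agent.P140
end
end

section

open MeasureTheory Set Filter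
open scoped ENNReal Topology NNReal

noncomputable section

namespace Vale.Agent.P140

/-- **Every spatially homogeneous datum has at most one renormalized entropy solution** (in the
class of all, possibly spatially inhomogeneous, renormalized entropy solutions). -/
theorem renorm_hom_unique {F0 : T3 → V → ℝ} {F G : ℝ → T3 → V → ℝ}
    (h0 : ∀ x y v, F0 x v = F0 y v) (hF : IsRenormEntropySol F0 F)
    (hG : IsRenormEntropySol F0 G) {t : ℝ} (ht : 0 ≤ t) :
    ∀ᵐ p : T3 × V, F t p.1 p.2 = G t p.1 p.2 := by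
  set g0 : V → ℝ := F0 0 with hg0
  have hF0 : F0 = fun _ v => g0 v := by
    funext x v
    exact h0 x 0 v
  have mg0 : Measurable g0 :=
    hF.datum.measurable.comp (measurable_const.prodMk measurable_id : Measurable fun v : V => ((0 : T3), v))
  have ng0 : ∀ v, 0 ≤ g0 v := fun v => hF.datum.nonneg 0 v
  have hw := wInt2_datum hF.datum
  have hK : Mo 1 (fun v => ENNReal.ofReal (g0 v)) ≠ ⊤ := by
    rw [← wInt_hom mg0, ← hF0]
    exact hw.ne
  have hT : 0 < t + 1 := by linarith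
  have mF := isMild_of_renorm hF (t + 1)
  have mG := isMild_of_renorm hG (t + 1)
  have key : ∀ {H : ℝ → T3 → V → ℝ}, IsRenormEntropySol F0 H →
      (∀ᵐ s ∂(volume.restrict (Ioc 0 (t + 1))), wInt psi2 (H s) ≤ wInt psi2 F0) ∧
      (∀ᵐ s ∂(volume.restrict (Ioc 0 (t + 1))), wInt psi0 (H s) ≤ wInt psi0 F0) := by
    intro H hH
    constructor
    · filter_upwards [ae_restrict_mem measurableSet_Ioc] with s hs
      exact wInt2_le hH hs.1.le
    · filter_upwards [ae_restrict_mem measurableSet_Ioc] with s hs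
      exact (wInt0_eq hH hs.1.le).le
  obtain ⟨a1, a2⟩ := key hF
  obtain ⟨b1, b2⟩ := key hG
  have hz : ∀ᵐ s ∂(volume.restrict (Ioc 0 (t + 1))), wDist psi2 (F s) (G s) = 0 := by
    rw [hF0] at mF mG a1 a2 b1 b2
    exact hom_all hT mg0 ng0 hK mF mG a1 b1 a2 b2
  exact eq_of_ae_eq hF hG hz ht (by linarith only [])

end Vale.Agent.P140
end
end

section

open MeasureTheory Set
open scoped ENNReal

namespace Vale.Agent.P140

/-- the surface area of the unit sphere is `4π` -/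
theorem surf_univ : surf univ = ENNReal.ofReal (4 * Real.pi) := by
  unfold surf
  rw [Measure.toSphere_apply_univ]
  have h : volume (Metric.ball (0 : V) 1) = ENNReal.ofReal (Real.pi * 4 / 3) := by
    rw [EuclideanSpace.volume_ball_fin_three]
    simp only [ENNReal.ofReal_one, one_pow, one_mul]
  rw [h]
  have h2 : Module.finrank ℝ V = 3 := by simp only [finrank_euclideanSpace, Fintype.card_fin]
  rw [h2, show ((3 : ℕ) : ℝ≥0∞) = ENNReal.ofReal 3 by simp, ← ENNReal.ofReal_mul (by norm_num)]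
  congr 1
  ring

end Vale.Agent.P140
end

section

/-! Integrating factors for absolutely continuous functions. -/

open MeasureTheory Set Filter
open scoped ENNReal Topology NNReal

noncomputable section

namespace Vale.Agent.P140

theorem lipschitzOn_exp (B : ℝ) : LipschitzOnWith (Real.exp B).toNNReal Real.exp (Iic B) := by
  apply Convex.lipschitzOnWith_of_nnnorm_hasDerivWithin_le (convex_Iic B)
    (f' := Real.exp) (fun x _ => (Real.hasDerivAt_exp x).hasDerivWithinAt)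
  intro x hx
  rw [← NNReal.coe_le_coe, coe_nnnorm, Real.norm_eq_abs, abs_of_pos (Real.exp_pos x),
    Real.coe_toNNReal _ (Real.exp_pos B).le, Real.exp_le_exp]
  exact hx

/-- integrating factor -/
theorem int_factor {r L : ℝ → ℝ} {T : ℝ} (hT : 0 ≤ T) (hr : IntervalIntegrable r volume 0 T)
    (hL : IntervalIntegrable L volume 0 T) (c : ℝ) {τ t : ℝ} (h0 : 0 ≤ τ) (h1 : τ ≤ t)
    (h2 : t ≤ T) :
    (c + ∫ s in (0:ℝ)..t, r s) * Real.exp (0 + ∫ s in (0:ℝ)..t, L s) =
      (c + ∫ s in (0:ℝ)..τ, r s) * Real.exp (0 + ∫ s in (0:ℝ)..τ, L s) +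
      ∫ s in τ..t, (r s + L s * (c + ∫ u in (0:ℝ)..s, r u)) *
        Real.exp (0 + ∫ u in (0:ℝ)..s, L u) := by
  have aP := ac_primitive hr c
  have aL := ac_primitive hL 0
  have hcL : ContinuousOn (fun t => 0 + ∫ s in (0:ℝ)..t, L s) (uIcc 0 T) := aL.continuousOn
  obtain ⟨B, hB⟩ := (isCompact_uIcc.image_of_continuousOn hcL).bddAbove
  have aE : AbsolutelyContinuousOnInterval
      (fun t => Real.exp (0 + ∫ s in (0:ℝ)..t, L s)) 0 T :=
    ac_comp aL ((lipschitzOn_exp B).mono fun x hx => hB hx)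
  have hsub : uIcc τ t ⊆ uIcc 0 T := by
    rw [uIcc_of_le h1, uIcc_of_le hT]
    exact Icc_subset_Icc h0 h2
  have aPE := (aP.fun_mul aE).mono hsub
  have h := aPE.integral_deriv_eq_sub
  rw [← sub_eq_iff_eq_add', ← h]
  apply intervalIntegral.integral_congr_ae
  filter_upwards [ae_hasDerivAt_primitive hr c, ae_hasDerivAt_primitive hL 0] with s k1 k2 k3
  have k4 : s ∈ uIcc 0 T := hsub (uIoc_subset_uIcc k3)
  have k5 := (k1 k4).mul (k2 k4).exp
  refine (HasDerivAt.deriv k5).trans ?_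
  ring

/-- Duhamel inequality with a variable rate `L ≥ 0`, `L ≥ λ` after time `1` -/
theorem duh_var {r L : ℝ → ℝ} {T : ℝ} (hT : 0 ≤ T) (hr : IntervalIntegrable r volume 0 T)
    (hL : IntervalIntegrable L volume 0 T) (hL0 : ∀ᵐ s ∂(volume.restrict (Ioc 0 T)), 0 ≤ L s)
    {l : ℝ} (hl : 0 ≤ l) (hLl : ∀ᵐ s ∂(volume.restrict (Ioc 0 T)), 1 < s → l ≤ L s) (c : ℝ)
    {t : ℝ} (h0 : 0 ≤ t) (h2 : t ≤ T) :
    |c + ∫ s in (0:ℝ)..t, r s| ≤ Real.exp l * (Real.exp (-l * t) * |c| +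
      ∫ s in (0:ℝ)..t, Real.exp (-l * (t - s)) * |r s + L s * (c + ∫ u in (0:ℝ)..s, r u)|) := by
  set Λ : ℝ → ℝ := fun t => 0 + ∫ s in (0:ℝ)..t, L s with hΛ
  have hcL : ContinuousOn Λ (uIcc 0 T) := (ac_primitive hL 0).continuousOn
  rw [uIcc_of_le hT] at hcL
  -- lower bound of the exponent
  have hlow : ∀ s, 0 ≤ s → s ≤ t → l * (t - s) - l ≤ Λ t - Λ s := by
    intro s hs hst
    have hLs : IntervalIntegrable L volume s t := hL.mono_set (by
      rw [uIcc_of_le hst, uIcc_of_le hT]; exact Icc_subset_Icc hs h2)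
    have hL0s : IntervalIntegrable L volume 0 s := hL.mono_set (by
      rw [uIcc_of_le hs, uIcc_of_le hT]; exact Icc_subset_Icc le_rfl (hst.trans h2))
    have e1 : Λ t - Λ s = ∫ u in s..t, L u := by
      simp only [hΛ]
      rw [← intervalIntegral.integral_add_adjacent_intervals hL0s hLs]
      ring
    rw [e1]
    set a : ℝ := max s 1 with ha
    rcases le_or_gt t a with hta | hta
    · have h3 : 0 ≤ ∫ u in s..t, L u := by
        apply intervalIntegral.integral_nonneg_of_ae_restrict hst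
        have := ae_restrict_of_ae_restrict_of_subset (Ioc_subset_Ioc hs h2) hL0
        rw [← restrict_Ioc_eq_restrict_Icc]
        exact this
      have h4 : t - s ≤ 1 := by
        rcases max_cases s 1 with h5 | h5
        · rw [ha, h5.1] at hta
          linarith only [hta]
        · rw [ha, h5.1] at hta
          linarith
      (clear * - h3 hl h4; linarith [mul_nonneg (sub_nonneg.2 hl) (sub_nonneg.2 h4), h3])
    · have hsa : s ≤ a := le_max_left _ _
      have h1a : 1 ≤ a := le_max_right _ _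
      have i1 : IntervalIntegrable L volume s a := hLs.mono_set (by
        rw [uIcc_of_le hsa, uIcc_of_le hst]; exact Icc_subset_Icc le_rfl hta.le)
      have i2 : IntervalIntegrable L volume a t := hLs.mono_set (by
        rw [uIcc_of_le hta.le, uIcc_of_le hst]; exact Icc_subset_Icc hsa le_rfl)
      rw [← intervalIntegral.integral_add_adjacent_intervals i1 i2]
      have h3 : 0 ≤ ∫ u in s..a, L u := by
        apply intervalIntegral.integral_nonneg_of_ae_restrict hsa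
        have := ae_restrict_of_ae_restrict_of_subset (Ioc_subset_Ioc hs (hta.le.trans h2)) hL0
        rw [← restrict_Ioc_eq_restrict_Icc]
        exact this
      have h4 : l * (t - a) ≤ ∫ u in a..t, L u := by
        have h5 : ∫ _ in a..t, l = l * (t - a) := by
          rw [intervalIntegral.integral_const, smul_eq_mul]
          ring
        rw [← h5]
        apply intervalIntegral.integral_mono_ae_restrict hta.le (by simp) i2
        have := ae_restrict_of_ae_restrict_of_subset (Ioc_subset_Ioc (hs.trans hsa) h2) hLl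
        rw [← restrict_Ioc_eq_restrict_Icc]
        filter_upwards [this, ae_restrict_mem measurableSet_Ioc] with u hu hmem
        exact hu (lt_of_le_of_lt h1a hmem.1)
      have h5 : a ≤ s + 1 := by
        rw [ha]
        exact max_le (by linarith only []) (by linarith only [hs])
      linarith only [mul_nonneg (sub_nonneg.2 hl) (sub_nonneg.2 h5), h4, h3]
  have hf := int_factor hT hr hL c le_rfl h0 h2
  simp only [intervalIntegral.integral_same, add_zero, Real.exp_zero, mul_one] at hf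
  have hΛ' : ∀ s, (0 + ∫ u in (0:ℝ)..s, L u) = Λ s := fun s => rfl
  simp only [hΛ'] at hf
  set P : ℝ → ℝ := fun s => c + ∫ u in (0:ℝ)..s, r u with hP
  have hPc : ContinuousOn P (Icc 0 T) := by
    have := (ac_primitive hr c).continuousOn
    rwa [uIcc_of_le hT] at this
  have hsubt : Icc 0 t ⊆ Icc 0 T := Icc_subset_Icc le_rfl h2
  have hrt : IntervalIntegrable r volume 0 t := hr.mono_set (by
    rw [uIcc_of_le h0, uIcc_of_le hT]; exact hsubt)
  have hLt : IntervalIntegrable L volume 0 t := hL.mono_set (by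
    rw [uIcc_of_le h0, uIcc_of_le hT]; exact hsubt)
  have hq : IntervalIntegrable (fun s => r s + L s * P s) volume 0 t :=
    hrt.add (hLt.mul_continuousOn (by rw [uIcc_of_le h0]; exact hPc.mono hsubt))
  have hqE : IntervalIntegrable (fun s => (r s + L s * P s) * Real.exp (Λ s)) volume 0 t :=
    hq.mul_continuousOn (by rw [uIcc_of_le h0]; exact (hcL.mono hsubt).rexp)
  have h6 : |P t| * Real.exp (Λ t) ≤ |c| + ∫ s in (0:ℝ)..t, |r s + L s * P s| * Real.exp (Λ s) := by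
    calc |P t| * Real.exp (Λ t) = |P t * Real.exp (Λ t)| := by
          rw [abs_mul, abs_of_pos (Real.exp_pos _)]
      _ = |c + ∫ s in (0:ℝ)..t, (r s + L s * P s) * Real.exp (Λ s)| := by rw [hf]
      _ ≤ |c| + |∫ s in (0:ℝ)..t, (r s + L s * P s) * Real.exp (Λ s)| := abs_add_le _ _
      _ ≤ |c| + ∫ s in (0:ℝ)..t, |(r s + L s * P s) * Real.exp (Λ s)| := by
          gcongr
          exact intervalIntegral.abs_integral_le_integral_abs h0
      _ = _ := by
          congr 2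
          funext s
          rw [abs_mul, abs_of_pos (Real.exp_pos _)]
  have h7 : |P t| ≤ Real.exp (-Λ t) * |c| +
      ∫ s in (0:ℝ)..t, Real.exp (-(Λ t - Λ s)) * |r s + L s * P s| := by
    have e1 : Real.exp (-Λ t) * Real.exp (Λ t) = 1 := by rw [← Real.exp_add]; simp
    have e2 : ∫ s in (0:ℝ)..t, Real.exp (-(Λ t - Λ s)) * |r s + L s * P s| =
        Real.exp (-Λ t) * ∫ s in (0:ℝ)..t, |r s + L s * P s| * Real.exp (Λ s) := by
      rw [← intervalIntegral.integral_const_mul]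
      congr 1
      funext s
      rw [show -(Λ t - Λ s) = -Λ t + Λ s by ring, Real.exp_add]
      ring
    rw [e2, ← mul_add]
    calc |P t| = Real.exp (-Λ t) * (|P t| * Real.exp (Λ t)) := by
          rw [← mul_assoc, mul_comm (Real.exp (-Λ t)), mul_assoc, e1, mul_one]
      _ ≤ _ := by (clear * - h6; gcongr)
  refine h7.trans ?_
  rw [mul_add]
  apply add_le_add
  · rw [← mul_assoc, ← Real.exp_add]
    gcongr
    have := hlow 0 le_rfl h0
    have hz : Λ 0 = 0 := by simp [hΛ]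
    rw [hz] at this
    linarith only [this]
  · rw [← intervalIntegral.integral_const_mul]
    apply intervalIntegral.integral_mono_on h0
    · apply IntervalIntegrable.continuousOn_mul hq.abs
      rw [uIcc_of_le h0]
      apply ContinuousOn.rexp
      apply ContinuousOn.neg
      exact continuousOn_const.sub (hcL.mono hsubt)
    · apply IntervalIntegrable.const_mul
      apply IntervalIntegrable.continuousOn_mul hq.abs
      fun_prop
    · intro s hs
      rw [← mul_assoc, ← Real.exp_add]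
      gcongr
      have := hlow s hs.1 hs.2
      linarith only [this]

end Vale.Agent.P140
end
end

section

open MeasureTheory Set Filter
open scoped ENNReal Topology

namespace Vale.Agent.P140

/-- collision frequency -/
noncomputable def Ln (f : V → ℝ≥0∞) (v : V) : ℝ≥0∞ :=
  ∫⁻ w, ∫⁻ o, kk v w o * f w ∂surf

/-- bilinear gain operator -/
noncomputable def Bg (f g : V → ℝ≥0∞) (v : V) : ℝ≥0∞ :=
  ∫⁻ w, ∫⁻ o, kk v w o * (f (post v w o) * g (postStar v w o)) ∂surf

theorem Qp_eq_Bg (f : V → ℝ≥0∞) (v : V) : Qp f v = Bg f f v := rfl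

theorem Ln_mono {f g : V → ℝ≥0∞} (h : ∀ v, f v ≤ g v) (v : V) : Ln f v ≤ Ln g v := by
  unfold Ln
  apply lintegral_mono; intro w
  apply lintegral_mono; intro o
  simp only
  gcongr
  exact h _

theorem Bg_mono {f g f' g' : V → ℝ≥0∞} (h : ∀ v, f v ≤ f' v) (h' : ∀ v, g v ≤ g' v) (v : V) :
    Bg f g v ≤ Bg f' g' v := by
  unfold Bg
  apply lintegral_mono; intro w
  apply lintegral_mono; intro o
  simp only
  gcongr
  · exact h _
  · exact h' _

theorem meas_LnI {f : V → ℝ≥0∞} (hf : Measurable f) :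
    Measurable fun p : V × V × S2 => kk p.1 p.2.1 p.2.2 * f p.2.1 :=
  measurable_kk.mul (meas_2 hf)

theorem meas_BgI {f g : V → ℝ≥0∞} (hf : Measurable f) (hg : Measurable g) :
    Measurable fun p : V × V × S2 =>
      kk p.1 p.2.1 p.2.2 * (f (post p.1 p.2.1 p.2.2) * g (postStar p.1 p.2.1 p.2.2)) :=
  measurable_kk.mul ((meas_post_comp hf).mul (meas_postStar_comp hg))

theorem Qm_eq_Ln {f : V → ℝ≥0∞} (hf : Measurable f) (v : V) : Qm f v = f v * Ln f v := by
  unfold Qm Ln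
  rw [← lintegral_const_mul _ (meas_sec_w (meas_LnI hf) v)]
  apply lintegral_congr; intro w
  rw [← lintegral_const_mul _ (meas_sec_o (meas_LnI hf) v w)]
  apply lintegral_congr; intro o
  simp only
  ring

theorem joint_Ln {α : Type*} [MeasurableSpace α] {f : α → V → ℝ≥0∞}
    (hf : Measurable fun p : α × V => f p.1 p.2) :
    Measurable fun p : α × V => Ln (f p.1) p.2 :=
  joint_int (H := fun q => kk q.1.1.2 q.1.2 q.2 * f q.1.1.1 q.1.2)
    (joint_kk.mul (joint_w hf))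

/-- measurability of the Duhamel operator with parameters -/
theorem measurable_duh_param {α : Type*} [MeasurableSpace α] {l : α → ℝ} (hl : Measurable l)
    {h0 : α → ℝ≥0∞} (hh0 : Measurable h0)
    {G : ℝ → α → ℝ≥0∞} (hG : Measurable fun p : ℝ × α => G p.1 p.2) :
    Measurable fun p : ℝ × α => duh (l p.2) (h0 p.2) (fun s => G s p.2) p.1 := by
  unfold duh
  apply Measurable.add
  · apply Measurable.mul
    · apply ENNReal.measurable_ofReal.comp
      apply Real.measurable_exp.comp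
      exact ((hl.comp measurable_snd).neg).mul measurable_fst
    · exact hh0.comp measurable_snd
  · have h1 : ∀ p : ℝ × α, ∫⁻ s in Ioc 0 p.1,
        ENNReal.ofReal (Real.exp (-l p.2 * (p.1 - s))) * G s p.2 =
        ∫⁻ s, {q : (ℝ × α) × ℝ | 0 < q.2 ∧ q.2 ≤ q.1.1}.indicator
          (fun q => ENNReal.ofReal (Real.exp (-l q.1.2 * (q.1.1 - q.2))) * G q.2 q.1.2)
          (p, s) := by
      intro p
      rw [← lintegral_indicator measurableSet_Ioc]
      apply lintegral_congr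
      intro s
      simp only [indicator, mem_Ioc, mem_ofPred_eq]
    simp only [h1]
    apply Measurable.lintegral_prod_right'
    apply Measurable.indicator
    · apply Measurable.mul
      · apply ENNReal.measurable_ofReal.comp
        apply Real.measurable_exp.comp
        apply Measurable.mul
        · exact (hl.comp (measurable_snd.comp measurable_fst)).neg
        · exact (measurable_fst.comp measurable_fst).sub measurable_snd
      · exact hG.comp (by (clear * -; fun_prop) : Measurable fun q : (ℝ × α) × ℝ => (q.2, q.1.2))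
    · exact (measurableSet_lt measurable_const measurable_snd).inter
        (measurableSet_le measurable_snd (measurable_fst.comp measurable_fst))

/-- source term: increasing in `a`, decreasing in `b` -/
noncomputable def src (L : V → ℝ) (a b : V → ℝ≥0∞) (v : V) : ℝ≥0∞ :=
  Qp a v + (ENNReal.ofReal (L v) - Ln b v) * a v

theorem src_mono (L : V → ℝ) {a b a' b' : V → ℝ≥0∞} (ha : ∀ v, a v ≤ a' v)
    (hb : ∀ v, b' v ≤ b v) (v : V) : src L a b v ≤ src L a' b' v := by
  unfold src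
  rw [Qp_eq_Bg, Qp_eq_Bg]
  have h1 := Bg_mono ha ha v
  have h2 := Ln_mono hb v
  have h3 := ha v
  gcongr

/-- time dependent functions on the torus -/
abbrev TF := ℝ → T3 → V → ℝ≥0∞

def MeasTF (a : TF) : Prop := Measurable fun p : ℝ × T3 × V => a p.1 p.2.1 p.2.2

theorem MeasTF.assoc {a : TF} (ha : MeasTF a) :
    Measurable fun p : (ℝ × T3) × V => a p.1.1 p.1.2 p.2 :=
  ha.comp (by fun_prop : Measurable fun p : (ℝ × T3) × V => (p.1.1, p.1.2, p.2))

theorem MeasTF.sec {a : TF} (ha : MeasTF a) (t : ℝ) (x : T3) : Measurable (a t x) :=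
  ha.comp (by fun_prop : Measurable fun v : V => (t, x, v))

theorem MeasTF.of_assoc {a : TF} (ha : Measurable fun p : (ℝ × T3) × V => a p.1.1 p.1.2 p.2) :
    MeasTF a :=
  ha.comp (by (clear * -; fun_prop) : Measurable fun p : ℝ × T3 × V => ((p.1, p.2.1), p.2.2))

theorem MeasTF.src {a b : TF} {L : V → ℝ} (hL : Measurable L) (ha : MeasTF a) (hb : MeasTF b) :
    MeasTF (fun t x v => src L (a t x) (b t x) v) := by
  apply MeasTF.of_assoc
  unfold Vale.Agent.P140.src
  apply Measurable.add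
  · exact joint_Qp (f := fun q : ℝ × T3 => a q.1 q.2) ha.assoc
  · apply Measurable.mul
    · apply Measurable.sub
      · exact ENNReal.measurable_ofReal.comp (hL.comp measurable_snd)
      · exact joint_Ln (f := fun q : ℝ × T3 => b q.1 q.2) hb.assoc
    · exact ha.assoc

/-- Lagrangian Duhamel operator -/
noncomputable def PhL (L : V → ℝ) (F0 : T3 → V → ℝ≥0∞) (a b : TF) (t : ℝ) (p : T3 × V) : ℝ≥0∞ :=
  duh (L p.2) (F0 p.1 p.2)
    (fun s => src L (a s (flow s p).1) (b s (flow s p).1) p.2) t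

/-- Eulerian Duhamel operator -/
noncomputable def Ph (L : V → ℝ) (F0 : T3 → V → ℝ≥0∞) (a b : TF) : TF :=
  fun t x v => PhL L F0 a b t (flow (-t) (x, v))

theorem Ph_flow (L : V → ℝ) (F0 : T3 → V → ℝ≥0∞) (a b : TF) (t : ℝ) (x : T3) (v : V) :
    Ph L F0 a b t (flow t (x, v)).1 v = PhL L F0 a b t (x, v) := by
  have h := flow_neg_flow t (x, v)
  unfold Ph
  have h2 : ((flow t (x, v)).1, v) = flow t (x, v) := rfl
  rw [h2, h]

theorem measurable_PhL {L : V → ℝ} (hL : Measurable L) {F0 : T3 → V → ℝ≥0∞}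
    (hF0 : Measurable fun p : T3 × V => F0 p.1 p.2) {a b : TF} (ha : MeasTF a) (hb : MeasTF b) :
    Measurable fun q : ℝ × (T3 × V) => PhL L F0 a b q.1 q.2 := by
  unfold PhL
  apply measurable_duh_param (l := fun p : T3 × V => L p.2) (h0 := fun p => F0 p.1 p.2)
    (G := fun s p => src L (a s (flow s p).1) (b s (flow s p).1) p.2) (hL.comp measurable_snd) hF0
  have h1 : Measurable fun q : ℝ × (T3 × V) => (q.1, (flow q.1 q.2).1, q.2.2) :=
    measurable_fst.prodMk ((measurable_fst.comp measurable_flow_uncurry).prodMk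
      (measurable_snd.comp measurable_snd))
  exact ((MeasTF.src hL ha hb).comp h1 :)

theorem MeasTF.Ph {L : V → ℝ} (hL : Measurable L) {F0 : T3 → V → ℝ≥0∞}
    (hF0 : Measurable fun p : T3 × V => F0 p.1 p.2) {a b : TF} (ha : MeasTF a) (hb : MeasTF b) :
    MeasTF (Ph L F0 a b) := by
  have h := measurable_PhL hL hF0 ha hb
  have h1 : Measurable fun q : ℝ × T3 × V => (q.1, flow (-q.1) q.2) := by
    apply measurable_fst.prodMk
    exact (measurable_flow_uncurry.comp (measurable_fst.neg.prodMk measurable_snd) :)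
  exact (h.comp h1 :)

theorem duh_mono_on (l : ℝ) {h0 h0' : ℝ≥0∞} (hh : h0 ≤ h0') {G H : ℝ → ℝ≥0∞} {t : ℝ}
    (h : ∀ s ∈ Ioc 0 t, G s ≤ H s) : duh l h0 G t ≤ duh l h0' H t := by
  unfold duh
  have h1 : ∫⁻ s in Ioc 0 t, ENNReal.ofReal (Real.exp (-l * (t - s))) * G s ≤
      ∫⁻ s in Ioc 0 t, ENNReal.ofReal (Real.exp (-l * (t - s))) * H s := by
    apply setLIntegral_mono' measurableSet_Ioc
    intro s hs
    gcongr
    exact h s hs
  gcongr

theorem PhL_mono (L : V → ℝ) (F0 : T3 → V → ℝ≥0∞) {a b a' b' : TF} {T : ℝ}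
    (ha : ∀ t ∈ Icc 0 T, ∀ x v, a t x v ≤ a' t x v) (hb : ∀ t ∈ Icc 0 T, ∀ x v, b' t x v ≤ b t x v)
    {t : ℝ} (ht : t ∈ Icc 0 T) (p : T3 × V) : PhL L F0 a b t p ≤ PhL L F0 a' b' t p := by
  unfold PhL
  apply duh_mono_on _ le_rfl
  intro s hs
  have hs' : s ∈ Icc 0 T := ⟨hs.1.le, hs.2.trans ht.2⟩
  exact src_mono L (fun v => ha s hs' _ v) (fun v => hb s hs' _ v) p.2

theorem Ph_mono (L : V → ℝ) (F0 : T3 → V → ℝ≥0∞) {a b a' b' : TF} {T : ℝ}
    (ha : ∀ t ∈ Icc 0 T, ∀ x v, a t x v ≤ a' t x v) (hb : ∀ t ∈ Icc 0 T, ∀ x v, b' t x v ≤ b t x v) :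
    ∀ t ∈ Icc 0 T, ∀ x v, Ph L F0 a b t x v ≤ Ph L F0 a' b' t x v := by
  intro t ht x v
  exact PhL_mono L F0 ha hb ht _

/-- hypotheses of the monotone scheme with `x`-independent barriers -/
structure KSData (L : V → ℝ) (F0 : T3 → V → ℝ≥0∞) (T : ℝ) (l0 u0 : ℝ → V → ℝ≥0∞) : Prop where
  measL : Measurable L
  measF0 : Measurable fun p : T3 × V => F0 p.1 p.2
  measl : Measurable fun p : ℝ × V => l0 p.1 p.2
  measu : Measurable fun p : ℝ × V => u0 p.1 p.2
  Lnonneg : ∀ v, 0 ≤ L v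
  lu : ∀ t ∈ Icc 0 T, ∀ v, l0 t v ≤ u0 t v
  ufin : ∀ t ∈ Icc 0 T, ∀ v, u0 t v ≠ ⊤
  Qfin : ∀ t ∈ Icc 0 T, ∀ v, Qp (u0 t) v ≠ ⊤
  Lle : ∀ t ∈ Icc 0 T, ∀ v, Ln (u0 t) v ≤ ENNReal.ofReal (L v)
  intfin : ∀ v, (∫⁻ s in Ioc 0 T, (Qp (u0 s) v + ENNReal.ofReal (L v) * u0 s v)) ≠ ⊤
  sub : ∀ t ∈ Icc 0 T, ∀ x v, l0 t v ≤ Ph L F0 (fun t _ => l0 t) (fun t _ => u0 t) t x v
  sup : ∀ t ∈ Icc 0 T, ∀ x v, Ph L F0 (fun t _ => u0 t) (fun t _ => l0 t) t x v ≤ u0 t v

/-- the two monotone sequences -/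
noncomputable def ks (L : V → ℝ) (F0 : T3 → V → ℝ≥0∞) (l0 u0 : ℝ → V → ℝ≥0∞) : ℕ → TF × TF
  | 0 => (fun t _ => l0 t, fun t _ => u0 t)
  | n + 1 => (Ph L F0 (ks L F0 l0 u0 n).1 (ks L F0 l0 u0 n).2,
      Ph L F0 (ks L F0 l0 u0 n).2 (ks L F0 l0 u0 n).1)

section
variable {L : V → ℝ} {F0 : T3 → V → ℝ≥0∞} {T : ℝ} {l0 u0 : ℝ → V → ℝ≥0∞}

theorem meas_ks (H : KSData L F0 T l0 u0) (n : ℕ) :
    MeasTF (ks L F0 l0 u0 n).1 ∧ MeasTF (ks L F0 l0 u0 n).2 := by
  induction n with
  | zero =>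
    constructor
    · exact H.measl.comp (by fun_prop : Measurable fun p : ℝ × T3 × V => (p.1, p.2.2))
    · exact H.measu.comp (by fun_prop : Measurable fun p : ℝ × T3 × V => (p.1, p.2.2))
  | succ n ih =>
    exact ⟨MeasTF.Ph H.measL H.measF0 ih.1 ih.2, MeasTF.Ph H.measL H.measF0 ih.2 ih.1⟩

theorem ks_order (H : KSData L F0 T l0 u0) (n : ℕ) :
    ∀ t ∈ Icc 0 T, ∀ x v, (ks L F0 l0 u0 n).1 t x v ≤ (ks L F0 l0 u0 (n + 1)).1 t x v ∧
      (ks L F0 l0 u0 (n + 1)).1 t x v ≤ (ks L F0 l0 u0 (n + 1)).2 t x v ∧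
      (ks L F0 l0 u0 (n + 1)).2 t x v ≤ (ks L F0 l0 u0 n).2 t x v := by
  induction n with
  | zero =>
    intro t ht x v
    refine ⟨H.sub t ht x v, ?_, H.sup t ht x v⟩
    exact Ph_mono L F0 (T := T) (fun t ht x v => H.lu t ht v) (fun t ht x v => H.lu t ht v) t ht x v
  | succ n ih =>
    intro t ht x v
    refine ⟨?_, ?_, ?_⟩
    · exact Ph_mono L F0 (T := T) (fun t ht x v => (ih t ht x v).1)
        (fun t ht x v => (ih t ht x v).2.2) t ht x v
    · exact Ph_mono L F0 (T := T) (fun t ht x v => (ih t ht x v).2.1)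
        (fun t ht x v => (ih t ht x v).2.1) t ht x v
    · exact Ph_mono L F0 (T := T) (fun t ht x v => (ih t ht x v).2.2)
        (fun t ht x v => (ih t ht x v).1) t ht x v

theorem ks_mono1 (H : KSData L F0 T l0 u0) {t : ℝ} (ht : t ∈ Icc 0 T) (x : T3) (v : V) :
    Monotone fun n => (ks L F0 l0 u0 n).1 t x v :=
  monotone_nat_of_le_succ fun n => (ks_order H n t ht x v).1

theorem ks_anti2 (H : KSData L F0 T l0 u0) {t : ℝ} (ht : t ∈ Icc 0 T) (x : T3) (v : V) :
    Antitone fun n => (ks L F0 l0 u0 n).2 t x v :=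
  antitone_nat_of_succ_le fun n => (ks_order H n t ht x v).2.2

theorem ks_le (H : KSData L F0 T l0 u0) (n : ℕ) {t : ℝ} (ht : t ∈ Icc 0 T) (x : T3) (v : V) :
    (ks L F0 l0 u0 n).1 t x v ≤ (ks L F0 l0 u0 n).2 t x v := by
  cases n with
  | zero => exact H.lu t ht v
  | succ n => exact (ks_order H n t ht x v).2.1

theorem ks_le_u0 (H : KSData L F0 T l0 u0) (n : ℕ) {t : ℝ} (ht : t ∈ Icc 0 T) (x : T3) (v : V) :
    (ks L F0 l0 u0 n).2 t x v ≤ u0 t v := ks_anti2 H ht x v (Nat.zero_le n)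

theorem ks_ge_l0 (H : KSData L F0 T l0 u0) (n : ℕ) {t : ℝ} (ht : t ∈ Icc 0 T) (x : T3) (v : V) :
    l0 t v ≤ (ks L F0 l0 u0 n).1 t x v := ks_mono1 H ht x v (Nat.zero_le n)

end

/-- limits -/
noncomputable def ksl (L : V → ℝ) (F0 : T3 → V → ℝ≥0∞) (l0 u0 : ℝ → V → ℝ≥0∞) : TF :=
  fun t x v => ⨆ n, (ks L F0 l0 u0 n).1 t x v
noncomputable def ksu (L : V → ℝ) (F0 : T3 → V → ℝ≥0∞) (l0 u0 : ℝ → V → ℝ≥0∞) : TF :=
  fun t x v => ⨅ n, (ks L F0 l0 u0 n).2 t x v

end Vale.Agent.P140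
end

section

open MeasureTheory Set Filter
open scoped ENNReal Topology

namespace Vale.Agent.P140

theorem Bg_tendsto {f g : ℕ → V → ℝ≥0∞} {f' g' u : V → ℝ≥0∞} {v : V}
    (hf : ∀ n, Measurable (f n)) (hg : ∀ n, Measurable (g n)) (hu : Measurable u)
    (hfu : ∀ n w, f n w ≤ u w) (hgu : ∀ n w, g n w ≤ u w) (huf : ∀ w, u w ≠ ⊤)
    (hQ : Qp u v ≠ ⊤) (hf' : ∀ w, Tendsto (fun n => f n w) atTop (𝓝 (f' w)))
    (hg' : ∀ w, Tendsto (fun n => g n w) atTop (𝓝 (g' w))) :
    Tendsto (fun n => Bg (f n) (g n) v) atTop (𝓝 (Bg f' g' v)) := by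
  have hm : ∀ n, Measurable fun p : V × V × S2 =>
      kk p.1 p.2.1 p.2.2 * (f n (post p.1 p.2.1 p.2.2) * g n (postStar p.1 p.2.1 p.2.2)) :=
    fun n => meas_BgI (hf n) (hg n)
  have hmu : Measurable fun p : V × V × S2 =>
      kk p.1 p.2.1 p.2.2 * (u (post p.1 p.2.1 p.2.2) * u (postStar p.1 p.2.1 p.2.2)) :=
    meas_BgI hu hu
  have hf'u : ∀ w, f' w ≤ u w := fun w => le_of_tendsto' (hf' w) (fun n => hfu n w)
  have hg'u : ∀ w, g' w ≤ u w := fun w => le_of_tendsto' (hg' w) (fun n => hgu n w)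
  have hae : ∀ᵐ w : V, (∫⁻ o, kk v w o * (u (post v w o) * u (postStar v w o)) ∂surf) ≠ ⊤ := by
    have h1 := ae_lt_top (meas_sec_w hmu v) hQ
    filter_upwards [h1] with w hw using hw.ne
  unfold Bg
  apply tendsto_lintegral_of_dominated_convergence
    (fun w => ∫⁻ o, kk v w o * (u (post v w o) * u (postStar v w o)) ∂surf)
  · intro n
    exact meas_sec_w (hm n) v
  · intro n
    apply Eventually.of_forall
    intro w
    apply lintegral_mono; intro o
    simp only
    gcongr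
    · exact hfu n _
    · exact hgu n _
  · exact hQ
  · filter_upwards [hae] with w hw
    apply tendsto_lintegral_of_dominated_convergence
      (fun o => kk v w o * (u (post v w o) * u (postStar v w o)))
    · intro n
      exact meas_sec_o (hm n) v w
    · intro n
      apply Eventually.of_forall
      intro o
      simp only
      gcongr
      · exact hfu n _
      · exact hgu n _
    · exact hw
    · apply Eventually.of_forall
      intro o
      apply ENNReal.Tendsto.const_mul _ (Or.inr (by unfold kk; exact ENNReal.ofReal_ne_top))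
      exact ENNReal.Tendsto.mul (hf' _) (Or.inr (ne_top_of_le_ne_top (huf _) (hg'u _)))
        (hg' _) (Or.inr (ne_top_of_le_ne_top (huf _) (hf'u _)))

theorem Ln_tendsto {f : ℕ → V → ℝ≥0∞} {f' u : V → ℝ≥0∞} {v : V}
    (hf : ∀ n, Measurable (f n)) (hu : Measurable u)
    (hfu : ∀ n w, f n w ≤ u w)
    (hQ : Ln u v ≠ ⊤) (hf' : ∀ w, Tendsto (fun n => f n w) atTop (𝓝 (f' w))) :
    Tendsto (fun n => Ln (f n) v) atTop (𝓝 (Ln f' v)) := by
  have hae : ∀ᵐ w : V, (∫⁻ o, kk v w o * u w ∂surf) ≠ ⊤ := by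
    have h1 := ae_lt_top (meas_sec_w (meas_LnI hu) v) hQ
    filter_upwards [h1] with w hw using hw.ne
  unfold Ln
  apply tendsto_lintegral_of_dominated_convergence
    (fun w => ∫⁻ o, kk v w o * u w ∂surf)
  · intro n
    exact meas_sec_w (meas_LnI (hf n)) v
  · intro n
    apply Eventually.of_forall
    intro w
    apply lintegral_mono; intro o
    simp only
    gcongr
    exact hfu n _
  · exact hQ
  · filter_upwards [hae] with w hw
    apply tendsto_lintegral_of_dominated_convergence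
      (fun o => kk v w o * u w)
    · intro n
      exact meas_sec_o (meas_LnI (hf n)) v w
    · intro n
      apply Eventually.of_forall
      intro o
      simp only
      gcongr
      exact hfu n _
    · exact hw
    · apply Eventually.of_forall
      intro o
      exact ENNReal.Tendsto.const_mul (hf' _) (Or.inr (by unfold kk; exact ENNReal.ofReal_ne_top))

theorem src_tendsto {L : V → ℝ} {a b : ℕ → V → ℝ≥0∞} {a' b' u : V → ℝ≥0∞} {v : V}
    (ha : ∀ n, Measurable (a n)) (hb : ∀ n, Measurable (b n)) (hu : Measurable u)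
    (hau : ∀ n w, a n w ≤ u w) (hbu : ∀ n w, b n w ≤ u w) (huf : ∀ w, u w ≠ ⊤)
    (hQ : Qp u v ≠ ⊤) (hL : Ln u v ≠ ⊤) (ha' : ∀ w, Tendsto (fun n => a n w) atTop (𝓝 (a' w)))
    (hb' : ∀ w, Tendsto (fun n => b n w) atTop (𝓝 (b' w))) :
    Tendsto (fun n => src L (a n) (b n) v) atTop (𝓝 (src L a' b' v)) := by
  unfold src
  apply Tendsto.add
  · exact Bg_tendsto ha ha hu hau hau huf hQ ha' ha'
  · have ha'u : ∀ w, a' w ≤ u w := fun w => le_of_tendsto' (ha' w) (fun n => hau n w)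
    have h1 : Tendsto (fun n => ENNReal.ofReal (L v) - Ln (b n) v) atTop
        (𝓝 (ENNReal.ofReal (L v) - Ln b' v)) :=
      ENNReal.Tendsto.sub tendsto_const_nhds (Ln_tendsto hb hu hbu hL hb')
        (Or.inl ENNReal.ofReal_ne_top)
    exact ENNReal.Tendsto.mul h1 (Or.inr (ne_top_of_le_ne_top (huf _) (ha'u _)))
      (ha' v) (Or.inr (ne_top_of_le_ne_top ENNReal.ofReal_ne_top tsub_le_self))

theorem src_le {L : V → ℝ} {a b u : V → ℝ≥0∞} (ha : ∀ w, a w ≤ u w) (v : V) :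
    src L a b v ≤ Qp u v + ENNReal.ofReal (L v) * u v := by
  unfold src
  rw [Qp_eq_Bg, Qp_eq_Bg]
  have h1 := Bg_mono ha ha v
  have h2 := ha v
  have h3 : ENNReal.ofReal (L v) - Ln b v ≤ ENNReal.ofReal (L v) := tsub_le_self
  (clear * - h1 h3 h2; gcongr)

section
variable {L : V → ℝ} {F0 : T3 → V → ℝ≥0∞} {T : ℝ} {l0 u0 : ℝ → V → ℝ≥0∞}

theorem measu_sec (H : KSData L F0 T l0 u0) (t : ℝ) : Measurable (u0 t) :=
  H.measu.comp (by fun_prop : Measurable fun v : V => (t, v))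

theorem ks1_tendsto (H : KSData L F0 T l0 u0) {t : ℝ} (ht : t ∈ Icc 0 T) (x : T3) (v : V) :
    Tendsto (fun n => (ks L F0 l0 u0 n).1 t x v) atTop (𝓝 (ksl L F0 l0 u0 t x v)) :=
  tendsto_atTop_iSup (ks_mono1 H ht x v)

theorem ks2_tendsto (H : KSData L F0 T l0 u0) {t : ℝ} (ht : t ∈ Icc 0 T) (x : T3) (v : V) :
    Tendsto (fun n => (ks L F0 l0 u0 n).2 t x v) atTop (𝓝 (ksu L F0 l0 u0 t x v)) :=
  tendsto_atTop_iInf (ks_anti2 H ht x v)

theorem measTF_ksl (H : KSData L F0 T l0 u0) : MeasTF (ksl L F0 l0 u0) :=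
  Measurable.iSup fun n => (meas_ks H n).1

theorem measTF_ksu (H : KSData L F0 T l0 u0) : MeasTF (ksu L F0 l0 u0) :=
  Measurable.iInf fun n => (meas_ks H n).2

theorem ksl_le_ksu (H : KSData L F0 T l0 u0) {t : ℝ} (ht : t ∈ Icc 0 T) (x : T3) (v : V) :
    ksl L F0 l0 u0 t x v ≤ ksu L F0 l0 u0 t x v :=
  le_of_tendsto_of_tendsto' (ks1_tendsto H ht x v) (ks2_tendsto H ht x v)
    (fun n => ks_le H n ht x v)

theorem ksu_le_u0 (H : KSData L F0 T l0 u0) {t : ℝ} (ht : t ∈ Icc 0 T) (x : T3) (v : V) :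
    ksu L F0 l0 u0 t x v ≤ u0 t v :=
  le_of_tendsto' (ks2_tendsto H ht x v) (fun n => ks_le_u0 H n ht x v)

theorem l0_le_ksl (H : KSData L F0 T l0 u0) {t : ℝ} (ht : t ∈ Icc 0 T) (x : T3) (v : V) :
    l0 t v ≤ ksl L F0 l0 u0 t x v :=
  ge_of_tendsto' (ks1_tendsto H ht x v) (fun n => ks_ge_l0 H n ht x v)

theorem meas_flow_sec (p : T3 × V) : Measurable fun s : ℝ => (s, (flow s p).1, p.2) := by
  have h : Measurable fun s : ℝ => flow s p :=
    (measurable_flow_uncurry.comp (measurable_id.prodMk measurable_const :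
      Measurable fun s : ℝ => (s, p)) :)
  exact measurable_id.prodMk ((measurable_fst.comp h).prodMk measurable_const)

theorem meas_src_flow {L : V → ℝ} (hL : Measurable L) {a b : TF} (ha : MeasTF a) (hb : MeasTF b)
    (p : T3 × V) : Measurable fun s => src L (a s (flow s p).1) (b s (flow s p).1) p.2 := by
  have h2 : Measurable fun q : ℝ × T3 × V => src L (a q.1 q.2.1) (b q.1 q.2.1) q.2.2 :=
    MeasTF.src hL ha hb
  have h := h2.comp (meas_flow_sec p)
  exact h

/-- passage to the limit in the Lagrangian Duhamel operator -/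
theorem PhL_tendsto (H : KSData L F0 T l0 u0) {a b : ℕ → TF} {a' b' : TF}
    (ha : ∀ n, MeasTF (a n)) (hb : ∀ n, MeasTF (b n))
    (hau : ∀ n, ∀ t ∈ Icc 0 T, ∀ x v, a n t x v ≤ u0 t v)
    (hbu : ∀ n, ∀ t ∈ Icc 0 T, ∀ x v, b n t x v ≤ u0 t v)
    (ha' : ∀ t ∈ Icc 0 T, ∀ x v, Tendsto (fun n => a n t x v) atTop (𝓝 (a' t x v)))
    (hb' : ∀ t ∈ Icc 0 T, ∀ x v, Tendsto (fun n => b n t x v) atTop (𝓝 (b' t x v)))
    {t : ℝ} (ht : t ∈ Icc 0 T) (p : T3 × V) :
    Tendsto (fun n => PhL L F0 (a n) (b n) t p) atTop (𝓝 (PhL L F0 a' b' t p)) := by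
  unfold PhL duh
  apply Tendsto.add tendsto_const_nhds
  have hsm : ∀ n, Measurable fun s => src L (a n s (flow s p).1) (b n s (flow s p).1) p.2 := by
    intro n
    exact meas_src_flow H.measL (ha n) (hb n) p
  have hexp : Measurable fun s : ℝ => ENNReal.ofReal (Real.exp (-L p.2 * (t - s))) := by
    apply ENNReal.measurable_ofReal.comp
    apply Continuous.measurable
    fun_prop
  apply tendsto_lintegral_of_dominated_convergence
    (fun s => Qp (u0 s) p.2 + ENNReal.ofReal (L p.2) * u0 s p.2)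
  · intro n
    exact hexp.mul (hsm n)
  · intro n
    filter_upwards [ae_restrict_mem measurableSet_Ioc] with s hs
    have hs' : s ∈ Icc 0 T := ⟨hs.1.le, hs.2.trans ht.2⟩
    have he : ENNReal.ofReal (Real.exp (-L p.2 * (t - s))) ≤ 1 := by
      rw [ENNReal.ofReal_le_one, Real.exp_le_one_iff]
      have h1 := H.Lnonneg p.2
      have h2 : 0 ≤ t - s := by linarith only [hs.2]
      linarith only [mul_nonneg (sub_nonneg.2 h1) (sub_nonneg.2 h2)]
    calc ENNReal.ofReal (Real.exp (-L p.2 * (t - s))) *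
          src L (a n s (flow s p).1) (b n s (flow s p).1) p.2
        ≤ 1 * (Qp (u0 s) p.2 + ENNReal.ofReal (L p.2) * u0 s p.2) := by
          gcongr
          exact src_le (fun w => hau n s hs' _ w) p.2
      _ = _ := one_mul _
  · refine ne_top_of_le_ne_top (H.intfin p.2) ?_
    exact lintegral_mono_set (Ioc_subset_Ioc_right ht.2)
  · filter_upwards [ae_restrict_mem measurableSet_Ioc] with s hs
    have hs' : s ∈ Icc 0 T := ⟨hs.1.le, hs.2.trans ht.2⟩
    apply ENNReal.Tendsto.const_mul _ (Or.inr ENNReal.ofReal_ne_top)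
    apply src_tendsto (u := u0 s) (fun n => (ha n).sec s _) (fun n => (hb n).sec s _)
      (measu_sec H s) (fun n w => hau n s hs' _ w) (fun n w => hbu n s hs' _ w)
      (fun w => H.ufin s hs' w) (H.Qfin s hs' p.2)
      (ne_top_of_le_ne_top ENNReal.ofReal_ne_top (H.Lle s hs' p.2))
      (fun w => ha' s hs' _ w) (fun w => hb' s hs' _ w)

theorem ksl_fixed (H : KSData L F0 T l0 u0) {t : ℝ} (ht : t ∈ Icc 0 T) (x : T3) (v : V) :
    ksl L F0 l0 u0 t x v = Ph L F0 (ksl L F0 l0 u0) (ksu L F0 l0 u0) t x v := by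
  have h1 := ks1_tendsto H ht x v
  have h2 : Tendsto (fun n => (ks L F0 l0 u0 (n + 1)).1 t x v) atTop
      (𝓝 (ksl L F0 l0 u0 t x v)) := h1.comp (tendsto_add_atTop_nat 1)
  have h3 : Tendsto (fun n => (ks L F0 l0 u0 (n + 1)).1 t x v) atTop
      (𝓝 (Ph L F0 (ksl L F0 l0 u0) (ksu L F0 l0 u0) t x v)) := by
    apply PhL_tendsto H (fun n => (meas_ks H n).1) (fun n => (meas_ks H n).2)
      (fun n t ht x v => (ks_le H n ht x v).trans (ks_le_u0 H n ht x v))
      (fun n t ht x v => ks_le_u0 H n ht x v)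
      (fun t ht x v => ks1_tendsto H ht x v) (fun t ht x v => ks2_tendsto H ht x v) ht
  exact tendsto_nhds_unique h2 h3

theorem ksu_fixed (H : KSData L F0 T l0 u0) {t : ℝ} (ht : t ∈ Icc 0 T) (x : T3) (v : V) :
    ksu L F0 l0 u0 t x v = Ph L F0 (ksu L F0 l0 u0) (ksl L F0 l0 u0) t x v := by
  have h1 := ks2_tendsto H ht x v
  have h2 : Tendsto (fun n => (ks L F0 l0 u0 (n + 1)).2 t x v) atTop
      (𝓝 (ksu L F0 l0 u0 t x v)) := h1.comp (tendsto_add_atTop_nat 1)
  have h3 : Tendsto (fun n => (ks L F0 l0 u0 (n + 1)).2 t x v) atTop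
      (𝓝 (Ph L F0 (ksu L F0 l0 u0) (ksl L F0 l0 u0) t x v)) := by
    apply PhL_tendsto H (fun n => (meas_ks H n).2) (fun n => (meas_ks H n).1)
      (fun n t ht x v => ks_le_u0 H n ht x v)
      (fun n t ht x v => (ks_le H n ht x v).trans (ks_le_u0 H n ht x v))
      (fun t ht x v => ks2_tendsto H ht x v) (fun t ht x v => ks1_tendsto H ht x v) ht
  exact tendsto_nhds_unique h2 h3

end

end Vale.Agent.P140
end

section

open MeasureTheory Set Filter
open scoped ENNReal Topology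

namespace Vale.Agent.P140

theorem Bg_add_left {f f' g : V → ℝ≥0∞} (hf : Measurable f) (hg : Measurable g) (v : V) :
    Bg (fun w => f w + f' w) g v = Bg f g v + Bg f' g v := by
  unfold Bg
  rw [← lintegral_add_left (meas_sec_w (meas_BgI hf hg) v)]
  apply lintegral_congr; intro w
  rw [← lintegral_add_left (meas_sec_o (meas_BgI hf hg) v w)]
  apply lintegral_congr; intro o
  simp only
  ring

theorem Bg_add_right {f g g' : V → ℝ≥0∞} (hf : Measurable f) (hg : Measurable g) (v : V) :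
    Bg f (fun w => g w + g' w) v = Bg f g v + Bg f g' v := by
  unfold Bg
  rw [← lintegral_add_left (meas_sec_w (meas_BgI hf hg) v)]
  apply lintegral_congr; intro w
  rw [← lintegral_add_left (meas_sec_o (meas_BgI hf hg) v w)]
  apply lintegral_congr; intro o
  simp only
  ring

theorem Ln_add {f f' : V → ℝ≥0∞} (hf : Measurable f) (v : V) :
    Ln (fun w => f w + f' w) v = Ln f v + Ln f' v := by
  unfold Ln
  rw [← lintegral_add_left (meas_sec_w (meas_LnI hf) v)]
  apply lintegral_congr; intro w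
  rw [← lintegral_add_left (meas_sec_o (meas_LnI hf) v w)]
  apply lintegral_congr; intro o
  simp only
  ring

theorem Bg_const_mul {f g : V → ℝ≥0∞} (hf : Measurable f) (hg : Measurable g) (c c' : ℝ≥0∞)
    (v : V) : Bg (fun w => c * f w) (fun w => c' * g w) v = c * c' * Bg f g v := by
  unfold Bg
  rw [← lintegral_const_mul _ (meas_sec_w (meas_BgI hf hg) v)]
  apply lintegral_congr; intro w
  rw [← lintegral_const_mul _ (meas_sec_o (meas_BgI hf hg) v w)]
  apply lintegral_congr; intro o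
  simp only
  ring

theorem Ln_const_mul {f : V → ℝ≥0∞} (hf : Measurable f) (c : ℝ≥0∞) (v : V) :
    Ln (fun w => c * f w) v = c * Ln f v := by
  unfold Ln
  rw [← lintegral_const_mul _ (meas_sec_w (meas_LnI hf) v)]
  apply lintegral_congr; intro w
  rw [← lintegral_const_mul _ (meas_sec_o (meas_LnI hf) v w)]
  apply lintegral_congr; intro o
  simp only
  ring

theorem tsub_aux (a b c : ℝ≥0∞) : a - b ≤ (a - (b + c)) + c := by
  rw [tsub_le_iff_right]
  have : a ≤ (a - (b + c)) + (b + c) := le_tsub_add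
  calc a ≤ (a - (b + c)) + (b + c) := this
    _ = _ := by ring

/-- bound of the source difference -/
theorem src_diff {L : V → ℝ} {l d : V → ℝ≥0∞} (hl : Measurable l) (hd : Measurable d) (v : V) :
    src L (fun w => l w + d w) l v ≤ src L l (fun w => l w + d w) v +
      (Bg d (fun w => l w + d w) v + Bg l d v + (ENNReal.ofReal (L v) - Ln l v) * d v +
        l v * Ln d v) := by
  unfold src
  have e1 : Qp (fun w => l w + d w) v = Qp l v + Bg l d v + Bg d (fun w => l w + d w) v := by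
    have hld : Measurable fun w => l w + d w := hl.add hd
    have h1 : Bg (fun w => l w + d w) (fun w => l w + d w) v =
        Bg l (fun w => l w + d w) v + Bg d (fun w => l w + d w) v :=
      Bg_add_left (f := l) (f' := d) (g := fun w => l w + d w) hl hld v
    have h2 : Bg l (fun w => l w + d w) v = Bg l l v + Bg l d v :=
      Bg_add_right (f := l) (g := l) (g' := d) hl hl v
    rw [Qp_eq_Bg, h1, h2]
    rfl
  rw [e1, Ln_add hl]
  have h1 := tsub_aux (ENNReal.ofReal (L v)) (Ln l v) (Ln d v)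
  calc Qp l v + Bg l d v + Bg d (fun w => l w + d w) v +
        (ENNReal.ofReal (L v) - Ln l v) * (l v + d v)
      = Qp l v + Bg l d v + Bg d (fun w => l w + d w) v +
        ((ENNReal.ofReal (L v) - Ln l v) * l v + (ENNReal.ofReal (L v) - Ln l v) * d v) := by
        rw [mul_add]
    _ ≤ Qp l v + Bg l d v + Bg d (fun w => l w + d w) v +
        (((ENNReal.ofReal (L v) - (Ln l v + Ln d v)) + Ln d v) * l v +
          (ENNReal.ofReal (L v) - Ln l v) * d v) := by gcongr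
    _ = _ := by ring

theorem duh_add (l : ℝ) (h0 h0' : ℝ≥0∞) {G : ℝ → ℝ≥0∞} (hG : Measurable G) (G' : ℝ → ℝ≥0∞) (t : ℝ) :
    duh l (h0 + h0') (fun s => G s + G' s) t = duh l h0 G t + duh l h0' G' t := by
  unfold duh
  have hm : Measurable fun s : ℝ => ENNReal.ofReal (Real.exp (-l * (t - s))) * G s := by
    apply Measurable.mul _ hG
    apply ENNReal.measurable_ofReal.comp
    apply Continuous.measurable
    fun_prop
  have e : ∫⁻ s in Ioc 0 t, ENNReal.ofReal (Real.exp (-l * (t - s))) * (G s + G' s) =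
      (∫⁻ s in Ioc 0 t, ENNReal.ofReal (Real.exp (-l * (t - s))) * G s) +
      ∫⁻ s in Ioc 0 t, ENNReal.ofReal (Real.exp (-l * (t - s))) * G' s := by
    rw [← lintegral_add_left hm]
    apply lintegral_congr; intro s
    rw [mul_add]
  rw [e]
  ring

theorem duh_const_mul (l : ℝ) {c : ℝ≥0∞} (hc : c ≠ ⊤) (G : ℝ → ℝ≥0∞) (t : ℝ) :
    duh l 0 (fun s => c * G s) t = c * duh l 0 G t := by
  unfold duh
  rw [mul_zero, zero_add, zero_add, ← lintegral_const_mul' _ _ hc]
  apply lintegral_congr; intro s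
  ring

/-- contraction data for uniqueness between the barriers -/
structure KSContr (L : V → ℝ) (T : ℝ) (l0 u0 E : ℝ → V → ℝ≥0∞) (θ C0 : ℝ≥0∞) : Prop where
  measE : Measurable fun p : ℝ × V => E p.1 p.2
  Efin : ∀ t ∈ Icc 0 T, ∀ v, E t v ≠ ⊤
  C0fin : C0 ≠ ⊤
  uE : ∀ t ∈ Icc 0 T, ∀ v, u0 t v ≤ C0 * E t v
  hθ : θ < 1
  contr : ∀ t ∈ Icc 0 T, ∀ v, duh (L v) 0 (fun s => Bg (E s) (u0 s) v + Bg (u0 s) (E s) v +
    (ENNReal.ofReal (L v) - Ln (l0 s) v) * E s v + u0 s v * Ln (E s) v) t ≤ θ * E t v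

section
variable {L : V → ℝ} {F0 : T3 → V → ℝ≥0∞} {T : ℝ} {l0 u0 E : ℝ → V → ℝ≥0∞} {θ C0 : ℝ≥0∞}

theorem meas_diff (H : KSData L F0 T l0 u0) :
    MeasTF (fun t x v => ksu L F0 l0 u0 t x v - ksl L F0 l0 u0 t x v) :=
  (measTF_ksu H).sub (measTF_ksl H)

theorem diff_step (H : KSData L F0 T l0 u0) (K : KSContr L T l0 u0 E θ C0) {c : ℝ≥0∞} (hc : c ≠ ⊤)
    (h : ∀ t ∈ Icc 0 T, ∀ x v, ksu L F0 l0 u0 t x v - ksl L F0 l0 u0 t x v ≤ c * E t v) :
    ∀ t ∈ Icc 0 T, ∀ x v, ksu L F0 l0 u0 t x v - ksl L F0 l0 u0 t x v ≤ (θ * c) * E t v := by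
  set l := ksl L F0 l0 u0 with hl
  set w := ksu L F0 l0 u0 with hw
  have hml : MeasTF l := measTF_ksl H
  have hmw : MeasTF w := measTF_ksu H
  set d : TF := fun t x v => w t x v - l t x v with hd
  have hmd : MeasTF d := meas_diff H
  have hwd : ∀ t ∈ Icc 0 T, ∀ x, w t x = fun v => l t x v + d t x v := by
    intro t ht x
    ext v
    rw [hd]
    exact (add_tsub_cancel_of_le (ksl_le_ksu H ht x v)).symm
  have hmE : ∀ s, Measurable (E s) := fun s =>
    K.measE.comp (by fun_prop : Measurable fun v : V => (s, v))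
  -- Lagrangian form
  have key : ∀ t ∈ Icc 0 T, ∀ p : T3 × V, d t (flow t p).1 p.2 ≤ (θ * c) * E t p.2 := by
    intro t ht p
    have e1 : w t (flow t p).1 p.2 = PhL L F0 w l t p := by
      rw [hw, ksu_fixed H ht, ← hw]
      exact Ph_flow L F0 w l t p.1 p.2
    have e2 : l t (flow t p).1 p.2 = PhL L F0 l w t p := by
      rw [hl, ksl_fixed H ht, ← hl]
      exact Ph_flow L F0 l w t p.1 p.2
    have hlfin : l t (flow t p).1 p.2 ≠ ⊤ :=
      ne_top_of_le_ne_top (H.ufin t ht p.2)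
        ((ksl_le_ksu H ht _ _).trans (ksu_le_u0 H ht _ _))
    have e3 : PhL L F0 w l t p ≤ PhL L F0 l w t p +
        duh (L p.2) 0 (fun s => c * (Bg (E s) (u0 s) p.2 + Bg (u0 s) (E s) p.2 +
          (ENNReal.ofReal (L p.2) - Ln (l0 s) p.2) * E s p.2 + u0 s p.2 * Ln (E s) p.2)) t := by
      unfold PhL
      rw [← duh_add (L p.2) (F0 p.1 p.2) 0 (meas_src_flow H.measL hml hmw p), add_zero]
      apply duh_mono_on _ le_rfl
      intro s hs
      have hs' : s ∈ Icc 0 T := ⟨hs.1.le, hs.2.trans ht.2⟩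
      have hlu : ∀ v, l s (flow s p).1 v ≤ u0 s v := fun v =>
        (ksl_le_ksu H hs' _ _).trans (ksu_le_u0 H hs' _ _)
      have hwu : ∀ v, w s (flow s p).1 v ≤ u0 s v := fun v => ksu_le_u0 H hs' _ _
      have hl0 : ∀ v, l0 s v ≤ l s (flow s p).1 v := fun v => l0_le_ksl H hs' _ _
      have hdE : ∀ v, d s (flow s p).1 v ≤ c * E s v := fun v => h s hs' _ v
      have h1 := src_diff (L := L) (hml.sec s (flow s p).1) (hmd.sec s (flow s p).1) p.2
      have h2 := hwd s hs' (flow s p).1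
      rw [← h2] at h1
      refine h1.trans ?_
      gcongr
      calc Bg (d s (flow s p).1) (w s (flow s p).1) p.2 + Bg (l s (flow s p).1) (d s (flow s p).1) p.2 +
            (ENNReal.ofReal (L p.2) - Ln (l s (flow s p).1) p.2) * d s (flow s p).1 p.2 +
            l s (flow s p).1 p.2 * Ln (d s (flow s p).1) p.2
          ≤ Bg (fun v => c * E s v) (fun v => 1 * u0 s v) p.2 +
            Bg (fun v => 1 * u0 s v) (fun v => c * E s v) p.2 +
            (ENNReal.ofReal (L p.2) - Ln (l0 s) p.2) * (c * E s p.2) +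
            u0 s p.2 * Ln (fun v => c * E s v) p.2 := by
            have q1 := Bg_mono hdE (fun v => (hwu v).trans (one_mul (u0 s v)).ge) p.2
            have q2 := Bg_mono (fun v => (hlu v).trans (one_mul (u0 s v)).ge) hdE p.2
            have q3 := Ln_mono hl0 p.2
            have q4 := Ln_mono hdE p.2
            have q5 := hlu p.2
            have q6 := hdE p.2
            (clear * - q1 q2 q3 q6 q5 q4; gcongr)
        _ = c * (Bg (E s) (u0 s) p.2 + Bg (u0 s) (E s) p.2 +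
          (ENNReal.ofReal (L p.2) - Ln (l0 s) p.2) * E s p.2 + u0 s p.2 * Ln (E s) p.2) := by
            rw [Bg_const_mul (hmE s) (measu_sec H s), Bg_const_mul (measu_sec H s) (hmE s),
              Ln_const_mul (hmE s)]
            ring
    have e4 : w t (flow t p).1 p.2 ≤ l t (flow t p).1 p.2 + (θ * c) * E t p.2 := by
      rw [e1]
      refine e3.trans ?_
      rw [duh_const_mul _ hc, ← e2]
      refine add_le_add le_rfl ?_
      calc c * duh (L p.2) 0 (fun s => Bg (E s) (u0 s) p.2 + Bg (u0 s) (E s) p.2 +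
          (ENNReal.ofReal (L p.2) - Ln (l0 s) p.2) * E s p.2 + u0 s p.2 * Ln (E s) p.2) t
          ≤ c * (θ * E t p.2) := by
            gcongr
            exact K.contr t ht p.2
        _ = _ := by ring
    exact tsub_le_iff_left.mpr e4
  intro t ht x v
  have h1 := key t ht (flow (-t) (x, v))
  rw [flow_flow_neg] at h1
  exact h1

theorem ks_eq (H : KSData L F0 T l0 u0) (K : KSContr L T l0 u0 E θ C0) {t : ℝ} (ht : t ∈ Icc 0 T)
    (x : T3) (v : V) : ksl L F0 l0 u0 t x v = ksu L F0 l0 u0 t x v := by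
  have hθt : θ ≠ ⊤ := ne_top_of_lt K.hθ
  have h : ∀ n : ℕ, ∀ t ∈ Icc 0 T, ∀ x v,
      ksu L F0 l0 u0 t x v - ksl L F0 l0 u0 t x v ≤ (θ ^ n * C0) * E t v := by
    intro n
    induction n with
    | zero =>
      intro t ht x v
      rw [pow_zero, one_mul]
      exact (tsub_le_self.trans (ksu_le_u0 H ht x v)).trans (K.uE t ht v)
    | succ n ih =>
      intro t ht x v
      have := diff_step H K (ENNReal.mul_ne_top (ENNReal.pow_ne_top hθt) K.C0fin) ih t ht x v
      calc _ ≤ _ := this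
        _ = _ := by rw [pow_succ]; ring
  have h0 : ksu L F0 l0 u0 t x v - ksl L F0 l0 u0 t x v = 0 := by
    have hlim : Tendsto (fun n : ℕ => (θ ^ n * C0) * E t v) atTop (𝓝 ((0 * C0) * E t v)) := by
      apply ENNReal.Tendsto.mul_const _ (Or.inr (K.Efin t ht v))
      apply ENNReal.Tendsto.mul_const _ (Or.inr K.C0fin)
      exact ENNReal.tendsto_pow_atTop_nhds_zero_of_lt_one K.hθ
    rw [zero_mul, zero_mul] at hlim
    have := ge_of_tendsto' hlim (fun n => h n t ht x v)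
    exact le_antisymm this zero_le
  exact le_antisymm (ksl_le_ksu H ht x v) (tsub_eq_zero_iff_le.mp h0)

/-- from the fixed point to the mild Boltzmann equation -/
theorem mild_of_fixed {F : TF} (hF : MeasTF F) (hL : Measurable L) (hLn : ∀ v, 0 ≤ L v)
    {t : ℝ} (ht : 0 ≤ t) (p : T3 × V)
    (hfix : ∀ s ∈ Icc 0 t, F s (flow s p).1 p.2 = PhL L F0 F F s p)
    (hLe : ∀ s ∈ Ioc 0 t, Ln (F s (flow s p).1) p.2 ≤ ENNReal.ofReal (L p.2))
    (hfin : (∫⁻ s in Ioc 0 t, F s (flow s p).1 p.2) ≠ ⊤) :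
    F t (flow t p).1 p.2 + ∫⁻ s in Ioc 0 t, Qm (F s (flow s p).1) p.2 =
      F0 p.1 p.2 + ∫⁻ s in Ioc 0 t, Qp (F s (flow s p).1) p.2 := by
  have h := duh_integrated (L p.2) (hLn p.2) (F0 p.1 p.2) (meas_src_flow hL hF hF p) ht
  have h1 : ∀ s ∈ Icc 0 t, duh (L p.2) (F0 p.1 p.2)
      (fun s => src L (F s (flow s p).1) (F s (flow s p).1) p.2) s = F s (flow s p).1 p.2 :=
    fun s hs => (hfix s hs).symm
  rw [h1 t ⟨ht, le_rfl⟩, setLIntegral_congr_fun measurableSet_Ioc
    (fun s hs => h1 s ⟨hs.1.le, hs.2⟩)] at h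
  have mF : Measurable fun s => F s (flow s p).1 p.2 := by
    have := hF.comp (meas_flow_sec p)
    exact this
  have mQm : Measurable fun s => Qm (F s (flow s p).1) p.2 := by
    have h2 : Measurable fun q : (ℝ × T3) × V => Qm (F q.1.1 q.1.2) q.2 :=
      joint_Qm (f := fun q : ℝ × T3 => F q.1 q.2) hF.assoc
    have h3 : Measurable fun s : ℝ => ((s, (flow s p).1), p.2) :=
      ((by fun_prop : Measurable fun q : ℝ × T3 × V => ((q.1, q.2.1), q.2.2))).comp (meas_flow_sec p)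
    have := h2.comp h3
    exact this
  have mQp : Measurable fun s => Qp (F s (flow s p).1) p.2 := by
    have h2 : Measurable fun q : (ℝ × T3) × V => Qp (F q.1.1 q.1.2) q.2 :=
      joint_Qp (f := fun q : ℝ × T3 => F q.1 q.2) hF.assoc
    have h3 : Measurable fun s : ℝ => ((s, (flow s p).1), p.2) :=
      ((by fun_prop : Measurable fun q : ℝ × T3 × V => ((q.1, q.2.1), q.2.2))).comp (meas_flow_sec p)
    have := h2.comp h3
    exact this
  have e1 : (∫⁻ s in Ioc 0 t, src L (F s (flow s p).1) (F s (flow s p).1) p.2) +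
      ∫⁻ s in Ioc 0 t, Qm (F s (flow s p).1) p.2 =
      (∫⁻ s in Ioc 0 t, Qp (F s (flow s p).1) p.2) +
        ENNReal.ofReal (L p.2) * ∫⁻ s in Ioc 0 t, F s (flow s p).1 p.2 := by
    rw [← lintegral_add_right _ mQm, ← lintegral_const_mul _ mF, ← lintegral_add_left mQp]
    apply setLIntegral_congr_fun measurableSet_Ioc
    intro s hs
    simp only
    unfold src
    rw [Qm_eq_Ln (hF.sec s _)]
    have h4 := tsub_add_cancel_of_le (hLe s hs)
    calc _ = Qp (F s (flow s p).1) p.2 + ((ENNReal.ofReal (L p.2) - Ln (F s (flow s p).1) p.2) +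
          Ln (F s (flow s p).1) p.2) * F s (flow s p).1 p.2 := by ring
      _ = _ := by rw [h4]
  have hfin2 : ENNReal.ofReal (L p.2) * ∫⁻ s in Ioc 0 t, F s (flow s p).1 p.2 ≠ ⊤ :=
    ENNReal.mul_ne_top ENNReal.ofReal_ne_top hfin
  have e2 : (F t (flow t p).1 p.2 + ∫⁻ s in Ioc 0 t, Qm (F s (flow s p).1) p.2) +
      ENNReal.ofReal (L p.2) * ∫⁻ s in Ioc 0 t, F s (flow s p).1 p.2 =
      (F0 p.1 p.2 + ∫⁻ s in Ioc 0 t, Qp (F s (flow s p).1) p.2) +
      ENNReal.ofReal (L p.2) * ∫⁻ s in Ioc 0 t, F s (flow s p).1 p.2 := by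
    calc _ = (F t (flow t p).1 p.2 + ENNReal.ofReal (L p.2) * ∫⁻ s in Ioc 0 t, F s (flow s p).1 p.2) +
          ∫⁻ s in Ioc 0 t, Qm (F s (flow s p).1) p.2 := by ring
      _ = F0 p.1 p.2 + ((∫⁻ s in Ioc 0 t, src L (F s (flow s p).1) (F s (flow s p).1) p.2) +
          ∫⁻ s in Ioc 0 t, Qm (F s (flow s p).1) p.2) := by rw [h]; ring
      _ = _ := by rw [e1]; ring
  exact (ENNReal.add_left_inj hfin2).mp e2

/-- the Kaniel-Shinbrot existence lemma -/
theorem ks_solution (H : KSData L F0 T l0 u0) (K : KSContr L T l0 u0 E θ C0) :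
    ∃ F : TF, MeasTF F ∧ (∀ t ∈ Icc 0 T, ∀ x v, l0 t v ≤ F t x v ∧ F t x v ≤ u0 t v) ∧
      (∀ t ∈ Icc 0 T, ∀ p : T3 × V, F t (flow t p).1 p.2 = PhL L F0 F F t p) ∧
      ∀ t ∈ Icc 0 T, ∀ p : T3 × V,
        F t (flow t p).1 p.2 + ∫⁻ s in Ioc 0 t, Qm (F s (flow s p).1) p.2 =
        F0 p.1 p.2 + ∫⁻ s in Ioc 0 t, Qp (F s (flow s p).1) p.2 := by
  set F := ksl L F0 l0 u0 with hFdef
  have hF : MeasTF F := measTF_ksl H
  have hle : ∀ t ∈ Icc 0 T, ∀ x v, F t x v ≤ u0 t v := fun t ht x v =>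
    (ksl_le_ksu H ht x v).trans (ksu_le_u0 H ht x v)
  have hfix : ∀ t ∈ Icc 0 T, ∀ p : T3 × V, F t (flow t p).1 p.2 = PhL L F0 F F t p := by
    intro t ht p
    have e2 : F t (flow t p).1 p.2 = PhL L F0 F (ksu L F0 l0 u0) t p := by
      rw [hFdef, ksl_fixed H ht]
      exact Ph_flow L F0 _ _ t p.1 p.2
    rw [e2]
    unfold PhL
    apply le_antisymm
    · apply duh_mono_on _ le_rfl
      intro s hs
      have hs' : s ∈ Icc 0 T := ⟨hs.1.le, hs.2.trans ht.2⟩
      exact src_mono L (fun v => le_rfl) (fun v => (ks_eq H K hs' _ v).le) p.2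
    · apply duh_mono_on _ le_rfl
      intro s hs
      have hs' : s ∈ Icc 0 T := ⟨hs.1.le, hs.2.trans ht.2⟩
      exact src_mono L (fun v => le_rfl) (fun v => (ks_eq H K hs' _ v).ge) p.2
  refine ⟨F, hF, fun t ht x v => ⟨l0_le_ksl H ht x v, hle t ht x v⟩, hfix, ?_⟩
  intro t ht p
  by_cases hL0 : ENNReal.ofReal (L p.2) = 0
  · -- then the solution is constant along the trajectory; use the same argument with finiteness
    have hfin : (∫⁻ s in Ioc 0 t, F s (flow s p).1 p.2) ≠ ⊤ ∨ True := Or.inr trivial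
    have h := duh_integrated (L p.2) (H.Lnonneg p.2) (F0 p.1 p.2) (meas_src_flow H.measL hF hF p) ht.1
    rw [hL0, zero_mul, add_zero] at h
    have h1 : duh (L p.2) (F0 p.1 p.2)
      (fun s => src L (F s (flow s p).1) (F s (flow s p).1) p.2) t = F t (flow t p).1 p.2 :=
      (hfix t ht p).symm
    rw [h1] at h
    have hz : ∀ s ∈ Ioc 0 t, Ln (F s (flow s p).1) p.2 = 0 := by
      intro s hs
      have hs' : s ∈ Icc 0 T := ⟨hs.1.le, hs.2.trans ht.2⟩
      have := (Ln_mono (fun v => hle s hs' (flow s p).1 v) p.2).trans (H.Lle s hs' p.2)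
      rw [hL0] at this
      exact le_antisymm this zero_le
    have e1 : ∫⁻ s in Ioc 0 t, Qm (F s (flow s p).1) p.2 = 0 := by
      have : ∫⁻ s in Ioc 0 t, Qm (F s (flow s p).1) p.2 = ∫⁻ s in Ioc 0 t, 0 := by
        apply setLIntegral_congr_fun measurableSet_Ioc
        intro s hs
        simp only
        rw [Qm_eq_Ln (hF.sec s _), hz s hs, mul_zero]
      rw [this]; simp only [lintegral_const, MeasurableSet.univ, Measure.restrict_apply, univ_inter, Real.volume_Ioc, sub_zero, zero_mul]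
    have e2 : ∫⁻ s in Ioc 0 t, src L (F s (flow s p).1) (F s (flow s p).1) p.2 =
        ∫⁻ s in Ioc 0 t, Qp (F s (flow s p).1) p.2 := by
      apply setLIntegral_congr_fun measurableSet_Ioc
      intro s hs
      simp only
      unfold src
      rw [hL0]; simp only [zero_tsub, zero_mul, add_zero]
    rw [e1, add_zero, h, e2]
  · have hfin : (∫⁻ s in Ioc 0 t, F s (flow s p).1 p.2) ≠ ⊤ := by
      have h1 : ENNReal.ofReal (L p.2) * ∫⁻ s in Ioc 0 t, F s (flow s p).1 p.2 ≠ ⊤ := by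
        rw [← lintegral_const_mul' _ _ ENNReal.ofReal_ne_top]
        refine ne_top_of_le_ne_top (H.intfin p.2) ?_
        calc ∫⁻ s in Ioc 0 t, ENNReal.ofReal (L p.2) * F s (flow s p).1 p.2
            ≤ ∫⁻ s in Ioc 0 t, (Qp (u0 s) p.2 + ENNReal.ofReal (L p.2) * u0 s p.2) := by
              apply setLIntegral_mono' measurableSet_Ioc
              intro s hs
              have hs' : s ∈ Icc 0 T := ⟨hs.1.le, hs.2.trans ht.2⟩
              have := hle s hs' (flow s p).1 p.2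
              calc ENNReal.ofReal (L p.2) * F s (flow s p).1 p.2
                  ≤ ENNReal.ofReal (L p.2) * u0 s p.2 := by (clear * - this; gcongr)
                _ ≤ _ := le_add_self
          _ ≤ _ := lintegral_mono_set (Ioc_subset_Ioc_right ht.2)
      intro htop
      rw [htop, ENNReal.mul_top hL0] at h1
      exact h1 rfl
    apply mild_of_fixed hF H.measL H.Lnonneg ht.1 p
      (fun s hs => hfix s ⟨hs.1, hs.2.trans ht.2⟩ p) _ hfin
    intro s hs
    have hs' : s ∈ Icc 0 T := ⟨hs.1.le, hs.2.trans ht.2⟩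
    exact (Ln_mono (fun v => hle s hs' (flow s p).1 v) p.2).trans (H.Lle s hs' p.2)

end

end Vale.Agent.P140
end

section

/-! Strong solutions below an `x`-independent envelope: mild form, conservation laws and
weak-strong uniqueness. -/

open MeasureTheory Set Filter
open scoped ENNReal Topology NNReal

noncomputable section

namespace Vale.Agent.P140

/-- real valued version -/
def realF (F : TF) (t : ℝ) (x : T3) (v : V) : ℝ := (F t x v).toReal

theorem realF_nonneg (F : TF) (t : ℝ) (x : T3) (v : V) : 0 ≤ realF F t x v :=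
  ENNReal.toReal_nonneg

theorem measurable_realF {F : TF} (hF : MeasTF F) :
    Measurable fun p : ℝ × T3 × V => realF F p.1 p.2.1 p.2.2 := hF.ennreal_toReal

/-- strong solution with datum `F0` and envelope `e` on `[0,T]` -/
structure EnvSol (T : ℝ) (F0 : T3 → V → ℝ) (F : TF) (e : V → ℝ≥0∞) : Prop where
  meas0 : Measurable fun p : T3 × V => F0 p.1 p.2
  nonneg0 : ∀ x v, 0 ≤ F0 x v
  meas : MeasTF F
  mease : Measurable e
  finE : ∀ v, e v ≠ ⊤
  mom : Mo 2 e ≠ ⊤
  le : ∀ t ∈ Icc 0 T, ∀ x v, F t x v ≤ e v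
  eq : ∀ t ∈ Icc 0 T, ∀ p : T3 × V,
    F t (flow t p).1 p.2 + ∫⁻ s in Ioc 0 t, Qm (F s (flow s p).1) p.2 =
      ENNReal.ofReal (F0 p.1 p.2) + ∫⁻ s in Ioc 0 t, Qp (F s (flow s p).1) p.2

variable {T : ℝ} {F0 : T3 → V → ℝ} {R : TF} {e : V → ℝ≥0∞}

theorem EnvSol.ofReal_realF (H : EnvSol T F0 R e) {t : ℝ} (ht : t ∈ Icc 0 T) (x : T3) (v : V) :
    ENNReal.ofReal (realF R t x v) = R t x v :=
  ENNReal.ofReal_toReal (ne_top_of_le_ne_top (H.finE v) (H.le t ht x v))

theorem EnvSol.gain_eq (H : EnvSol T F0 R e) {t : ℝ} (ht : t ∈ Icc 0 T) (x : T3) (v : V) :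
    gain (realF R t x) v = Qp (R t x) v := by
  rw [gain_eq_Qp (realF_nonneg R t x)]
  congr 1
  funext w
  exact H.ofReal_realF ht x w

theorem EnvSol.loss_eq (H : EnvSol T F0 R e) {t : ℝ} (ht : t ∈ Icc 0 T) (x : T3) (v : V) :
    loss (realF R t x) v = Qm (R t x) v := by
  rw [loss_eq_Qm (realF_nonneg R t x)]
  congr 1
  funext w
  exact H.ofReal_realF ht x w

theorem Qp_mono {f g : V → ℝ≥0∞} (h : ∀ v, f v ≤ g v) (v : V) : Qp f v ≤ Qp g v := by
  unfold Qp
  gcongr with w o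
  · exact h _
  · exact h _

theorem Qm_mono {f g : V → ℝ≥0∞} (h : ∀ v, f v ≤ g v) (v : V) : Qm f v ≤ Qm g v := by
  unfold Qm
  gcongr with w o
  · exact h _
  · exact h _

theorem EnvSol.Qp_ae (H : EnvSol T F0 R e) : ∀ᵐ p : T3 × V, Qp e p.2 < ⊤ := by
  have h0 : Mo 0 e ≠ ⊤ := ne_top_of_le_ne_top H.mom (Mo_mono (by norm_num))
  have h1 : Mo 1 e ≠ ⊤ := ne_top_of_le_ne_top H.mom (Mo_mono (by norm_num))
  have h2 : ∀ᵐ v : V, Qp e v < ⊤ := by
    apply ae_lt_top (measurable_Qp H.mease)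
    refine ne_top_of_le_ne_top ?_ (Qp_mass H.mease)
    exact ENNReal.mul_ne_top (by simp) (ENNReal.mul_ne_top Ss_ne_top (ENNReal.mul_ne_top h0 h1))
  exact (Measure.quasiMeasurePreserving_snd (μ := (volume : Measure T3))
      (ν := (volume : Measure V))).ae h2

theorem EnvSol.isMild (H : EnvSol T F0 R e) : IsMild T F0 (realF R) := by
  refine isMild_of_ennreal H.meas0 H.nonneg0 (measurable_realF H.meas) (realF_nonneg R) ?_ ?_
  · filter_upwards [H.Qp_ae] with p hp
    calc ∫⁻ s in Ioc 0 T, gainA (realF R) (s, p)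
        ≤ ∫⁻ s in Ioc 0 T, Qp e p.2 := by
          apply setLIntegral_mono measurable_const
          intro s hs
          unfold gainA
          simp only
          rw [H.gain_eq ⟨hs.1.le, hs.2⟩]
          exact Qp_mono (H.le s ⟨hs.1.le, hs.2⟩ _) _
      _ < ⊤ := by
          rw [setLIntegral_const]
          exact ENNReal.mul_lt_top hp (by simp only [Real.volume_Ioc, sub_zero, ENNReal.ofReal_lt_top])
  · filter_upwards with p
    intro t ht
    have h := H.eq t ⟨ht.1.le, ht.2⟩ p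
    have e1 : ∫⁻ s in Ioc 0 t, lossA (realF R) (s, p)
        = ∫⁻ s in Ioc 0 t, Qm (R s (flow s p).1) p.2 := by
      apply setLIntegral_congr_fun measurableSet_Ioc
      intro s hs
      exact H.loss_eq ⟨hs.1.le, hs.2.trans ht.2⟩ _ _
    have e2 : ∫⁻ s in Ioc 0 t, gainA (realF R) (s, p)
        = ∫⁻ s in Ioc 0 t, Qp (R s (flow s p).1) p.2 := by
      apply setLIntegral_congr_fun measurableSet_Ioc
      intro s hs
      exact H.gain_eq ⟨hs.1.le, hs.2.trans ht.2⟩ _ _
    rw [e1, e2, ← h]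
    congr 1
    exact H.ofReal_realF ⟨ht.1.le, ht.2⟩ _ _

theorem EnvSol.loss_weight (H : EnvSol T F0 R e) {s : ℝ} (hs : s ∈ Icc 0 T) :
    ∫⁻ p : T3 × V, psi2 p.2 * loss (realF R s p.1) p.2 ≤
      Ss * (Mo 2 e * Mo 0 e) + Ss * (Mo 1 e * Mo 1 e) := by
  have mk : Measurable fun v : V => Qm e v * ph v := (measurable_Qm H.mease).mul measurable_ph
  calc ∫⁻ p : T3 × V, psi2 p.2 * loss (realF R s p.1) p.2
      ≤ ∫⁻ p : T3 × V, Qm e p.2 * ph p.2 := by
        apply lintegral_mono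
        intro p
        simp only
        rw [psi2_eq_ph, mul_comm, H.loss_eq hs]
        gcongr
        exact Qm_mono (H.le s hs _) _
    _ = ∫⁻ v : V, Qm e v * ph v := lintegral_T3_V mk
    _ ≤ _ := Qm_weight_le H.mease

theorem EnvSol.loss_bound_ne_top (H : EnvSol T F0 R e) :
    Ss * (Mo 2 e * Mo 0 e) + Ss * (Mo 1 e * Mo 1 e) ≠ ⊤ := by
  have h0 : Mo 0 e ≠ ⊤ := ne_top_of_le_ne_top H.mom (Mo_mono (by norm_num))
  have h1 : Mo 1 e ≠ ⊤ := ne_top_of_le_ne_top H.mom (Mo_mono (by norm_num))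
  exact ENNReal.add_ne_top.mpr ⟨ENNReal.mul_ne_top Ss_ne_top (ENNReal.mul_ne_top H.mom h0),
    ENNReal.mul_ne_top Ss_ne_top (ENNReal.mul_ne_top h1 h1)⟩

theorem EnvSol.loss_int (H : EnvSol T F0 R e) {a b : ℝ} (ha : 0 ≤ a) (hb : b ≤ T) :
    ∫⁻ s in Ioc a b, ∫⁻ p : T3 × V, psi2 p.2 * loss (realF R s p.1) p.2 < ⊤ := by
  calc ∫⁻ s in Ioc a b, ∫⁻ p : T3 × V, psi2 p.2 * loss (realF R s p.1) p.2
      ≤ ∫⁻ s in Ioc a b, (Ss * (Mo 2 e * Mo 0 e) + Ss * (Mo 1 e * Mo 1 e)) := by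
        apply setLIntegral_mono measurable_const
        intro s hs
        exact H.loss_weight ⟨ha.trans hs.1.le, hs.2.trans hb⟩
    _ < ⊤ := by
        rw [setLIntegral_const]
        exact ENNReal.mul_lt_top H.loss_bound_ne_top.lt_top (by simp only [Real.volume_Ioc, ENNReal.ofReal_lt_top])

/-- along the flow the mild equation holds at every time -/
theorem EnvSol.good (H : EnvSol T F0 R e) {t : ℝ} (ht : t ∈ Ioc 0 T) : Good F0 (realF R) t := by
  have htI : t ∈ Icc 0 T := ⟨ht.1.le, ht.2⟩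
  have mg := measurable_gainA (measurable_realF H.meas)
  have ml := measurable_lossA (measurable_realF H.meas)
  unfold Good
  filter_upwards [H.Qp_ae] with p hp
  have h := H.eq t htI p
  have e1 : ∫⁻ s in Ioc 0 t, lossA (realF R) (s, p)
      = ∫⁻ s in Ioc 0 t, Qm (R s (flow s p).1) p.2 := by
    apply setLIntegral_congr_fun measurableSet_Ioc
    intro s hs
    exact H.loss_eq ⟨hs.1.le, hs.2.trans ht.2⟩ _ _
  have e2 : ∫⁻ s in Ioc 0 t, gainA (realF R) (s, p)
      = ∫⁻ s in Ioc 0 t, Qp (R s (flow s p).1) p.2 := by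
    apply setLIntegral_congr_fun measurableSet_Ioc
    intro s hs
    exact H.gain_eq ⟨hs.1.le, hs.2.trans ht.2⟩ _ _
  have hgf : ∫⁻ s in Ioc 0 t, gainA (realF R) (s, p) < ⊤ := by
    rw [e2]
    calc ∫⁻ s in Ioc 0 t, Qp (R s (flow s p).1) p.2
        ≤ ∫⁻ s in Ioc 0 t, Qp e p.2 := by
          apply setLIntegral_mono measurable_const
          intro s hs
          exact Qp_mono (H.le s ⟨hs.1.le, hs.2.trans ht.2⟩ _) _
      _ < ⊤ := by
          rw [setLIntegral_const]
          exact ENNReal.mul_lt_top hp (by simp only [Real.volume_Ioc, sub_zero, ENNReal.ofReal_lt_top])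
  have h2 : ENNReal.ofReal (along (realF R) (t, p)) + ∫⁻ s in Ioc 0 t, lossA (realF R) (s, p)
      = ENNReal.ofReal (F0 p.1 p.2) + ∫⁻ s in Ioc 0 t, gainA (realF R) (s, p) := by
    rw [e1, e2, ← h]
    congr 1
    exact H.ofReal_realF htI _ _
  have hlf : ∫⁻ s in Ioc 0 t, lossA (realF R) (s, p) < ⊤ := by
    refine lt_of_le_of_lt ?_ (ENNReal.add_lt_top.mpr ⟨ENNReal.ofReal_lt_top (r := F0 p.1 p.2), hgf⟩)
    rw [← h2]
    exact le_add_self
  have msec : Measurable fun s : ℝ => ((s, p) : ℝ × T3 × V) := by fun_prop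
  have mg' : Measurable fun s => gainA (realF R) (s, p) := mg.comp msec
  have ml' : Measurable fun s => lossA (realF R) (s, p) := ml.comp msec
  unfold bar
  rw [integral_sub]
  · rw [integral_toReal mg'.aemeasurable (ae_lt_top mg' hgf.ne),
      integral_toReal ml'.aemeasurable (ae_lt_top ml' hlf.ne)]
    have h5 := congrArg ENNReal.toReal h2
    rw [ENNReal.toReal_add ENNReal.ofReal_ne_top hlf.ne,
      ENNReal.toReal_add ENNReal.ofReal_ne_top hgf.ne, ENNReal.toReal_ofReal (H.nonneg0 _ _),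
      ENNReal.toReal_ofReal (show 0 ≤ along (realF R) (t, p) from realF_nonneg _ _ _ _)] at h5
    linarith only [h5]
  · exact integrable_toReal_of_lintegral_ne_top mg'.aemeasurable hgf.ne
  · exact integrable_toReal_of_lintegral_ne_top ml'.aemeasurable hlf.ne

/-- conservation laws -/
theorem EnvSol.cons (H : EnvSol T F0 R e) {ψ : V → ℝ≥0∞} (hψm : Measurable ψ) (hψ : CollInv ψ)
    (hψ2 : ∀ v, ψ v ≤ psi2 v) {t : ℝ} (ht : t ∈ Ioc 0 T) :
    wInt ψ (realF R t) = wInt ψ F0 := by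
  have hg := H.good ht
  rw [wInt_eq_bar hψm (measurable_realF H.meas) hg]
  have p1 : ∀ᵐ p : T3 × V, 0 ≤ bar F0 (realF R) 0 p := by
    filter_upwards with p
    rw [bar_zero]
    exact H.nonneg0 _ _
  have p2 := bar_nonneg_of_good H.isMild hg
  rw [wInt_conserved H.isMild hψm hψ le_rfl ht.1.le ht.2 p1 p2]
  · simp only [bar_zero]
    rfl
  · refine lt_of_le_of_lt ?_ (H.loss_int le_rfl ht.2)
    gcongr with s p
    exact hψ2 _

theorem vmom3_env_le (f : V → ℝ) (e : V → ℝ≥0∞) (h : ∀ v, ENNReal.ofReal (f v) ≤ e v) :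
    vmom 3 f ≤ 4 * Mo 2 e := by
  unfold vmom Mo
  rw [← lintegral_const_mul' _ _ (by simp)]
  apply lintegral_mono
  intro v
  simp only
  rw [ENNReal.ofReal_mul (by positivity)]
  calc ENNReal.ofReal ((1 + ‖v‖) ^ 3) * ENNReal.ofReal (f v)
      ≤ (4 * ph v ^ 2) * e v := by
        gcongr
        · unfold ph
          rw [← ENNReal.ofReal_pow (by positivity), show (4 : ℝ≥0∞) = ENNReal.ofReal 4 by simp,
            ← ENNReal.ofReal_mul (by norm_num)]
          apply ENNReal.ofReal_le_ofReal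
          have hn : 0 ≤ ‖v‖ := norm_nonneg v
          nlinarith only [sq_nonneg (‖v‖^2 - ‖v‖)]
        · exact h v
    _ = 4 * (e v * ph v ^ 2) := by ring

/-- weak-strong uniqueness below an envelope -/
theorem EnvSol.unique (hT : 0 < T) (H : EnvSol T F0 R e) (f0 : wInt psi2 F0 < ⊤)
    {G : ℝ → T3 → V → ℝ} (hG : IsMild T F0 G)
    (eG2 : ∀ᵐ t ∂(volume.restrict (Ioc 0 T)), wInt psi2 (G t) ≤ wInt psi2 F0)
    (eG0 : ∀ᵐ t ∂(volume.restrict (Ioc 0 T)), wInt psi0 (G t) ≤ wInt psi0 F0) :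
    ∀ᵐ t ∂(volume.restrict (Ioc 0 T)), wDist psi2 (realF R t) (G t) = 0 := by
  have b3 : ∀ᵐ t ∂(volume.restrict (Ioc 0 T)), ∀ᵐ x : T3,
      vmom 3 (minF (realF R) G t x) ≤ 4 * Mo 2 e := by
    filter_upwards [ae_restrict_mem measurableSet_Ioc] with t ht
    filter_upwards with x
    apply vmom3_env_le
    intro v
    calc ENNReal.ofReal (minF (realF R) G t x v) ≤ ENNReal.ofReal (realF R t x v) := by
          apply ENNReal.ofReal_le_ofReal
          exact min_le_left _ _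
      _ = R t x v := H.ofReal_realF ⟨ht.1.le, ht.2⟩ x v
      _ ≤ e v := H.le t ⟨ht.1.le, ht.2⟩ x v
  have hmn : ∀ t x v, 0 ≤ minF (realF R) G t x v := fun t x v =>
    le_min (realF_nonneg _ _ _ _) (hG.nonneg t x v)
  have b1 : ∀ᵐ t ∂(volume.restrict (Ioc 0 T)), ∀ᵐ x : T3,
      vmom 1 (minF (realF R) G t x) ≤ 4 * Mo 2 e := by
    filter_upwards [b3] with t ht
    filter_upwards [ht] with x hx
    exact (vmom_mono (by norm_num) (hmn t x)).trans hx
  have b2 : ∀ᵐ t ∂(volume.restrict (Ioc 0 T)), ∀ᵐ x : T3,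
      vmom 2 (minF (realF R) G t x) ≤ 4 * Mo 2 e := by
    filter_upwards [b3] with t ht
    filter_upwards [ht] with x hx
    exact (vmom_mono (by norm_num) (hmn t x)).trans hx
  have hC : 4 * Mo 2 e < ⊤ := ENNReal.mul_lt_top (by simp) H.mom.lt_top
  have hci : ∀ a b : ℝ, ∫⁻ _ in Ioc a b, (4 * Mo 2 e) < ⊤ := by
    intro a b
    rw [setLIntegral_const]
    exact ENNReal.mul_lt_top hC (by simp only [Real.volume_Ioc, ENNReal.ofReal_lt_top])
  refine mild_unique hT H.isMild hG f0 ?_ eG2 ?_ eG0 (fun τ hτ => H.loss_int hτ.le le_rfl)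
    (M1 := fun _ => 4 * Mo 2 e) (M2 := fun _ => 4 * Mo 2 e) (M3 := fun _ => 4 * Mo 2 e)
    measurable_const measurable_const measurable_const b1 b2 b3 (hci _ _) (hci _ _)
    (fun τ _ => hci _ _) ?_
  · filter_upwards [ae_restrict_mem measurableSet_Ioc] with t ht
    exact (H.cons measurable_psi2 collInv_psi2 (fun v => le_rfl) ht).le
  · filter_upwards [ae_restrict_mem measurableSet_Ioc] with t ht
    exact (H.cons measurable_psi0 collInv_psi0 psi0_le_psi2 ht).le
  · calc ∫⁻ t in Ioc 0 T, 4 * Mo 2 e * ∫⁻ s in Ioc 0 t, 4 * Mo 2 e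
        ≤ ∫⁻ t in Ioc 0 T, 4 * Mo 2 e * ∫⁻ s in Ioc 0 T, 4 * Mo 2 e := by
          apply setLIntegral_mono measurable_const
          intro t ht
          gcongr
          exact ht.2
      _ < ⊤ := by
          rw [setLIntegral_const]
          exact ENNReal.mul_lt_top (ENNReal.mul_lt_top hC (hci _ _)) (by simp only [Real.volume_Ioc, sub_zero, ENNReal.ofReal_lt_top])

end Vale.Agent.P140
end
end

section

/-! Abstract near-equilibrium structure. -/

open MeasureTheory Set Filter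
open scoped ENNReal Topology NNReal

noncomputable section

namespace Vale.Agent.P140

/-- linear part of the perturbation operator -/
def KB (M h : V → ℝ≥0∞) (v : V) : ℝ≥0∞ := Bg M h v + Bg h M v + M v * Ln h v

/-- full perturbation operator -/
def SS (M h : V → ℝ≥0∞) (v : V) : ℝ≥0∞ := KB M h v + (Bg h h v + h v * Ln h v)

/-- data of a global Maxwellian `M` and a Gaussian weight `ζ` -/
structure NE (M ζ : V → ℝ≥0∞) (CK C5 CM : ℝ≥0∞) (ν0 : ℝ) : Prop where
  mM : Measurable M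
  mζ : Measurable ζ
  fM : ∀ v, M v ≠ ⊤
  fζ : ∀ v, ζ v ≠ ⊤
  pM : ∀ v, M v ≠ 0
  pζ : ∀ v, ζ v ≠ 0
  fCK : CK ≠ ⊤
  fC5 : C5 ≠ ⊤
  fCM : CM ≠ ⊤
  pν0 : 0 < ν0
  eqM : ∀ v, Bg M M v = M v * Ln M v
  eqζ : ∀ v, Bg ζ ζ v = ζ v * Ln ζ v
  KBζ : ∀ v, KB M ζ v ≤ CK * ζ v
  Lnζ : ∀ v, Ln ζ v ≤ C5 * Ln M v
  fν : ∀ v, Ln M v ≠ ⊤
  lowν : ∀ v, ENNReal.ofReal ν0 ≤ Ln M v
  Mζ : ∀ v, M v ≤ CM * ζ v
  momζ : Mo 2 ζ ≠ ⊤
  large : ∀ κ : ℝ≥0∞, κ ≠ 0 → ∃ N : ℝ, ∀ v, N < ‖v‖ → 1 ≤ κ * Ln M v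
  lowζ : ∀ N : ℝ, ∃ z : ℝ≥0∞, z ≠ 0 ∧ ∀ v, ‖v‖ ≤ N → z ≤ ζ v
  split : ∀ δ : ℝ≥0∞, δ ≠ 0 → ∀ N : ℝ, ∃ (N' : ℝ) (C : ℝ≥0∞), C ≠ ⊤ ∧
    ∀ h : V → ℝ≥0∞, Measurable h → ∀ r : ℝ≥0∞, (∀ v, h v ≤ r * ζ v) →
    ∀ v, ‖v‖ ≤ N → KB M h v ≤ δ * r + C * ∫⁻ y in {y : V | ‖y‖ ≤ N'}, h y

/-- collision frequency -/
def nu (M : V → ℝ≥0∞) (v : V) : ℝ := (Ln M v).toReal

theorem measurable_Ln {f : V → ℝ≥0∞} (hf : Measurable f) : Measurable (Ln f) := by
  unfold Ln
  exact meas_inner_int2 (meas_LnI hf)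

theorem measurable_Bg {f g : V → ℝ≥0∞} (hf : Measurable f) (hg : Measurable g) :
    Measurable (Bg f g) := by
  unfold Bg
  exact meas_inner_int2 (meas_BgI hf hg)

theorem measurable_nu {M : V → ℝ≥0∞} (hM : Measurable M) : Measurable (nu M) :=
  (measurable_Ln hM).ennreal_toReal

theorem nu_nonneg (M : V → ℝ≥0∞) (v : V) : 0 ≤ nu M v := ENNReal.toReal_nonneg

/-- distance to `M` -/
def hh (M : V → ℝ≥0∞) (F : ℝ → T3 → V → ℝ) : TF :=
  fun t x v => ENNReal.ofReal |F t x v - (M v).toReal|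

theorem measTF_hh {M : V → ℝ≥0∞} (hM : Measurable M) {F : ℝ → T3 → V → ℝ}
    (hF : Measurable fun p : ℝ × T3 × V => F p.1 p.2.1 p.2.2) : MeasTF (hh M F) := by
  unfold MeasTF hh
  exact (hF.sub (hM.ennreal_toReal.comp measurable_snd.snd)).abs.ennreal_ofReal

theorem mul_le_mix {a b c d a' c' : ℝ≥0∞} (h1 : a ≤ a' + b) (h2 : c ≤ c' + d) (ha : a ≠ ⊤)
    (hc : c ≠ ⊤) : a * c ≤ a' * c' + (a * d + b * c) := by
  rcases le_total a b with h | h
  · calc a * c ≤ b * c := by (clear * - h; gcongr)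
      _ ≤ _ := le_trans le_add_self le_add_self
  rcases le_total c d with h' | h'
  · calc a * c ≤ a * d := by (clear * - h'; gcongr)
      _ ≤ _ := le_trans le_self_add le_add_self
  have hb : b ≠ ⊤ := ne_top_of_le_ne_top ha h
  have hd : d ≠ ⊤ := ne_top_of_le_ne_top hc h'
  have h3 : a - b ≤ a' := tsub_le_iff_right.mpr h1
  have h4 : c - d ≤ c' := tsub_le_iff_right.mpr h2
  have h5 : a * c ≤ (a - b) * (c - d) + (a * d + b * c) := by
    calc a * c = ((a - b) + b) * c := by rw [tsub_add_cancel_of_le h]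
      _ = (a - b) * c + b * c := by ring
      _ = (a - b) * ((c - d) + d) + b * c := by rw [tsub_add_cancel_of_le h']
      _ = (a - b) * (c - d) + ((a - b) * d + b * c) := by ring
      _ ≤ (a - b) * (c - d) + (a * d + b * c) := by
          gcongr
          exact tsub_le_self
  refine h5.trans ?_
  (clear * - h3 h4; gcongr)

/-- the collision terms of `f` and of `M` differ by at most `SS M |f - M|` -/
theorem SS_ineq {M ζ : V → ℝ≥0∞} {CK C5 CM : ℝ≥0∞} {ν0 : ℝ} (N : NE M ζ CK C5 CM ν0)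
    {f : V → ℝ} (mf : Measurable f) (nf : ∀ v, 0 ≤ f v) (v : V)
    (hg : gain f v < ⊤) :
    ENNReal.ofReal |nu M v * (f v - (M v).toReal) + ((gain f v).toReal - (loss f v).toReal)| ≤
      SS M (fun w => ENNReal.ofReal |f w - (M w).toReal|) v := by
  set h : V → ℝ≥0∞ := fun w => ENNReal.ofReal |f w - (M w).toReal| with hdef
  set fe : V → ℝ≥0∞ := fun w => ENNReal.ofReal (f w) with hfe
  have mfe : Measurable fe := mf.ennreal_ofReal
  have mh : Measurable h := (mf.sub N.mM.ennreal_toReal).abs.ennreal_ofReal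
  have eM : ∀ w, ENNReal.ofReal (M w).toReal = M w := fun w => ENNReal.ofReal_toReal (N.fM w)
  have h1 : ∀ w, fe w ≤ M w + h w := by
    intro w
    rw [hfe, hdef]
    simp only
    nth_rewrite 1 [← eM w]
    rw [← ENNReal.ofReal_add ENNReal.toReal_nonneg (abs_nonneg _)]
    apply ENNReal.ofReal_le_ofReal
    have := le_abs_self (f w - (M w).toReal)
    linarith only [this]
  have h2 : ∀ w, M w ≤ fe w + h w := by
    intro w
    rw [hfe, hdef]
    simp only
    rw [← ENNReal.ofReal_add (nf w) (abs_nonneg _)]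
    nth_rewrite 1 [← eM w]
    apply ENNReal.ofReal_le_ofReal
    have := neg_abs_le (f w - (M w).toReal)
    linarith only [this]
  by_cases hS : SS M h v = ⊤
  · rw [hS]; exact le_top
  -- finiteness
  have hS' := hS
  unfold SS KB at hS'
  simp only [ENNReal.add_eq_top, not_or] at hS'
  obtain ⟨⟨⟨f1, f2⟩, f3⟩, f4, f5⟩ := hS'
  have f6 : Ln h v ≠ ⊤ := by
    intro hcon
    rw [hcon, ENNReal.mul_top (N.pM v)] at f3
    exact f3 rfl
  have hLn1 : Ln fe v ≤ Ln M v + Ln h v := by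
    rw [← Ln_add N.mM]
    exact Ln_mono h1 v
  have hLn2 : Ln M v ≤ Ln fe v + Ln h v := by
    rw [← Ln_add mfe]
    exact Ln_mono h2 v
  have f7 : Ln fe v ≠ ⊤ := ne_top_of_le_ne_top (ENNReal.add_ne_top.mpr ⟨N.fν v, f6⟩) hLn1
  have eg : gain f v = Bg fe fe v := by rw [gain_eq_Qp nf, Qp_eq_Bg]
  have el : loss f v = fe v * Ln fe v := by rw [loss_eq_Qm nf, Qm_eq_Ln mfe]
  have f8 : Bg fe fe v ≠ ⊤ := by rw [← eg]; exact hg.ne
  -- upper bound for the gain term
  have hU : Bg fe fe v ≤ M v * Ln M v + (Bg M h v + Bg h M v + Bg h h v) := by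
    calc Bg fe fe v ≤ Bg (fun w => M w + h w) (fun w => M w + h w) v := Bg_mono h1 h1 v
      _ = Bg M M v + Bg M h v + (Bg h M v + Bg h h v) := by
          have ms : Measurable fun w => M w + h w := N.mM.add mh
          rw [Bg_add_left N.mM ms, Bg_add_right N.mM N.mM, Bg_add_right mh N.mM]
      _ = _ := by rw [N.eqM]; ring
  have hLo : M v * Ln M v ≤ Bg fe fe v + (Bg M h v + Bg h M v) := by
    rw [← N.eqM]
    have e1 : Bg fe fe v + (Bg M h v + Bg h M v) = ∫⁻ w, ∫⁻ o, (kk v w o * (fe (post v w o) *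
        fe (postStar v w o)) + (kk v w o * (M (post v w o) * h (postStar v w o)) +
        kk v w o * (h (post v w o) * M (postStar v w o)))) ∂surf := by
      have k1 := meas_BgI mfe mfe
      have k2 := meas_BgI N.mM mh
      have k3 := meas_BgI mh N.mM
      unfold Bg
      have a1 : ∀ w, ∫⁻ o, (kk v w o * (fe (post v w o) *
        fe (postStar v w o)) + (kk v w o * (M (post v w o) * h (postStar v w o)) +
        kk v w o * (h (post v w o) * M (postStar v w o)))) ∂surf =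
        (∫⁻ o, kk v w o * (fe (post v w o) * fe (postStar v w o)) ∂surf) +
        ((∫⁻ o, kk v w o * (M (post v w o) * h (postStar v w o)) ∂surf) +
        ∫⁻ o, kk v w o * (h (post v w o) * M (postStar v w o)) ∂surf) := by
        intro w
        rw [lintegral_add_left (meas_sec_o k1 v w), lintegral_add_left (meas_sec_o k2 v w)]
      simp only [a1]
      rw [lintegral_add_left (meas_sec_w k1 v), lintegral_add_left (meas_sec_w k2 v)]
    rw [e1]
    unfold Bg
    gcongr with w o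
    rw [← mul_add, ← mul_add]
    gcongr
    exact mul_le_mix (h2 _) (h2 _) (N.fM _) (N.fM _)
  -- real numbers
  have gM := N.fM v
  have gν := N.fν v
  have eh : ENNReal.ofReal |f v - (M v).toReal| = h v := rfl
  have hhr : (h v).toReal = |f v - (M v).toReal| := by
    rw [← eh, ENNReal.toReal_ofReal (abs_nonneg _)]
  have fhv : h v ≠ ⊤ := by rw [← eh]; exact ENNReal.ofReal_ne_top
  have hfr : (fe v).toReal = f v := ENNReal.toReal_ofReal (nf v)
  have ffe : fe v ≠ ⊤ := ENNReal.ofReal_ne_top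
  have rU := ENNReal.toReal_mono (by
    refine ENNReal.add_ne_top.mpr ⟨ENNReal.mul_ne_top gM gν, ?_⟩
    exact ENNReal.add_ne_top.mpr ⟨ENNReal.add_ne_top.mpr ⟨f1, f2⟩, f4⟩) hU
  have rL := ENNReal.toReal_mono (ENNReal.add_ne_top.mpr ⟨f8, ENNReal.add_ne_top.mpr ⟨f1, f2⟩⟩) hLo
  have r1 := ENNReal.toReal_mono (ENNReal.add_ne_top.mpr ⟨gν, f6⟩) hLn1
  have r2 := ENNReal.toReal_mono (ENNReal.add_ne_top.mpr ⟨f7, f6⟩) hLn2
  rw [ENNReal.toReal_add (ENNReal.mul_ne_top gM gν) (ENNReal.add_ne_top.mpr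
    ⟨ENNReal.add_ne_top.mpr ⟨f1, f2⟩, f4⟩), ENNReal.toReal_add (ENNReal.add_ne_top.mpr ⟨f1, f2⟩) f4,
    ENNReal.toReal_add f1 f2, ENNReal.toReal_mul] at rU
  rw [ENNReal.toReal_add f8 (ENNReal.add_ne_top.mpr ⟨f1, f2⟩), ENNReal.toReal_add f1 f2,
    ENNReal.toReal_mul] at rL
  rw [ENNReal.toReal_add gν f6] at r1
  rw [ENNReal.toReal_add f7 f6] at r2
  have eS : SS M h v = ENNReal.ofReal ((Bg M h v).toReal + (Bg h M v).toReal +
      (M v).toReal * (Ln h v).toReal + ((Bg h h v).toReal + (h v).toReal * (Ln h v).toReal)) := by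
    rw [← ENNReal.toReal_mul, ← ENNReal.toReal_mul, ← ENNReal.toReal_add f1 f2,
      ← ENNReal.toReal_add (ENNReal.add_ne_top.mpr ⟨f1, f2⟩) f3, ← ENNReal.toReal_add f4 f5,
      ← ENNReal.toReal_add (ENNReal.add_ne_top.mpr ⟨ENNReal.add_ne_top.mpr ⟨f1, f2⟩, f3⟩)
        (ENNReal.add_ne_top.mpr ⟨f4, f5⟩), ENNReal.ofReal_toReal]
    · rfl
    · exact hS
  rw [eS, eg, el, ENNReal.toReal_mul, hfr]
  apply ENNReal.ofReal_le_ofReal
  unfold nu
  set G := (Bg fe fe v).toReal
  set lf := (Ln fe v).toReal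
  set lh := (Ln h v).toReal
  set lM := (Ln M v).toReal
  set m := (M v).toReal
  set b1 := (Bg M h v).toReal
  set b2 := (Bg h M v).toReal
  set b3 := (Bg h h v).toReal
  have nb3 : 0 ≤ b3 := ENNReal.toReal_nonneg
  have nb1 : 0 ≤ b1 := ENNReal.toReal_nonneg
  have nb2 : 0 ≤ b2 := ENNReal.toReal_nonneg
  have nlh : 0 ≤ lh := ENNReal.toReal_nonneg
  have nfv := nf v
  have nm : 0 ≤ m := ENNReal.toReal_nonneg
  rw [hhr]
  have hfm : f v ≤ m + |f v - m| := by
    have := le_abs_self (f v - m)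
    linarith only [this]
  have k1 : f v * lM ≤ f v * (lf + lh) := mul_le_mul_of_nonneg_left r2 nfv
  have k2 : f v * lf ≤ f v * (lM + lh) := mul_le_mul_of_nonneg_left r1 nfv
  have k3 : f v * lh ≤ (m + |f v - m|) * lh := mul_le_mul_of_nonneg_right hfm nlh
  rw [abs_le]
  constructor
  · linarith only [k3, k2, nb3, rL]
  · linarith

end Vale.Agent.P140
end
end
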