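import Vale.Agent.P140.Bdl.B9
import Vale.Agent.P140.Bdl.B3
import Vale.Agent.P140.Bdl.B5
attribute [-instance] ProperSMul.toContinuousSMul IsTopologicalTorsor.toContinuousSMul IdemSemiring.toCanonicallyOrderedAdd IdemSemiring.toMulLeftMono IdemSemiring.toMulRightMono AddQuantale.instAddLeftMono AddQuantale.instAddRightMono Quantale.instMulLeftMono Quantale.instMulRightMono FiniteDimensional.rclike_to_real IsScalarTower.complexToReal FiniteDimensional.complexToReal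

set_option linter.all false

attribute [local instance 5000] Vale.Agent.P140.Sc.a01 Vale.Agent.P140.Sc.a02 Vale.Agent.P140.Sc.a03 Vale.Agent.P140.Sc.a04 Vale.Agent.P140.Sc.a05 Vale.Agent.P140.Sc.a06 Vale.Agent.P140.Sc.a07 Vale.Agent.P140.Sc.a08 Vale.Agent.P140.Sc.a09 Vale.Agent.P140.Sc.a10 Vale.Agent.P140.Sc.a11 Vale.Agent.P140.Sc.a12 Vale.Agent.P140.Sc.a13 Vale.Agent.P140.Sc.a14 Vale.Agent.P140.Sc.a15 Vale.Agent.P140.Sc.a16 Vale.Agent.P140.Sc.a17 Vale.Agent.P140.Sc.a18 Vale.Agent.P140.Sc.a19 Vale.Agent.P140.Sc.a20 Vale.Agent.P140.Sc.a21 Vale.Agent.P140.Sc.a22 Vale.Agent.P140.Sc.a23 Vale.Agent.P140.Sc.a24 Vale.Agent.P140.Sc.a25 Vale.Agent.P140.Sc.a26 Vale.Agent.P140.Sc.a27 Vale.Agent.P140.Sc.a28 Vale.Agent.P140.Sc.a29 Vale.Agent.P140.Sc.a30 Vale.Agent.P140.Sc.a31 Vale.Agent.P140.Sc.a32 Vale.Agent.P140.Sc.a33 Vale.Agent.P140.Sc.r01 Vale.Agent.P140.Sc.r02 Vale.Agent.P140.Sc.r03 Vale.Agent.P140.Sc.r04 Vale.Agent.P140.Sc.r05 Vale.Agent.P140.Sc.r06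 Vale.Agent.P140.Sc.r07 Vale.Agent.P140.Sc.r08 Vale.Agent.P140.Sc.r09 Vale.Agent.P140.Sc.r10 Vale.Agent.P140.Sc.r11 Vale.Agent.P140.Sc.r12 Vale.Agent.P140.Sc.r13 Vale.Agent.P140.Sc.r14 Vale.Agent.P140.Sc.r15 Vale.Agent.P140.Sc.r16 Vale.Agent.P140.Sc.r17 Vale.Agent.P140.Sc.r18

section

/-! Large amplitude: translation and smallness in `L¹`. -/

open MeasureTheory Set Filter Metric
open scoped ENNReal Topology NNReal

noncomputable section

namespace Vale.Agent.P140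

theorem TT_trv (u : V) (M ζ h : V → ℝ≥0∞) (v : V) :
    TT (trv u M) (trv u ζ) (trv u h) v = TT M ζ h (v - u) := by
  unfold TT
  rw [Bg_trv, Bg_trv, Ln_trv]
  rfl

theorem nu_trv (u : V) (M : V → ℝ≥0∞) (v : V) : nu (trv u M) v = nu M (v - u) := by
  unfold nu
  rw [Ln_trv]

theorem gau_sub_le {k : ℝ} (hk : 0 < k) (u v : V) :
    gau k (v - u) ≤ ENNReal.ofReal (Real.exp (k * ‖u‖ ^ 2)) * gau (k / 2) v := by
  unfold gau
  rw [← ENNReal.ofReal_mul (by positivity), ← Real.exp_add]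
  apply ENNReal.ofReal_le_ofReal
  rw [Real.exp_le_exp]
  have h1 : ‖v‖ ≤ ‖v - u‖ + ‖u‖ := by
    calc ‖v‖ = ‖(v - u) + u‖ := by rw [sub_add_cancel]
      _ ≤ _ := norm_add_le _ _
  have h2 : ‖v‖ ^ 2 ≤ 2 * ‖v - u‖ ^ 2 + 2 * ‖u‖ ^ 2 := by
    have h3 : ‖v‖ ^ 2 ≤ (‖v - u‖ + ‖u‖) ^ 2 := by
      have := norm_nonneg v
      gcongr
    linarith only [sq_nonneg (‖v - u‖ - ‖u‖), h3]
  linarith only [mul_nonneg (le_of_lt (sub_pos.2 hk)) (sub_nonneg.2 h2)]

theorem LA.translate {M ζ : V → ℝ≥0∞} {CM : ℝ≥0∞} (N : LA M ζ CM) (u : V) :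
    LA (trv u M) (trv u ζ) CM := by
  constructor
  · exact measurable_trv N.mM
  · exact measurable_trv N.mζ
  · intro v; exact N.fM _
  · intro v; exact N.pM _
  · intro v; exact N.ζ1 _
  · exact N.fCM
  · intro v
    rw [Bg_trv, Ln_trv]
    exact N.eqM _
  · intro v
    rw [Ln_trv]
    exact N.fν _
  · intro v
    exact N.Mζ _
  · have h1 : Mo 2 (trv u ζ) ≤ (2 * ph u) ^ 2 * Mo 2 ζ := by
      unfold Mo trv
      have hm : Measurable fun v => ζ v * ph v ^ 2 := N.mζ.mul (measurable_phpow 2)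
      rw [← lintegral_const_mul _ hm, ← lintegral_add_right_eq_self _ u]
      apply lintegral_mono
      intro v
      simp only [add_sub_cancel_right]
      calc ζ v * ph (v + u) ^ 2 ≤ ζ v * (2 * ph u * ph v) ^ 2 := by
            gcongr
            exact ph_add_le u v
        _ = _ := by ring
    exact ne_top_of_le_ne_top (ENNReal.mul_ne_top (ENNReal.pow_ne_top
      (ENNReal.mul_ne_top (by simp) (ph_ne_top u))) N.momζ) h1
  · obtain ⟨k, C, hk, fC, h⟩ := N.ζg
    refine ⟨k / 2, C * ENNReal.ofReal (Real.exp (k * ‖u‖ ^ 2)), by positivity,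
      ENNReal.mul_ne_top fC ENNReal.ofReal_ne_top, fun v => ?_⟩
    rw [mul_assoc]
    exact (h (v - u)).trans (by gcongr; exact gau_sub_le hk u v)
  · intro δ hδ
    obtain ⟨N', C, fC, h⟩ := N.SP δ hδ
    refine ⟨N' + ‖u‖, C, fC, fun g mg r hr v => ?_⟩
    set g' : V → ℝ≥0∞ := fun w => g (w + u) with hg'
    have mg' : Measurable g' := mg.comp (measurable_id.add_const u)
    have eg : g = trv u g' := by
      funext w
      simp [trv, hg']
    have h1 := h g' mg' r (fun w => by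
      have := hr (w + u)
      unfold trv at this
      simpa [hg'] using this) (v - u)
    rw [eg, TT_trv]
    refine h1.trans ?_
    have e1 : (trv u ζ) v = ζ (v - u) := rfl
    rw [e1]
    refine mul_le_mul' (add_le_add le_rfl (mul_le_mul' le_rfl ?_)) le_rfl
    have mB : MeasurableSet {y : V | ‖y‖ ≤ N' + ‖u‖} :=
      measurableSet_le measurable_norm measurable_const
    have mB' : MeasurableSet {y : V | ‖y‖ ≤ N'} := measurableSet_le measurable_norm measurable_const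
    rw [← lintegral_indicator mB, ← lintegral_indicator mB',
      ← lintegral_sub_right_eq_self (({y : V | ‖y‖ ≤ N'}).indicator g') u]
    apply lintegral_mono
    intro y
    simp only [indicator, mem_ofPred_eq]
    split_ifs with h1 h2
    · exact le_rfl
    · exfalso
      apply h2
      have : ‖y‖ ≤ ‖y - u‖ + ‖u‖ := by
        calc ‖y‖ = ‖(y - u) + u‖ := by rw [sub_add_cancel]
          _ ≤ _ := norm_add_le _ _
      linarith
    · exact zero_le
    · exact le_rfl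
  · obtain ⟨N', β, hβ, h⟩ := N.low
    set q : ℝ≥0∞ := ENNReal.ofReal (1 + ‖u‖) with hq
    have pq : q ≠ 0 := (ENNReal.ofReal_pos.mpr (by positivity)).ne'
    have fq : q ≠ ⊤ := ENNReal.ofReal_ne_top
    refine ⟨N' + ‖u‖, β * q⁻¹, mul_ne_zero hβ (ENNReal.inv_ne_zero.mpr fq),
      fun f mf hf v => ?_⟩
    set f' : V → ℝ≥0∞ := fun w => f (w + u) with hf'
    have mf' : Measurable f' := mf.comp (measurable_id.add_const u)
    have ef : f = trv u f' := by
      funext w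
      simp [trv, hf']
    have h1 := h f' mf' (by
      have h2 := (measurePreserving_add_right (volume : Measure V) u).quasiMeasurePreserving.ae hf
      filter_upwards [h2] with w hw hwN
      have h3 := hw (by
        have := norm_add_le w u
        linarith)
      rw [nu_trv] at h3
      have e1 : trv u M (w + u) = M w := by simp [trv]
      rw [e1, add_sub_cancel_right] at h3
      exact h3) (v - u)
    rw [ef, Ln_trv]
    refine le_trans ?_ h1
    have h4 : ENNReal.ofReal ‖v‖ + 1 ≤ q * (ENNReal.ofReal ‖v - u‖ + 1) := by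
      rw [hq, ← ENNReal.ofReal_one, ← ENNReal.ofReal_add (norm_nonneg _) zero_le_one,
        ← ENNReal.ofReal_add (norm_nonneg _) zero_le_one, ← ENNReal.ofReal_mul (by positivity)]
      apply ENNReal.ofReal_le_ofReal
      have : ‖v‖ ≤ ‖v - u‖ + ‖u‖ := by
        calc ‖v‖ = ‖(v - u) + u‖ := by rw [sub_add_cancel]
          _ ≤ _ := norm_add_le _ _
      linarith only [mul_nonneg (norm_nonneg u) (norm_nonneg (v - u)), this]
    calc β * q⁻¹ * (ENNReal.ofReal ‖v‖ + 1) ≤ β * q⁻¹ * (q * (ENNReal.ofReal ‖v - u‖ + 1)) := by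
          gcongr
      _ = β * (q⁻¹ * q) * (ENNReal.ofReal ‖v - u‖ + 1) := by ring
      _ = _ := by rw [ENNReal.inv_mul_cancel pq fq, mul_one]

/-- pointwise bound of the entropy density below a Gaussian -/
theorem entD_large {ρ c k A p : ℝ} (hρ : 0 < ρ) (hA : 0 ≤ A) (hkc : k ≤ 2 * c) (u v : V)
    (hp : 0 ≤ p) (h : |p - Mr ρ c u v| ≤ A * Real.exp (-(k * ‖v - u‖ ^ 2))) :
    entD p (Mr ρ c u v) ≤ 2 * (A / ρ + (2 * c - k)) * (|p - Mr ρ c u v| * (1 + ‖v - u‖ ^ 2)) := by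
  have hM := Mr_pos (c := c) hρ u v
  refine (entD_le hp hM).trans ?_
  have e1 : Real.exp (-(k * ‖v - u‖ ^ 2)) / Real.exp (-(2 * c * ‖v - u‖ ^ 2)) =
      Real.exp ((2 * c - k) * ‖v - u‖ ^ 2) := by
    rw [← Real.exp_sub]
    congr 1
    ring
  have h1 : |p - Mr ρ c u v| / Mr ρ c u v ≤ A / ρ * Real.exp ((2 * c - k) * ‖v - u‖ ^ 2) := by
    calc |p - Mr ρ c u v| / Mr ρ c u v
        ≤ (A * Real.exp (-(k * ‖v - u‖ ^ 2))) / Mr ρ c u v := by gcongr
      _ = A / ρ * (Real.exp (-(k * ‖v - u‖ ^ 2)) / Real.exp (-(2 * c * ‖v - u‖ ^ 2))) := by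
          unfold Mr
          field_simp
      _ = _ := by rw [e1]
  have hx : 0 ≤ (2 * c - k) * ‖v - u‖ ^ 2 := mul_nonneg (by linarith) (by positivity)
  have hq : 0 ≤ |p - Mr ρ c u v| / Mr ρ c u v := by positivity
  have h2 : Real.log (1 + |p - Mr ρ c u v| / Mr ρ c u v) ≤ A / ρ + (2 * c - k) * ‖v - u‖ ^ 2 := by
    have h3 : 1 + |p - Mr ρ c u v| / Mr ρ c u v ≤
        (1 + A / ρ) * Real.exp ((2 * c - k) * ‖v - u‖ ^ 2) := by
      have h4 : 1 ≤ Real.exp ((2 * c - k) * ‖v - u‖ ^ 2) := Real.one_le_exp hx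
      calc 1 + |p - Mr ρ c u v| / Mr ρ c u v
          ≤ Real.exp ((2 * c - k) * ‖v - u‖ ^ 2) +
            A / ρ * Real.exp ((2 * c - k) * ‖v - u‖ ^ 2) := add_le_add h4 h1
        _ = _ := by ring
    calc Real.log (1 + |p - Mr ρ c u v| / Mr ρ c u v)
        ≤ Real.log ((1 + A / ρ) * Real.exp ((2 * c - k) * ‖v - u‖ ^ 2)) :=
          Real.log_le_log (by positivity) h3
      _ = Real.log (1 + A / ρ) + (2 * c - k) * ‖v - u‖ ^ 2 := by
          rw [Real.log_mul (by positivity) (Real.exp_pos _).ne', Real.log_exp]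
      _ ≤ _ := by
          have h5 := Real.log_le_sub_one_of_pos (show 0 < 1 + A / ρ by positivity)
          linarith only [h5]
  have h6 : A / ρ + (2 * c - k) * ‖v - u‖ ^ 2 ≤ (A / ρ + (2 * c - k)) * (1 + ‖v - u‖ ^ 2) := by
    have h7 : 0 ≤ A / ρ := by positivity
    have h8 : 0 ≤ 2 * c - k := by linarith only [hkc]
    have h9 : 0 ≤ ‖v - u‖ ^ 2 := by positivity
    linarith only [mul_nonneg h7 h9, h8]
  calc 2 * |p - Mr ρ c u v| * Real.log (1 + |p - Mr ρ c u v| / Mr ρ c u v)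
      ≤ 2 * |p - Mr ρ c u v| * ((A / ρ + (2 * c - k)) * (1 + ‖v - u‖ ^ 2)) := by
        gcongr
        exact h2.trans h6
    _ = _ := by ring

/-- small `L¹` distance gives small relative entropy below a Gaussian -/
theorem entA_large {ρ c k A : ℝ} (hρ : 0 < ρ) (hk : 0 < k) (hA : 0 ≤ A) (hkc : k ≤ 2 * c) (u : V)
    {σ : ℝ≥0∞} (hσ : σ ≠ 0) : ∃ ε : ℝ, 0 < ε ∧ ∀ f : T3 → V → ℝ,
    Measurable (fun p : T3 × V => f p.1 p.2) → (∀ x v, 0 ≤ f x v) →
    (∀ᵐ p : T3 × V, |f p.1 p.2 - Mr ρ c u p.2| ≤ A * Real.exp (-(k * ‖p.2 - u‖ ^ 2))) →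
    ∫⁻ p : T3 × V, ENNReal.ofReal |f p.1 p.2 - Mr ρ c u p.2| ≤ ENNReal.ofReal ε →
    entA ρ c u f ≤ σ := by
  set K : ℝ := 2 * (A / ρ + (2 * c - k)) with hK
  have hK0 : 0 ≤ K := by
    have : 0 ≤ A / ρ := by positivity
    rw [hK]
    linarith only [this, hkc]
  have hσ2 : σ / 2 ≠ 0 := ENNReal.div_ne_zero.mpr ⟨hσ, by simp⟩
  obtain ⟨d, hd, hd'⟩ := exists_small (K := ENNReal.ofReal K * ENNReal.ofReal A)
    (ENNReal.mul_ne_top ENNReal.ofReal_ne_top ENNReal.ofReal_ne_top) hσ2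
  obtain ⟨N, hN0, hN⟩ := tail_small hk (ENNReal.ofReal_pos.mpr hd).ne'
  obtain ⟨ε, hε, hε'⟩ := exists_small (K := ENNReal.ofReal K * ENNReal.ofReal (1 + N ^ 2))
    (ENNReal.mul_ne_top ENNReal.ofReal_ne_top ENNReal.ofReal_ne_top) hσ2
  refine ⟨ε, hε, fun f mf nf hb hL => ?_⟩
  have mM : Measurable fun p : T3 × V => Mr ρ c u p.2 := (measurable_Mr ρ c u).comp measurable_snd
  have mD : Measurable fun p : T3 × V => ENNReal.ofReal |f p.1 p.2 - Mr ρ c u p.2| :=
    (mf.sub mM).abs.ennreal_ofReal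
  set S : Set V := {y : V | N < ‖y‖} with hS
  have mS : MeasurableSet S := measurableSet_lt measurable_const measurable_norm
  have mt : Measurable fun v : V => (S.indicator fun y => gau k y * ph y) (v - u) := by
    have h1 : Measurable (S.indicator fun y => gau k y * ph y) :=
      ((measurable_gau k).mul measurable_ph).indicator mS
    exact h1.comp (measurable_id.sub_const u)
  have mt2 : Measurable fun p : T3 × V => (S.indicator fun y => gau k y * ph y) (p.2 - u) :=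
    mt.comp measurable_snd
  have e1 : ∫⁻ v : V, (S.indicator fun y => gau k y * ph y) (v - u) ≤ ENNReal.ofReal d := by
    rw [lintegral_sub_right_eq_self (S.indicator fun y => gau k y * ph y) u,
      lintegral_indicator mS]
    exact hN
  have hpt : ∀ᵐ p : T3 × V, ENNReal.ofReal (entD (f p.1 p.2) (Mr ρ c u p.2)) ≤
      (ENNReal.ofReal K * ENNReal.ofReal (1 + N ^ 2)) *
        ENNReal.ofReal |f p.1 p.2 - Mr ρ c u p.2| +
      (ENNReal.ofReal K * ENNReal.ofReal A) *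
        (S.indicator fun y => gau k y * ph y) (p.2 - u) := by
    filter_upwards [hb] with p hp
    have h1 := entD_large hρ hA hkc u p.2 (nf p.1 p.2) hp
    have h2 : ENNReal.ofReal (entD (f p.1 p.2) (Mr ρ c u p.2)) ≤
        ENNReal.ofReal K * (ENNReal.ofReal |f p.1 p.2 - Mr ρ c u p.2| * ph (p.2 - u)) := by
      unfold ph
      rw [← ENNReal.ofReal_mul (abs_nonneg _), ← ENNReal.ofReal_mul hK0]
      exact ENNReal.ofReal_le_ofReal h1
    refine h2.trans ?_
    by_cases hin : N < ‖p.2 - u‖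
    · rw [indicator_of_mem (show p.2 - u ∈ S from hin)]
      refine le_trans ?_ le_add_self
      rw [mul_assoc]
      gcongr ENNReal.ofReal K * ?_
      rw [← mul_assoc]
      gcongr
      unfold gau
      rw [← ENNReal.ofReal_mul hA]
      exact ENNReal.ofReal_le_ofReal hp
    · rw [indicator_of_notMem (show p.2 - u ∉ S from hin), mul_zero, add_zero, mul_assoc]
      gcongr ENNReal.ofReal K * ?_
      rw [mul_comm]
      gcongr
      unfold ph
      apply ENNReal.ofReal_le_ofReal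
      rw [not_lt] at hin
      gcongr
  unfold entA
  calc ∫⁻ p : T3 × V, ENNReal.ofReal (entD (f p.1 p.2) (Mr ρ c u p.2))
      ≤ ∫⁻ p : T3 × V, ((ENNReal.ofReal K * ENNReal.ofReal (1 + N ^ 2)) *
          ENNReal.ofReal |f p.1 p.2 - Mr ρ c u p.2| +
        (ENNReal.ofReal K * ENNReal.ofReal A) *
          (S.indicator fun y => gau k y * ph y) (p.2 - u)) := lintegral_mono_ae hpt
    _ = (ENNReal.ofReal K * ENNReal.ofReal (1 + N ^ 2)) *
          (∫⁻ p : T3 × V, ENNReal.ofReal |f p.1 p.2 - Mr ρ c u p.2|) +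
        (ENNReal.ofReal K * ENNReal.ofReal A) *
          ∫⁻ v : V, (S.indicator fun y => gau k y * ph y) (v - u) := by
        rw [lintegral_add_left (mD.const_mul _), lintegral_const_mul _ mD,
          lintegral_const_mul _ mt2]
        congr 2
        exact lintegral_T3_V mt
    _ ≤ (ENNReal.ofReal K * ENNReal.ofReal (1 + N ^ 2)) * ENNReal.ofReal ε +
        (ENNReal.ofReal K * ENNReal.ofReal A) * ENNReal.ofReal d := by gcongr
    _ ≤ σ / 2 + σ / 2 := by gcongr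
    _ = σ := ENNReal.add_halves σ

/-- **Entropy control of the `L¹` distance, large amplitude.** -/
theorem L1_large {ρ c k A : ℝ} (hρ : 0 < ρ) (hc : 0 < c) (hk : 0 < k) (hA : 0 ≤ A)
    (hkc : k ≤ 2 * c) (u : V) {η : ℝ≥0∞} (hη : η ≠ 0) :
    ∃ ε : ℝ, 0 < ε ∧ ∀ (F0 : T3 → V → ℝ) (F : ℝ → T3 → V → ℝ), IsRenormEntropySol F0 F →
      (∀ᵐ p : T3 × V, |F0 p.1 p.2 - Mr ρ c u p.2| ≤ A * Real.exp (-(k * ‖p.2 - u‖ ^ 2))) →
      ∫⁻ p : T3 × V, ENNReal.ofReal |F0 p.1 p.2 - Mr ρ c u p.2| ≤ ENNReal.ofReal ε →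
      ∀ t, 0 ≤ t → wInt psi2 (F t) = wInt psi2 F0 →
        wDist psi0 (F t) (fun _ v => Mr ρ c u v) ≤ η := by
  have hη2 : η / 2 ≠ 0 := ENNReal.div_ne_zero.mpr ⟨hη, by simp⟩
  set mμ : ℝ≥0∞ := ∫⁻ v, MxE ρ c v with hmμ
  have fμ : mμ ≠ ⊤ := lintegral_MxE_ne_top hc
  obtain ⟨l, hl, hlη⟩ := exists_small (K := 1 + mμ + mμ)
    (ENNReal.add_ne_top.mpr ⟨ENNReal.add_ne_top.mpr ⟨by simp, fμ⟩, fμ⟩) hη2
  obtain ⟨e, he, heη⟩ := exists_small (K := ENNReal.ofReal (1 / (2 * l)))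
    ENNReal.ofReal_ne_top hη2
  obtain ⟨ε, hε, hent⟩ := entA_large hρ hk hA hkc u (ENNReal.ofReal_pos.mpr he).ne'
  refine ⟨min ε 1, lt_min hε one_pos, fun F0 F hF h0 hL t ht hen => ?_⟩
  refine (wDist_le_ent hρ hl u (measurable_t hF t) (hF.nonneg t)).trans ?_
  have mM : Measurable fun p : T3 × V => Mr ρ c u p.2 := (measurable_Mr ρ c u).comp measurable_snd
  have mF0 : Measurable fun p : T3 × V => F0 p.1 p.2 := hF.datum.measurable
  have mD : Measurable fun p : T3 × V => ENNReal.ofReal |F0 p.1 p.2 - Mr ρ c u p.2| :=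
    (mF0.sub mM).abs.ennreal_ofReal
  have hmass : ∫⁻ p : T3 × V, ENNReal.ofReal (F t p.1 p.2) ≤ 1 + mμ := by
    rw [lintegral_mass hF ht]
    calc ∫⁻ p : T3 × V, ENNReal.ofReal (F0 p.1 p.2)
        ≤ ∫⁻ p : T3 × V, (ENNReal.ofReal |F0 p.1 p.2 - Mr ρ c u p.2| +
            ENNReal.ofReal (Mr ρ c u p.2)) := by
          apply lintegral_mono
          intro p
          simp only
          rw [← ENNReal.ofReal_add (abs_nonneg _) (Mr_pos hρ u p.2).le]
          apply ENNReal.ofReal_le_ofReal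
          linarith [le_abs_self (F0 p.1 p.2 - Mr ρ c u p.2)]
      _ = (∫⁻ p : T3 × V, ENNReal.ofReal |F0 p.1 p.2 - Mr ρ c u p.2|) + mμ := by
          rw [lintegral_add_left mD, lintegral_Mr_eq hρ]
      _ ≤ 1 + mμ := by
          gcongr
          refine hL.trans ?_
          rw [← ENNReal.ofReal_one]
          exact ENNReal.ofReal_le_ofReal (min_le_right _ _)
  calc ENNReal.ofReal (1 / (2 * l)) * entA ρ c u (F t) +
        ENNReal.ofReal l * ((∫⁻ p : T3 × V, ENNReal.ofReal (F t p.1 p.2)) + ∫⁻ v, MxE ρ c v)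
      ≤ ENNReal.ofReal (1 / (2 * l)) * ENNReal.ofReal e + ENNReal.ofReal l * ((1 + mμ) + mμ) := by
        gcongr
        refine (entA_le hF hρ u ht hen).trans (hent F0 mF0 hF.datum.nonneg h0 (hL.trans ?_))
        exact ENNReal.ofReal_le_ofReal (min_le_left _ _)
    _ = ENNReal.ofReal (1 / (2 * l)) * ENNReal.ofReal e + (1 + mμ + mμ) * ENNReal.ofReal l := by
        ring
    _ ≤ η / 2 + η / 2 := by gcongr
    _ = η := ENNReal.add_halves η

end Vale.Agent.P140
end
end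

section

/-! Global uniqueness for large amplitudes near a Maxwellian in `L¹`. -/

open MeasureTheory Set Filter Metric
open scoped ENNReal Topology NNReal

noncomputable section

namespace Vale.Agent.P140

theorem gau_le_zg {k κ : ℝ} (h : k < κ) : ∃ C : ℝ≥0∞, C ≠ ⊤ ∧ ∀ v : V, gau κ v ≤ C * zg k v := by
  obtain ⟨C2, fC2, hC2⟩ := ph_pow_gau_le 2 (c := κ - k) (by linarith)
  refine ⟨C2, fC2, fun v => ?_⟩
  have e1 : gau κ v = gau k v * gau (κ - k) v := by
    rw [gau_mul_gau']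
    congr 1
    ring
  have e2 : gau (κ - k) v * ph v ^ 2 ≤ C2 := by
    refine (hC2 v).trans ?_
    calc C2 * gau ((κ - k) / 2) v ≤ C2 * 1 := by
          gcongr
          exact gau_le_one (by linarith) v
      _ = C2 := mul_one C2
  calc gau κ v = (gau k v * gau (κ - k) v) * (pm2 v * ph v ^ 2) := by
        rw [e1, pm2_mul_ph, mul_one]
    _ = (gau (κ - k) v * ph v ^ 2) * (gau k v * pm2 v) := by ring
    _ ≤ C2 * (gau k v * pm2 v) := by gcongr
    _ = _ := rfl

/-- a Gaussian bound gives closeness to the Maxwellian in the weight -/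
theorem large_datum {ρ c k κ : ℝ} (A : ℝ) (hρ : 0 < ρ) (hκ : 0 < κ) (hkκ : k < κ / 2)
    (hkc : k < 2 * c) (u : V) : ∃ A' : ℝ≥0∞, A' ≠ ⊤ ∧ ∀ (p : ℝ) (v : V), 0 ≤ p →
    p ≤ A * Real.exp (-(κ * ‖v‖ ^ 2)) → ENNReal.ofReal |p - Mr ρ c u v| ≤ A' * trv u (zg k) v := by
  obtain ⟨C1, fC1, hC1⟩ := gau_le_zg hkκ
  obtain ⟨C2, fC2, hC2⟩ := gau_le_zg hkc
  refine ⟨ENNReal.ofReal A * (ENNReal.ofReal (Real.exp (κ * ‖u‖ ^ 2)) * C1) + ENNReal.ofReal ρ * C2,
    ENNReal.add_ne_top.mpr ⟨ENNReal.mul_ne_top ENNReal.ofReal_ne_top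
      (ENNReal.mul_ne_top ENNReal.ofReal_ne_top fC1), ENNReal.mul_ne_top ENNReal.ofReal_ne_top fC2⟩,
    fun p v hp h => ?_⟩
  have h1 : ENNReal.ofReal p ≤ ENNReal.ofReal A *
      (ENNReal.ofReal (Real.exp (κ * ‖u‖ ^ 2)) * C1) * zg k (v - u) := by
    have g1 := gau_sub_le hκ (-u) (v - u)
    have e1 : v - u - -u = v := by abel
    rw [e1, norm_neg] at g1
    calc ENNReal.ofReal p ≤ ENNReal.ofReal (A * Real.exp (-(κ * ‖v‖ ^ 2))) :=
          ENNReal.ofReal_le_ofReal h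
      _ = ENNReal.ofReal A * gau κ v := ENNReal.ofReal_mul' (Real.exp_pos _).le
      _ ≤ ENNReal.ofReal A * (ENNReal.ofReal (Real.exp (κ * ‖u‖ ^ 2)) * (C1 * zg k (v - u))) := by
          gcongr
          refine g1.trans ?_
          gcongr
          exact hC1 (v - u)
      _ = _ := by ring
  have h2 : ENNReal.ofReal (Mr ρ c u v) ≤ ENNReal.ofReal ρ * C2 * zg k (v - u) := by
    rw [ofReal_Mr hρ]
    unfold trv MxE
    rw [mul_assoc]
    gcongr
    exact hC2 (v - u)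
  have h3 : ENNReal.ofReal |p - Mr ρ c u v| ≤ ENNReal.ofReal p + ENNReal.ofReal (Mr ρ c u v) := by
    have hM := (Mr_pos (c := c) hρ u v).le
    rw [← ENNReal.ofReal_add hp hM]
    apply ENNReal.ofReal_le_ofReal
    rw [abs_le]
    constructor <;> linarith
  refine h3.trans ?_
  rw [add_mul]
  exact add_le_add h1 h2

/-- **Solutions with data below a Gaussian and close to a Maxwellian in `L¹` stay below a
Gaussian.** -/
theorem renorm_large_bound {ρ c : ℝ} (hρ : 0 < ρ) (hc : 0 < c) (u : V) {κ : ℝ} (A : ℝ)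
    (hκ : 0 < κ) : ∃ ε : ℝ, 0 < ε ∧ ∃ (k R : ℝ), 0 < k ∧ ∀ (F0 : T3 → V → ℝ) (F : ℝ → T3 → V → ℝ),
      (∀ᵐ p : T3 × V, F0 p.1 p.2 ≤ A * Real.exp (-(κ * ‖p.2‖ ^ 2))) →
      ∫⁻ p : T3 × V, ENNReal.ofReal |F0 p.1 p.2 - Mr ρ c u p.2| ≤ ENNReal.ofReal ε →
      IsRenormEntropySol F0 F →
      ∀ T, ∀ᵐ t ∂(volume.restrict (Ioc 0 T)), ∀ᵐ p : T3 × V,
        F t p.1 p.2 ≤ R * Real.exp (-(k * ‖p.2 - u‖ ^ 2)) := by
  set k : ℝ := min (κ / 4) c with hk
  have hkp : 0 < k := lt_min (by positivity) hc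
  have hkκ : k < κ / 2 := (min_le_left _ _).trans_lt (by linarith)
  have hkc : k < 2 * c := (min_le_right _ _).trans_lt (by linarith)
  obtain ⟨A', fA', hA'⟩ := large_datum A hρ hκ hkκ hkc u
  obtain ⟨CM, N0⟩ := la_gau hρ hkp hkc
  have N := N0.translate u
  obtain ⟨r, η, fr, hη, hmain⟩ := N.global fA'
  obtain ⟨ε, hε, hL⟩ := L1_large (k := k) (A := A'.toReal) hρ hc hkp ENNReal.toReal_nonneg hkc.le u hη
  refine ⟨ε, hε, k, (CM + r).toReal, hkp, fun F0 F hd hd1 hF T => ?_⟩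
  have fCr : CM + r ≠ ⊤ := ENNReal.add_ne_top.mpr ⟨N.fCM, fr⟩
  have hfun : (fun (_ : T3) v => (trv u (MxE ρ c) v).toReal) = fun _ v => Mr ρ c u v := by
    funext x v
    exact toReal_trv_MxE hρ u v
  have hdat : ∀ᵐ p : T3 × V, ENNReal.ofReal |F0 p.1 p.2 - Mr ρ c u p.2| ≤
      A' * trv u (zg k) p.2 := by
    filter_upwards [hd] with p hp
    exact hA' _ _ (hF.datum.nonneg _ _) hp
  have hn := hmain F0 F (isMild_of_renorm hF) (wInt2_datum hF.datum) ?_ ?_ ?_ ?_ T
  · filter_upwards [hn] with t ht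
    filter_upwards [ht] with p hp
    rw [toReal_trv_MxE hρ] at hp
    have hFn := hF.nonneg t p.1 p.2
    have h1 : ENNReal.ofReal (F t p.1 p.2) ≤ (CM + r) * trv u (zg k) p.2 := by
      have h2 : ENNReal.ofReal (F t p.1 p.2) ≤ ENNReal.ofReal (Mr ρ c u p.2) +
          ENNReal.ofReal |F t p.1 p.2 - Mr ρ c u p.2| := by
        rw [← ENNReal.ofReal_add (Mr_pos hρ u p.2).le (abs_nonneg _)]
        apply ENNReal.ofReal_le_ofReal
        linarith [le_abs_self (F t p.1 p.2 - Mr ρ c u p.2)]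
      refine h2.trans ?_
      rw [add_mul, ofReal_Mr hρ]
      exact add_le_add (N.Mζ _) hp
    have h3 : ENNReal.ofReal (F t p.1 p.2) ≤
        ENNReal.ofReal ((CM + r).toReal * Real.exp (-(k * ‖p.2 - u‖ ^ 2))) := by
      refine h1.trans ?_
      rw [ENNReal.ofReal_mul ENNReal.toReal_nonneg, ENNReal.ofReal_toReal fCr]
      gcongr
      exact zg_le_gau k (p.2 - u)
    exact (ENNReal.ofReal_le_ofReal_iff (mul_nonneg ENNReal.toReal_nonneg (Real.exp_pos _).le)).mp h3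
  · filter_upwards [hdat] with p hp
    rw [toReal_trv_MxE hρ]
    exact hp
  · intro T
    filter_upwards [ae_restrict_mem measurableSet_Ioc] with t ht
    exact wInt2_le hF ht.1.le
  · intro T
    filter_upwards [ae_restrict_mem measurableSet_Ioc] with t ht
    exact (wInt0_eq hF ht.1.le).le
  · intro T
    filter_upwards [ae_restrict_mem measurableSet_Ioc] with t ht hw
    rw [hfun]
    refine hL F0 F hF ?_ hd1 t ht.1.le hw
    filter_upwards [hdat] with p hp
    have h4 : ENNReal.ofReal |F0 p.1 p.2 - Mr ρ c u p.2| ≤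
        ENNReal.ofReal (A'.toReal * Real.exp (-(k * ‖p.2 - u‖ ^ 2))) := by
      refine hp.trans ?_
      rw [ENNReal.ofReal_mul ENNReal.toReal_nonneg, ENNReal.ofReal_toReal fA']
      gcongr
      exact zg_le_gau k (p.2 - u)
    exact (ENNReal.ofReal_le_ofReal_iff (mul_nonneg ENNReal.toReal_nonneg (Real.exp_pos _).le)).mp h4

theorem Mo_gauss {k : ℝ} (hk : 0 < k) (u : V) (R : ℝ) :
    Mo 2 (fun v => ENNReal.ofReal (R * Real.exp (-(k * ‖v - u‖ ^ 2)))) ≠ ⊤ := by
  have h : Mo 2 (fun v => ENNReal.ofReal (R * Real.exp (-(k * ‖v - u‖ ^ 2)))) ≤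
      (ENNReal.ofReal R * ENNReal.ofReal (Real.exp (k * ‖u‖ ^ 2))) * Mo 2 (gau (k / 2)) := by
    rw [← Mo_const_mul (measurable_gau _)]
    apply Mo_le_of_le
    intro v
    rw [ENNReal.ofReal_mul' (Real.exp_pos _).le, mul_assoc]
    gcongr
    exact gau_sub_le hk u v
  exact ne_top_of_le_ne_top (ENNReal.mul_ne_top (ENNReal.mul_ne_top ENNReal.ofReal_ne_top
    ENNReal.ofReal_ne_top) (Mo_gau 2 (by positivity))) h

theorem integrable_gauss {k : ℝ} (hk : 0 < k) (u : V) (R : ℝ) :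
    Integrable fun p : T3 × V => R * Real.exp (-(k * ‖p.2 - u‖ ^ 2)) := by
  have h := (integrable_Mr one_pos (half_pos hk) u).const_mul R
  refine h.congr (Eventually.of_forall fun p => ?_)
  simp only [Mr, one_mul]
  congr 3
  ring

/-- **Global uniqueness for large amplitudes.** Data below a Gaussian which are close to a global
Maxwellian in `L¹` have at most one renormalized entropy solution, and it stays below a
Gaussian. -/
theorem renorm_large_unique {ρ c : ℝ} (hρ : 0 < ρ) (hc : 0 < c) (u : V) {κ : ℝ} (A : ℝ)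
    (hκ : 0 < κ) : ∃ ε : ℝ, 0 < ε ∧ ∃ (k R : ℝ), 0 < k ∧ ∀ (F0 : T3 → V → ℝ) (F : ℝ → T3 → V → ℝ),
      (∀ᵐ p : T3 × V, F0 p.1 p.2 ≤ A * Real.exp (-(κ * ‖p.2‖ ^ 2))) →
      ∫⁻ p : T3 × V, ENNReal.ofReal |F0 p.1 p.2 - Mr ρ c u p.2| ≤ ENNReal.ofReal ε →
      IsRenormEntropySol F0 F →
      (∀ t, 0 ≤ t → ∀ᵐ p : T3 × V, F t p.1 p.2 ≤ R * Real.exp (-(k * ‖p.2 - u‖ ^ 2))) ∧
      ∀ G, IsRenormEntropySol F0 G → ∀ t, 0 ≤ t → ∀ᵐ p : T3 × V, F t p.1 p.2 = G t p.1 p.2 := by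
  obtain ⟨ε, hε, k, R, hk, h⟩ := renorm_large_bound hρ hc u A hκ
  refine ⟨ε, hε, k, R, hk, fun F0 F hd hd1 hF => ⟨fun t ht => ?_, fun G hG t ht => ?_⟩⟩
  · have mg : Measurable fun p : T3 × V => R * Real.exp (-(k * ‖p.2 - u‖ ^ 2)) := by
      have h1 : Measurable fun v : V => R * Real.exp (-(k * ‖v - u‖ ^ 2)) := by
        fun_prop
      exact h1.comp measurable_snd
    exact renorm_le_all hF mg (integrable_gauss hk u R) ht (h F0 F hd hd1 hF (t + 1))
  · refine renorm_unique_of_le (by linarith : 0 < t + 1) (Mo_gauss hk u R) hF hG ?_ t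
      ⟨ht, by linarith⟩
    filter_upwards [h F0 F hd hd1 hF (t + 1)] with s hs
    filter_upwards [hs] with p hp
    exact ENNReal.ofReal_le_ofReal hp

end Vale.Agent.P140
end
end

section

/-!
Stability in terms of the minimum of two solutions, and comparison with functions which are
absolutely continuous along characteristics.
-/

open MeasureTheory Set Filter
open scoped ENNReal Topology NNReal

noncomputable section

namespace Vale.Agent.P140

/-- minimum of two absolutely continuous functions -/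
theorem one_dim_min {f g : ℝ → ℝ} {f0 g0 : ℝ} {gf lf gg lg : ℝ → ℝ≥0∞} {T : ℝ}
    (hf : Measurable f) (hg : Measurable g)
    (mgf : Measurable gf) (mlf : Measurable lf) (mgg : Measurable gg) (mlg : Measurable lg)
    (igf : ∫⁻ s in Ioc 0 T, gf s < ⊤) (ilf : ∫⁻ s in Ioc 0 T, lf s < ⊤)
    (igg : ∫⁻ s in Ioc 0 T, gg s < ⊤) (ilg : ∫⁻ s in Ioc 0 T, lg s < ⊤)
    (ef : ∀ᵐ t ∂(volume.restrict (Ioc 0 T)), f t = f0 + ∫ s in Ioc 0 t, ((gf s).toReal - (lf s).toReal))
    (eg : ∀ᵐ t ∂(volume.restrict (Ioc 0 T)), g t = g0 + ∫ s in Ioc 0 t, ((gg s).toReal - (lg s).toReal))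
    {τ t : ℝ} (hτ : 0 ≤ τ) (hτt : τ ≤ t) (htT : t ≤ T)
    (p1 : 0 ≤ f0 + ∫ s in Ioc 0 τ, ((gf s).toReal - (lf s).toReal))
    (p2 : 0 ≤ f0 + ∫ s in Ioc 0 t, ((gf s).toReal - (lf s).toReal))
    (q1 : 0 ≤ g0 + ∫ s in Ioc 0 τ, ((gg s).toReal - (lg s).toReal))
    (q2 : 0 ≤ g0 + ∫ s in Ioc 0 t, ((gg s).toReal - (lg s).toReal)) :
    ENNReal.ofReal (min (f0 + ∫ s in Ioc 0 t, ((gf s).toReal - (lf s).toReal))
        (g0 + ∫ s in Ioc 0 t, ((gg s).toReal - (lg s).toReal)))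
      + ((∫⁻ s in Ioc τ t, (if g s < f s then lg s else 0)) +
        ∫⁻ s in Ioc τ t, (if g s < f s then 0 else lf s))
    = ENNReal.ofReal (min (f0 + ∫ s in Ioc 0 τ, ((gf s).toReal - (lf s).toReal))
        (g0 + ∫ s in Ioc 0 τ, ((gg s).toReal - (lg s).toReal)))
      + ((∫⁻ s in Ioc τ t, (if g s < f s then gg s else 0)) +
        ∫⁻ s in Ioc τ t, (if g s < f s then 0 else gf s)) := by
  have Sind : MeasurableSet {s | g s < f s} := measurableSet_lt hg hf
  have hsub : Ioc τ t ⊆ Ioc 0 T := Ioc_subset_Ioc hτ htT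
  have A1 := one_dim_lin mgf mlf igf ilf hτ hτt htT p1 p2
  have A2 := one_dim_pos hf hg mgf mlf mgg mlg igf ilf igg ilg ef eg hτ hτt htT
  rw [← ofReal_min_add (a := f0 + ∫ s in Ioc 0 t, ((gf s).toReal - (lf s).toReal)) q2,
    ← ofReal_min_add (a := f0 + ∫ s in Ioc 0 τ, ((gf s).toReal - (lf s).toReal)) q1] at A1
  set mt := ENNReal.ofReal (min (f0 + ∫ s in Ioc 0 t, ((gf s).toReal - (lf s).toReal))
        (g0 + ∫ s in Ioc 0 t, ((gg s).toReal - (lg s).toReal)))
  set mτ := ENNReal.ofReal (min (f0 + ∫ s in Ioc 0 τ, ((gf s).toReal - (lf s).toReal))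
        (g0 + ∫ s in Ioc 0 τ, ((gg s).toReal - (lg s).toReal)))
  set Pt := ENNReal.ofReal ((f0 + ∫ s in Ioc 0 t, ((gf s).toReal - (lf s).toReal))
        - (g0 + ∫ s in Ioc 0 t, ((gg s).toReal - (lg s).toReal))) with hPt
  set Pτ := ENNReal.ofReal ((f0 + ∫ s in Ioc 0 τ, ((gf s).toReal - (lf s).toReal))
        - (g0 + ∫ s in Ioc 0 τ, ((gg s).toReal - (lg s).toReal)))
  have hm : ∀ {k : ℝ → ℝ≥0∞}, Measurable k → Measurable fun s => if g s < f s then k s else 0 :=
    fun hk => Measurable.ite Sind hk measurable_const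
  have hm' : ∀ {k : ℝ → ℝ≥0∞}, Measurable k → Measurable fun s => if g s < f s then 0 else k s :=
    fun hk => Measurable.ite Sind measurable_const hk
  have hspl : ∀ {k : ℝ → ℝ≥0∞}, Measurable k → ∫⁻ s in Ioc τ t, k s =
      (∫⁻ s in Ioc τ t, (if g s < f s then k s else 0)) +
        ∫⁻ s in Ioc τ t, (if g s < f s then 0 else k s) := by
    intro k hk
    rw [← lintegral_add_left (hm hk)]
    apply lintegral_congr
    intro s
    split_ifs <;> simp
  have hadd : ∀ {k j : ℝ → ℝ≥0∞}, Measurable k → Measurable j →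
      ∫⁻ s in Ioc τ t, (if g s < f s then k s + j s else 0) =
      (∫⁻ s in Ioc τ t, (if g s < f s then k s else 0)) +
        ∫⁻ s in Ioc τ t, (if g s < f s then j s else 0) := by
    intro k j hk hj
    rw [← lintegral_add_left (hm hk)]
    apply lintegral_congr
    intro s
    split_ifs <;> simp
  have hfin : ∀ {k : ℝ → ℝ≥0∞}, ∫⁻ s in Ioc 0 T, k s < ⊤ →
      ∫⁻ s in Ioc τ t, (if g s < f s then k s else 0) ≠ ⊤ := by
    intro k hk
    refine ne_top_of_le_ne_top (ne_top_of_le_ne_top hk.ne (lintegral_mono_set hsub)) ?_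
    apply lintegral_mono
    intro s
    simp only
    split_ifs
    · exact le_rfl
    · exact zero_le
  rw [hspl mlf, hspl mgf] at A1
  rw [hadd mlf mgg, hadd mgf mlg] at A2
  set a := ∫⁻ s in Ioc τ t, (if g s < f s then lf s else 0)
  set a' := ∫⁻ s in Ioc τ t, (if g s < f s then 0 else lf s)
  set b := ∫⁻ s in Ioc τ t, (if g s < f s then gf s else 0)
  set b' := ∫⁻ s in Ioc τ t, (if g s < f s then 0 else gf s)
  set c := ∫⁻ s in Ioc τ t, (if g s < f s then gg s else 0)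
  set d := ∫⁻ s in Ioc τ t, (if g s < f s then lg s else 0)
  have hX : Pt + (a + c) ≠ ⊤ := ENNReal.add_ne_top.mpr ⟨ENNReal.ofReal_ne_top,
    ENNReal.add_ne_top.mpr ⟨hfin ilf, hfin igg⟩⟩
  have h1 : (mt + (d + a')) + (Pt + (a + c)) = (mτ + (c + b')) + (Pt + (a + c)) := by
    calc (mt + (d + a')) + (Pt + (a + c)) = (mt + Pt + (a + a')) + (c + d) := by ring
      _ = (mτ + Pτ + (b + b')) + (c + d) := by rw [A1]
      _ = (mτ + (c + b')) + (Pτ + (b + d)) := by ring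
      _ = _ := by rw [A2]
  exact (ENNReal.add_left_inj hX).mp h1

/-- a function absolutely continuous along characteristics, with gain `gH` and loss `lH` -/
structure IsAC (T : ℝ) (H0 : T3 → V → ℝ) (H : ℝ → T3 → V → ℝ) (gH lH : ℝ × T3 × V → ℝ≥0∞) :
    Prop where
  measurable0 : Measurable fun p : T3 × V => H0 p.1 p.2
  nonneg0 : ∀ x v, 0 ≤ H0 x v
  measurable : Measurable fun p : ℝ × T3 × V => H p.1 p.2.1 p.2.2
  nonneg : ∀ t x v, 0 ≤ H t x v
  mg : Measurable gH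
  ml : Measurable lH
  gain_fin : ∀ᵐ p : T3 × V, ∫⁻ s in Ioc 0 T, gH (s, p) < ⊤
  loss_fin : ∀ᵐ p : T3 × V, ∫⁻ s in Ioc 0 T, lH (s, p) < ⊤
  mild : ∀ᵐ p : T3 × V, ∀ᵐ t ∂(volume.restrict (Ioc 0 T)),
    along H (t, p) = H0 p.1 p.2 + ∫ s in Ioc 0 t, ((gH (s, p)).toReal - (lH (s, p)).toReal)

theorem IsMild.isAC {T : ℝ} {F0 : T3 → V → ℝ} {F : ℝ → T3 → V → ℝ} (h : IsMild T F0 F) :
    IsAC T F0 F (gainA F) (lossA F) :=
  ⟨h.measurable0, h.nonneg0, h.measurable, h.nonneg, measurable_gainA h.measurable,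
    measurable_lossA h.measurable, h.gain_fin, h.loss_fin, h.mild⟩

/-- the representative along characteristics -/
def barA (H0 : T3 → V → ℝ) (gH lH : ℝ × T3 × V → ℝ≥0∞) (t : ℝ) (p : T3 × V) : ℝ :=
  H0 p.1 p.2 + ∫ s in Ioc 0 t, ((gH (s, p)).toReal - (lH (s, p)).toReal)

variable {T : ℝ} {F0 H0 : T3 → V → ℝ} {F H : ℝ → T3 → V → ℝ} {gH lH : ℝ × T3 × V → ℝ≥0∞}
  {ψ : V → ℝ≥0∞} {k : TF}

theorem IsAC.measurable_bar (h : IsAC T H0 H gH lH) :
    Measurable fun q : ℝ × T3 × V => barA H0 gH lH q.1 q.2 := by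
  unfold barA
  apply Measurable.add
  · exact h.measurable0.comp measurable_snd
  · have h2 : Measurable fun q : ℝ × (T3 × V) => (gH q).toReal - (lH q).toReal :=
      h.mg.ennreal_toReal.sub h.ml.ennreal_toReal
    exact measurable_primitive h2

theorem IsAC.measurable_bar' (h : IsAC T H0 H gH lH) (t : ℝ) :
    Measurable fun p : T3 × V => barA H0 gH lH t p :=
  h.measurable_bar.comp (by fun_prop : Measurable fun p : T3 × V => (t, p))

/-- good times -/
theorem IsAC.good (h : IsAC T H0 H gH lH) :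
    ∀ᵐ t ∂(volume.restrict (Ioc 0 T)), ∀ᵐ p : T3 × V, along H (t, p) = barA H0 gH lH t p := by
  have h0 := h.mild
  have hm : MeasurableSet {q : ℝ × T3 × V | along H q = barA H0 gH lH q.1 q.2} :=
    measurableSet_eq_fun (measurable_along h.measurable) h.measurable_bar
  have h1 : ∀ᵐ z ∂((volume : Measure (T3 × V)).prod (volume.restrict (Ioc 0 T))),
      along H (z.2, z.1) = barA H0 gH lH z.2 z.1 := by
    rw [Measure.ae_prod_iff_ae_ae (p := fun z : (T3 × V) × ℝ => along H (z.2, z.1) =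
      barA H0 gH lH z.2 z.1) (measurable_swap hm)]
    exact h0
  have h2 := (Measure.measurePreserving_swap (μ := (volume.restrict (Ioc 0 T)))
    (ν := (volume : Measure (T3 × V)))).quasiMeasurePreserving.ae h1
  exact (Measure.ae_ae_of_ae_prod h2 :)

theorem IsAC.tendsto (hT : 0 < T) (h : IsAC T H0 H gH lH) :
    ∀ᵐ p : T3 × V, Tendsto (fun t => barA H0 gH lH t p) (𝓝[>] 0) (𝓝 (H0 p.1 p.2)) := by
  filter_upwards [h.gain_fin, h.loss_fin] with p h1 h2
  have hpm : Measurable fun t : ℝ => (t, p) := by fun_prop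
  have i1 : IntegrableOn (fun s => (gH (s, p)).toReal - (lH (s, p)).toReal) (Ioc 0 T) :=
    (integrableOn_toReal (h.mg.comp hpm) h1).sub (integrableOn_toReal (h.ml.comp hpm) h2)
  have i2 : IntervalIntegrable (fun s => (gH (s, p)).toReal - (lH (s, p)).toReal) volume 0 T := by
    rw [intervalIntegrable_iff_integrableOn_Ioc_of_le hT.le]
    exact i1
  have hc := (ac_primitive i2 (H0 p.1 p.2)).continuousOn
  rw [uIcc_of_le hT.le] at hc
  have h3 := hc 0 ⟨le_rfl, hT.le⟩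
  have h4 : Tendsto (fun t => H0 p.1 p.2 + ∫ s in (0:ℝ)..t, ((gH (s, p)).toReal - (lH (s, p)).toReal))
      (𝓝[>] 0) (𝓝 (H0 p.1 p.2)) := by
    have h5 := h3.tendsto
    rw [intervalIntegral.integral_same, add_zero] at h5
    apply h5.mono_left
    rw [nhdsWithin_le_iff]
    filter_upwards [Ioc_mem_nhdsGT hT] with t ht
    exact ⟨ht.1.le, ht.2⟩
  refine h4.congr' ?_
  filter_upwards [self_mem_nhdsWithin] with t ht
  unfold barA
  rw [intervalIntegral.integral_of_le (le_of_lt ht)]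

/-- the cross term at a point -/
def crT (m : ℝ → T3 → V → ℝ) (k : TF) (q : ℝ × T3 × V) : ℝ≥0∞ :=
  ENNReal.ofReal (m q.1 q.2.1 q.2.2) * Ln (k q.1 q.2.1) q.2.2

theorem measurable_crT {m : ℝ → T3 → V → ℝ} (hm : Measurable fun p : ℝ × T3 × V => m p.1 p.2.1 p.2.2)
    (mk : MeasTF k) : Measurable (crT m k) := by
  unfold crT
  apply Measurable.mul hm.ennreal_ofReal
  have h2 : MeasTF (fun t x v => Ln (k t x) v) := by
    apply MeasTF.of_assoc
    exact joint_Ln (α := ℝ × T3) (f := fun q w => k q.1 q.2 w) mk.assoc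
  exact h2

theorem loss_eq_Ln {f : V → ℝ} (hf : ∀ v, 0 ≤ f v) (v : V) :
    loss f v = ENNReal.ofReal (f v) * Ln (fun w => ENNReal.ofReal (f w)) v := by
  rw [loss_eq hf]
  unfold Ln eR
  rw [← lintegral_const_mul' _ _ ENNReal.ofReal_ne_top]
  apply lintegral_congr
  intro w
  rw [← lintegral_const_mul' _ _ ENNReal.ofReal_ne_top]
  apply lintegral_congr
  intro o
  ring

/-- where `F ≤ H` the loss of `F` is controlled by the loss of the minimum and the cross term -/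
theorem loss_le_min {f h : V → ℝ} {κ : V → ℝ≥0∞} (hf : Measurable f) (hh : Measurable h)
    (f0 : ∀ v, 0 ≤ f v) (h0 : ∀ v, 0 ≤ h v) (hk : ∀ v, ENNReal.ofReal (f v - h v) ≤ κ v) {v : V}
    (hv : f v ≤ h v) : loss f v ≤ loss (fun w => min (f w) (h w)) v +
      ENNReal.ofReal (min (f v) (h v)) * Ln κ v := by
  have hm0 : ∀ w, 0 ≤ min (f w) (h w) := fun w => le_min (f0 w) (h0 w)
  rw [loss_eq_Ln f0, loss_eq_Ln hm0, min_eq_left hv, ← mul_add,
    ← Ln_add (hf.min hh).ennreal_ofReal]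
  gcongr
  apply Ln_mono
  intro w
  rw [← ofReal_min_add (a := f w) (h0 w)]
  gcongr
  exact hk w

theorem gain_min_le {f h : V → ℝ} (f0 : ∀ v, 0 ≤ f v) (h0 : ∀ v, 0 ≤ h v) (v : V) :
    gain (fun w => min (f w) (h w)) v ≤ gain f v := by
  have hm0 : ∀ w, 0 ≤ min (f w) (h w) := fun w => le_min (f0 w) (h0 w)
  rw [gain_eq hm0, gain_eq f0]
  apply lintegral_mono
  intro w
  apply lintegral_mono
  intro o
  simp only
  unfold eR
  gcongr
  · exact min_le_left _ _
  · exact min_le_left _ _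

/-- evolution of the minimum on one characteristic -/
theorem min_char (hF : IsMild T F0 F) (hH : IsAC T H0 H gH lH) (mk : MeasTF k)
    (hk : ∀ t x v, ENNReal.ofReal (F t x v - H t x v) ≤ k t x v)
    (hB : ∀ᵐ p : T3 × V, ∀ᵐ s ∂(volume.restrict (Ioc 0 T)), along H (s, p) < along F (s, p) →
      lH (s, p) + gainA (minF F H) (s, p) ≤
        gH (s, p) + (lossA (minF F H) (s, p) + crT (minF F H) k (stFlow (s, p))))
    {τ t : ℝ} (hτ : 0 ≤ τ) (hτt : τ ≤ t) (htT : t ≤ T)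
    (p1 : ∀ᵐ p : T3 × V, 0 ≤ bar F0 F τ p) (p2 : ∀ᵐ p : T3 × V, 0 ≤ bar F0 F t p)
    (q1 : ∀ᵐ p : T3 × V, 0 ≤ barA H0 gH lH τ p) (q2 : ∀ᵐ p : T3 × V, 0 ≤ barA H0 gH lH t p) :
    ∀ᵐ p : T3 × V, ENNReal.ofReal (min (bar F0 F τ p) (barA H0 gH lH τ p)) +
      (∫⁻ s in Ioc τ t, gainA (minF F H) (s, p)) ≤
      ENNReal.ofReal (min (bar F0 F t p) (barA H0 gH lH t p)) +
      ((∫⁻ s in Ioc τ t, lossA (minF F H) (s, p)) +
        ∫⁻ s in Ioc τ t, crT (minF F H) k (stFlow (s, p))) := by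
  have mm : Measurable fun p : ℝ × T3 × V => minF F H p.1 p.2.1 p.2.2 :=
    hF.measurable.min hH.measurable
  have mcr : Measurable fun q : ℝ × T3 × V => crT (minF F H) k (stFlow q) :=
    (measurable_crT mm mk).comp measurable_stFlow
  filter_upwards [hF.gain_fin, hF.loss_fin, hH.gain_fin, hH.loss_fin, hF.mild, hH.mild, p1, p2,
    q1, q2, hB] with p h1 h2 h3 h4 h5 h6 c1 c2 c3 c4 hBp
  have hpm : Measurable fun t : ℝ => (t, p) := by fun_prop
  have mf := (measurable_along hF.measurable).comp hpm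
  have mg := (measurable_along hH.measurable).comp hpm
  have Sind : MeasurableSet {s | along H (s, p) < along F (s, p)} := measurableSet_lt mg mf
  have h := one_dim_min (f := fun t => along F (t, p)) (g := fun t => along H (t, p)) mf mg
    ((measurable_gainA hF.measurable).comp hpm) ((measurable_lossA hF.measurable).comp hpm)
    (hH.mg.comp hpm) (hH.ml.comp hpm)
    h1 h2 h3 h4 h5 h6 hτ hτt htT c1 c2 c3 c4
  simp only [Function.comp_def] at h
  have hsub : Ioc τ t ⊆ Ioc 0 T := Ioc_subset_Ioc hτ htT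
  set c : ℝ → Prop := fun s => along H (s, p) < along F (s, p) with hc
  have mgm : Measurable fun s => gainA (minF F H) (s, p) := (measurable_gainA mm).comp hpm
  have mlm : Measurable fun s => lossA (minF F H) (s, p) := (measurable_lossA mm).comp hpm
  have mcm : Measurable fun s => crT (minF F H) k (stFlow (s, p)) := mcr.comp hpm
  have mlH : Measurable fun s => lH (s, p) := hH.ml.comp hpm
  have mgH : Measurable fun s => gH (s, p) := hH.mg.comp hpm
  have hm : ∀ {j : ℝ → ℝ≥0∞}, Measurable j → Measurable fun s => if c s then j s else 0 :=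
    fun hj => Measurable.ite Sind hj measurable_const
  have hspl : ∀ {j : ℝ → ℝ≥0∞}, Measurable j → ∫⁻ s in Ioc τ t, j s =
      (∫⁻ s in Ioc τ t, (if c s then j s else 0)) +
        ∫⁻ s in Ioc τ t, (if c s then 0 else j s) := by
    intro j hj
    rw [← lintegral_add_left (hm hj)]
    apply lintegral_congr
    intro s
    split_ifs <;> simp
  have hadd : ∀ {i j : ℝ → ℝ≥0∞}, Measurable i →
      ∫⁻ s in Ioc τ t, (if c s then i s + j s else 0) =
      (∫⁻ s in Ioc τ t, (if c s then i s else 0)) +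
        ∫⁻ s in Ioc τ t, (if c s then j s else 0) := by
    intro i j hi
    rw [← lintegral_add_left (hm hi)]
    apply lintegral_congr
    intro s
    split_ifs <;> simp
  have hfin : ∀ {j : ℝ → ℝ≥0∞}, ∫⁻ s in Ioc 0 T, j s < ⊤ →
      ∫⁻ s in Ioc τ t, (if c s then j s else 0) ≠ ⊤ := by
    intro j hj
    refine ne_top_of_le_ne_top (ne_top_of_le_ne_top hj.ne (lintegral_mono_set hsub)) ?_
    apply lintegral_mono
    intro s
    simp only
    split_ifs
    · exact le_rfl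
    · exact zero_le
  have msum : Measurable fun s => lossA (minF F H) (s, p) + crT (minF F H) k (stFlow (s, p)) :=
    mlm.add mcm
  -- on `H < F`
  have k1 : (∫⁻ s in Ioc τ t, (if c s then lH (s, p) else 0)) +
      (∫⁻ s in Ioc τ t, (if c s then gainA (minF F H) (s, p) else 0)) ≤
      (∫⁻ s in Ioc τ t, (if c s then gH (s, p) else 0)) +
      ∫⁻ s in Ioc τ t, (if c s then lossA (minF F H) (s, p) +
        crT (minF F H) k (stFlow (s, p)) else 0) := by
    rw [← hadd mlH, ← hadd mgH]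
    apply lintegral_mono_ae
    filter_upwards [ae_restrict_of_ae_restrict_of_subset hsub hBp] with s hs
    split_ifs with hcs
    · exact hs hcs
    · exact le_rfl
  -- on `F ≤ H`
  have k2 : ∫⁻ s in Ioc τ t, (if c s then 0 else lossA F (s, p)) ≤
      ∫⁻ s in Ioc τ t, (if c s then 0 else lossA (minF F H) (s, p) +
        crT (minF F H) k (stFlow (s, p))) := by
    apply lintegral_mono
    intro s
    simp only
    split_ifs with hcs
    · exact le_rfl
    · have hle : F s (p.1 + toTorus (s • p.2)) p.2 ≤ H s (p.1 + toTorus (s • p.2)) p.2 :=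
        not_lt.mp hcs
      exact loss_le_min (measurable_slice hF.measurable _ _) (measurable_slice hH.measurable _ _)
        (hF.nonneg _ _) (hH.nonneg _ _) (hk _ _) hle
  have k3 : ∫⁻ s in Ioc τ t, (if c s then 0 else gainA (minF F H) (s, p)) ≤
      ∫⁻ s in Ioc τ t, (if c s then 0 else gainA F (s, p)) := by
    apply lintegral_mono
    intro s
    simp only
    split_ifs with hcs
    · exact le_rfl
    · exact gain_min_le (hF.nonneg _ _) (hH.nonneg _ _) _
  have e1 := hspl mgm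
  have e2 := hspl msum
  have e3 : (∫⁻ s in Ioc τ t, lossA (minF F H) (s, p)) +
      (∫⁻ s in Ioc τ t, crT (minF F H) k (stFlow (s, p))) =
      ∫⁻ s in Ioc τ t, (lossA (minF F H) (s, p) + crT (minF F H) k (stFlow (s, p))) :=
    (lintegral_add_left mlm _).symm
  rw [e3, e1, e2]
  set mt := ENNReal.ofReal (min (bar F0 F t p) (barA H0 gH lH t p))
  set mτ := ENNReal.ofReal (min (bar F0 F τ p) (barA H0 gH lH τ p))
  have h' : mt + ((∫⁻ s in Ioc τ t, (if c s then lH (s, p) else 0)) +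
        ∫⁻ s in Ioc τ t, (if c s then 0 else lossA F (s, p))) =
      mτ + ((∫⁻ s in Ioc τ t, (if c s then gH (s, p) else 0)) +
        ∫⁻ s in Ioc τ t, (if c s then 0 else gainA F (s, p))) := h
  have hX : (∫⁻ s in Ioc τ t, (if c s then lH (s, p) else 0)) +
      (∫⁻ s in Ioc τ t, (if c s then gH (s, p) else 0)) ≠ ⊤ :=
    ENNReal.add_ne_top.mpr ⟨hfin h4, hfin h3⟩
  have hfinal : (mτ + ((∫⁻ s in Ioc τ t, (if c s then gainA (minF F H) (s, p) else 0)) +
        ∫⁻ s in Ioc τ t, (if c s then 0 else gainA (minF F H) (s, p)))) +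
      ((∫⁻ s in Ioc τ t, (if c s then lH (s, p) else 0)) +
        (∫⁻ s in Ioc τ t, (if c s then gH (s, p) else 0))) ≤
      (mt + ((∫⁻ s in Ioc τ t, (if c s then lossA (minF F H) (s, p) +
        crT (minF F H) k (stFlow (s, p)) else 0)) +
        ∫⁻ s in Ioc τ t, (if c s then 0 else lossA (minF F H) (s, p) +
        crT (minF F H) k (stFlow (s, p))))) +
      ((∫⁻ s in Ioc τ t, (if c s then lH (s, p) else 0)) +
        (∫⁻ s in Ioc τ t, (if c s then gH (s, p) else 0))) := by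
    set A := ∫⁻ s in Ioc τ t, (if c s then lH (s, p) else 0)
    set B := ∫⁻ s in Ioc τ t, (if c s then gH (s, p) else 0)
    set g1 := ∫⁻ s in Ioc τ t, (if c s then gainA (minF F H) (s, p) else 0)
    set g2 := ∫⁻ s in Ioc τ t, (if c s then 0 else gainA (minF F H) (s, p))
    set gF := ∫⁻ s in Ioc τ t, (if c s then 0 else gainA F (s, p))
    set lF := ∫⁻ s in Ioc τ t, (if c s then 0 else lossA F (s, p))
    set l1 := ∫⁻ s in Ioc τ t, (if c s then lossA (minF F H) (s, p) +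
        crT (minF F H) k (stFlow (s, p)) else 0)
    set l2 := ∫⁻ s in Ioc τ t, (if c s then 0 else lossA (minF F H) (s, p) +
        crT (minF F H) k (stFlow (s, p)))
    calc (mτ + (g1 + g2)) + (A + B) = (mτ + (B + g2)) + (A + g1) := by ring
      _ ≤ (mτ + (B + gF)) + (B + l1) := by gcongr
      _ = (mt + (A + lF)) + (B + l1) := by rw [h']
      _ ≤ (mt + (A + l2)) + (B + l1) := by gcongr
      _ = _ := by ring
  exact (ENNReal.add_le_add_iff_right hX).mp hfinal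

end Vale.Agent.P140
end
end

section

/-! Stability in terms of the minimum: integration over phase space. -/

open MeasureTheory Set Filter
open scoped ENNReal Topology NNReal

noncomputable section

namespace Vale.Agent.P140

variable {T : ℝ} {F0 G0 H0 : T3 → V → ℝ} {F G H : ℝ → T3 → V → ℝ} {gH lH : ℝ × T3 × V → ℝ≥0∞}
  {ψ : V → ℝ≥0∞} {k : TF}

/-- lower bound for the evolution of the weighted integral of the minimum -/
theorem min_low (hF : IsMild T F0 F) (hH : IsAC T H0 H gH lH) (mk : MeasTF k)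
    (hk : ∀ t x v, ENNReal.ofReal (F t x v - H t x v) ≤ k t x v)
    (hB : ∀ᵐ p : T3 × V, ∀ᵐ s ∂(volume.restrict (Ioc 0 T)), along H (s, p) < along F (s, p) →
      lH (s, p) + gainA (minF F H) (s, p) ≤
        gH (s, p) + (lossA (minF F H) (s, p) + crT (minF F H) k (stFlow (s, p))))
    (hψm : Measurable ψ) (hψ : CollInv ψ)
    {τ t : ℝ} (hτ : 0 ≤ τ) (hτt : τ ≤ t) (htT : t ≤ T)
    (p1 : ∀ᵐ p : T3 × V, 0 ≤ bar F0 F τ p) (p2 : ∀ᵐ p : T3 × V, 0 ≤ bar F0 F t p)
    (q1 : ∀ᵐ p : T3 × V, 0 ≤ barA H0 gH lH τ p) (q2 : ∀ᵐ p : T3 × V, 0 ≤ barA H0 gH lH t p)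
    (hfin : ∫⁻ s in Ioc τ t, ∫⁻ p : T3 × V, ψ p.2 * loss (minF F H s p.1) p.2 < ⊤) :
    (∫⁻ p : T3 × V, ψ p.2 * ENNReal.ofReal (min (bar F0 F τ p) (barA H0 gH lH τ p))) ≤
      (∫⁻ p : T3 × V, ψ p.2 * ENNReal.ofReal (min (bar F0 F t p) (barA H0 gH lH t p))) +
      ∫⁻ s in Ioc τ t, ∫⁻ p : T3 × V, ψ p.2 * crT (minF F H) k (s, p) := by
  have mm : Measurable fun p : ℝ × T3 × V => minF F H p.1 p.2.1 p.2.2 :=
    hF.measurable.min hH.measurable
  have mg := measurable_gain_st mm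
  have ml := measurable_loss_st mm
  have mcr := measurable_crT mm mk
  have h0 := min_char hF hH mk hk hB hτ hτt htT p1 p2 q1 q2
  have mb : ∀ r, Measurable fun p : T3 × V =>
      ψ p.2 * ENNReal.ofReal (min (bar F0 F r p) (barA H0 gH lH r p)) := fun r =>
    (hψm.comp measurable_snd).mul ((measurable_bar' hF.measurable0 hF.measurable r).min
      (hH.measurable_bar' r)).ennreal_ofReal
  have e1 := swap_flow hψm ml (Ioc τ t)
  have e2 := swap_flow hψm mg (Ioc τ t)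
  have e3 := swap_flow hψm mcr (Ioc τ t)
  simp only at e1 e2 e3
  have hcons : ∫⁻ s in Ioc τ t, ∫⁻ p : T3 × V, ψ p.2 * gain (minF F H s p.1) p.2
      = ∫⁻ s in Ioc τ t, ∫⁻ p : T3 × V, ψ p.2 * loss (minF F H s p.1) p.2 := by
    apply lintegral_congr
    intro s
    have k1 : Measurable fun p : T3 × V => ψ p.2 * gain (minF F H s p.1) p.2 :=
      (hψm.comp measurable_snd).mul (measurable_gain_slice mm s)
    have k2 : Measurable fun p : T3 × V => ψ p.2 * loss (minF F H s p.1) p.2 :=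
      (hψm.comp measurable_snd).mul (measurable_loss_slice mm s)
    rw [Measure.volume_eq_prod, lintegral_prod _ k1.aemeasurable,
      lintegral_prod _ k2.aemeasurable]
    apply lintegral_congr
    intro x
    exact (gain_loss_weight hψm hψ (measurable_slice mm s x) fun v =>
      le_min (hF.nonneg s x v) (hH.nonneg s x v) :)
  have h1 : (∫⁻ p : T3 × V, ψ p.2 * ENNReal.ofReal (min (bar F0 F τ p) (barA H0 gH lH τ p))) +
      ∫⁻ s in Ioc τ t, ∫⁻ p : T3 × V, ψ p.2 * gain (minF F H s p.1) p.2 ≤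
      (∫⁻ p : T3 × V, ψ p.2 * ENNReal.ofReal (min (bar F0 F t p) (barA H0 gH lH t p))) +
      ((∫⁻ s in Ioc τ t, ∫⁻ p : T3 × V, ψ p.2 * loss (minF F H s p.1) p.2) +
      ∫⁻ s in Ioc τ t, ∫⁻ p : T3 × V, ψ p.2 * crT (minF F H) k (s, p)) := by
    rw [← e1, ← e2, ← e3, ← lintegral_add_left (mb τ)]
    have mA : Measurable fun p : T3 × V => ψ p.2 * ∫⁻ r in Ioc τ t,
        loss (minF F H (stFlow (r, p)).1 (stFlow (r, p)).2.1) (stFlow (r, p)).2.2 := by
      apply (hψm.comp measurable_snd).mul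
      have h5 : Measurable fun z : (T3 × V) × ℝ =>
          loss (minF F H (stFlow (z.2, z.1)).1 (stFlow (z.2, z.1)).2.1) (stFlow (z.2, z.1)).2.2 :=
        (ml.comp measurable_stFlow).comp
          (by fun_prop : Measurable fun z : (T3 × V) × ℝ => (z.2, z.1))
      exact h5.lintegral_prod_right'
    rw [← lintegral_add_left mA, ← lintegral_add_left (mb t)]
    apply lintegral_mono_ae
    filter_upwards [h0] with p hp
    rw [← mul_add, ← mul_add, ← mul_add]
    exact mul_le_mul' le_rfl hp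
  rw [hcons] at h1
  set X := ∫⁻ s in Ioc τ t, ∫⁻ p : T3 × V, ψ p.2 * loss (minF F H s p.1) p.2
  have h2 : (∫⁻ p : T3 × V, ψ p.2 * ENNReal.ofReal (min (bar F0 F τ p) (barA H0 gH lH τ p))) + X ≤
      ((∫⁻ p : T3 × V, ψ p.2 * ENNReal.ofReal (min (bar F0 F t p) (barA H0 gH lH t p))) +
      ∫⁻ s in Ioc τ t, ∫⁻ p : T3 × V, ψ p.2 * crT (minF F H) k (s, p)) + X := by
    refine h1.trans (le_of_eq ?_)
    ring
  exact (ENNReal.add_le_add_iff_right hfin.ne).mp h2

/-- the weighted integral of the minimum at good times -/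
theorem min_eq (hψm : Measurable ψ) (mF : Measurable fun p : ℝ × T3 × V => F p.1 p.2.1 p.2.2)
    (mH : Measurable fun p : ℝ × T3 × V => H p.1 p.2.1 p.2.2) {t : ℝ}
    (h1 : ∀ᵐ p : T3 × V, along F (t, p) = bar F0 F t p)
    (h2 : ∀ᵐ p : T3 × V, along H (t, p) = barA H0 gH lH t p) :
    ∫⁻ p : T3 × V, ψ p.2 * ENNReal.ofReal (min (bar F0 F t p) (barA H0 gH lH t p)) =
      wInt ψ (minF F H t) := by
  have h3 : ∫⁻ p : T3 × V, ψ p.2 * ENNReal.ofReal (min (bar F0 F t p) (barA H0 gH lH t p))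
      = ∫⁻ p : T3 × V, ψ p.2 * ENNReal.ofReal (min (along F (t, p)) (along H (t, p))) := by
    apply lintegral_congr_ae
    filter_upwards [h1, h2] with p hp1 hp2
    rw [hp1, hp2]
  rw [h3]
  have hmt : Measurable fun p : T3 × V => (t, p) := by fun_prop
  exact lintegral_flow t (f := fun p => ψ p.2 * ENNReal.ofReal (min (F t p.1 p.2) (H t p.1 p.2)))
    ((hψm.comp measurable_snd).mul ((mF.comp hmt).min (mH.comp hmt)).ennreal_ofReal)

/-- lower bound from time zero -/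
theorem min_low0 (hT : 0 < T) (hF : IsMild T F0 F) (hH : IsAC T H0 H gH lH) (mk : MeasTF k)
    (hk : ∀ t x v, ENNReal.ofReal (F t x v - H t x v) ≤ k t x v)
    (hB : ∀ᵐ p : T3 × V, ∀ᵐ s ∂(volume.restrict (Ioc 0 T)), along H (s, p) < along F (s, p) →
      lH (s, p) + gainA (minF F H) (s, p) ≤
        gH (s, p) + (lossA (minF F H) (s, p) + crT (minF F H) k (stFlow (s, p))))
    (hψm : Measurable ψ) (hψf : ∀ v, ψ v ≠ ⊤) (hψ : CollInv ψ)
    (hl : ∀ τ, 0 < τ → ∫⁻ s in Ioc τ T, ∫⁻ p : T3 × V, ψ p.2 * loss (minF F H s p.1) p.2 < ⊤) :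
    ∀ᵐ t ∂(volume.restrict (Ioc 0 T)), 
      wInt ψ (fun x v => min (F0 x v) (H0 x v)) ≤ wInt ψ (minF F H t) +
        ∫⁻ s in Ioc 0 t, ∫⁻ p : T3 × V, ψ p.2 * crT (minF F H) k (s, p) := by
  have mψ : Measurable fun p : T3 × V => ψ p.2 := hψm.comp measurable_snd
  have mbF := fun t => measurable_bar' hF.measurable0 hF.measurable t
  have mbH := fun t => hH.measurable_bar' t
  have hgood : ∀ᵐ t ∂(volume.restrict (Ioc 0 T)), Good F0 F t ∧
      (∀ᵐ p : T3 × V, along H (t, p) = barA H0 gH lH t p) := by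
    filter_upwards [good_times hF, hH.good] with t h1 h2
    exact ⟨h1, h2⟩
  obtain ⟨τ, hτg, hτm, hτlim⟩ := exists_seq_good hT hgood
  have hnF : ∀ {r : ℝ}, Good F0 F r → ∀ᵐ p : T3 × V, 0 ≤ bar F0 F r p := fun h =>
    bar_nonneg_of_good hF h
  have hnH : ∀ {r : ℝ}, (∀ᵐ p : T3 × V, along H (r, p) = barA H0 gH lH r p) →
      ∀ᵐ p : T3 × V, 0 ≤ barA H0 gH lH r p := by
    intro r h
    filter_upwards [h] with p hp
    rw [← hp]
    exact hH.nonneg _ _ _
  have hfat : wInt ψ (fun x v => min (F0 x v) (H0 x v)) ≤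
      liminf (fun n => ∫⁻ p : T3 × V, ψ p.2
        * ENNReal.ofReal (min (bar F0 F (τ n) p) (barA H0 gH lH (τ n) p))) atTop := by
    apply fatou_bar
    · intro n
      exact mψ.mul ((mbF (τ n)).min (mbH (τ n))).ennreal_ofReal
    · filter_upwards [tendsto_bar_zero hT hF, hH.tendsto hT] with p h1 h2
      apply ENNReal.Tendsto.const_mul
      · exact ENNReal.tendsto_ofReal ((h1.comp hτlim).min (h2.comp hτlim))
      · right
        exact hψf _
  rw [ae_restrict_iff' measurableSet_Ioc] at hgood ⊢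
  filter_upwards [hgood] with t htg ht
  obtain ⟨gF, gH'⟩ := htg ht
  have hτt : ∀ᶠ n in atTop, τ n < t := by
    have h1 : Tendsto τ atTop (𝓝 0) := hτlim.mono_right nhdsWithin_le_nhds
    exact h1.eventually_lt_const ht.1
  refine hfat.trans ?_
  apply liminf_le_of_le
  · exact ⟨0, by simp⟩
  · intro b hb
    obtain ⟨n, hn1, hn2⟩ := (hb.and hτt).exists
    refine hn1.trans ?_
    have h2 := min_low hF hH mk hk hB hψm hψ (hτm n).1.le hn2.le ht.2 (hnF (hτg n).1) (hnF gF)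
      (hnH (hτg n).2) (hnH gH')
      (lt_of_le_of_lt (lintegral_mono_set (Ioc_subset_Ioc_right ht.2)) (hl _ (hτm n).1))
    refine h2.trans ?_
    rw [min_eq hψm hF.measurable hH.measurable gF gH']
    gcongr
    exact (hτm n).1.le

theorem ofReal_abs_min {a b : ℝ} (ha : 0 ≤ a) (hb : 0 ≤ b) :
    ENNReal.ofReal |a - b| + 2 * ENNReal.ofReal (min a b) = ENNReal.ofReal a + ENNReal.ofReal b := by
  rw [show (2 : ℝ≥0∞) = ENNReal.ofReal 2 by simp, ← ENNReal.ofReal_mul (by norm_num),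
    ← ENNReal.ofReal_add (abs_nonneg _) (by
      have := le_min ha hb
      linarith), ← ENNReal.ofReal_add ha hb]
  congr 1
  rcases le_total a b with h | h
  · rw [min_eq_left h, abs_of_nonpos (by linarith)]
    ring
  · rw [min_eq_right h, abs_of_nonneg (by linarith)]
    ring

theorem wDist_min (hψm : Measurable ψ) {f g : T3 → V → ℝ}
    (hf : Measurable fun p : T3 × V => f p.1 p.2) (hg : Measurable fun p : T3 × V => g p.1 p.2)
    (hf0 : ∀ x v, 0 ≤ f x v) (hg0 : ∀ x v, 0 ≤ g x v) :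
    wDist ψ f g + 2 * wInt ψ (fun x v => min (f x v) (g x v)) = wInt ψ f + wInt ψ g := by
  unfold wDist wInt
  have mψ : Measurable fun p : T3 × V => ψ p.2 := hψm.comp measurable_snd
  have m1 : Measurable fun p : T3 × V => ψ p.2 * ENNReal.ofReal |f p.1 p.2 - g p.1 p.2| :=
    mψ.mul (hf.sub hg).abs.ennreal_ofReal
  have m2 : Measurable fun p : T3 × V => ψ p.2 * ENNReal.ofReal (min (f p.1 p.2) (g p.1 p.2)) :=
    mψ.mul (hf.min hg).ennreal_ofReal
  have m3 : Measurable fun p : T3 × V => ψ p.2 * ENNReal.ofReal (f p.1 p.2) :=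
    mψ.mul hf.ennreal_ofReal
  rw [← lintegral_const_mul _ m2, ← lintegral_add_left m1, ← lintegral_add_left m3]
  apply lintegral_congr
  intro p
  rw [← mul_add, ← ofReal_abs_min (hf0 _ _) (hg0 _ _)]
  ring

/-- **Stability in terms of the minimum.** No integrability of the collision terms of either
solution is needed. -/
theorem stab_min (hT : 0 < T) (hF : IsMild T F0 F) (hG : IsMild T G0 G)
    (hψm : Measurable ψ) (hψf : ∀ v, ψ v ≠ ⊤) (hψ : CollInv ψ) (fF0 : wInt ψ F0 < ⊤)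
    (eF : ∀ᵐ t ∂(volume.restrict (Ioc 0 T)), wInt ψ (F t) ≤ wInt ψ F0)
    (eG : ∀ᵐ t ∂(volume.restrict (Ioc 0 T)), wInt ψ (G t) ≤ wInt ψ G0)
    (hl : ∀ τ, 0 < τ → ∫⁻ s in Ioc τ T, ∫⁻ p : T3 × V, ψ p.2 * loss (minF F G s p.1) p.2 < ⊤) :
    ∀ᵐ t ∂(volume.restrict (Ioc 0 T)), wDist ψ (F t) (G t) ≤ wDist ψ F0 G0
      + 2 * ∫⁻ s in Ioc 0 t, ∫⁻ x : T3, cross ψ (F s x) (G s x) := by
  set k : TF := fun t x v => ENNReal.ofReal |F t x v - G t x v| with hkdef
  have mk : MeasTF k := (hF.measurable.sub hG.measurable).abs.ennreal_ofReal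
  have mm : Measurable fun p : ℝ × T3 × V => minF F G p.1 p.2.1 p.2.2 :=
    hF.measurable.min hG.measurable
  have hk : ∀ t x v, ENNReal.ofReal (F t x v - G t x v) ≤ k t x v := fun t x v =>
    ENNReal.ofReal_le_ofReal (le_abs_self _)
  have hB : ∀ᵐ p : T3 × V, ∀ᵐ s ∂(volume.restrict (Ioc 0 T)), along G (s, p) < along F (s, p) →
      lossA G (s, p) + gainA (minF F G) (s, p) ≤
        gainA G (s, p) + (lossA (minF F G) (s, p) + crT (minF F G) k (stFlow (s, p))) := by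
    refine Eventually.of_forall fun p => Eventually.of_forall fun s hs => ?_
    have hle : G s (p.1 + toTorus (s • p.2)) p.2 ≤ F s (p.1 + toTorus (s • p.2)) p.2 := hs.le
    have hcomm : (fun w => min (G s (p.1 + toTorus (s • p.2)) w) (F s (p.1 + toTorus (s • p.2)) w)) =
        minF F G s (p.1 + toTorus (s • p.2)) := by
      funext w
      exact min_comm _ _
    have h1 := loss_le_min (κ := k s (p.1 + toTorus (s • p.2)))
      (measurable_slice hG.measurable s (p.1 + toTorus (s • p.2)))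
      (measurable_slice hF.measurable s (p.1 + toTorus (s • p.2)))
      (hG.nonneg _ _) (hF.nonneg _ _) (fun v => by
        simp only [hkdef]
        rw [abs_sub_comm]
        exact ENNReal.ofReal_le_ofReal (le_abs_self _)) hle
    have h2 := gain_min_le (hG.nonneg s (p.1 + toTorus (s • p.2)))
      (hF.nonneg s (p.1 + toTorus (s • p.2))) p.2
    rw [hcomm] at h1 h2
    have e1 : min (G s (p.1 + toTorus (s • p.2)) p.2) (F s (p.1 + toTorus (s • p.2)) p.2) =
        minF F G s (p.1 + toTorus (s • p.2)) p.2 := min_comm _ _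
    rw [e1] at h1
    calc lossA G (s, p) + gainA (minF F G) (s, p)
        ≤ (lossA (minF F G) (s, p) + crT (minF F G) k (stFlow (s, p))) + gainA G (s, p) :=
          add_le_add h1 h2
      _ = _ := add_comm _ _
  have hmain := min_low0 hT hF hG.isAC mk hk hB hψm hψf hψ hl
  filter_upwards [hmain, eF, eG] with t h1 h2 h3
  have hmt : ∀ t : ℝ, Measurable fun p : T3 × V => (t, p) := fun t => by fun_prop
  have a1 := wDist_min hψm (hF.measurable.comp (hmt t)) (hG.measurable.comp (hmt t)) (hF.nonneg t)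
    (hG.nonneg t)
  have a2 := wDist_min hψm hF.measurable0 hG.measurable0 hF.nonneg0 hG.nonneg0
  have hcr : ∫⁻ s in Ioc 0 t, ∫⁻ p : T3 × V, ψ p.2 * crT (minF F G) k (s, p) =
      ∫⁻ s in Ioc 0 t, ∫⁻ x : T3, cross ψ (F s x) (G s x) := by
    apply lintegral_congr
    intro s
    have m1 : Measurable fun p : T3 × V => ψ p.2 * crT (minF F G) k (s, p) :=
      (hψm.comp measurable_snd).mul ((measurable_crT mm mk).comp (hmt s))
    rw [Measure.volume_eq_prod, lintegral_prod _ m1.aemeasurable]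
    apply lintegral_congr
    intro x
    unfold cross
    apply lintegral_congr
    intro v
    unfold crT Ln
    rw [← mul_assoc, ← lintegral_const_mul' _ _ (ENNReal.mul_ne_top (hψf v) ENNReal.ofReal_ne_top)]
    apply lintegral_congr
    intro w
    rw [← lintegral_const_mul' _ _ (ENNReal.mul_ne_top (hψf v) ENNReal.ofReal_ne_top)]
    apply lintegral_congr
    intro o
    simp only [hkdef, eR, minF]
    ring
  rw [hcr] at h1
  set D := ∫⁻ s in Ioc 0 t, ∫⁻ x : T3, cross ψ (F s x) (G s x)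
  have hfin : wInt ψ (minF F G t) ≠ ⊤ := by
    refine ne_top_of_le_ne_top fF0.ne (le_trans ?_ h2)
    unfold wInt minF
    apply lintegral_mono
    intro p
    simp only
    gcongr
    exact min_le_left _ _
  have h4 : wDist ψ (F t) (G t) + 2 * wInt ψ (minF F G t) ≤
      (wDist ψ F0 G0 + 2 * D) + 2 * wInt ψ (minF F G t) := by
    calc wDist ψ (F t) (G t) + 2 * wInt ψ (minF F G t) = wInt ψ (F t) + wInt ψ (G t) := a1
      _ ≤ wInt ψ F0 + wInt ψ G0 := add_le_add h2 h3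
      _ = wDist ψ F0 G0 + 2 * wInt ψ (fun x v => min (F0 x v) (G0 x v)) := a2.symm
      _ ≤ wDist ψ F0 G0 + 2 * (wInt ψ (minF F G t) + D) := by gcongr
      _ = _ := by ring
  exact (ENNReal.add_le_add_iff_right (ENNReal.mul_ne_top (by simp) hfin)).mp h4

end Vale.Agent.P140
end
end

section

/-! Uniqueness and stability in terms of the minimum of the two solutions. -/

open MeasureTheory Set Filter
open scoped ENNReal Topology NNReal

noncomputable section

namespace Vale.Agent.P140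

variable {T : ℝ} {F0 G0 : T3 → V → ℝ} {F G : ℝ → T3 → V → ℝ} {ψ : V → ℝ≥0∞}

/-- the loss term of a function with bounded moments -/
theorem loss_slice_bound (hψm : Measurable ψ) {m : ℝ → T3 → V → ℝ}
    (hm : Measurable fun p : ℝ × T3 × V => m p.1 p.2.1 p.2.2) (hm0 : ∀ t x v, 0 ≤ m t x v)
    {k l : ℕ} (hk : ∀ v, ENNReal.ofReal ‖v‖ * ψ v ≤ ENNReal.ofReal ((1 + ‖v‖) ^ k))
    (hl : ∀ v, ψ v ≤ ENNReal.ofReal ((1 + ‖v‖) ^ l)) {s : ℝ} {a b : ℝ≥0∞}
    (ha : ∀ᵐ x : T3, vmom k (m s x) ≤ a) (hb : ∀ᵐ x : T3, vmom l (m s x) ≤ b) :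
    ∫⁻ p : T3 × V, ψ p.2 * loss (m s p.1) p.2 ≤ surf univ * ((a + b) * wInt psi2 (m s)) := by
  have e : minF (fun t x v => m t x v + 1) m = m := by
    funext t x v
    unfold minF
    exact min_eq_right (by linarith)
  have h := lossG_bound (F := fun t x v => m t x v + 1) (G := m) (s := s) (a := a) (b := b) hψm
    (hm.add_const 1) hm hm0 hk hl (by rw [e]; exact ha) (by rw [e]; exact hb)
  refine le_trans (le_of_eq ?_) h
  apply lintegral_congr
  intro p
  rw [if_pos (by linarith)]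

theorem core_min (hT : 0 < T) (hF : IsMild T F0 F) (hG : IsMild T G0 G)
    (fF0 : wInt psi2 F0 < ⊤)
    (eF2 : ∀ᵐ t ∂(volume.restrict (Ioc 0 T)), wInt psi2 (F t) ≤ wInt psi2 F0)
    (eG2 : ∀ᵐ t ∂(volume.restrict (Ioc 0 T)), wInt psi2 (G t) ≤ wInt psi2 G0)
    (eF0 : ∀ᵐ t ∂(volume.restrict (Ioc 0 T)), wInt psi0 (F t) ≤ wInt psi0 F0)
    (eG0 : ∀ᵐ t ∂(volume.restrict (Ioc 0 T)), wInt psi0 (G t) ≤ wInt psi0 G0)
    {M1 M2 M3 : ℝ → ℝ≥0∞} (m1 : Measurable M1) (m2 : Measurable M2) (m3 : Measurable M3)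
    (b1 : ∀ᵐ t ∂(volume.restrict (Ioc 0 T)), ∀ᵐ x : T3, vmom 1 (minF F G t x) ≤ M1 t)
    (b2 : ∀ᵐ t ∂(volume.restrict (Ioc 0 T)), ∀ᵐ x : T3, vmom 2 (minF F G t x) ≤ M2 t)
    (b3 : ∀ᵐ t ∂(volume.restrict (Ioc 0 T)), ∀ᵐ x : T3, vmom 3 (minF F G t x) ≤ M3 t)
    (i2 : ∫⁻ t in Ioc 0 T, M2 t < ⊤)
    (i3 : ∀ τ, 0 < τ → ∫⁻ t in Ioc τ T, M3 t < ⊤) :
    (∀ᵐ t ∂(volume.restrict (Ioc 0 T)), wDist psi0 (F t) (G t) ≤ wDist psi0 F0 G0
      + 4 * surf univ * ∫⁻ s in Ioc 0 t, M1 s * wDist psi2 (F s) (G s)) ∧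
    (∀ᵐ t ∂(volume.restrict (Ioc 0 T)), wDist psi2 (F t) (G t) ≤ wDist psi2 F0 G0
      + 2 * surf univ * ∫⁻ s in Ioc 0 t,
        (M3 s * wDist psi0 (F s) (G s) + M2 s * wDist psi2 (F s) (G s))) := by
  have mF := hF.measurable
  have mG := hG.measurable
  have mD0 := measurable_wDist measurable_psi0 mF mG
  have mD2 := measurable_wDist measurable_psi2 mF mG
  have mm : Measurable fun p : ℝ × T3 × V => minF F G p.1 p.2.1 p.2.2 := mF.min mG
  have nm : ∀ t x v, 0 ≤ minF F G t x v := fun t x v => le_min (hF.nonneg t x v) (hG.nonneg t x v)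
  have fF00 : wInt psi0 F0 < ⊤ := lt_of_le_of_lt (wInt_psi0_le F0) fF0
  have hres : ∀ τ : ℝ, 0 < τ → ∀ P : ℝ → Prop, (∀ᵐ t ∂(volume.restrict (Ioc 0 T)), P t) →
      ∀ᵐ t ∂(volume.restrict (Ioc τ T)), P t := by
    intro τ hτ P h
    exact ae_restrict_of_ae_restrict_of_subset (Ioc_subset_Ioc_left hτ.le) h
  have hl2 : ∀ τ, 0 < τ → ∫⁻ s in Ioc τ T, ∫⁻ p : T3 × V, psi2 p.2 *
      loss (minF F G s p.1) p.2 < ⊤ := by
    intro τ hτ
    calc ∫⁻ s in Ioc τ T, ∫⁻ p : T3 × V, psi2 p.2 * loss (minF F G s p.1) p.2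
        ≤ ∫⁻ s in Ioc τ T, surf univ * ((M3 s + M2 s) * wInt psi2 F0) := by
          apply lintegral_mono_ae
          filter_upwards [hres τ hτ _ b3, hres τ hτ _ b2, hres τ hτ _ eF2] with s h1 h1' h2
          refine (loss_slice_bound measurable_psi2 mm nm (k := 3) (l := 2) w_norm_psi2
            w_psi2 h1 h1').trans ?_
          gcongr
          refine le_trans ?_ h2
          unfold wInt minF
          apply lintegral_mono
          intro p
          simp only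
          gcongr
          exact min_le_left _ _
      _ = surf univ * ((∫⁻ s in Ioc τ T, (M3 s + M2 s)) * wInt psi2 F0) := by
          have k1 : Measurable fun s => M3 s + M2 s := m3.add m2
          have k2 : Measurable fun s => (M3 s + M2 s) * wInt psi2 F0 := k1.mul_const _
          rw [lintegral_const_mul _ k2, lintegral_mul_const _ k1]
      _ < ⊤ := by
          rw [lintegral_add_left m3]
          have h3 : ∫⁻ s in Ioc τ T, M2 s < ⊤ :=
            lt_of_le_of_lt (lintegral_mono_set (Ioc_subset_Ioc_left hτ.le)) i2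
          exact ENNReal.mul_lt_top (measure_lt_top _ _)
            (ENNReal.mul_lt_top (ENNReal.add_lt_top.mpr ⟨i3 τ hτ, h3⟩) fF0)
  have hl0 : ∀ τ, 0 < τ → ∫⁻ s in Ioc τ T, ∫⁻ p : T3 × V, psi0 p.2 *
      loss (minF F G s p.1) p.2 < ⊤ := by
    intro τ hτ
    refine lt_of_le_of_lt ?_ (hl2 τ hτ)
    apply lintegral_mono
    intro s
    apply lintegral_mono
    intro p
    simp only
    gcongr
    exact psi0_le_psi2 _
  have s0 := stab_min hT hF hG measurable_psi0 psi0_ne_top collInv_psi0 fF00 eF0 eG0 hl0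
  have s2 := stab_min hT hF hG measurable_psi2 psi2_ne_top collInv_psi2 fF0 eF2 eG2 hl2
  have hsub : ∀ t, t ∈ Ioc 0 T → ∀ P : ℝ → Prop, (∀ᵐ t ∂(volume.restrict (Ioc 0 T)), P t) →
      ∀ᵐ t ∂(volume.restrict (Ioc 0 t)), P t := by
    intro t ht P h
    exact ae_restrict_of_ae_restrict_of_subset (Ioc_subset_Ioc_right ht.2) h
  constructor
  · filter_upwards [s0, ae_restrict_mem measurableSet_Ioc] with t ht hmem
    refine ht.trans ?_
    gcongr wDist psi0 F0 G0 + ?_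
    calc 2 * ∫⁻ s in Ioc 0 t, ∫⁻ x : T3, cross psi0 (F s x) (G s x)
        ≤ 2 * ∫⁻ s in Ioc 0 t, surf univ * (2 * (M1 s * wDist psi2 (F s) (G s))) := by
          gcongr 2 * ?_
          apply lintegral_mono_ae
          filter_upwards [hsub t hmem _ b1] with s h1
          exact lintegral_cross_psi0 mF mG h1
      _ = _ := by
          have k1 : Measurable fun s => M1 s * wDist psi2 (F s) (G s) := m1.mul mD2
          have k2 : Measurable fun s => 2 * (M1 s * wDist psi2 (F s) (G s)) := k1.const_mul 2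
          rw [lintegral_const_mul _ k2, lintegral_const_mul _ k1]
          ring
  · filter_upwards [s2, ae_restrict_mem measurableSet_Ioc] with t ht hmem
    refine ht.trans ?_
    gcongr wDist psi2 F0 G0 + ?_
    calc 2 * ∫⁻ s in Ioc 0 t, ∫⁻ x : T3, cross psi2 (F s x) (G s x)
        ≤ 2 * ∫⁻ s in Ioc 0 t, surf univ * (M3 s * wDist psi0 (F s) (G s)
            + M2 s * wDist psi2 (F s) (G s)) := by
          gcongr 2 * ?_
          apply lintegral_mono_ae
          filter_upwards [hsub t hmem _ b3, hsub t hmem _ b2] with s h1 h2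
          exact lintegral_cross_psi2 mF mG h1 h2
      _ = _ := by
          have k1 : Measurable fun s => M3 s * wDist psi0 (F s) (G s)
              + M2 s * wDist psi2 (F s) (G s) := (m3.mul mD0).add (m2.mul mD2)
          rw [lintegral_const_mul _ k1]
          ring

/-- **Uniqueness of mild solutions under moment bounds of the minimum.** -/
theorem mild_unique_min (hT : 0 < T) (hF : IsMild T F0 F) (hG : IsMild T F0 G)
    (fF0 : wInt psi2 F0 < ⊤)
    (eF2 : ∀ᵐ t ∂(volume.restrict (Ioc 0 T)), wInt psi2 (F t) ≤ wInt psi2 F0)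
    (eG2 : ∀ᵐ t ∂(volume.restrict (Ioc 0 T)), wInt psi2 (G t) ≤ wInt psi2 F0)
    (eF0 : ∀ᵐ t ∂(volume.restrict (Ioc 0 T)), wInt psi0 (F t) ≤ wInt psi0 F0)
    (eG0 : ∀ᵐ t ∂(volume.restrict (Ioc 0 T)), wInt psi0 (G t) ≤ wInt psi0 F0)
    {M1 M2 M3 : ℝ → ℝ≥0∞} (m1 : Measurable M1) (m2 : Measurable M2) (m3 : Measurable M3)
    (b1 : ∀ᵐ t ∂(volume.restrict (Ioc 0 T)), ∀ᵐ x : T3, vmom 1 (minF F G t x) ≤ M1 t)
    (b2 : ∀ᵐ t ∂(volume.restrict (Ioc 0 T)), ∀ᵐ x : T3, vmom 2 (minF F G t x) ≤ M2 t)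
    (b3 : ∀ᵐ t ∂(volume.restrict (Ioc 0 T)), ∀ᵐ x : T3, vmom 3 (minF F G t x) ≤ M3 t)
    (i2 : ∫⁻ t in Ioc 0 T, M2 t < ⊤)
    (i3 : ∀ τ, 0 < τ → ∫⁻ t in Ioc τ T, M3 t < ⊤)
    (i31 : ∫⁻ t in Ioc 0 T, M3 t * ∫⁻ s in Ioc 0 t, M1 s < ⊤) :
    ∀ᵐ t ∂(volume.restrict (Ioc 0 T)), wDist psi2 (F t) (G t) = 0 := by
  obtain ⟨h1, h2⟩ := core_min hT hF hG fF0 eF2 eG2 eF0 eG0 m1 m2 m3 b1 b2 b3 i2 i3
  have hz0 : ∀ ψ : V → ℝ≥0∞, wDist ψ F0 F0 = 0 := by
    intro ψ
    simp [wDist]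
  rw [hz0] at h1 h2
  simp only [zero_add] at h1 h2
  have mD0 := measurable_wDist measurable_psi0 hF.measurable hG.measurable
  have mD2 := measurable_wDist measurable_psi2 hF.measurable hG.measurable
  set C : ℝ≥0∞ := surf univ with hC
  have hCf : C < ⊤ := measure_lt_top _ _
  set Y0 : ℝ → ℝ≥0∞ := fun t => wDist psi0 (F t) (G t) with hY0
  set Y : ℝ → ℝ≥0∞ := fun t => wDist psi2 (F t) (G t) with hY
  set κ : ℝ → ℝ≥0∞ := fun t => ∫⁻ s in Ioc 0 t, M1 s with hκ
  have mκ : Measurable κ := measurable_prim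
  set W : ℝ → ℝ≥0∞ := fun t => 2 * C * ∫⁻ s in Ioc 0 t, (M3 s * Y0 s + M2 s * Y s) with hW
  have mW : Measurable W := measurable_prim.const_mul _
  have hWmono : Monotone W := by
    intro a b hab
    simp only [hW]
    gcongr
  set Φ : ℝ → ℝ≥0∞ := fun t => 2 * C * (4 * C * (M3 t * κ t) + M2 t) with hΦ
  have mΦ : Measurable Φ := (((m3.mul mκ).const_mul _).add m2).const_mul _
  have hΦi : ∫⁻ t in Ioc 0 T, Φ t < ⊤ := by
    simp only [hΦ]
    have k1 : Measurable fun t => M3 t * κ t := m3.mul mκ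
    have k2 : Measurable fun t => 4 * C * (M3 t * κ t) := k1.const_mul _
    have k3 : Measurable fun t => 4 * C * (M3 t * κ t) + M2 t := k2.add m2
    rw [lintegral_const_mul _ k3, lintegral_add_left k2, lintegral_const_mul _ k1]
    have h2C : 2 * C < ⊤ := ENNReal.mul_lt_top (by simp) hCf
    have h4C : 4 * C < ⊤ := ENNReal.mul_lt_top (by simp) hCf
    exact ENNReal.mul_lt_top h2C (ENNReal.add_lt_top.mpr ⟨ENNReal.mul_lt_top h4C i31, i2⟩)
  -- boundedness of `Y`
  set K : ℝ≥0∞ := wInt psi2 F0 + wInt psi2 F0 with hK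
  have hKf : K < ⊤ := ENNReal.add_lt_top.mpr ⟨fF0, fF0⟩
  have hYK : ∀ᵐ t ∂(volume.restrict (Ioc 0 T)), Y t ≤ K := by
    filter_upwards [eF2, eG2] with t ht1 ht2
    exact (wDist_le measurable_psi2 (measurable_slice2 hF.measurable t) (hF.nonneg t)
      (hG.nonneg t)).trans (add_le_add ht1 ht2)
  have hsub : ∀ t, t ∈ Ioc 0 T → ∀ P : ℝ → Prop, (∀ᵐ t ∂(volume.restrict (Ioc 0 T)), P t) →
      ∀ᵐ t ∂(volume.restrict (Ioc 0 t)), P t := by
    intro t ht P h
    exact ae_restrict_of_ae_restrict_of_subset (Ioc_subset_Ioc_right ht.2) h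
  -- `Y0` in terms of a bound of `Y`
  have hY0bd : ∀ᵐ t ∂(volume.restrict (Ioc 0 T)), ∀ B : ℝ≥0∞,
      (∀ᵐ s ∂(volume.restrict (Ioc 0 t)), Y s ≤ B) → Y0 t ≤ 4 * C * (κ t * B) := by
    filter_upwards [h1] with t ht B hB
    refine ht.trans ?_
    gcongr 4 * C * ?_
    rw [hκ]
    simp only
    rw [← lintegral_mul_const _ m1]
    apply lintegral_mono_ae
    filter_upwards [hB] with s hs
    gcongr
  have hWΦ : ∀ t ∈ Ioc 0 T, W t ≤ ∫⁻ s in Ioc 0 t, Φ s * W s := by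
    intro t ht
    simp only [hW]
    have k1 : Measurable fun s => M3 s * Y0 s + M2 s * Y s := (m3.mul mD0).add (m2.mul mD2)
    rw [← lintegral_const_mul _ k1]
    apply lintegral_mono_ae
    filter_upwards [hsub t ht _ hY0bd, hsub t ht _ h2, ae_restrict_mem measurableSet_Ioc]
      with s hs1 hs2 hmem
    have hsT : s ∈ Ioc 0 T := ⟨hmem.1, hmem.2.trans ht.2⟩
    have hYW : Y s ≤ W s := hs2
    have hY0W : Y0 s ≤ 4 * C * (κ s * W s) := by
      apply hs1
      filter_upwards [hsub s hsT _ h2, ae_restrict_mem measurableSet_Ioc] with r hr hrm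
      exact (show Y r ≤ W r from hr).trans (hWmono hrm.2)
    calc 2 * C * (M3 s * Y0 s + M2 s * Y s)
        ≤ 2 * C * (M3 s * (4 * C * (κ s * W s)) + M2 s * W s) := by gcongr
      _ = Φ s * W s := by simp only [hΦ]; ring
  have hWK : ∀ t ∈ Ioc 0 T, W t ≤ (∫⁻ s in Ioc 0 T, Φ s) * K := by
    intro t ht
    simp only [hW]
    have k1 : Measurable fun s => M3 s * Y0 s + M2 s * Y s := (m3.mul mD0).add (m2.mul mD2)
    rw [← lintegral_const_mul _ k1, ← lintegral_mul_const _ mΦ]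
    refine le_trans (lintegral_mono_ae ?_) (lintegral_mono_set (Ioc_subset_Ioc_right ht.2))
    filter_upwards [hsub t ht _ hY0bd, hsub t ht _ hYK, ae_restrict_mem measurableSet_Ioc]
      with s hs1 hs2 hmem
    have hsT : s ∈ Ioc 0 T := ⟨hmem.1, hmem.2.trans ht.2⟩
    have hY0W : Y0 s ≤ 4 * C * (κ s * K) := hs1 K (hsub s hsT _ hYK)
    calc 2 * C * (M3 s * Y0 s + M2 s * Y s)
        ≤ 2 * C * (M3 s * (4 * C * (κ s * K)) + M2 s * K) := by gcongr
      _ = Φ s * K := by simp only [hΦ]; ring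
  have hg := gronwall_ennreal (Φ := Φ) (W := W) (T := T) (A := 0)
    (K := (∫⁻ s in Ioc 0 T, Φ s) * K) mΦ mW hΦi (by simp) (ENNReal.mul_lt_top hΦi hKf)
    (Eventually.of_forall hWK) (Eventually.of_forall fun t ht => by
      rw [zero_add]; exact hWΦ t ht)
  rw [ae_restrict_iff' measurableSet_Ioc] at h2 ⊢
  filter_upwards [h2, hg] with t ht1 ht2 hmem
  have h3 := ht2 hmem
  rw [zero_mul] at h3
  exact le_antisymm ((ht1 hmem).trans h3) (zero_le)

/-- **Stability of mild solutions.** -/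
theorem mild_stable_min (hT : 0 < T) (hF : IsMild T F0 F) (hG : IsMild T G0 G)
    (fF0 : wInt psi2 F0 < ⊤) (fG0 : wInt psi2 G0 < ⊤)
    (eF2 : ∀ᵐ t ∂(volume.restrict (Ioc 0 T)), wInt psi2 (F t) ≤ wInt psi2 F0)
    (eG2 : ∀ᵐ t ∂(volume.restrict (Ioc 0 T)), wInt psi2 (G t) ≤ wInt psi2 G0)
    (eF0 : ∀ᵐ t ∂(volume.restrict (Ioc 0 T)), wInt psi0 (F t) ≤ wInt psi0 F0)
    (eG0 : ∀ᵐ t ∂(volume.restrict (Ioc 0 T)), wInt psi0 (G t) ≤ wInt psi0 G0)
    {M : ℝ → ℝ≥0∞} (m : Measurable M)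
    (b : ∀ᵐ t ∂(volume.restrict (Ioc 0 T)), ∀ᵐ x : T3, vmom 3 (minF F G t x) ≤ M t)
    (i : ∫⁻ t in Ioc 0 T, M t < ⊤) :
    ∀ᵐ t ∂(volume.restrict (Ioc 0 T)), wDist psi2 (F t) (G t) ≤ wDist psi2 F0 G0
      * ENNReal.ofReal (Real.exp (∫⁻ s in Ioc 0 t, 4 * surf univ * M s).toReal) := by
  have hmn : ∀ t x v, 0 ≤ minF F G t x v := fun t x v => le_min (hF.nonneg t x v) (hG.nonneg t x v)
  have b1 : ∀ᵐ t ∂(volume.restrict (Ioc 0 T)), ∀ᵐ x : T3, vmom 1 (minF F G t x) ≤ M t := by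
    filter_upwards [b] with t ht
    filter_upwards [ht] with x hx
    exact (vmom_mono (by norm_num) (hmn t x)).trans hx
  have b2 : ∀ᵐ t ∂(volume.restrict (Ioc 0 T)), ∀ᵐ x : T3, vmom 2 (minF F G t x) ≤ M t := by
    filter_upwards [b] with t ht
    filter_upwards [ht] with x hx
    exact (vmom_mono (by norm_num) (hmn t x)).trans hx
  have i3 : ∀ τ, 0 < τ → ∫⁻ t in Ioc τ T, M t < ⊤ := fun τ hτ =>
    lt_of_le_of_lt (lintegral_mono_set (Ioc_subset_Ioc_left hτ.le)) i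
  obtain ⟨-, h2⟩ := core_min hT hF hG fF0 eF2 eG2 eF0 eG0 m m m b1 b2 b i i3
  have mD2 := measurable_wDist measurable_psi2 hF.measurable hG.measurable
  have hCf : surf univ < ⊤ := measure_lt_top surf _
  have hA : wDist psi2 F0 G0 < ⊤ := lt_of_le_of_lt
    (wDist_le measurable_psi2 hF.measurable0 hF.nonneg0 hG.nonneg0)
    (ENNReal.add_lt_top.mpr ⟨fF0, fG0⟩)
  have hYK : ∀ᵐ t ∂(volume.restrict (Ioc 0 T)), wDist psi2 (F t) (G t)
      ≤ wInt psi2 F0 + wInt psi2 G0 := by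
    filter_upwards [eF2, eG2] with t ht1 ht2
    exact (wDist_le measurable_psi2 (measurable_slice2 hF.measurable t) (hF.nonneg t)
      (hG.nonneg t)).trans (add_le_add ht1 ht2)
  have hΦi : ∫⁻ t in Ioc 0 T, 4 * surf univ * M t < ⊤ := by
    rw [lintegral_const_mul _ m]
    exact ENNReal.mul_lt_top (ENNReal.mul_lt_top (by simp) hCf) i
  have hmain : ∀ᵐ t, t ∈ Ioc 0 T → wDist psi2 (F t) (G t) ≤ wDist psi2 F0 G0
      + ∫⁻ s in Ioc 0 t, (4 * surf univ * M s) * wDist psi2 (F s) (G s) := by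
    rw [ae_restrict_iff' measurableSet_Ioc] at h2
    filter_upwards [h2] with t ht hmem
    refine (ht hmem).trans ?_
    gcongr wDist psi2 F0 G0 + ?_
    have k : Measurable fun s => M s * wDist psi0 (F s) (G s) + M s * wDist psi2 (F s) (G s) :=
      (m.mul (measurable_wDist measurable_psi0 hF.measurable hG.measurable)).add (m.mul mD2)
    rw [← lintegral_const_mul _ k]
    apply lintegral_mono
    intro s
    simp only
    calc 2 * surf univ * (M s * wDist psi0 (F s) (G s) + M s * wDist psi2 (F s) (G s))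
        ≤ 2 * surf univ * (M s * wDist psi2 (F s) (G s) + M s * wDist psi2 (F s) (G s)) := by
          gcongr
          exact wDist_psi0_le _ _
      _ = _ := by ring
  have hg := gronwall_ennreal (Φ := fun s => 4 * surf univ * M s)
    (W := fun t => wDist psi2 (F t) (G t)) (T := T) (A := wDist psi2 F0 G0)
    (K := wInt psi2 F0 + wInt psi2 G0) (m.const_mul _) mD2 hΦi hA
    (ENNReal.add_lt_top.mpr ⟨fF0, fG0⟩)
    ((ae_restrict_iff' measurableSet_Ioc).mp hYK) hmain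
  rw [ae_restrict_iff' measurableSet_Ioc]
  exact hg


/-- **Uniqueness for renormalized solutions under moment bounds of the minimum.** -/
theorem renorm_unique_min (hT : 0 < T) (hF : IsRenormEntropySol F0 F) (hG : IsRenormEntropySol F0 G)
    {M1 M2 M3 : ℝ → ℝ≥0∞} (m1 : Measurable M1) (m2 : Measurable M2) (m3 : Measurable M3)
    (b1 : ∀ᵐ t ∂(volume.restrict (Ioc 0 T)), ∀ᵐ x : T3, vmom 1 (minF F G t x) ≤ M1 t)
    (b2 : ∀ᵐ t ∂(volume.restrict (Ioc 0 T)), ∀ᵐ x : T3, vmom 2 (minF F G t x) ≤ M2 t)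
    (b3 : ∀ᵐ t ∂(volume.restrict (Ioc 0 T)), ∀ᵐ x : T3, vmom 3 (minF F G t x) ≤ M3 t)
    (i2 : ∫⁻ t in Ioc 0 T, M2 t < ⊤)
    (i3 : ∀ τ, 0 < τ → ∫⁻ t in Ioc τ T, M3 t < ⊤)
    (i31 : ∫⁻ t in Ioc 0 T, M3 t * ∫⁻ s in Ioc 0 t, M1 s < ⊤) :
    ∀ t ∈ Icc 0 T, ∀ᵐ p : T3 × V, F t p.1 p.2 = G t p.1 p.2 := by
  have e : ∀ {H : ℝ → T3 → V → ℝ}, IsRenormEntropySol F0 H →
      (∀ᵐ t ∂(volume.restrict (Ioc 0 T)), wInt psi2 (H t) ≤ wInt psi2 F0) ∧
      (∀ᵐ t ∂(volume.restrict (Ioc 0 T)), wInt psi0 (H t) ≤ wInt psi0 F0) := by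
    intro H hH
    constructor
    · filter_upwards [ae_restrict_mem measurableSet_Ioc] with t ht
      exact wInt_psi2_renorm hH ht.1.le
    · filter_upwards [ae_restrict_mem measurableSet_Ioc] with t ht
      exact (wInt_psi0_renorm hH ht.1.le).le
  have h := mild_unique_min hT (isMild_of_renorm hF T) (isMild_of_renorm hG T)
    (wInt_datum_lt_top hF.datum) (e hF).1 (e hG).1 (e hF).2 (e hG).2 m1 m2 m3 b1 b2 b3 i2
    i3 i31
  have h2 := all_times hT hF hG (B := 0) (by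
    filter_upwards [h] with t ht
    exact ht.le)
  intro t ht
  have h3 := le_antisymm (h2 t ht) (zero_le)
  unfold wDist at h3
  rw [lintegral_eq_zero_iff] at h3
  · filter_upwards [h3] with p hp
    simp only [Pi.zero_apply, mul_eq_zero] at hp
    rcases hp with hp | hp
    · exfalso
      unfold psi2 at hp
      rw [ENNReal.ofReal_eq_zero] at hp
      have : 0 < 1 + ‖p.2‖ ^ 2 := by positivity
      linarith
    · rw [ENNReal.ofReal_eq_zero] at hp
      have := abs_nonneg (F t p.1 p.2 - G t p.1 p.2)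
      have h4 : |F t p.1 p.2 - G t p.1 p.2| = 0 := le_antisymm hp this
      exact sub_eq_zero.mp (abs_eq_zero.mp h4)
  · exact (measurable_psi2.comp measurable_snd).mul
      ((measurable_t hF t).sub (measurable_t hG t)).abs.ennreal_ofReal

/-- **Stability for renormalized solutions in terms of the minimum.** -/
theorem renorm_stable_min (hT : 0 < T) (hF : IsRenormEntropySol F0 F)
    (hG : IsRenormEntropySol G0 G) {M : ℝ → ℝ≥0∞} (m : Measurable M)
    (b : ∀ᵐ t ∂(volume.restrict (Ioc 0 T)), ∀ᵐ x : T3, vmom 3 (minF F G t x) ≤ M t)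
    (i : ∫⁻ t in Ioc 0 T, M t < ⊤) :
    ∀ t ∈ Icc 0 T, wDist psi2 (F t) (G t) ≤ wDist psi2 F0 G0
      * ENNReal.ofReal (Real.exp (∫⁻ s in Ioc 0 T, 4 * surf univ * M s).toReal) := by
  have e : ∀ {H0 : T3 → V → ℝ} {H : ℝ → T3 → V → ℝ}, IsRenormEntropySol H0 H →
      (∀ᵐ t ∂(volume.restrict (Ioc 0 T)), wInt psi2 (H t) ≤ wInt psi2 H0) ∧
      (∀ᵐ t ∂(volume.restrict (Ioc 0 T)), wInt psi0 (H t) ≤ wInt psi0 H0) := by
    intro H0 H hH
    constructor
    · filter_upwards [ae_restrict_mem measurableSet_Ioc] with t ht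
      exact wInt_psi2_renorm hH ht.1.le
    · filter_upwards [ae_restrict_mem measurableSet_Ioc] with t ht
      exact (wInt_psi0_renorm hH ht.1.le).le
  have hCf : surf univ < ⊤ := measure_lt_top surf _
  have hΦi : ∫⁻ t in Ioc 0 T, 4 * surf univ * M t < ⊤ := by
    rw [lintegral_const_mul _ m]
    exact ENNReal.mul_lt_top (ENNReal.mul_lt_top (by simp) hCf) i
  have h := mild_stable_min hT (isMild_of_renorm hF T) (isMild_of_renorm hG T)
    (wInt_datum_lt_top hF.datum) (wInt_datum_lt_top hG.datum) (e hF).1 (e hG).1 (e hF).2 (e hG).2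
    m b i
  apply all_times hT hF hG
  filter_upwards [h, ae_restrict_mem measurableSet_Ioc] with t ht hmem
  refine ht.trans ?_
  gcongr
  · exact hΦi.ne
  · exact hmem.2

/-- uniqueness with two moments of the minimum -/
theorem renorm_unique_strong_min (hT : 0 < T) (hF : IsRenormEntropySol F0 F)
    (hG : IsRenormEntropySol F0 G)
    {M2 M3 : ℝ → ℝ≥0∞} (m2 : Measurable M2) (m3 : Measurable M3)
    (b2 : ∀ᵐ t ∂(volume.restrict (Ioc 0 T)), ∀ᵐ x : T3, vmom 2 (minF F G t x) ≤ M2 t)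
    (b3 : ∀ᵐ t ∂(volume.restrict (Ioc 0 T)), ∀ᵐ x : T3, vmom 3 (minF F G t x) ≤ M3 t)
    (i2 : ∫⁻ t in Ioc 0 T, M2 t < ⊤)
    (i3 : ∀ τ, 0 < τ → ∫⁻ t in Ioc τ T, M3 t < ⊤)
    (i32 : ∫⁻ t in Ioc 0 T, M3 t * ∫⁻ s in Ioc 0 t, M2 s < ⊤) :
    ∀ t ∈ Icc 0 T, ∀ᵐ p : T3 × V, F t p.1 p.2 = G t p.1 p.2 := by
  refine renorm_unique_min hT hF hG m2 m2 m3 ?_ b2 b3 i2 i3 i32
  filter_upwards [b2] with t ht
  filter_upwards [ht] with x hx
  exact (vmom_mono (by norm_num) fun v => le_min (hF.nonneg t x v) (hG.nonneg t x v)).trans hx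

end Vale.Agent.P140
end
end
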