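import Vale.Agent.P140.Bdl.B1
import Vale.Agent.P140.Stt
import Vale.Agent.P140.Bdl.B3
import Vale.Agent.P140.Bdl.B5
import Vale.Agent.P140.Bdl.B10
attribute [-instance] ProperSMul.toContinuousSMul IsTopologicalTorsor.toContinuousSMul IdemSemiring.toCanonicallyOrderedAdd IdemSemiring.toMulLeftMono IdemSemiring.toMulRightMono AddQuantale.instAddLeftMono AddQuantale.instAddRightMono Quantale.instMulLeftMono Quantale.instMulRightMono FiniteDimensional.rclike_to_real IsScalarTower.complexToReal FiniteDimensional.complexToReal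

set_option linter.all false

attribute [local instance 5000] Vale.Agent.P140.Sc.a01 Vale.Agent.P140.Sc.a02 Vale.Agent.P140.Sc.a03 Vale.Agent.P140.Sc.a04 Vale.Agent.P140.Sc.a05 Vale.Agent.P140.Sc.a06 Vale.Agent.P140.Sc.a07 Vale.Agent.P140.Sc.a08 Vale.Agent.P140.Sc.a09 Vale.Agent.P140.Sc.a10 Vale.Agent.P140.Sc.a11 Vale.Agent.P140.Sc.a12 Vale.Agent.P140.Sc.a13 Vale.Agent.P140.Sc.a14 Vale.Agent.P140.Sc.a15 Vale.Agent.P140.Sc.a16 Vale.Agent.P140.Sc.a17 Vale.Agent.P140.Sc.a18 Vale.Agent.P140.Sc.a19 Vale.Agent.P140.Sc.a20 Vale.Agent.P140.Sc.a21 Vale.Agent.P140.Sc.a22 Vale.Agent.P140.Sc.a23 Vale.Agent.P140.Sc.a24 Vale.Agent.P140.Sc.a25 Vale.Agent.P140.Sc.a26 Vale.Agent.P140.Sc.a27 Vale.Agent.P140.Sc.a28 Vale.Agent.P140.Sc.a29 Vale.Agent.P140.Sc.a30 Vale.Agent.P140.Sc.a31 Vale.Agent.P140.Sc.a32 Vale.Agent.P140.Sc.a33 Vale.Agent.P140.Sc.r01 Vale.Agent.P140.Sc.r02 Vale.Agent.P140.Sc.r03 Vale.Agent.P140.Sc.r04 Vale.Agent.P140.Sc.r05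 Vale.Agent.P140.Sc.r06 Vale.Agent.P140.Sc.r07 Vale.Agent.P140.Sc.r08 Vale.Agent.P140.Sc.r09 Vale.Agent.P140.Sc.r10 Vale.Agent.P140.Sc.r11 Vale.Agent.P140.Sc.r12 Vale.Agent.P140.Sc.r13 Vale.Agent.P140.Sc.r14 Vale.Agent.P140.Sc.r15 Vale.Agent.P140.Sc.r16 Vale.Agent.P140.Sc.r17 Vale.Agent.P140.Sc.r18

section

open MeasureTheory Set Filter
open scoped ENNReal Topology NNReal

noncomputable section

namespace Vale.Agent.P140

theorem stt_gain (f : T3 × V → ℝ) (p : T3 × V) :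
    Stt.gain f p = gain (fun w => f (p.1, w)) p.2 := by
  unfold Stt.gain Stt.coll Stt.sphInt gain
  apply lintegral_congr
  intro w
  apply lintegral_congr
  intro ω
  rw [ENNReal.ofReal_mul (abs_nonneg _)]
  rfl

theorem stt_loss (f : T3 × V → ℝ) (p : T3 × V) :
    Stt.loss f p = loss (fun w => f (p.1, w)) p.2 := by
  unfold Stt.loss Stt.coll Stt.sphInt loss
  apply lintegral_congr
  intro w
  apply lintegral_congr
  intro ω
  rw [ENNReal.ofReal_mul (abs_nonneg _)]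
  rfl

theorem stt_Maxw (v : V) : Stt.Maxw v = Maxw v := by
  unfold Stt.Maxw Maxw
  have hp : (0 : ℝ) ≤ 2 * Real.pi := by positivity
  have h : √(2 * Real.pi) ^ 3 = (2 * Real.pi) ^ (3 / 2 : ℝ) := by
    rw [Real.sqrt_eq_rpow, ← Real.rpow_natCast, ← Real.rpow_mul hp]
    norm_num
  rw [h, Real.rpow_neg hp, div_eq_mul_inv, mul_comm]

theorem stt_relEntropy {f : T3 × V → ℝ} (hf : Measurable f) :
    Stt.relEntropy f = relEntropy fun x v => f (x, v) := by
  unfold Stt.relEntropy relEntropy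
  simp only [stt_Maxw]
  have hM : Measurable fun p : T3 × V => Maxw p.2 := measurable_Maxw.comp measurable_snd
  have h : Measurable fun p : T3 × V => f p * Real.log (f p / Maxw p.2) - f p + Maxw p.2 :=
    ((hf.mul (Real.measurable_log.comp (hf.div hM))).sub hf).add hM
  rw [Measure.volume_eq_prod, lintegral_prod _ h.ennreal_ofReal.aemeasurable]

/-- the statement-level notion implies the working notion -/
theorem sol_of_stt {π : V → T3} (hπ : ∀ x i, π x i = (x i : UnitAddCircle))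
    {F0 : T3 × V → ℝ} {F : ℝ → T3 × V → ℝ} (h : Stt.IsSol π F0 F) :
    IsRenormEntropySol (fun x v => F0 (x, v)) (fun t x v => F t (x, v)) := by
  have hπ' : π = toTorus := by
    funext x
    funext i
    exact hπ x i
  subst hπ'
  have hm : Measurable fun p : ℝ × T3 × V => F p.1 (p.2.1, p.2.2) := h.measurable
  have hmt : ∀ t, Measurable (F t) := fun t =>
    h.measurable.comp (by fun_prop : Measurable fun p : T3 × V => (t, p))
  have hd : IsDatum fun x v => F0 (x, v) := ⟨h.datum_measurable, fun x v => h.datum_nonneg (x, v),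
    h.datum_finite⟩
  have hM : Measurable fun q : ℝ × T3 × V => Maxw q.2.2 := measurable_Maxw.comp (by fun_prop)
  have hcol : ∀ T : ℝ, ∀ k : (V → ℝ) → V → ℝ≥0∞,
      (Measurable fun q : ℝ × T3 × V => k (fun w => F q.1 (q.2.1, w)) q.2.2) →
      (∀ t x v, k (fun w => F t (x, w)) v ≤ gain (fun w => F t (x, w)) v
        + loss (fun w => F t (x, w)) v) →
      ∫⁻ p : ℝ × T3 × V in Icc 0 T ×ˢ univ, k (fun w => F p.1 (p.2.1, w)) p.2.2
        / ENNReal.ofReal (1 + F p.1 (p.2.1, p.2.2) / Maxw p.2.2) < ⊤ := by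
    intro T k hk hle
    have hmm : Measurable fun q : ℝ × T3 × V => k (fun w => F q.1 (q.2.1, w)) q.2.2
        / ENNReal.ofReal (1 + F q.1 (q.2.1, q.2.2) / Maxw q.2.2) :=
      hk.div (measurable_const.add (hm.div hM)).ennreal_ofReal
    rw [Measure.volume_eq_prod ℝ (T3 × V), ← Measure.prod_restrict, Measure.restrict_univ,
      lintegral_prod _ hmm.aemeasurable]
    refine lt_of_le_of_lt ?_ (h.collision T)
    apply lintegral_mono
    intro t
    apply lintegral_mono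
    intro p
    simp only
    rw [stt_gain, stt_loss, stt_Maxw]
    exact ENNReal.div_le_div_right (hle t p.1 p.2) _
  refine ⟨hd, hm, fun t x v => h.nonneg t (x, v), h.integrable, ?_, h.initial, ?_, ?_, ?_, ?_, ?_,
    h.momentum, h.energy, ?_⟩
  · intro θ hθ hb
    exact h.weak_cont θ hθ hb
  · intro T
    obtain ⟨C, hC⟩ := h.bounded T
    exact ⟨ENNReal.ofReal C, ENNReal.ofReal_lt_top, fun t ht => hC t ht⟩
  · intro T
    exact hcol T gain (measurable_gain_st (F := fun t x v => F t (x, v)) hm) fun t x v => le_self_add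
  · intro T
    exact hcol T loss (measurable_loss_st (F := fun t x v => F t (x, v)) hm) fun t x v => le_add_self
  · intro β h1 h2 h3 φ hφ
    have h4 := h.renorm β h1 h2 h3 (fun t p => φ t p.1 p.2) hφ.smooth (by
      obtain ⟨R, hR⟩ := hφ.compact
      exact ⟨R, fun t p => hR t p.1 p.2⟩)
    simp only [stt_gain, stt_loss, stt_Maxw] at h4
    exact h4
  · intro φ hφ
    exact h.mass φ hφ.smooth hφ.compact
  · intro t ht
    have h4 := h.entropy t ht
    rw [stt_relEntropy (hmt t), stt_relEntropy h.datum_measurable] at h4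
    exact h4

end Vale.Agent.P140
end
end

section

open MeasureTheory Set
open scoped ENNReal
open Vale.Agent.P140.Stt (IsSol)

namespace Vale.Agent.P140

variable {π : V → T3}

theorem stt_hom (hπ : ∀ x i, π x i = (x i : UnitAddCircle)) :
    ∀ F0 F G, IsSol π F0 F → IsSol π F0 G → (∀ x y v, F0 (x, v) = F0 (y, v)) →
    ∀ t, 0 ≤ t → F t =ᵐ[volume] G t := by
  intro F0 F G hF hG hh t ht
  exact renorm_hom_unique hh (sol_of_stt hπ hF) (sol_of_stt hπ hG) ht

theorem stt_large (hπ : ∀ x i, π x i = (x i : UnitAddCircle)) :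
    ∀ A α ρ c : ℝ, 0 < α → 0 < ρ → 0 < c → ∀ u : V, ∃ ε : ℝ, 0 < ε ∧ ∀ F0 F G,
    IsSol π F0 F → IsSol π F0 G → (∀ᵐ p, F0 p ≤ A * Real.exp (-(α * ‖p.2‖ ^ 2))) →
    ∫⁻ p, ENNReal.ofReal |F0 p - ρ * Real.exp (-(c * ‖p.2 - u‖ ^ 2))| ≤ ENNReal.ofReal ε →
    ∀ t, 0 ≤ t → F t =ᵐ[volume] G t := by
  intro A α ρ c hα hρ hc u
  obtain ⟨ε, hε, k, R, -, h⟩ := renorm_large_unique hρ (half_pos hc) u A hα
  refine ⟨ε, hε, fun F0 F G hF hG hb hL t ht => ?_⟩
  refine (h _ _ hb ?_ (sol_of_stt hπ hF)).2 _ (sol_of_stt hπ hG) t ht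
  refine le_trans (le_of_eq ?_) hL
  apply lintegral_congr
  intro p
  unfold Mr
  congr 6
  ring

theorem stt_loc (hπ : ∀ x i, π x i = (x i : UnitAddCircle)) :
    ∀ A α : ℝ, 0 < α → ∃ T : ℝ, 0 < T ∧ ∀ F0 F G, IsSol π F0 F → IsSol π F0 G →
    (∀ᵐ p, F0 p ≤ A * Real.exp (-(α * ‖p.2‖ ^ 2))) → ∀ t ∈ Icc 0 T, F t =ᵐ[volume] G t := by
  intro A α hα
  obtain ⟨T, hT, h⟩ := renorm_loc_unique (A := max A 1) (α := α) (by positivity) hα
  refine ⟨T / 2, by positivity, fun F0 F G hF hG hb t ht => ?_⟩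
  refine h _ _ _ ?_ (sol_of_stt hπ hF) (sol_of_stt hπ hG) t ht.1 (by linarith [ht.2])
  filter_upwards [hb] with p hp
  refine hp.trans ?_
  gcongr
  exact le_max_left _ _

theorem stt_ws (hπ : ∀ x i, π x i = (x i : UnitAddCircle)) :
    ∀ T, 0 < T → ∀ F0 G0 F G, IsSol π F0 F → IsSol π G0 G →
    ∀ A B : ℝ → ℝ≥0∞, Measurable A → Measurable B →
      (∀ᵐ t, ∀ᵐ x, ∫⁻ v, ENNReal.ofReal ((1 + ‖v‖) ^ 2 * min (F t (x, v)) (G t (x, v))) ≤ A t ∧
        ∫⁻ v, ENNReal.ofReal ((1 + ‖v‖) ^ 3 * min (F t (x, v)) (G t (x, v))) ≤ B t) →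
      (F0 = G0 → ∫⁻ t in Ioc 0 T, A t < ⊤ → (∀ τ, 0 < τ → ∫⁻ t in Ioc τ T, B t < ⊤) →
        ∫⁻ t in Ioc 0 T, B t * (∫⁻ s in Ioc 0 t, A s) < ⊤ → ∀ t ∈ Icc 0 T, F t =ᵐ[volume] G t) ∧
      (∫⁻ t in Ioc 0 T, B t < ⊤ →
        ∫⁻ p, ENNReal.ofReal ((1 + ‖p.2‖ ^ 2) * |F T p - G T p|) ≤
          ENNReal.ofReal (Real.exp (16 * Real.pi * (∫⁻ t in Ioc 0 T, B t).toReal)) *
            ∫⁻ p, ENNReal.ofReal ((1 + ‖p.2‖ ^ 2) * |F0 p - G0 p|)) := by
  intro T hT F0 G0 F G hsF hsG A B mA mB hAB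
  have hF := sol_of_stt hπ hsF
  have hG := sol_of_stt hπ hsG
  have rA : ∀ᵐ t ∂(volume.restrict (Ioc 0 T)), ∀ᵐ x : T3,
      vmom 2 (fun v => min (F t (x, v)) (G t (x, v))) ≤ A t := by
    apply ae_restrict_of_ae
    filter_upwards [hAB] with t ht
    filter_upwards [ht] with x hx
    exact hx.1
  have rB : ∀ᵐ t ∂(volume.restrict (Ioc 0 T)), ∀ᵐ x : T3,
      vmom 3 (fun v => min (F t (x, v)) (G t (x, v))) ≤ B t := by
    apply ae_restrict_of_ae
    filter_upwards [hAB] with t ht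
    filter_upwards [ht] with x hx
    exact hx.2
  refine ⟨?_, ?_⟩
  · intro h0 iA iB iAB t ht
    subst h0
    exact renorm_unique_strong_min hT hF hG mA mB rA rB iA iB iAB t ht
  · intro iB
    have h := renorm_stable_min hT hF hG mB rB iB T ⟨hT.le, le_refl T⟩
    have e : ∀ f g : T3 × V → ℝ,
        wDist psi2 (fun x v => f (x, v)) (fun x v => g (x, v))
          = ∫⁻ p, ENNReal.ofReal ((1 + ‖p.2‖ ^ 2) * |f p - g p|) := by
      intro f g
      unfold wDist psi2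
      apply lintegral_congr
      intro p
      rw [← ENNReal.ofReal_mul (by positivity)]
    rw [e (F T) (G T), e F0 G0, mul_comm] at h
    have e2 : (∫⁻ s in Ioc 0 T, 4 * surf univ * B s).toReal
        = 16 * Real.pi * (∫⁻ s in Ioc 0 T, B s).toReal := by
      rw [lintegral_const_mul _ mB, surf_univ, ENNReal.toReal_mul, ENNReal.toReal_mul,
        ENNReal.toReal_ofReal (by positivity)]
      norm_num
      left
      ring
    rw [e2] at h
    exact h

end Vale.Agent.P140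
end
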