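import Vale.Agent.P140.Bdl.B3
import Vale.Agent.P140.Bdl.B1
import Vale.Agent.P140.Bdl.B2
attribute [-instance] ProperSMul.toContinuousSMul IsTopologicalTorsor.toContinuousSMul IdemSemiring.toCanonicallyOrderedAdd IdemSemiring.toMulLeftMono IdemSemiring.toMulRightMono AddQuantale.instAddLeftMono AddQuantale.instAddRightMono Quantale.instMulLeftMono Quantale.instMulRightMono FiniteDimensional.rclike_to_real IsScalarTower.complexToReal FiniteDimensional.complexToReal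

set_option linter.all false

attribute [local instance 5000] Vale.Agent.P140.Sc.a01 Vale.Agent.P140.Sc.a02 Vale.Agent.P140.Sc.a03 Vale.Agent.P140.Sc.a04 Vale.Agent.P140.Sc.a05 Vale.Agent.P140.Sc.a06 Vale.Agent.P140.Sc.a07 Vale.Agent.P140.Sc.a08 Vale.Agent.P140.Sc.a09 Vale.Agent.P140.Sc.a10 Vale.Agent.P140.Sc.a11 Vale.Agent.P140.Sc.a12 Vale.Agent.P140.Sc.a13 Vale.Agent.P140.Sc.a14 Vale.Agent.P140.Sc.a15 Vale.Agent.P140.Sc.a16 Vale.Agent.P140.Sc.a17 Vale.Agent.P140.Sc.a18 Vale.Agent.P140.Sc.a19 Vale.Agent.P140.Sc.a20 Vale.Agent.P140.Sc.a21 Vale.Agent.P140.Sc.a22 Vale.Agent.P140.Sc.a23 Vale.Agent.P140.Sc.a24 Vale.Agent.P140.Sc.a25 Vale.Agent.P140.Sc.a26 Vale.Agent.P140.Sc.a27 Vale.Agent.P140.Sc.a28 Vale.Agent.P140.Sc.a29 Vale.Agent.P140.Sc.a30 Vale.Agent.P140.Sc.a31 Vale.Agent.P140.Sc.a32 Vale.Agent.P140.Sc.a33 Vale.Agent.P140.Sc.r01 Vale.Agent.P140.Sc.r02 Vale.Agent.P140.Sc.r03 Vale.Agent.P140.Sc.r04 Vale.Agent.P140.Sc.r05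 Vale.Agent.P140.Sc.r06 Vale.Agent.P140.Sc.r07 Vale.Agent.P140.Sc.r08 Vale.Agent.P140.Sc.r09 Vale.Agent.P140.Sc.r10 Vale.Agent.P140.Sc.r11 Vale.Agent.P140.Sc.r12 Vale.Agent.P140.Sc.r13 Vale.Agent.P140.Sc.r14 Vale.Agent.P140.Sc.r15 Vale.Agent.P140.Sc.r16 Vale.Agent.P140.Sc.r17 Vale.Agent.P140.Sc.r18

section

open MeasureTheory Set

namespace Vale.Agent.P140

theorem ae_post_notMem {N : Set V} (hN : volume N = 0) :
    ∀ᵐ v : V, ∀ᵐ w : V, ∀ᵐ o ∂surf, post v w o ∉ N ∧ postStar v w o ∉ N := by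
  set N' := toMeasurable volume N with hN'
  have hm : MeasurableSet N' := measurableSet_toMeasurable _ _
  have h0 : volume N' = 0 := by rw [hN', measure_toMeasurable]; exact hN
  have hsub : N ⊆ N' := subset_toMeasurable _ _
  have hi : Measurable (N'.indicator (fun _ : V => (1 : ENNReal))) := measurable_const.indicator hm
  have hz : ∫⁻ v, N'.indicator (fun _ : V => (1 : ENNReal)) v = 0 := by
    rw [lintegral_indicator hm]; simp only [lintegral_const, MeasurableSet.univ, Measure.restrict_apply, univ_inter, h0, mul_zero]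
  have a1 : I3 (fun p => N'.indicator (fun _ : V => (1 : ENNReal)) (post p.1 p.2.1 p.2.2)) = 0 := by
    have := I3_coll (H := fun p => N'.indicator (fun _ : V => (1 : ENNReal)) p.1) (meas_1 hi)
    simp only at this
    rw [this]
    unfold I3
    have h2 : ∀ᵐ v : V, v ∉ N' := measure_eq_zero_iff_ae_notMem.mp h0
    apply (lintegral_eq_zero_iff' ?_).mpr
    · filter_upwards [h2] with v hv
      simp only [hv, not_false_eq_true, indicator_of_notMem, lintegral_const, zero_mul, measure_univ_of_isAddLeftInvariant, Pi.zero_apply]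
    · exact (meas_inner_int2 (meas_1 hi)).aemeasurable
  have a2 : I3 (fun p => N'.indicator (fun _ : V => (1 : ENNReal)) (postStar p.1 p.2.1 p.2.2)) = 0 := by
    have hs := I3_swap (H := fun p => N'.indicator (fun _ : V => (1 : ENNReal)) (post p.1 p.2.1 p.2.2))
      (meas_post_comp hi)
    rw [a1] at hs
    rw [← hs]
    apply I3_congr
    intro p
    simp only
    rw [post_swap p.1 p.2.1]
  have key : ∀ H : V × V × S2 → ENNReal, Measurable H → I3 H = 0 →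
      ∀ᵐ v : V, ∀ᵐ w : V, ∀ᵐ o ∂surf, H (v, w, o) = 0 := by
    intro H hH h
    have h1 := (lintegral_eq_zero_iff (meas_inner_int2 hH)).mp h
    filter_upwards [h1] with v hv
    have h2 := (lintegral_eq_zero_iff (meas_sec_w hH v)).mp hv
    filter_upwards [h2] with w hw
    exact (lintegral_eq_zero_iff (meas_sec_o hH v w)).mp hw
  have k1 := key _ (meas_post_comp hi) a1
  have k2 := key _ (meas_postStar_comp hi) a2
  filter_upwards [k1, k2] with v h1 h2
  filter_upwards [h1, h2] with w h1 h2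
  filter_upwards [h1, h2] with o h1 h2
  constructor
  · intro h
    have : post v w o ∈ N' := hsub h
    simp [this] at h1
  · intro h
    have : postStar v w o ∈ N' := hsub h
    simp [this] at h2

theorem Qp_congr_of_notMem {N : Set V} {f g : V → ENNReal} (h : ∀ v, v ∉ N → f v = g v) {v : V}
    (hv : ∀ᵐ w : V, ∀ᵐ o ∂surf, post v w o ∉ N ∧ postStar v w o ∉ N) : Qp f v = Qp g v := by
  unfold Qp
  apply lintegral_congr_ae
  filter_upwards [hv] with w hw
  apply lintegral_congr_ae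
  filter_upwards [hw] with o ho
  rw [h _ ho.1, h _ ho.2]

theorem Qm_congr_of_notMem {N : Set V} (hN : volume N = 0) {f g : V → ENNReal}
    (h : ∀ v, v ∉ N → f v = g v) {v : V} (hv : v ∉ N) : Qm f v = Qm g v := by
  unfold Qm
  have hN' : ∀ᵐ w : V, w ∉ N := measure_eq_zero_iff_ae_notMem.mp hN
  apply lintegral_congr_ae
  filter_upwards [hN'] with w hw
  apply lintegral_congr
  intro o
  rw [h _ hv, h _ hw]

theorem gain_eq_Qp {g : V → ℝ} (hg : ∀ v, 0 ≤ g v) (v : V) :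
    gain g v = Qp (fun v => ENNReal.ofReal (g v)) v := by
  unfold gain Qp kk
  apply lintegral_congr; intro w
  apply lintegral_congr; intro o
  rw [ENNReal.ofReal_mul (abs_nonneg _), ENNReal.ofReal_mul (hg _)]

theorem loss_eq_Qm {g : V → ℝ} (hg : ∀ v, 0 ≤ g v) (v : V) :
    loss g v = Qm (fun v => ENNReal.ofReal (g v)) v := by
  unfold loss Qm kk
  apply lintegral_congr; intro w
  apply lintegral_congr; intro o
  rw [ENNReal.ofReal_mul (abs_nonneg _), ENNReal.ofReal_mul (hg _)]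

/-- global strong homogeneous solution for data with finite fourth moment -/
theorem hom_exists {g0 : V → ℝ} (hg0 : Measurable g0)
    (h4 : Mo 2 (fun v => ENNReal.ofReal (g0 v)) ≠ ⊤) :
    ∃ g : ℝ → V → ℝ, (Measurable fun p : ℝ × V => g p.1 p.2) ∧ (∀ t v, 0 ≤ g t v) ∧
      (∀ᵐ v : V, ∀ t, 0 ≤ t → ENNReal.ofReal (g t v) + ∫⁻ s in Ioc 0 t, loss (g s) v =
        ENNReal.ofReal (g0 v) + ∫⁻ s in Ioc 0 t, gain (g s) v) ∧
      (∀ t, 0 ≤ t → Mo 0 (fun v => ENNReal.ofReal (g t v)) = Mo 0 (fun v => ENNReal.ofReal (g0 v))) ∧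
      (∀ t, 0 ≤ t → Mo 1 (fun v => ENNReal.ofReal (g t v)) = Mo 1 (fun v => ENNReal.ofReal (g0 v))) ∧
      (∀ t, 0 ≤ t → Mo 2 (fun v => ENNReal.ofReal (g t v)) ≤
        Mo 2 (fun v => ENNReal.ofReal (g0 v)) * ENNReal.ofReal
          (Real.exp ((2 * (Ss * Mo 1 (fun v => ENNReal.ofReal (g0 v))).toReal) * t))) := by
  set G0 : V → ENNReal := fun v => ENNReal.ofReal (g0 v) with hG0
  have mG0 : Measurable G0 := ENNReal.measurable_ofReal.comp hg0
  have hκ : Mo 1 G0 ≠ ⊤ := ne_top_of_le_ne_top h4 (Mo_mono (by (clear * -; norm_num)))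
  have hfin := ae_finite_lim mG0 hκ h4
  have hml := measurable_lim mG0
  set N : Set V := {v | ¬ (G0 v ≠ ⊤ ∧ ∀ t, 0 ≤ t → lim G0 t v ≠ ⊤ ∧
      (∫⁻ s in Ioc 0 t, lim G0 s v) ≠ ⊤ ∧ (∫⁻ s in Ioc 0 t, Ga (lim G0 s) v) ≠ ⊤)} with hNdef
  have hN : volume N = 0 := hfin
  have hNae : ∀ᵐ v : V, v ∉ N := measure_eq_zero_iff_ae_notMem.mp hN
  have hoff : ∀ t, 0 ≤ t → ∀ v, v ∉ N → ENNReal.ofReal ((lim G0 t v).toReal) = lim G0 t v := by
    intro t ht v hv
    apply ENNReal.ofReal_toReal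
    simp only [hNdef, mem_ofPred_eq, not_not] at hv
    exact (hv.2 t ht).1
  have hMoeq : ∀ j t, 0 ≤ t → Mo j (fun v => ENNReal.ofReal ((lim G0 t v).toReal)) =
      Mo j (lim G0 t) := by
    intro j t ht
    unfold Mo
    apply lintegral_congr_ae
    filter_upwards [hNae] with v hv
    rw [hoff t ht v hv]
  refine ⟨fun t v => (lim G0 t v).toReal, hml.ennreal_toReal, fun t v => ENNReal.toReal_nonneg,
    ?_, ?_, ?_, ?_⟩
  · filter_upwards [lim_equation mG0 hκ h4, ae_post_notMem hN, hNae] with v h1 h2 h3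
    intro t ht
    have h4 := h1 t ht
    rw [hoff t ht v h3]
    have e1 : ∫⁻ s in Ioc 0 t, loss (fun v => (lim G0 s v).toReal) v =
        ∫⁻ s in Ioc 0 t, Qm (lim G0 s) v := by
      apply setLIntegral_congr_fun measurableSet_Ioc
      intro s hs
      simp only
      rw [loss_eq_Qm (fun v => ENNReal.toReal_nonneg)]
      exact Qm_congr_of_notMem hN (hoff s hs.1.le) h3
    have e2 : ∫⁻ s in Ioc 0 t, gain (fun v => (lim G0 s v).toReal) v =
        ∫⁻ s in Ioc 0 t, Qp (lim G0 s) v := by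
      apply setLIntegral_congr_fun measurableSet_Ioc
      intro s hs
      simp only
      rw [gain_eq_Qp (fun v => ENNReal.toReal_nonneg)]
      exact Qp_congr_of_notMem (hoff s hs.1.le) h2
    rw [e1, e2]
    exact h4
  · intro t ht
    rw [hMoeq 0 t ht]
    exact Mo0_lim mG0 hκ h4 ht
  · intro t ht
    rw [hMoeq 1 t ht]
    exact Mo1_lim mG0 hκ h4 ht
  · intro t ht
    rw [hMoeq 2 t ht]
    exact Mo2_lim_le mG0 hκ h4 ht

end Vale.Agent.P140
end

section

open MeasureTheory Set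

namespace Vale.Agent.P140

/-- integrand of the angular average -/
noncomputable def jj (u v : V) (o : S2) : ℝ :=
  |inner ℝ u (o : V)| * ((inner ℝ v (o : V)) ^ 2 * (‖v‖ ^ 2 - (inner ℝ v (o : V)) ^ 2))

noncomputable def JJ (u v : V) : ℝ := ∫ o, jj u v o ∂surf

theorem inner_o_sq_le (v : V) (o : S2) : (inner ℝ v (o : V)) ^ 2 ≤ ‖v‖ ^ 2 := by
  have h := abs_real_inner_le_norm v (o : V)
  rw [norm_o, mul_one] at h
  exact sq_le_sq' (by linarith only [abs_le.mp h]) (by linarith only [abs_le.mp h])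

theorem jj_nonneg (u v : V) (o : S2) : 0 ≤ jj u v o := by
  unfold jj
  have := inner_o_sq_le v o
  apply mul_nonneg (abs_nonneg _)
  apply mul_nonneg (sq_nonneg _)
  linarith only [this]

theorem continuous_jj : Continuous fun p : (V × V) × S2 => jj p.1.1 p.1.2 p.2 := by
  unfold jj
  fun_prop

theorem continuous_JJ : Continuous fun p : V × V => JJ p.1 p.2 := by
  unfold JJ
  have h := continuous_parametric_integral_of_continuous (μ := surf)
    (f := fun (p : V × V) (o : S2) => jj p.1 p.2 o) continuous_jj (isCompact_univ (X := S2))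
  simpa only [Measure.restrict_univ] using h

theorem exists_good (u v : V) (hu : u ≠ 0) (hv : v ≠ 0) :
    ∃ x : V, inner ℝ u x ≠ 0 ∧ inner ℝ v x ≠ 0 ∧ x ∉ (Submodule.span ℝ {v} : Submodule ℝ V) := by
  have h1 : (volume : Measure V) ((ℝ ∙ u)ᗮ : Submodule ℝ V) = 0 := by
    apply Measure.addHaar_submodule
    intro h
    have : u ∈ (ℝ ∙ u)ᗮ := by rw [h]; trivial
    rw [Submodule.mem_orthogonal_singleton_iff_inner_right] at this
    exact hu (inner_self_eq_zero.mp this)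
  have h2 : (volume : Measure V) ((ℝ ∙ v)ᗮ : Submodule ℝ V) = 0 := by
    apply Measure.addHaar_submodule
    intro h
    have : v ∈ (ℝ ∙ v)ᗮ := by rw [h]; trivial
    rw [Submodule.mem_orthogonal_singleton_iff_inner_right] at this
    exact hv (inner_self_eq_zero.mp this)
  have h3 : (volume : Measure V) (Submodule.span ℝ {v} : Submodule ℝ V) = 0 := by
    apply Measure.addHaar_submodule
    intro h
    have h4 := finrank_span_singleton (K := ℝ) hv
    rw [h, finrank_top] at h4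
    simp only [finrank_euclideanSpace, Fintype.card_fin, OfNat.ofNat_ne_one] at h4
  have h5 : ∀ᵐ x : V, x ∉ ((ℝ ∙ u)ᗮ : Submodule ℝ V) := measure_eq_zero_iff_ae_notMem.mp h1
  have h6 : ∀ᵐ x : V, x ∉ ((ℝ ∙ v)ᗮ : Submodule ℝ V) := measure_eq_zero_iff_ae_notMem.mp h2
  have h7 : ∀ᵐ x : V, x ∉ (Submodule.span ℝ {v} : Submodule ℝ V) :=
    measure_eq_zero_iff_ae_notMem.mp h3
  obtain ⟨x, hx1, hx2, hx3⟩ := (h5.and (h6.and h7)).exists
  refine ⟨x, ?_, ?_, hx3⟩
  · intro h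
    exact hx1 (Submodule.mem_orthogonal_singleton_iff_inner_right.mpr h)
  · intro h
    exact hx2 (Submodule.mem_orthogonal_singleton_iff_inner_right.mpr h)

theorem JJ_pos (u v : V) (hu : u ≠ 0) (hv : v ≠ 0) : 0 < JJ u v := by
  obtain ⟨x, hx1, hx2, hx3⟩ := exists_good u v hu hv
  have hx0 : x ≠ 0 := by
    intro h; rw [h] at hx1; simp at hx1
  have hxn : ‖x‖ ≠ 0 := norm_ne_zero_iff.mpr hx0
  set o : S2 := ⟨‖x‖⁻¹ • x, by simp only [mem_sphere_iff_norm, sub_zero, norm_smul, norm_inv, norm_norm, ne_eq, hxn, not_false_eq_true, inv_mul_cancel₀]⟩ with ho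
  have hov : (o : V) = ‖x‖⁻¹ • x := rfl
  have hcont : Continuous fun o => jj u v o :=
    (continuous_jj.comp (by fun_prop : Continuous fun o : S2 => ((u, v), o)) :)
  unfold JJ
  have : Measure.IsOpenPosMeasure surf := by unfold surf; infer_instance
  apply hcont.integral_pos_of_hasCompactSupport_nonneg_nonzero
    (HasCompactSupport.of_compactSpace _) (fun o => jj_nonneg u v o) (x := o)
  unfold jj
  rw [hov, inner_smul_right, inner_smul_right]
  have hi : ‖x‖⁻¹ ≠ 0 := inv_ne_zero hxn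
  apply mul_ne_zero
  · exact abs_ne_zero.mpr (mul_ne_zero hi hx1)
  · apply mul_ne_zero
    · exact pow_ne_zero 2 (mul_ne_zero hi hx2)
    · intro h
      have h1 : (inner ℝ v x) ^ 2 = (‖v‖ * ‖x‖) ^ 2 := by
        have : ‖v‖ ^ 2 = (‖x‖⁻¹ * inner ℝ v x) ^ 2 := by linarith only [h]
        rw [mul_pow, this]
        (clear * - hxn hx2; field_simp)
      have h2 : ‖(inner ℝ v x : ℝ)‖ = ‖v‖ * ‖x‖ := by
        rw [Real.norm_eq_abs]
        have h3 := (sq_eq_sq_iff_abs_eq_abs _ _).mp h1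
        rw [h3, abs_of_nonneg (by positivity)]
      rw [norm_inner_eq_norm_iff hv hx0] at h2
      obtain ⟨r, _, hr⟩ := h2
      apply hx3
      rw [hr]
      exact Submodule.smul_mem _ _ (Submodule.mem_span_singleton_self v)

theorem JJ_smul (a b : ℝ) (ha : 0 ≤ a) (u v : V) : JJ (a • u) (b • v) = a * b ^ 4 * JJ u v := by
  unfold JJ
  rw [← integral_const_mul]
  congr 1
  ext o
  unfold jj
  rw [inner_smul_left, inner_smul_left, norm_smul]
  simp only [conj_trivial, abs_mul, abs_of_nonneg ha, Real.norm_eq_abs, mul_pow, sq_abs]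
  ring

theorem exists_JJ_bound : ∃ c : ℝ, 0 < c ∧ ∀ u v : V, c * (‖u‖ * ‖v‖ ^ 4) ≤ JJ u v := by
  have hK : IsCompact ((Metric.sphere (0 : V) 1) ×ˢ (Metric.sphere (0 : V) 1)) :=
    (isCompact_sphere 0 1).prod (isCompact_sphere 0 1)
  have hne : ((Metric.sphere (0 : V) 1) ×ˢ (Metric.sphere (0 : V) 1)).Nonempty := by
    have : (Metric.sphere (0 : V) 1).Nonempty := NormedSpace.sphere_nonempty.mpr zero_le_one
    exact this.prod this
  obtain ⟨p, hp, hmin⟩ := hK.exists_isMinOn hne continuous_JJ.continuousOn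
  have hp1 : p.1 ≠ 0 := by
    have := hp.1
    rw [mem_sphere_zero_iff_norm] at this
    intro h; rw [h] at this; simp at this
  have hp2 : p.2 ≠ 0 := by
    have := hp.2
    rw [mem_sphere_zero_iff_norm] at this
    intro h; rw [h] at this; simp at this
  refine ⟨JJ p.1 p.2, JJ_pos _ _ hp1 hp2, ?_⟩
  intro u v
  by_cases hu : u = 0
  · rw [hu]; simp only [norm_zero, zero_mul, mul_zero]
    unfold JJ
    exact integral_nonneg fun o => jj_nonneg _ _ _
  by_cases hv : v = 0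
  · rw [hv]; simp only [norm_zero]
    simp only [ne_eq, OfNat.ofNat_ne_zero, not_false_eq_true, zero_pow, mul_zero]
    unfold JJ
    exact integral_nonneg fun o => jj_nonneg _ _ _
  have hun : ‖u‖ ≠ 0 := norm_ne_zero_iff.mpr hu
  have hvn : ‖v‖ ≠ 0 := norm_ne_zero_iff.mpr hv
  have h1 := hmin (show ((‖u‖⁻¹ • u, ‖v‖⁻¹ • v) : V × V) ∈
    (Metric.sphere (0 : V) 1) ×ˢ (Metric.sphere (0 : V) 1) by
      constructor <;> simp [norm_smul, hun, hvn])
  simp only at h1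
  have h2 : JJ u v = ‖u‖ * ‖v‖ ^ 4 * JJ (‖u‖⁻¹ • u) (‖v‖⁻¹ • v) := by
    rw [← JJ_smul ‖u‖ ‖v‖ (norm_nonneg _), smul_smul, smul_smul, mul_inv_cancel₀ hun,
      mul_inv_cancel₀ hvn, one_smul, one_smul]
  rw [h2, mul_comm]
  exact mul_le_mul_of_nonneg_left h1 (by positivity)

theorem povzner_real (P Q p q : ℝ) (hp2 : p ^ 2 ≤ P ^ 2) (hq2 : q ^ 2 ≤ Q ^ 2) :
    ENNReal.ofReal (1 + (P ^ 2 - p ^ 2 + q ^ 2)) ^ 2 + ENNReal.ofReal (1 + (Q ^ 2 - q ^ 2 + p ^ 2)) ^ 2 +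
      2 * ENNReal.ofReal (p ^ 2 * (P ^ 2 - p ^ 2)) +
      2 * ENNReal.ofReal (q ^ 2 * (Q ^ 2 - q ^ 2)) ≤
    ENNReal.ofReal (1 + P ^ 2) ^ 2 + ENNReal.ofReal (1 + Q ^ 2) ^ 2 +
      4 * ENNReal.ofReal (P ^ 2 * Q ^ 2) := by
  have hA : 0 ≤ p ^ 2 * (P ^ 2 - p ^ 2) := mul_nonneg (sq_nonneg _) (by linarith)
  have hB : 0 ≤ q ^ 2 * (Q ^ 2 - q ^ 2) := mul_nonneg (sq_nonneg _) (by linarith)
  have n1 : 0 ≤ 1 + (P ^ 2 - p ^ 2 + q ^ 2) := by nlinarith only [hp2]
  have n2 : 0 ≤ 1 + (Q ^ 2 - q ^ 2 + p ^ 2) := by nlinarith only [hq2]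
  rw [← ENNReal.ofReal_pow n1, ← ENNReal.ofReal_pow n2, ← ENNReal.ofReal_pow (by positivity),
    ← ENNReal.ofReal_pow (by (clear * -; positivity)), show (2 : ENNReal) = ENNReal.ofReal 2 by simp,
    show (4 : ENNReal) = ENNReal.ofReal 4 by simp, ← ENNReal.ofReal_mul (by norm_num),
    ← ENNReal.ofReal_mul (by norm_num), ← ENNReal.ofReal_mul (by norm_num),
    ← ENNReal.ofReal_add (by (clear * - hp2; positivity)) (by (clear * - hq2; positivity)),
    ← ENNReal.ofReal_add (by (clear * - hp2 hq2; positivity)) (by (clear * - hp2; positivity)),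
    ← ENNReal.ofReal_add (by (clear * - hp2 hq2; positivity)) (by positivity),
    ← ENNReal.ofReal_add (by (clear * -; positivity)) (by positivity),
    ← ENNReal.ofReal_add (by positivity) (by (clear * -; positivity))]
  apply ENNReal.ofReal_le_ofReal
  linarith only [mul_nonneg (sub_nonneg.2 hq2) (sub_nonneg.2 hp2), mul_nonneg (sq_nonneg (P : ℝ)) (sq_nonneg (q : ℝ)), mul_nonneg (sq_nonneg (p : ℝ)) (sq_nonneg (Q : ℝ))]

/-- pointwise collision inequality for the fourth moment -/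
theorem povzner_pt (v w : V) (o : S2) :
    ph (post v w o) ^ 2 + ph (postStar v w o) ^ 2 +
      2 * ENNReal.ofReal ((inner ℝ v (o : V)) ^ 2 * (‖v‖ ^ 2 - (inner ℝ v (o : V)) ^ 2)) +
      2 * ENNReal.ofReal ((inner ℝ w (o : V)) ^ 2 * (‖w‖ ^ 2 - (inner ℝ w (o : V)) ^ 2)) ≤
    ph v ^ 2 + ph w ^ 2 + 4 * ENNReal.ofReal (‖v‖ ^ 2 * ‖w‖ ^ 2) := by
  have hrel : relA v w o = inner ℝ v (o : V) - inner ℝ w (o : V) := by
    unfold relA; rw [inner_sub_left]
  have e1 : ‖post v w o‖ ^ 2 = ‖v‖ ^ 2 - (inner ℝ v (o : V)) ^ 2 + (inner ℝ w (o : V)) ^ 2 := by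
    unfold post
    rw [@norm_sub_sq_real, norm_smul, norm_o, inner_smul_right, hrel]
    simp only [mul_one, Real.norm_eq_abs, sq_abs]
    ring
  have e2 : ‖postStar v w o‖ ^ 2 = ‖w‖ ^ 2 - (inner ℝ w (o : V)) ^ 2 + (inner ℝ v (o : V)) ^ 2 := by
    unfold postStar
    rw [@norm_add_sq_real, norm_smul, norm_o, inner_smul_right, hrel]
    simp only [mul_one, Real.norm_eq_abs, sq_abs]
    ring
  unfold ph
  rw [e1, e2]
  exact povzner_real _ _ _ _ (inner_o_sq_le v o) (inner_o_sq_le w o)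

end Vale.Agent.P140
end

section

open MeasureTheory Set

namespace Vale.Agent.P140

theorem ph_post_cu (v w : V) (o : S2) :
    ph (post v w o) ^ 3 + ph (postStar v w o) ^ 3 ≤
      ph v ^ 3 + ph w ^ 3 + 3 * (ph v * ph w * (ph v + ph w)) := by
  have h := ph_post_add v w o
  calc ph (post v w o) ^ 3 + ph (postStar v w o) ^ 3
      ≤ ph (post v w o) ^ 3 + ph (postStar v w o) ^ 3 +
          3 * (ph (post v w o) * ph (postStar v w o) * (ph (post v w o) + ph (postStar v w o))) :=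
        le_self_add
    _ = (ph (post v w o) + ph (postStar v w o)) ^ 3 := by ring
    _ = ph v ^ 3 + ph w ^ 3 + 3 * (ph v * ph w * (ph v + ph w)) := by
        rw [h]; ring

theorem two_mul_le_sq_add_sq_ennreal (a b : ENNReal) : 2 * (a * b) ≤ a ^ 2 + b ^ 2 := by
  rcases le_total a b with h | h
  · obtain ⟨c, rfl⟩ := exists_add_of_le h
    calc 2 * (a * (a + c)) ≤ 2 * (a * (a + c)) + c ^ 2 := le_self_add
      _ = a ^ 2 + (a + c) ^ 2 := by ring
  · obtain ⟨c, rfl⟩ := exists_add_of_le h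
    calc 2 * ((b + c) * b) ≤ 2 * ((b + c) * b) + c ^ 2 := le_self_add
      _ = (b + c) ^ 2 + b ^ 2 := by ring

theorem Ga_mom3 {f : V → ENNReal} (hf : Measurable f) :
    ∫⁻ v, Ga f v * ph v ^ 3 ≤ Ss * (Mo 1 f * Mo 4 f) + 6 * (Ss * (Mo 1 f * Mo 3 f)) := by
  have h := Ga_weak hf (measurable_phpow 3)
  have m14 := meas_momI hf 1 4
  have m41 := meas_momI hf 4 1
  have m31 := meas_momI hf 3 1
  have m13 := meas_momI hf 1 3
  have h2 : I3 (fun p =>
      (kk p.1 p.2.1 p.2.2 * (ph (post p.1 p.2.1 p.2.2) ^ 3 + ph (postStar p.1 p.2.1 p.2.2) ^ 3) +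
        dd p * (ph p.1 ^ 3 + ph p.2.1 ^ 3)) * (f p.1 * f p.2.1)) ≤
      Ss * (Mo 4 f * Mo 1 f) + (Ss * (Mo 1 f * Mo 4 f) + 6 * (Ss * (Mo 3 f * Mo 1 f) +
        Ss * (Mo 1 f * Mo 3 f))) := by
    rw [← I3_mom hf 4 1, ← I3_mom hf 1 4, ← I3_mom hf 3 1, ← I3_mom hf 1 3]
    have m5 : Measurable fun p : V × V × S2 =>
      (ph p.1 ^ 3 * ph p.2.1 ^ 1) * (f p.1 * f p.2.1) +
        (ph p.1 ^ 1 * ph p.2.1 ^ 3) * (f p.1 * f p.2.1) := m31.add m13
    rw [← I3_add m31, ← I3_const_mul m5, ← I3_add m14, ← I3_add m41]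
    apply I3_mono
    intro p
    have e1 := ph_post_cu p.1 p.2.1 p.2.2
    have e2 := kk_le_add p.1 p.2.1 p.2.2
    have e3 := kk_add_dd p
    have e4 : (ph p.1 + ph p.2.1) * (ph p.1 + ph p.2.1) ≤ 2 * (ph p.1 ^ 2 + ph p.2.1 ^ 2) := by
      have := two_mul_le_sq_add_sq_ennreal (ph p.1) (ph p.2.1)
      calc (ph p.1 + ph p.2.1) * (ph p.1 + ph p.2.1)
          = ph p.1 ^ 2 + ph p.2.1 ^ 2 + 2 * (ph p.1 * ph p.2.1) := by ring
        _ ≤ ph p.1 ^ 2 + ph p.2.1 ^ 2 + (ph p.1 ^ 2 + ph p.2.1 ^ 2) := by (clear * - this; gcongr)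
        _ = _ := by ring
    calc (kk p.1 p.2.1 p.2.2 * (ph (post p.1 p.2.1 p.2.2) ^ 3 + ph (postStar p.1 p.2.1 p.2.2) ^ 3) +
        dd p * (ph p.1 ^ 3 + ph p.2.1 ^ 3)) * (f p.1 * f p.2.1)
        ≤ (kk p.1 p.2.1 p.2.2 * (ph p.1 ^ 3 + ph p.2.1 ^ 3 +
            3 * (ph p.1 * ph p.2.1 * (ph p.1 + ph p.2.1))) +
        dd p * (ph p.1 ^ 3 + ph p.2.1 ^ 3)) * (f p.1 * f p.2.1) := by gcongr
      _ = ((kk p.1 p.2.1 p.2.2 + dd p) * (ph p.1 ^ 3 + ph p.2.1 ^ 3) +
          kk p.1 p.2.1 p.2.2 * (3 * (ph p.1 * ph p.2.1 * (ph p.1 + ph p.2.1)))) *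
            (f p.1 * f p.2.1) := by ring
      _ ≤ ((kk p.1 p.2.1 p.2.2 + dd p) * (ph p.1 ^ 3 + ph p.2.1 ^ 3) +
          (ph p.1 + ph p.2.1) * (3 * (ph p.1 * ph p.2.1 * (ph p.1 + ph p.2.1)))) *
            (f p.1 * f p.2.1) := by (clear * - e2; gcongr)
      _ = ((kk p.1 p.2.1 p.2.2 + dd p) * (ph p.1 ^ 3 + ph p.2.1 ^ 3) +
          3 * (ph p.1 * ph p.2.1) * ((ph p.1 + ph p.2.1) * (ph p.1 + ph p.2.1))) *
            (f p.1 * f p.2.1) := by ring
      _ ≤ ((kk p.1 p.2.1 p.2.2 + dd p) * (ph p.1 ^ 3 + ph p.2.1 ^ 3) +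
          3 * (ph p.1 * ph p.2.1) * (2 * (ph p.1 ^ 2 + ph p.2.1 ^ 2))) *
            (f p.1 * f p.2.1) := by (clear * - e4; gcongr)
      _ = _ := by rw [e3]; ring
  have h3 : 2 * ∫⁻ v, Ga f v * ph v ^ 3 ≤
      2 * (Ss * (Mo 1 f * Mo 4 f) + 6 * (Ss * (Mo 1 f * Mo 3 f))) := by
    calc 2 * ∫⁻ v, Ga f v * ph v ^ 3 ≤ _ := h.le.trans h2
      _ = _ := by ring
  exact (ENNReal.mul_le_mul_iff_right (by norm_num) (by norm_num)).mp h3

theorem it_bounds3 {g0 : V → ENNReal} (hg0 : Measurable g0) (hW : Mo 3 g0 ≠ ⊤)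
    (k : ℕ) : ∀ t, 0 ≤ t →
      Ss * Mo 1 g0 * (∫⁻ s in Ioc 0 t, Mo 3 (it g0 k s)) ≠ ⊤ ∧
      Ss * Mo 1 g0 * (∫⁻ s in Ioc 0 t, Mo 4 (it g0 k s)) ≠ ⊤ ∧
      Mo 3 (it g0 k t) ≤ Mo 3 g0 * ENNReal.ofReal (Real.exp ((6 * (Ss * Mo 1 g0).toReal) * t)) := by
  have hκ : Mo 1 g0 ≠ ⊤ := ne_top_of_le_ne_top hW (Mo_mono (by norm_num))
  have hZ : Mo 2 g0 ≠ ⊤ := ne_top_of_le_ne_top hW (Mo_mono (by norm_num))
  induction k with
  | zero =>
    intro t _
    have h0 : ∀ s j, Mo j (it g0 0 s) = 0 := fun s j => Mo_zero_fun j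
    simp only [h0, lintegral_const, MeasurableSet.univ, Measure.restrict_apply, univ_inter, Real.volume_Ioc, sub_zero, zero_mul, mul_zero, ne_eq, ENNReal.zero_ne_top, not_false_eq_true, ENNReal.toReal_mul, zero_le, and_self]
  | succ k ih =>
    intro t ht
    set κ := Mo 1 g0 with hκdef
    have hK : Ss * κ ≠ ⊤ := ENNReal.mul_ne_top Ss_ne_top hκ
    have hmk := fun s => it_meas_v hg0 k s
    have hMo := fun j => joint_Mo (measurable_it hg0 k) j
    have hI := fun v => it_integrated hg0 hκ k ht v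
    have h2 := mom_integrated (measurable_it hg0 (k + 1)) (joint_Ga (measurable_it hg0 k)) hg0
      (c := Ss * κ) (t := t) hI 3
    obtain ⟨i2, i3, i4⟩ := ih t ht
    have e2 : ∫⁻ s in Ioc 0 t, ∫⁻ v, Ga (it g0 k s) v * ph v ^ 3 ≤
        Ss * κ * (∫⁻ s in Ioc 0 t, Mo 4 (it g0 k s)) +
          6 * (Ss * κ) * ∫⁻ s in Ioc 0 t, Mo 3 (it g0 k s) := by
      rw [← lintegral_const_mul' _ _ hK, ← lintegral_const_mul' _ _
        (ENNReal.mul_ne_top (by norm_num) hK), ← lintegral_add_left ((hMo 4).const_mul _)]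
      apply setLIntegral_mono' measurableSet_Ioc
      intro s hs
      refine (Ga_mom3 (hmk s)).trans ?_
      have := (it_bounds hg0 hκ hZ k s hs.1.le).1
      calc Ss * (Mo 1 (it g0 k s) * Mo 4 (it g0 k s)) +
            6 * (Ss * (Mo 1 (it g0 k s) * Mo 3 (it g0 k s)))
          ≤ Ss * (κ * Mo 4 (it g0 k s)) + 6 * (Ss * (κ * Mo 3 (it g0 k s))) := by (clear * - this; gcongr)
        _ = _ := by ring
    simp only [Nat.reduceAdd] at h2
    have b2 : Ss * κ * (∫⁻ s in Ioc 0 t, Mo 4 (it g0 (k + 1) s)) ≤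
        Mo 3 g0 + (Ss * κ * (∫⁻ s in Ioc 0 t, Mo 4 (it g0 k s)) +
          6 * (Ss * κ) * ∫⁻ s in Ioc 0 t, Mo 3 (it g0 k s)) := by
      calc _ ≤ Mo 3 (it g0 (k + 1) t) + Ss * κ * (∫⁻ s in Ioc 0 t, Mo 4 (it g0 (k + 1) s)) :=
            le_add_self
        _ = _ := h2
        _ ≤ _ := by (clear * - e2; gcongr)
    have c1 : Ss * κ * (∫⁻ s in Ioc 0 t, Mo 3 (it g0 (k + 1) s)) ≠ ⊤ :=
      (it_bounds hg0 hκ hZ (k + 1) t ht).2.2.1
    have c2 : Ss * κ * (∫⁻ s in Ioc 0 t, Mo 4 (it g0 (k + 1) s)) ≠ ⊤ := by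
      refine ne_top_of_le_ne_top (ENNReal.add_ne_top.mpr ⟨hW, ENNReal.add_ne_top.mpr ⟨i3, ?_⟩⟩) b2
      rw [mul_assoc]
      exact ENNReal.mul_ne_top (by norm_num) i2
    have mono2 : ∀ j, ∫⁻ s in Ioc 0 t, Mo j (it g0 k s) ≤ ∫⁻ s in Ioc 0 t, Mo j (it g0 (k + 1) s) := by
      intro j
      apply lintegral_mono; intro s
      exact Mo_le_of_le (fun v => it_mono_succ g0 k s v) j
    refine ⟨c1, c2, ?_⟩
    have d1 : Mo 3 (it g0 (k + 1) t) ≤ Mo 3 g0 + 6 * (Ss * κ) * ∫⁻ s in Ioc 0 t, Mo 3 (it g0 k s) := by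
      apply ENNReal.le_of_add_le_add_right c2
      calc _ = _ := h2
        _ ≤ Mo 3 g0 + (Ss * κ * (∫⁻ s in Ioc 0 t, Mo 4 (it g0 k s)) +
            6 * (Ss * κ) * ∫⁻ s in Ioc 0 t, Mo 3 (it g0 k s)) := by (clear * - e2; gcongr)
        _ ≤ Mo 3 g0 + (Ss * κ * (∫⁻ s in Ioc 0 t, Mo 4 (it g0 (k + 1) s)) +
            6 * (Ss * κ) * ∫⁻ s in Ioc 0 t, Mo 3 (it g0 k s)) :=
              add_le_add le_rfl (add_le_add (mul_le_mul_right (mono2 4) _) le_rfl)
        _ = _ := by ring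
    refine d1.trans ?_
    have d2 := lintegral_exp_pos (6 * (Ss * κ).toReal) t (by (clear * -; positivity)) ht
    rw [← d2, mul_add, mul_one]
    refine add_le_add le_rfl ?_
    have d3 : ∫⁻ s in Ioc 0 t, Mo 3 (it g0 k s) ≤
        Mo 3 g0 * ∫⁻ s in Ioc 0 t, ENNReal.ofReal (Real.exp (6 * (Ss * κ).toReal * s)) := by
      rw [← lintegral_const_mul' _ _ hW]
      apply setLIntegral_mono' measurableSet_Ioc
      intro s hs
      exact (ih s hs.1.le).2.2
    have d4 : ENNReal.ofReal (6 * (Ss * κ).toReal) = 6 * (Ss * κ) := by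
      rw [ENNReal.ofReal_mul (by norm_num), ENNReal.ofReal_toReal hK]
      simp
    rw [d4]
    calc 6 * (Ss * κ) * ∫⁻ s in Ioc 0 t, Mo 3 (it g0 k s)
        ≤ 6 * (Ss * κ) * (Mo 3 g0 *
          ∫⁻ s in Ioc 0 t, ENNReal.ofReal (Real.exp (6 * (Ss * κ).toReal * s))) := by (clear * - d3; gcongr)
      _ = _ := by ring

theorem Mo3_lim_le' {g0 : V → ENNReal} (hg0 : Measurable g0) (hW : Mo 3 g0 ≠ ⊤)
    {t T : ℝ} (ht : 0 ≤ t) (htT : t ≤ T) : Mo 3 (lim g0 t) ≤
      Mo 3 g0 * ENNReal.ofReal (Real.exp ((6 * (Ss * Mo 1 g0).toReal) * T)) := by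
  rw [Mo_lim hg0]
  apply iSup_le
  intro k
  refine ((it_bounds3 hg0 hW k t ht).2.2).trans ?_
  (clear * - htT; gcongr)

end Vale.Agent.P140
end

section

open MeasureTheory Set

namespace Vale.Agent.P140

/-- fourth moment identity data -/
noncomputable def AA (f : V → ENNReal) : ENNReal := ∫⁻ v, Qm f v * ph v ^ 2
noncomputable def BB (f : V → ENNReal) : ENNReal := ∫⁻ v, Qp f v * ph v ^ 2

noncomputable def pp (v : V) (o : S2) : ENNReal :=
  ENNReal.ofReal ((inner ℝ v (o : V)) ^ 2 * (‖v‖ ^ 2 - (inner ℝ v (o : V)) ^ 2))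

theorem meas_pp1 : Measurable fun p : V × V × S2 => pp p.1 p.2.2 := by
  unfold pp
  apply ENNReal.measurable_ofReal.comp
  apply Continuous.measurable
  fun_prop

theorem meas_pp2 : Measurable fun p : V × V × S2 => pp p.2.1 p.2.2 := by
  unfold pp
  apply ENNReal.measurable_ofReal.comp
  apply Continuous.measurable
  fun_prop

theorem BB_le {f : V → ENNReal} (hf : Measurable f) :
    BB f + 2 * I3 (fun p => kk p.1 p.2.1 p.2.2 * (f p.1 * f p.2.1) * pp p.1 p.2.2) ≤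
      AA f + 4 * (Ss * (Mo 1 f * Mo 2 f)) := by
  have hb1 := Qp_weak hf (measurable_phpow 2)
  have hb2 := Qp_weak_star hf (measurable_phpow 2)
  have ha1 := Qm_weak hf (fun v => ph v ^ 2)
  have ha2 := Qm_weak_star hf (measurable_phpow 2)
  have mk := meas_lossI hf
  have m1 : Measurable fun p : V × V × S2 =>
      kk p.1 p.2.1 p.2.2 * (f p.1 * f p.2.1) * pp p.1 p.2.2 := mk.mul meas_pp1
  have m2 : Measurable fun p : V × V × S2 =>
      kk p.1 p.2.1 p.2.2 * (f p.1 * f p.2.1) * pp p.2.1 p.2.2 := mk.mul meas_pp2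
  have hsw : I3 (fun p => kk p.1 p.2.1 p.2.2 * (f p.1 * f p.2.1) * pp p.2.1 p.2.2) =
      I3 (fun p => kk p.1 p.2.1 p.2.2 * (f p.1 * f p.2.1) * pp p.1 p.2.2) := by
    rw [← I3_swap m1]
    apply I3_congr
    intro p
    simp only
    rw [kk_swap p.1 p.2.1, mul_comm (f p.2.1) (f p.1)]
  have m3 : Measurable fun p : V × V × S2 =>
      kk p.1 p.2.1 p.2.2 * (f p.1 * f p.2.1) * ph (post p.1 p.2.1 p.2.2) ^ 2 :=
    mk.mul (meas_post_comp (measurable_phpow 2))
  have m4 : Measurable fun p : V × V × S2 =>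
      kk p.1 p.2.1 p.2.2 * (f p.1 * f p.2.1) * ph (postStar p.1 p.2.1 p.2.2) ^ 2 :=
    mk.mul (meas_postStar_comp (measurable_phpow 2))
  have m5 : Measurable fun p : V × V × S2 =>
      kk p.1 p.2.1 p.2.2 * (f p.1 * f p.2.1) * ph p.1 ^ 2 :=
    mk.mul (meas_1 (measurable_phpow 2))
  have m6 : Measurable fun p : V × V × S2 =>
      kk p.1 p.2.1 p.2.2 * (f p.1 * f p.2.1) * ph p.2.1 ^ 2 :=
    mk.mul (meas_2 (measurable_phpow 2))
  have m21 := meas_momI hf 2 1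
  have m12 := meas_momI hf 1 2
  have key : (BB f + BB f) + (2 * I3 (fun p => kk p.1 p.2.1 p.2.2 * (f p.1 * f p.2.1) * pp p.1 p.2.2) +
      2 * I3 (fun p => kk p.1 p.2.1 p.2.2 * (f p.1 * f p.2.1) * pp p.2.1 p.2.2)) ≤
      (AA f + AA f) + 4 * (Ss * (Mo 2 f * Mo 1 f) + Ss * (Mo 1 f * Mo 2 f)) := by
    rw [← I3_mom hf 2 1, ← I3_mom hf 1 2]
    have hB : BB f + BB f = I3 (fun p =>
        kk p.1 p.2.1 p.2.2 * (f p.1 * f p.2.1) * ph (post p.1 p.2.1 p.2.2) ^ 2) +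
        I3 (fun p => kk p.1 p.2.1 p.2.2 * (f p.1 * f p.2.1) * ph (postStar p.1 p.2.1 p.2.2) ^ 2) := by
      unfold BB
      conv_lhs =>
        congr
        · rw [hb1]
        · rw [hb2]
    have hA : AA f + AA f = I3 (fun p =>
        kk p.1 p.2.1 p.2.2 * (f p.1 * f p.2.1) * ph p.1 ^ 2) +
        I3 (fun p => kk p.1 p.2.1 p.2.2 * (f p.1 * f p.2.1) * ph p.2.1 ^ 2) := by
      unfold AA
      conv_lhs =>
        congr
        · rw [ha1]
        · rw [ha2]
    rw [hB, hA, ← I3_add m3, ← I3_add m5, ← I3_const_mul m1, ← I3_const_mul m2]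
    have m1' : Measurable fun p : V × V × S2 =>
      2 * (kk p.1 p.2.1 p.2.2 * (f p.1 * f p.2.1) * pp p.1 p.2.2) := m1.const_mul 2
    have m34 : Measurable fun p : V × V × S2 =>
      kk p.1 p.2.1 p.2.2 * (f p.1 * f p.2.1) * ph (post p.1 p.2.1 p.2.2) ^ 2 +
      kk p.1 p.2.1 p.2.2 * (f p.1 * f p.2.1) * ph (postStar p.1 p.2.1 p.2.2) ^ 2 := m3.add m4
    have m56 : Measurable fun p : V × V × S2 =>
      kk p.1 p.2.1 p.2.2 * (f p.1 * f p.2.1) * ph p.1 ^ 2 +
      kk p.1 p.2.1 p.2.2 * (f p.1 * f p.2.1) * ph p.2.1 ^ 2 := m5.add m6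
    have m7 : Measurable fun p : V × V × S2 =>
      (ph p.1 ^ 2 * ph p.2.1 ^ 1) * (f p.1 * f p.2.1) +
        (ph p.1 ^ 1 * ph p.2.1 ^ 2) * (f p.1 * f p.2.1) := m21.add m12
    rw [← I3_add m21, ← I3_const_mul m7, ← I3_add m1', ← I3_add m34, ← I3_add m56]
    apply I3_mono
    intro p
    have e1 := povzner_pt p.1 p.2.1 p.2.2
    have e2 := kk_le_add p.1 p.2.1 p.2.2
    have e3 : ENNReal.ofReal (‖p.1‖ ^ 2 * ‖p.2.1‖ ^ 2) ≤ ph p.1 * ph p.2.1 := by
      unfold ph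
      rw [← ENNReal.ofReal_mul (by (clear * -; positivity))]
      apply ENNReal.ofReal_le_ofReal
      nlinarith only []
    calc kk p.1 p.2.1 p.2.2 * (f p.1 * f p.2.1) * ph (post p.1 p.2.1 p.2.2) ^ 2 +
          kk p.1 p.2.1 p.2.2 * (f p.1 * f p.2.1) * ph (postStar p.1 p.2.1 p.2.2) ^ 2 +
          (2 * (kk p.1 p.2.1 p.2.2 * (f p.1 * f p.2.1) * pp p.1 p.2.2) +
          2 * (kk p.1 p.2.1 p.2.2 * (f p.1 * f p.2.1) * pp p.2.1 p.2.2))
        = kk p.1 p.2.1 p.2.2 * (f p.1 * f p.2.1) *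
          (ph (post p.1 p.2.1 p.2.2) ^ 2 + ph (postStar p.1 p.2.1 p.2.2) ^ 2 +
            2 * pp p.1 p.2.2 + 2 * pp p.2.1 p.2.2) := by ring
      _ ≤ kk p.1 p.2.1 p.2.2 * (f p.1 * f p.2.1) *
          (ph p.1 ^ 2 + ph p.2.1 ^ 2 + 4 * ENNReal.ofReal (‖p.1‖ ^ 2 * ‖p.2.1‖ ^ 2)) :=
          mul_le_mul_right e1 _
      _ ≤ kk p.1 p.2.1 p.2.2 * (f p.1 * f p.2.1) *
          (ph p.1 ^ 2 + ph p.2.1 ^ 2 + 4 * (ph p.1 * ph p.2.1)) := by (clear * - e3; gcongr)
      _ = kk p.1 p.2.1 p.2.2 * (f p.1 * f p.2.1) * (ph p.1 ^ 2 + ph p.2.1 ^ 2) +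
          kk p.1 p.2.1 p.2.2 * ((f p.1 * f p.2.1) * (4 * (ph p.1 * ph p.2.1))) := by ring
      _ ≤ kk p.1 p.2.1 p.2.2 * (f p.1 * f p.2.1) * (ph p.1 ^ 2 + ph p.2.1 ^ 2) +
          (ph p.1 + ph p.2.1) * ((f p.1 * f p.2.1) * (4 * (ph p.1 * ph p.2.1))) := by (clear * - e2; gcongr)
      _ = _ := by ring
  rw [hsw] at key
  have h3 : 2 * (BB f + 2 * I3 (fun p => kk p.1 p.2.1 p.2.2 * (f p.1 * f p.2.1) * pp p.1 p.2.2)) ≤
      2 * (AA f + 4 * (Ss * (Mo 1 f * Mo 2 f))) := by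
    calc _ = _ := by ring
      _ ≤ _ := key
      _ = _ := by ring
  exact (ENNReal.mul_le_mul_iff_right (by norm_num) (by norm_num)).mp h3

/-- moments of `|v|` -/
noncomputable def Nm (j : ℕ) (f : V → ENNReal) : ENNReal := ∫⁻ v, f v * ENNReal.ofReal (‖v‖ ^ j)

theorem meas_normpow (j : ℕ) : Measurable fun v : V => ENNReal.ofReal (‖v‖ ^ j) := by
  apply ENNReal.measurable_ofReal.comp
  apply Continuous.measurable
  fun_prop

/-- lower bound of the dissipative part -/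
theorem I3_pp_lower {c : ℝ} (hc0 : 0 < c) (hc : ∀ u v : V, c * (‖u‖ * ‖v‖ ^ 4) ≤ JJ u v)
    {f : V → ENNReal} (hf : Measurable f) :
    ENNReal.ofReal c * (Nm 5 f * Mo 0 f) ≤
      I3 (fun p => kk p.1 p.2.1 p.2.2 * (f p.1 * f p.2.1) * pp p.1 p.2.2) +
      ENNReal.ofReal c * (Nm 4 f * Nm 1 f) := by
  have h1 : I3 (fun p => kk p.1 p.2.1 p.2.2 * (f p.1 * f p.2.1) * pp p.1 p.2.2) =
      ∫⁻ v, ∫⁻ w, (f v * f w) * ENNReal.ofReal (JJ (v - w) v) := by
    unfold I3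
    apply lintegral_congr; intro v
    apply lintegral_congr; intro w
    have h2 : ENNReal.ofReal (JJ (v - w) v) = ∫⁻ o, ENNReal.ofReal (jj (v - w) v o) ∂surf := by
      unfold JJ
      rw [ofReal_integral_eq_lintegral_ofReal]
      · have hcont : Continuous fun o => jj (v - w) v o :=
          (continuous_jj.comp (by fun_prop : Continuous fun o : S2 => ((v - w, v), o)) :)
        exact hcont.integrable_of_hasCompactSupport (HasCompactSupport.of_compactSpace _)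
      · exact Filter.Eventually.of_forall fun o => jj_nonneg _ _ _
    rw [h2, ← lintegral_const_mul]
    · apply lintegral_congr; intro o
      simp only
      have h3 : ENNReal.ofReal (jj (v - w) v o) = kk v w o * pp v o := by
        unfold jj kk pp relA
        rw [ENNReal.ofReal_mul (abs_nonneg _)]
      rw [h3]; ring
    · apply ENNReal.measurable_ofReal.comp
      exact ((continuous_jj.comp (by fun_prop : Continuous fun o : S2 => ((v - w, v), o)) :)).measurable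
  rw [h1]
  have h4 : Nm 4 f * Nm 1 f = ∫⁻ v, ∫⁻ w, (f v * ENNReal.ofReal (‖v‖ ^ 4)) * (f w * ENNReal.ofReal (‖w‖ ^ 1)) := by
    unfold Nm
    have m : Measurable fun w : V => f w * ENNReal.ofReal (‖w‖ ^ 1) := hf.mul (meas_normpow 1)
    have m' : Measurable fun w : V => f w * ENNReal.ofReal (‖w‖ ^ 4) := hf.mul (meas_normpow 4)
    simp only [lintegral_const_mul _ m]
    rw [lintegral_mul_const _ m']
  have h5 : Nm 5 f * Mo 0 f = ∫⁻ v, ∫⁻ w, (f v * ENNReal.ofReal (‖v‖ ^ 5)) * (f w * ph w ^ 0) := by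
    unfold Nm Mo
    have m : Measurable fun w : V => f w * ph w ^ 0 := hf.mul (measurable_phpow 0)
    have m' : Measurable fun w : V => f w * ENNReal.ofReal (‖w‖ ^ 5) := hf.mul (meas_normpow 5)
    simp only [lintegral_const_mul _ m]
    rw [lintegral_mul_const _ m']
  rw [h4, h5]
  have ma : Measurable fun p : V × V => (f p.1 * ENNReal.ofReal (‖p.1‖ ^ 4)) *
      (f p.2 * ENNReal.ofReal (‖p.2‖ ^ 1)) :=
    ((hf.mul (meas_normpow 4)).comp measurable_fst).mul ((hf.mul (meas_normpow 1)).comp measurable_snd)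
  have mb : Measurable fun p : V × V => (f p.1 * f p.2) * ENNReal.ofReal (JJ (p.1 - p.2) p.1) := by
    apply Measurable.mul ((hf.comp measurable_fst).mul (hf.comp measurable_snd))
    apply ENNReal.measurable_ofReal.comp
    exact (continuous_JJ.comp (by (clear * -; fun_prop) : Continuous fun p : V × V => (p.1 - p.2, p.1))).measurable
  have ma' : Measurable fun v : V => ∫⁻ w, (f v * ENNReal.ofReal (‖v‖ ^ 4)) *
      (f w * ENNReal.ofReal (‖w‖ ^ 1)) := ma.lintegral_prod_right'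
  have mb' : Measurable fun v : V => ∫⁻ w, (f v * f w) * ENNReal.ofReal (JJ (v - w) v) :=
    mb.lintegral_prod_right'
  rw [← lintegral_const_mul' _ _ ENNReal.ofReal_ne_top, ← lintegral_const_mul' _ _ ENNReal.ofReal_ne_top,
    ← lintegral_add_left mb']
  apply lintegral_mono; intro v
  simp only
  have mb2 : Measurable fun w : V => (f v * f w) * ENNReal.ofReal (JJ (v - w) v) :=
    mb.comp (by fun_prop : Measurable fun w : V => (v, w))
  rw [← lintegral_const_mul' _ _ ENNReal.ofReal_ne_top, ← lintegral_const_mul' _ _ ENNReal.ofReal_ne_top,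
    ← lintegral_add_left mb2]
  apply lintegral_mono; intro w
  simp only [pow_zero, mul_one, pow_one]
  have e1 : ENNReal.ofReal c * ENNReal.ofReal (‖v‖ ^ 5) ≤ ENNReal.ofReal (JJ (v - w) v) +
      ENNReal.ofReal c * (ENNReal.ofReal (‖v‖ ^ 4) * ENNReal.ofReal ‖w‖) := by
    rw [← ENNReal.ofReal_mul hc0.le, ← ENNReal.ofReal_mul (by (clear * -; positivity)),
      ← ENNReal.ofReal_mul hc0.le, ← ENNReal.ofReal_add]
    · apply ENNReal.ofReal_le_ofReal
      have h6 := hc (v - w) v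
      have h7 : ‖v‖ - ‖w‖ ≤ ‖v - w‖ := norm_sub_norm_le v w
      have h8 : c * ((‖v‖ - ‖w‖) * ‖v‖ ^ 4) ≤ c * (‖v - w‖ * ‖v‖ ^ 4) := by
        apply mul_le_mul_of_nonneg_left _ hc0.le
        apply mul_le_mul_of_nonneg_right h7 (by (clear * -; positivity))
      linarith only [h8, h6]
    · unfold JJ
      exact integral_nonneg fun o => jj_nonneg _ _ _
    · (clear * - hc0; positivity)
  calc ENNReal.ofReal c * (f v * ENNReal.ofReal (‖v‖ ^ 5) * f w)
      = (f v * f w) * (ENNReal.ofReal c * ENNReal.ofReal (‖v‖ ^ 5)) := by ring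
    _ ≤ (f v * f w) * (ENNReal.ofReal (JJ (v - w) v) +
      ENNReal.ofReal c * (ENNReal.ofReal (‖v‖ ^ 4) * ENNReal.ofReal ‖w‖)) := by (clear * - e1; gcongr)
    _ = _ := by ring

end Vale.Agent.P140
end

section

open MeasureTheory Set

namespace Vale.Agent.P140

theorem Nm_le_Mo {f : V → ENNReal} {i j : ℕ} (h : ∀ v : V, ‖v‖ ^ i ≤ (1 + ‖v‖ ^ 2) ^ j) :
    Nm i f ≤ Mo j f := by
  unfold Nm Mo
  apply lintegral_mono; intro v
  simp only
  gcongr
  unfold ph
  rw [← ENNReal.ofReal_pow (by positivity)]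
  exact ENNReal.ofReal_le_ofReal (h v)

theorem Nm1_le (f : V → ENNReal) : Nm 1 f ≤ Mo 1 f := by
  apply Nm_le_Mo
  intro v
  linarith only [sq_nonneg ‖v‖, sq_nonneg (‖v‖ - 1)]

theorem Nm2_le (f : V → ENNReal) : Nm 2 f ≤ Mo 1 f := by
  apply Nm_le_Mo
  intro v
  linarith

theorem Nm4_le (f : V → ENNReal) : Nm 4 f ≤ Mo 2 f := by
  apply Nm_le_Mo
  intro v
  linarith only [sq_nonneg ‖v‖]

theorem Mo2_le_Nm4 {f : V → ENNReal} (hf : Measurable f) : Mo 2 f ≤ 2 * Mo 0 f + 2 * Nm 4 f := by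
  unfold Mo Nm
  have m1 : Measurable fun v => f v * ph v ^ 0 := hf.mul (measurable_phpow 0)
  rw [← lintegral_const_mul' _ _ (by norm_num), ← lintegral_const_mul' _ _ (by norm_num),
    ← lintegral_add_left (m1.const_mul 2)]
  apply lintegral_mono; intro v
  simp only [pow_zero, mul_one]
  have h1 : ph v ^ 2 ≤ 2 + 2 * ENNReal.ofReal (‖v‖ ^ 4) := by
    unfold ph
    have h3 : (2 : ENNReal) + 2 * ENNReal.ofReal (‖v‖ ^ 4) = ENNReal.ofReal (2 + 2 * ‖v‖ ^ 4) := by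
      rw [ENNReal.ofReal_add (by norm_num) (by (clear * -; positivity)), ENNReal.ofReal_mul (by norm_num)]
      simp only [norm_nonneg, ENNReal.ofReal_pow, ofReal_norm, ENNReal.ofReal_ofNat]
    rw [h3, ← ENNReal.ofReal_pow (by (clear * -; positivity))]
    apply ENNReal.ofReal_le_ofReal
    linarith only [sq_nonneg (‖v‖ ^ 2 - 1)]
  calc f v * ph v ^ 2 ≤ f v * (2 + 2 * ENNReal.ofReal (‖v‖ ^ 4)) := by gcongr
    _ = _ := by ring

theorem Nm4_le_Nm5 {f : V → ENNReal} (hf : Measurable f) {R : ℝ} (hR : 0 ≤ R) :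
    ENNReal.ofReal R * Nm 4 f ≤ Nm 5 f + ENNReal.ofReal (R ^ 3) * Nm 2 f := by
  unfold Nm
  have m1 : Measurable fun v : V => f v * ENNReal.ofReal (‖v‖ ^ 5) := hf.mul (meas_normpow 5)
  rw [← lintegral_const_mul' _ _ ENNReal.ofReal_ne_top, ← lintegral_const_mul' _ _ ENNReal.ofReal_ne_top,
    ← lintegral_add_left m1]
  apply lintegral_mono; intro v
  simp only
  have h1 : ENNReal.ofReal R * ENNReal.ofReal (‖v‖ ^ 4) ≤
      ENNReal.ofReal (‖v‖ ^ 5) + ENNReal.ofReal (R ^ 3) * ENNReal.ofReal (‖v‖ ^ 2) := by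
    rw [← ENNReal.ofReal_mul hR, ← ENNReal.ofReal_mul (by positivity),
      ← ENNReal.ofReal_add (by positivity) (by (clear * - hR; positivity))]
    apply ENNReal.ofReal_le_ofReal
    have hn := norm_nonneg v
    rcases le_total R ‖v‖ with h | h
    · have : R * ‖v‖ ^ 4 ≤ ‖v‖ * ‖v‖ ^ 4 := mul_le_mul_of_nonneg_right h (by (clear * -; positivity))
      have h2 : 0 ≤ R ^ 3 * ‖v‖ ^ 2 := by (clear * - hR; positivity)
      linarith
    · have h3 : ‖v‖ ^ 2 ≤ R ^ 2 := by linarith only [mul_nonneg (sub_nonneg.2 h) (sub_nonneg.2 hn), mul_nonneg (sub_nonneg.2 h) (sub_nonneg.2 h)]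
      have : R * ‖v‖ ^ 2 * ‖v‖ ^ 2 ≤ R * ‖v‖ ^ 2 * R ^ 2 :=
        mul_le_mul_of_nonneg_left h3 (by (clear * - hR; positivity))
      have h2 : 0 ≤ ‖v‖ ^ 5 := by positivity
      linarith
  calc ENNReal.ofReal R * (f v * ENNReal.ofReal (‖v‖ ^ 4))
      = f v * (ENNReal.ofReal R * ENNReal.ofReal (‖v‖ ^ 4)) := by ring
    _ ≤ f v * (ENNReal.ofReal (‖v‖ ^ 5) + ENNReal.ofReal (R ^ 3) * ENNReal.ofReal (‖v‖ ^ 2)) := by
        gcongr
    _ = _ := by ring

/-- key differential inequality for the fourth moment -/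
theorem key_prod {c : ℝ} (hc0 : 0 < c) (hc : ∀ u v : V, c * (‖u‖ * ‖v‖ ^ 4) ≤ JJ u v)
    {f : V → ENNReal} (hf : Measurable f) {κ μ0 : ENNReal} (hκ : Mo 1 f ≤ κ) (hμ : μ0 ≤ Mo 0 f)
    {R : ℝ} (hR : 0 ≤ R) :
    BB f + ENNReal.ofReal c * ENNReal.ofReal R * μ0 * Mo 2 f ≤
      AA f + (4 * Ss + 2 * ENNReal.ofReal c) * κ * Mo 2 f +
        2 * ENNReal.ofReal c * (ENNReal.ofReal R + ENNReal.ofReal (R ^ 3)) * (κ * κ) := by
  have h1 := BB_le hf
  have h2 := I3_pp_lower hc0 hc hf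
  have h3 := Nm4_le_Nm5 hf hR
  have h4 := Mo2_le_Nm4 hf
  have h5 := Nm1_le f
  have h6 := Nm2_le f
  have h7 := Nm4_le f
  have h8 : Mo 0 f ≤ κ := (Mo_mono (by norm_num)).trans hκ
  set I := I3 (fun p => kk p.1 p.2.1 p.2.2 * (f p.1 * f p.2.1) * pp p.1 p.2.2) with hI
  set X := Mo 2 f with hX
  set C := ENNReal.ofReal c with hC
  set r := ENNReal.ofReal R with hr
  have k1 : C * r * μ0 * X ≤ 2 * C * (r + ENNReal.ofReal (R ^ 3)) * (κ * κ) + 2 * I +
      2 * C * κ * X := by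
    calc C * r * μ0 * X ≤ C * r * Mo 0 f * (2 * Mo 0 f + 2 * Nm 4 f) := by (clear * - hμ h4; gcongr)
      _ = 2 * C * r * (Mo 0 f * Mo 0 f) + 2 * C * Mo 0 f * (r * Nm 4 f) := by ring
      _ ≤ 2 * C * r * (Mo 0 f * Mo 0 f) + 2 * C * Mo 0 f *
          (Nm 5 f + ENNReal.ofReal (R ^ 3) * Nm 2 f) := by (clear * - h3; gcongr)
      _ = 2 * C * r * (Mo 0 f * Mo 0 f) + 2 * (C * (Nm 5 f * Mo 0 f)) +
          2 * C * ENNReal.ofReal (R ^ 3) * (Mo 0 f * Nm 2 f) := by ring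
      _ ≤ 2 * C * r * (κ * κ) + 2 * (I + C * (Nm 4 f * Nm 1 f)) +
          2 * C * ENNReal.ofReal (R ^ 3) * (κ * κ) := by
          gcongr
          exact h6.trans hκ
      _ ≤ 2 * C * r * (κ * κ) + 2 * (I + C * (X * κ)) +
          2 * C * ENNReal.ofReal (R ^ 3) * (κ * κ) := by
          gcongr
          exact h5.trans hκ
      _ = _ := by ring
  calc BB f + C * r * μ0 * X
      ≤ BB f + (2 * C * (r + ENNReal.ofReal (R ^ 3)) * (κ * κ) + 2 * I + 2 * C * κ * X) := by (clear * - k1; gcongr)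
    _ = (BB f + 2 * I) + 2 * C * κ * X + 2 * C * (r + ENNReal.ofReal (R ^ 3)) * (κ * κ) := by ring
    _ ≤ (AA f + 4 * (Ss * (Mo 1 f * X))) + 2 * C * κ * X +
        2 * C * (r + ENNReal.ofReal (R ^ 3)) * (κ * κ) := by (clear * - h1; gcongr)
    _ ≤ (AA f + 4 * (Ss * (κ * X))) + 2 * C * κ * X +
        2 * C * (r + ENNReal.ofReal (R ^ 3)) * (κ * κ) := by (clear * - hκ; gcongr)
    _ = _ := by ring

/-- weighted time identity -/
theorem weighted_identity {X A B : ℝ → ENNReal} (hX : Measurable X) (hA : Measurable A)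
    (hB : Measurable B)
    (h : ∀ t, 0 ≤ t → X t + ∫⁻ s in Ioc 0 t, A s = X 0 + ∫⁻ s in Ioc 0 t, B s)
    (hfin : ∀ t, 0 ≤ t → (∫⁻ s in Ioc 0 t, A s) ≠ ⊤) {t : ℝ} (ht : 0 ≤ t) :
    ENNReal.ofReal (t ^ 3) * X t + ∫⁻ s in Ioc 0 t, ENNReal.ofReal (s ^ 3) * A s =
      (∫⁻ s in Ioc 0 t, ENNReal.ofReal (3 * s ^ 2) * X s) +
        ∫⁻ s in Ioc 0 t, ENNReal.ofReal (s ^ 3) * B s := by
  have mq : Measurable fun s : ℝ => ENNReal.ofReal (3 * s ^ 2) := by
    apply ENNReal.measurable_ofReal.comp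
    apply Continuous.measurable
    fun_prop
  -- cube as an integral
  have hcube : ∀ r, 0 ≤ r → ENNReal.ofReal (r ^ 3) = ∫⁻ s in Ioc 0 r, ENNReal.ofReal (3 * s ^ 2) := by
    intro r hr
    have h1 : ∫ s in (0:ℝ)..r, 3 * s ^ 2 = r ^ 3 := by
      rw [intervalIntegral.integral_const_mul, integral_pow]
      norm_num
      ring
    rw [← h1, intervalIntegral.integral_of_le hr, ofReal_integral_eq_lintegral_ofReal]
    · apply Continuous.integrableOn_Ioc
      fun_prop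
    · exact Filter.Eventually.of_forall fun s => by (clear * -; positivity)
  have hshift : ∀ s, 0 ≤ s → s ≤ t →
      X t + ∫⁻ r in Ioc s t, A r = X s + ∫⁻ r in Ioc s t, B r := by
    intro s hs hst
    have h1 := h t ht
    have h2 := h s hs
    have eA : ∫⁻ r in Ioc 0 t, A r = (∫⁻ r in Ioc 0 s, A r) + ∫⁻ r in Ioc s t, A r := by
      rw [← Ioc_union_Ioc_eq_Ioc hs hst, lintegral_union measurableSet_Ioc
        (Ioc_disjoint_Ioc_of_le le_rfl)]
    have eB : ∫⁻ r in Ioc 0 t, B r = (∫⁻ r in Ioc 0 s, B r) + ∫⁻ r in Ioc s t, B r := by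
      rw [← Ioc_union_Ioc_eq_Ioc hs hst, lintegral_union measurableSet_Ioc
        (Ioc_disjoint_Ioc_of_le le_rfl)]
    rw [eA, eB] at h1
    have h3 : (X t + ∫⁻ r in Ioc s t, A r) + ∫⁻ r in Ioc 0 s, A r =
        (X s + ∫⁻ r in Ioc s t, B r) + ∫⁻ r in Ioc 0 s, A r := by
      calc _ = X t + ((∫⁻ r in Ioc 0 s, A r) + ∫⁻ r in Ioc s t, A r) := by ring
        _ = (X 0 + ∫⁻ r in Ioc 0 s, B r) + ∫⁻ r in Ioc s t, B r := by rw [h1]; ring
        _ = (X s + ∫⁻ r in Ioc 0 s, A r) + ∫⁻ r in Ioc s t, B r := by rw [h2]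
        _ = _ := by ring
    exact (ENNReal.add_left_inj (hfin s hs)).mp h3
  have hint : ∀ D : ℝ → ENNReal, Measurable D →
      ∫⁻ r in Ioc 0 t, ENNReal.ofReal (r ^ 3) * D r =
      ∫⁻ s in Ioc 0 t, ENNReal.ofReal (3 * s ^ 2) * ∫⁻ r in Ioc s t, D r := by
    intro D hD
    have e1 : ∫⁻ r in Ioc 0 t, ENNReal.ofReal (r ^ 3) * D r =
        ∫⁻ r in Ioc 0 t, ∫⁻ s in Ioc 0 r, ENNReal.ofReal (3 * s ^ 2) * D r := by
      apply setLIntegral_congr_fun measurableSet_Ioc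
      intro r hr
      simp only
      rw [hcube r hr.1.le, lintegral_mul_const _ mq]
    rw [e1, lintegral_triangle (F := fun p : ℝ × ℝ => ENNReal.ofReal (3 * p.2 ^ 2) * D p.1)]
    · apply lintegral_congr; intro s
      simp only
      rw [lintegral_const_mul _ hD]
    · exact (mq.comp measurable_snd).mul (hD.comp measurable_fst)
  rw [hint A hA, hint B hB, hcube t ht]
  have mt : Measurable fun s => ∫⁻ r in Ioc s t, A r := by
    have e : ∀ s, ∫⁻ r in Ioc s t, A r =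
        ∫⁻ r, {p : ℝ × ℝ | p.1 < p.2 ∧ p.2 ≤ t}.indicator (fun p => A p.2) (s, r) := by
      intro s
      rw [← lintegral_indicator measurableSet_Ioc]
      apply lintegral_congr; intro r
      simp only [indicator, mem_Ioc, mem_ofPred_eq]
    simp only [e]
    apply Measurable.lintegral_prod_right'
    apply Measurable.indicator (hA.comp measurable_snd)
    exact (measurableSet_lt measurable_fst measurable_snd).inter
      (measurableSet_le measurable_snd measurable_const)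
  have mqX : Measurable fun s : ℝ => ENNReal.ofReal (3 * s ^ 2) * X s := mq.mul hX
  rw [← lintegral_mul_const _ mq, ← lintegral_add_left (mq.mul_const _),
    ← lintegral_add_left mqX]
  apply setLIntegral_congr_fun measurableSet_Ioc
  intro s hs
  simp only
  rw [← mul_add, ← mul_add, hshift s hs.1.le hs.2]

end Vale.Agent.P140
end

section

open MeasureTheory Set

namespace Vale.Agent.P140

theorem gronwall_const {y : ℝ → ENNReal} {T : ℝ} {C B a : ENNReal} (hB : B ≠ ⊤) (hC : C ≠ ⊤)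
    (hy : ∀ t ∈ Icc 0 T, y t ≤ B)
    (h : ∀ t ∈ Icc 0 T, y t ≤ a + C * ∫⁻ s in Ioc 0 t, y s) :
    ∀ t ∈ Icc 0 T, y t ≤ 2 * a * ENNReal.ofReal (Real.exp ((2 * C.toReal + 1) * t)) := by
  set K : ℝ := 2 * C.toReal + 1 with hKdef
  have hK : 0 < K := by (clear * -; positivity)
  set N : ENNReal := ⨆ t ∈ Icc 0 T, ENNReal.ofReal (Real.exp (-(K * t))) * y t with hN
  have hNB : N ≤ B := by
    apply iSup₂_le
    intro t ht
    calc ENNReal.ofReal (Real.exp (-(K * t))) * y t ≤ 1 * B := by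
          gcongr
          · rw [ENNReal.ofReal_le_one, Real.exp_le_one_iff]
            have := ht.1
            (clear * - hK this; linarith only [mul_nonneg (le_of_lt (sub_pos.2 hK)) (sub_nonneg.2 this)])
          · exact hy t ht
      _ = B := one_mul B
  have hyN : ∀ t ∈ Icc 0 T, y t ≤ ENNReal.ofReal (Real.exp (K * t)) * N := by
    intro t ht
    have h1 : ENNReal.ofReal (Real.exp (-(K * t))) * y t ≤ N :=
      le_iSup₂ (f := fun t (_ : t ∈ Icc 0 T) => ENNReal.ofReal (Real.exp (-(K * t))) * y t) t ht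
    calc y t = ENNReal.ofReal (Real.exp (K * t)) *
          (ENNReal.ofReal (Real.exp (-(K * t))) * y t) := by
            rw [← mul_assoc, ← ENNReal.ofReal_mul (Real.exp_pos _).le, ← Real.exp_add]
            simp
      _ ≤ _ := by (clear * - h1; gcongr)
  have hNh : 2 * N ≤ 2 * a + N := by
    conv_lhs => rw [hN, ENNReal.mul_iSup]
    apply iSup_le
    intro t
    rw [ENNReal.mul_iSup]
    apply iSup_le
    intro ht
    have h2 : y t ≤ a + C * (N * ∫⁻ s in Ioc 0 t, ENNReal.ofReal (Real.exp (K * s))) := by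
      refine (h t ht).trans ?_
      gcongr
      rw [← lintegral_const_mul' _ _ (ne_top_of_le_ne_top hB hNB)]
      apply setLIntegral_mono' measurableSet_Ioc
      intro s hs
      rw [mul_comm]
      exact hyN s ⟨hs.1.le, hs.2.trans ht.2⟩
    have h3 := lintegral_exp_pos K t hK.le ht.1
    have h4 : ENNReal.ofReal K * ∫⁻ s in Ioc 0 t, ENNReal.ofReal (Real.exp (K * s)) ≤
        ENNReal.ofReal (Real.exp (K * t)) := by
      rw [← h3]; exact le_add_self
    have h5 : 2 * C ≤ ENNReal.ofReal K := by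
      rw [← ENNReal.ofReal_toReal hC, show (2 : ENNReal) = ENNReal.ofReal 2 by simp,
        ← ENNReal.ofReal_mul (by norm_num)]
      apply ENNReal.ofReal_le_ofReal
      linarith only []
    have h6 : ENNReal.ofReal (Real.exp (-(K * t))) ≤ 1 := by
      rw [ENNReal.ofReal_le_one, Real.exp_le_one_iff]
      have := ht.1
      nlinarith only [hK, this]
    calc 2 * (ENNReal.ofReal (Real.exp (-(K * t))) * y t)
        ≤ 2 * (ENNReal.ofReal (Real.exp (-(K * t))) *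
            (a + C * (N * ∫⁻ s in Ioc 0 t, ENNReal.ofReal (Real.exp (K * s))))) := by (clear * - h2; gcongr)
      _ = 2 * (ENNReal.ofReal (Real.exp (-(K * t))) * a) +
          ENNReal.ofReal (Real.exp (-(K * t))) * (N *
            (2 * C * ∫⁻ s in Ioc 0 t, ENNReal.ofReal (Real.exp (K * s)))) := by ring
      _ ≤ 2 * (1 * a) + ENNReal.ofReal (Real.exp (-(K * t))) * (N *
            (ENNReal.ofReal K * ∫⁻ s in Ioc 0 t, ENNReal.ofReal (Real.exp (K * s)))) := by (clear * - h6 h5; gcongr)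
      _ ≤ 2 * (1 * a) + ENNReal.ofReal (Real.exp (-(K * t))) *
            (N * ENNReal.ofReal (Real.exp (K * t))) := by
          (clear * - h4; gcongr)
      _ = 2 * a + (ENNReal.ofReal (Real.exp (-(K * t))) * ENNReal.ofReal (Real.exp (K * t))) * N := by
          ring
      _ = 2 * a + N := by
          rw [← ENNReal.ofReal_mul (Real.exp_pos _).le, ← Real.exp_add]
          simp
  have hN0 : N ≤ 2 * a := by
    have hNt : N ≠ ⊤ := ne_top_of_le_ne_top hB hNB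
    rw [two_mul N] at hNh
    exact ENNReal.le_of_add_le_add_right hNt hNh
  intro t ht
  calc y t ≤ ENNReal.ofReal (Real.exp (K * t)) * N := hyN t ht
    _ ≤ ENNReal.ofReal (Real.exp (K * t)) * (2 * a) := by (clear * - hN0; gcongr)
    _ = _ := by ring

theorem lim_zero {g0 : V → ENNReal} (hg0 : Measurable g0) (v : V) : lim g0 0 v = g0 v := by
  rw [lim_fixed hg0]
  unfold duh
  simp

theorem AA_le {f : V → ENNReal} (hf : Measurable f) :
    AA f ≤ Ss * (Mo 3 f * Mo 0 f) + Ss * (Mo 2 f * Mo 1 f) := by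
  unfold AA
  rw [Qm_weak hf, ← I3_mom hf 3 0, ← I3_mom hf 2 1, ← I3_add (meas_momI hf 3 0)]
  apply I3_mono
  intro p
  have e2 := kk_le_add p.1 p.2.1 p.2.2
  calc kk p.1 p.2.1 p.2.2 * (f p.1 * f p.2.1) * ph p.1 ^ 2
      ≤ (ph p.1 + ph p.2.1) * (f p.1 * f p.2.1) * ph p.1 ^ 2 := by gcongr
    _ = _ := by ring

theorem measurable_AA {g : ℝ → V → ENNReal} (hg : Measurable fun p : ℝ × V => g p.1 p.2) :
    Measurable fun s => AA (g s) := by
  unfold AA
  have h : Measurable fun p : ℝ × V => Qm (g p.1) p.2 * ph p.2 ^ 2 :=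
    (joint_Qm hg).mul ((measurable_phpow 2).comp measurable_snd)
  exact h.lintegral_prod_right'

theorem measurable_BB {g : ℝ → V → ENNReal} (hg : Measurable fun p : ℝ × V => g p.1 p.2) :
    Measurable fun s => BB (g s) := by
  unfold BB
  have h : Measurable fun p : ℝ × V => Qp (g p.1) p.2 * ph p.2 ^ 2 :=
    (joint_Qp hg).mul ((measurable_phpow 2).comp measurable_snd)
  exact h.lintegral_prod_right'

theorem X_identity {g0 : V → ENNReal} (hg0 : Measurable g0) (hκ : Mo 1 g0 ≠ ⊤)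
    (hZ : Mo 2 g0 ≠ ⊤) {t : ℝ} (ht : 0 ≤ t) :
    Mo 2 (lim g0 t) + ∫⁻ s in Ioc 0 t, AA (lim g0 s) =
      Mo 2 (lim g0 0) + ∫⁻ s in Ioc 0 t, BB (lim g0 s) := by
  have hml := measurable_lim hg0
  have e0 : Mo 2 (lim g0 0) = Mo 2 g0 := by
    unfold Mo
    apply lintegral_congr; intro v
    rw [lim_zero hg0]
  have eA : ∫⁻ s in Ioc 0 t, AA (lim g0 s) =
      ∫⁻ v, (∫⁻ s in Ioc 0 t, Qm (lim g0 s) v) * ph v ^ 2 := by
    unfold AA
    rw [lintegral_lintegral_swap]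
    · apply lintegral_congr; intro v
      rw [lintegral_mul_const _ (sec_s (f := fun s v => Qm (lim g0 s) v) (joint_Qm hml) v)]
    · exact ((joint_Qm hml).mul ((measurable_phpow 2).comp measurable_snd)).aemeasurable
  have eB : ∫⁻ s in Ioc 0 t, BB (lim g0 s) =
      ∫⁻ v, (∫⁻ s in Ioc 0 t, Qp (lim g0 s) v) * ph v ^ 2 := by
    unfold BB
    rw [lintegral_lintegral_swap]
    · apply lintegral_congr; intro v
      rw [lintegral_mul_const _ (sec_s (f := fun s v => Qp (lim g0 s) v) (joint_Qp hml) v)]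
    · exact ((joint_Qp hml).mul ((measurable_phpow 2).comp measurable_snd)).aemeasurable
  rw [e0, eA, eB]
  unfold Mo
  have m1 : Measurable fun v => lim g0 t v * ph v ^ 2 := (lim_meas_v hg0 t).mul (measurable_phpow 2)
  have m2 : Measurable fun v => g0 v * ph v ^ 2 := hg0.mul (measurable_phpow 2)
  rw [← lintegral_add_left m1, ← lintegral_add_left m2]
  apply lintegral_congr_ae
  filter_upwards [lim_equation hg0 hκ hZ] with v hv
  rw [← add_mul, ← add_mul, hv t ht]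

theorem production {T : ℝ} (hT : 0 < T) {κ μ0 : ENNReal} (hκt : κ ≠ ⊤) (hμ0 : μ0 ≠ 0)
    (hμt : μ0 ≠ ⊤) :
    ∃ C : ENNReal, C ≠ ⊤ ∧ ∀ g0 : V → ENNReal, Measurable g0 → Mo 3 g0 ≠ ⊤ → Mo 1 g0 ≤ κ →
      μ0 ≤ Mo 0 g0 → ∀ t ∈ Icc 0 T,
        ENNReal.ofReal (t ^ 3) * Mo 2 (lim g0 t) ≤ C * ENNReal.ofReal t ∧
        ∫⁻ s in Ioc 0 t, ENNReal.ofReal (s ^ 2) * Mo 2 (lim g0 s) ≤ C * ENNReal.ofReal t := by
  obtain ⟨c, hc0, hc⟩ := exists_JJ_bound
  have hμr : 0 < μ0.toReal := ENNReal.toReal_pos hμ0 hμt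
  set l : ℝ := 4 / (c * μ0.toReal) with hl
  have hl0 : 0 < l := by (clear * - hc0 hμr; positivity)
  have hlc : ENNReal.ofReal c * ENNReal.ofReal l * μ0 = 4 := by
    rw [← ENNReal.ofReal_mul hc0.le]
    nth_rewrite 1 [← ENNReal.ofReal_toReal hμt]
    rw [← ENNReal.ofReal_mul (by (clear * - hc0 hμr; positivity)), hl]
    have : c * (4 / (c * μ0.toReal)) * μ0.toReal = 4 := by (clear * - hc0 hμr; field_simp)
    rw [this]; simp
  set b : ENNReal := (4 * Ss + 2 * ENNReal.ofReal c) * κ with hb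
  have hbt : b ≠ ⊤ := by
    apply ENNReal.mul_ne_top _ hκt
    apply ENNReal.add_ne_top.mpr
    exact ⟨ENNReal.mul_ne_top (by norm_num) Ss_ne_top,
      ENNReal.mul_ne_top (by norm_num) ENNReal.ofReal_ne_top⟩
  set C3 : ENNReal := 2 * ENNReal.ofReal c * ENNReal.ofReal (l * T ^ 2 + l ^ 3) * (κ * κ) with hC3
  have hC3t : C3 ≠ ⊤ := by
    apply ENNReal.mul_ne_top _ (ENNReal.mul_ne_top hκt hκt)
    exact ENNReal.mul_ne_top (ENNReal.mul_ne_top (by norm_num) ENNReal.ofReal_ne_top)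
      ENNReal.ofReal_ne_top
  set EE : ENNReal := ENNReal.ofReal (Real.exp ((2 * b.toReal + 1) * T)) with hEE
  set C : ENNReal := C3 + b * (2 * C3 * EE) * ENNReal.ofReal T + 2 * C3 * EE with hC
  have hEEt : EE ≠ ⊤ := ENNReal.ofReal_ne_top
  have hCt : C ≠ ⊤ := by
    apply ENNReal.add_ne_top.mpr
    refine ⟨ENNReal.add_ne_top.mpr ⟨hC3t, ?_⟩, ?_⟩
    · exact ENNReal.mul_ne_top (ENNReal.mul_ne_top hbt (ENNReal.mul_ne_top
        (ENNReal.mul_ne_top (by norm_num) hC3t) hEEt)) ENNReal.ofReal_ne_top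
    · exact ENNReal.mul_ne_top (ENNReal.mul_ne_top (by norm_num) hC3t) hEEt
  refine ⟨C, hCt, ?_⟩
  intro g0 hg0 hW hκ1 hμ1
  have hκ : Mo 1 g0 ≠ ⊤ := ne_top_of_le_ne_top hκt hκ1
  have hZ : Mo 2 g0 ≠ ⊤ := ne_top_of_le_ne_top hW (Mo_mono (by norm_num))
  have hml := measurable_lim hg0
  set X : ℝ → ENNReal := fun s => Mo 2 (lim g0 s) with hX
  set A : ℝ → ENNReal := fun s => AA (lim g0 s) with hA
  set B : ℝ → ENNReal := fun s => BB (lim g0 s) with hB
  have mX : Measurable X := joint_Mo hml 2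
  have mA : Measurable A := measurable_AA hml
  have mB : Measurable B := measurable_BB hml
  have hid : ∀ t, 0 ≤ t → X t + ∫⁻ s in Ioc 0 t, A s = X 0 + ∫⁻ s in Ioc 0 t, B s :=
    fun t ht => X_identity hg0 hκ hZ ht
  have hAfin : ∀ t, 0 ≤ t → ∃ D : ENNReal, D ≠ ⊤ ∧ ∀ s ∈ Ioc 0 t, A s ≤ D := by
    intro t ht
    refine ⟨Ss * ((Mo 3 g0 * ENNReal.ofReal (Real.exp ((6 * (Ss * Mo 1 g0).toReal) * t))) * Mo 0 g0) +
      Ss * ((Mo 2 g0 * ENNReal.ofReal (Real.exp ((2 * (Ss * Mo 1 g0).toReal) * t))) * Mo 1 g0), ?_, ?_⟩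
    · have hm0 : Mo 0 g0 ≠ ⊤ := ne_top_of_le_ne_top hκ (Mo_mono (by norm_num))
      apply ENNReal.add_ne_top.mpr
      exact ⟨ENNReal.mul_ne_top Ss_ne_top (ENNReal.mul_ne_top
          (ENNReal.mul_ne_top hW ENNReal.ofReal_ne_top) hm0),
        ENNReal.mul_ne_top Ss_ne_top (ENNReal.mul_ne_top
          (ENNReal.mul_ne_top hZ ENNReal.ofReal_ne_top) hκ)⟩
    · intro s hs
      refine (AA_le (lim_meas_v hg0 s)).trans ?_
      have q3 := Mo3_lim_le' hg0 hW hs.1.le hs.2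
      have q2 := Mo2_lim_le' hg0 hκ hZ hs.1.le hs.2
      have q1 := (Mo1_lim hg0 hκ hZ hs.1.le).le
      have q0 := (Mo0_lim hg0 hκ hZ hs.1.le).le
      (clear * - q3 q0 q2 q1; gcongr)
  have hfin : ∀ t, 0 ≤ t → (∫⁻ s in Ioc 0 t, A s) ≠ ⊤ := by
    intro t ht
    obtain ⟨D, hD, hle⟩ := hAfin t ht
    refine ne_top_of_le_ne_top (b := ∫⁻ s in Ioc 0 t, D) ?_ (setLIntegral_mono' measurableSet_Ioc hle)
    rw [setLIntegral_const]
    exact ENNReal.mul_ne_top hD (by simp only [Real.volume_Ioc, sub_zero, ne_eq, ENNReal.ofReal_ne_top, not_false_eq_true])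
  have hfin3 : ∀ t, 0 ≤ t → (∫⁻ s in Ioc 0 t, ENNReal.ofReal (s ^ 3) * A s) ≠ ⊤ := by
    intro t ht
    refine ne_top_of_le_ne_top (b := ENNReal.ofReal (t ^ 3) * ∫⁻ s in Ioc 0 t, A s)
      (ENNReal.mul_ne_top ENNReal.ofReal_ne_top (hfin t ht)) ?_
    rw [← lintegral_const_mul' _ _ ENNReal.ofReal_ne_top]
    apply setLIntegral_mono' measurableSet_Ioc
    intro s hs
    gcongr
    · exact hs.1.le
    · exact hs.2
  -- the pointwise inequality
  have hpt : ∀ s ∈ Ioc 0 T, ENNReal.ofReal (s ^ 3) * B s + 4 * (ENNReal.ofReal (s ^ 2) * X s) ≤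
      ENNReal.ofReal (s ^ 3) * A s + (b * (ENNReal.ofReal (s ^ 3) * X s) + C3) := by
    intro s hs
    have hs0 := hs.1
    have hm0 : μ0 ≤ Mo 0 (lim g0 s) := by rw [Mo0_lim hg0 hκ hZ hs0.le]; exact hμ1
    have hk1 : Mo 1 (lim g0 s) ≤ κ := by rw [Mo1_lim hg0 hκ hZ hs0.le]; exact hκ1
    have h1 := key_prod hc0 hc (lim_meas_v hg0 s) hk1 hm0 (R := l / s) (by (clear * - hc0 hμr hs0; positivity))
    have e1 : ENNReal.ofReal (s ^ 3) * ENNReal.ofReal (l / s) = ENNReal.ofReal (s ^ 2) * ENNReal.ofReal l := by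
      rw [← ENNReal.ofReal_mul (by (clear * - hs0; positivity)), ← ENNReal.ofReal_mul (by (clear * - hs0; positivity))]
      congr 1
      (clear * - hl0 hs0; field_simp)
    have e2 : ENNReal.ofReal (s ^ 3) * (ENNReal.ofReal (l / s) + ENNReal.ofReal ((l / s) ^ 3)) ≤
        ENNReal.ofReal (l * T ^ 2 + l ^ 3) := by
      rw [← ENNReal.ofReal_add (by (clear * - hc0 hμr hs0; positivity)) (by (clear * - hc0 hμr hs0; positivity)), ← ENNReal.ofReal_mul (by (clear * - hs0; positivity))]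
      apply ENNReal.ofReal_le_ofReal
      have : s ^ 3 * (l / s + (l / s) ^ 3) = l * s ^ 2 + l ^ 3 := by (clear * - hs0 hl0; field_simp)
      rw [this]
      have h5 : s ^ 2 ≤ T ^ 2 := by linarith only [mul_nonneg (sub_nonneg.2 hs.2) (sub_nonneg.2 hs.2), mul_nonneg (le_of_lt (sub_pos.2 hs0)) (sub_nonneg.2 hs.2)]
      linarith only [mul_nonneg (le_of_lt (sub_pos.2 hl0)) (sub_nonneg.2 h5)]
    calc ENNReal.ofReal (s ^ 3) * B s + 4 * (ENNReal.ofReal (s ^ 2) * X s)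
        = ENNReal.ofReal (s ^ 3) * B s +
          (ENNReal.ofReal c * ENNReal.ofReal l * μ0) * (ENNReal.ofReal (s ^ 2) * X s) := by rw [hlc]
      _ = ENNReal.ofReal (s ^ 3) * B s +
          ENNReal.ofReal c * μ0 * (ENNReal.ofReal (s ^ 2) * ENNReal.ofReal l) * X s := by ring
      _ = ENNReal.ofReal (s ^ 3) * (B s +
          ENNReal.ofReal c * ENNReal.ofReal (l / s) * μ0 * X s) := by rw [← e1]; ring
      _ ≤ ENNReal.ofReal (s ^ 3) * (A s + (4 * Ss + 2 * ENNReal.ofReal c) * κ * X s +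
          2 * ENNReal.ofReal c * (ENNReal.ofReal (l / s) + ENNReal.ofReal ((l / s) ^ 3)) *
            (κ * κ)) := by (clear * - h1; gcongr)
      _ = ENNReal.ofReal (s ^ 3) * A s + (b * (ENNReal.ofReal (s ^ 3) * X s) +
          2 * ENNReal.ofReal c * (ENNReal.ofReal (s ^ 3) *
            (ENNReal.ofReal (l / s) + ENNReal.ofReal ((l / s) ^ 3))) * (κ * κ)) := by
          rw [hb]; ring
      _ ≤ ENNReal.ofReal (s ^ 3) * A s + (b * (ENNReal.ofReal (s ^ 3) * X s) +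
          2 * ENNReal.ofReal c * ENNReal.ofReal (l * T ^ 2 + l ^ 3) * (κ * κ)) := by (clear * - e2; gcongr)
      _ = _ := by rw [hC3]
  have m3X : Measurable fun s : ℝ => ENNReal.ofReal (s ^ 3) * X s := by
    apply Measurable.mul _ mX
    apply ENNReal.measurable_ofReal.comp
    apply Continuous.measurable
    fun_prop
  have m2X : Measurable fun s : ℝ => ENNReal.ofReal (s ^ 2) * X s := by
    apply Measurable.mul _ mX
    apply ENNReal.measurable_ofReal.comp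
    apply Continuous.measurable
    fun_prop
  have m3A : Measurable fun s : ℝ => ENNReal.ofReal (s ^ 3) * A s := by
    apply Measurable.mul _ mA
    apply ENNReal.measurable_ofReal.comp
    apply Continuous.measurable
    fun_prop
  have m3B : Measurable fun s : ℝ => ENNReal.ofReal (s ^ 3) * B s := by
    apply Measurable.mul _ mB
    apply ENNReal.measurable_ofReal.comp
    apply Continuous.measurable
    fun_prop
  -- integrated inequality
  have hint : ∀ t ∈ Icc 0 T, ENNReal.ofReal (t ^ 3) * X t +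
      (∫⁻ s in Ioc 0 t, ENNReal.ofReal (s ^ 2) * X s) ≤
      b * (∫⁻ s in Ioc 0 t, ENNReal.ofReal (s ^ 3) * X s) + C3 * ENNReal.ofReal t := by
    intro t ht
    have h1 := weighted_identity mX mA mB hid hfin ht.1
    have h2 : (∫⁻ s in Ioc 0 t, ENNReal.ofReal (s ^ 3) * B s) +
        4 * (∫⁻ s in Ioc 0 t, ENNReal.ofReal (s ^ 2) * X s) ≤
        (∫⁻ s in Ioc 0 t, ENNReal.ofReal (s ^ 3) * A s) +
          (b * (∫⁻ s in Ioc 0 t, ENNReal.ofReal (s ^ 3) * X s) + C3 * ENNReal.ofReal t) := by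
      have e3 : C3 * ENNReal.ofReal t = ∫⁻ s in Ioc 0 t, C3 := by
        rw [setLIntegral_const]; simp only [Real.volume_Ioc, sub_zero]
      rw [e3, ← lintegral_const_mul' _ _ (by norm_num), ← lintegral_const_mul' _ _ hbt,
        ← lintegral_add_left m3B, ← lintegral_add_left (m3X.const_mul b), ← lintegral_add_left m3A]
      apply setLIntegral_mono' measurableSet_Ioc
      intro s hs
      exact hpt s ⟨hs.1, hs.2.trans ht.2⟩
    have h3 : ∫⁻ s in Ioc 0 t, ENNReal.ofReal (3 * s ^ 2) * X s =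
        3 * ∫⁻ s in Ioc 0 t, ENNReal.ofReal (s ^ 2) * X s := by
      rw [← lintegral_const_mul' _ _ (by norm_num)]
      apply lintegral_congr; intro s
      rw [ENNReal.ofReal_mul (by norm_num)]
      simp only [ENNReal.ofReal_ofNat]
      ring
    rw [h3] at h1
    apply ENNReal.le_of_add_le_add_right (hfin3 t ht.1)
    calc ENNReal.ofReal (t ^ 3) * X t + (∫⁻ s in Ioc 0 t, ENNReal.ofReal (s ^ 2) * X s) +
          (∫⁻ s in Ioc 0 t, ENNReal.ofReal (s ^ 3) * A s)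
        = (ENNReal.ofReal (t ^ 3) * X t + (∫⁻ s in Ioc 0 t, ENNReal.ofReal (s ^ 3) * A s)) +
          (∫⁻ s in Ioc 0 t, ENNReal.ofReal (s ^ 2) * X s) := by ring
      _ = (∫⁻ s in Ioc 0 t, ENNReal.ofReal (s ^ 3) * B s) +
        4 * (∫⁻ s in Ioc 0 t, ENNReal.ofReal (s ^ 2) * X s) := by rw [h1]; ring
      _ ≤ _ := h2
      _ = _ := by ring
  -- Gronwall
  have hYb : ∀ t ∈ Icc 0 T, ENNReal.ofReal (t ^ 3) * X t ≤ ENNReal.ofReal (T ^ 3) *
      (Mo 2 g0 * ENNReal.ofReal (Real.exp ((2 * (Ss * Mo 1 g0).toReal) * T))) := by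
    intro t ht
    gcongr
    · exact ht.1
    · exact ht.2
    · exact Mo2_lim_le' hg0 hκ hZ ht.1 ht.2
  have hYbt : ENNReal.ofReal (T ^ 3) *
      (Mo 2 g0 * ENNReal.ofReal (Real.exp ((2 * (Ss * Mo 1 g0).toReal) * T))) ≠ ⊤ :=
    ENNReal.mul_ne_top ENNReal.ofReal_ne_top (ENNReal.mul_ne_top hZ ENNReal.ofReal_ne_top)
  have hY : ∀ t ∈ Icc 0 T, ENNReal.ofReal (t ^ 3) * X t ≤ 2 * (C3 * ENNReal.ofReal t) * EE := by
    intro t ht
    have h1 := gronwall_const (y := fun s => ENNReal.ofReal (s ^ 3) * X s) (T := t) (C := b)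
      (a := C3 * ENNReal.ofReal t) hYbt hbt
      (fun s hs => hYb s ⟨hs.1, hs.2.trans ht.2⟩) (by
        intro s hs
        have h2 := hint s ⟨hs.1, hs.2.trans ht.2⟩
        calc ENNReal.ofReal (s ^ 3) * X s ≤ ENNReal.ofReal (s ^ 3) * X s +
              (∫⁻ r in Ioc 0 s, ENNReal.ofReal (r ^ 2) * X r) := le_self_add
          _ ≤ _ := h2
          _ ≤ b * (∫⁻ r in Ioc 0 s, ENNReal.ofReal (r ^ 3) * X r) + C3 * ENNReal.ofReal t := by
              gcongr
              exact hs.2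
          _ = _ := by ring) t ⟨ht.1, le_rfl⟩
    refine h1.trans ?_
    rw [hEE]
    gcongr
    exact ht.2
  intro t ht
  constructor
  · calc ENNReal.ofReal (t ^ 3) * Mo 2 (lim g0 t) ≤ 2 * (C3 * ENNReal.ofReal t) * EE := hY t ht
      _ = (2 * C3 * EE) * ENNReal.ofReal t := by ring
      _ ≤ C * ENNReal.ofReal t := by
          gcongr
          rw [hC]
          exact le_add_self
  · have h1 := hint t ht
    calc ∫⁻ s in Ioc 0 t, ENNReal.ofReal (s ^ 2) * Mo 2 (lim g0 s)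
        ≤ ENNReal.ofReal (t ^ 3) * X t + (∫⁻ s in Ioc 0 t, ENNReal.ofReal (s ^ 2) * X s) :=
          le_add_self
      _ ≤ _ := h1
      _ ≤ b * (∫⁻ s in Ioc 0 t, 2 * (C3 * ENNReal.ofReal T) * EE) + C3 * ENNReal.ofReal t := by
          refine add_le_add (mul_le_mul_right ?_ _) le_rfl
          apply setLIntegral_mono' measurableSet_Ioc
          intro s hs
          refine (hY s ⟨hs.1.le, hs.2.trans ht.2⟩).trans ?_
          gcongr
          exact hs.2.trans ht.2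
      _ = (C3 + b * (2 * C3 * EE) * ENNReal.ofReal T) * ENNReal.ofReal t := by
          rw [setLIntegral_const, Real.volume_Ioc, sub_zero]; ring
      _ ≤ C * ENNReal.ofReal t := by
          gcongr
          rw [hC]
          exact le_self_add

end Vale.Agent.P140
end

section

open MeasureTheory Set Filter
open scoped ENNReal Topology NNReal

noncomputable section

namespace Vale.Agent.P140

/-- the mild equation in `[0,∞]` form gives `IsMild` -/
theorem isMild_of_ennreal {T : ℝ} {F0 : T3 → V → ℝ} {F : ℝ → T3 → V → ℝ}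
    (m0 : Measurable fun p : T3 × V => F0 p.1 p.2) (n0 : ∀ x v, 0 ≤ F0 x v)
    (m : Measurable fun p : ℝ × T3 × V => F p.1 p.2.1 p.2.2) (n : ∀ t x v, 0 ≤ F t x v)
    (hg : ∀ᵐ p : T3 × V, ∫⁻ s in Ioc 0 T, gainA F (s, p) < ⊤)
    (he : ∀ᵐ p : T3 × V, ∀ t ∈ Ioc 0 T, ENNReal.ofReal (along F (t, p))
      + ∫⁻ s in Ioc 0 t, lossA F (s, p)
        = ENNReal.ofReal (F0 p.1 p.2) + ∫⁻ s in Ioc 0 t, gainA F (s, p)) :
    IsMild T F0 F := by
  have key : ∀ᵐ p : T3 × V, ∀ t ∈ Ioc 0 T, ∫⁻ s in Ioc 0 t, lossA F (s, p) < ⊤ := by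
    filter_upwards [hg, he] with p h1 h2
    intro t ht
    have h3 : ∫⁻ s in Ioc 0 t, gainA F (s, p) < ⊤ :=
      lt_of_le_of_lt (lintegral_mono_set (Ioc_subset_Ioc_right ht.2)) h1
    refine lt_of_le_of_lt ?_ (ENNReal.add_lt_top.mpr ⟨ENNReal.ofReal_lt_top (r := F0 p.1 p.2), h3⟩)
    rw [← h2 t ht]
    exact le_add_self
  have mg := measurable_gainA m
  have ml := measurable_lossA m
  refine ⟨m0, n0, m, n, hg, ?_, ?_⟩
  · filter_upwards [key] with p hp
    rcases le_or_gt T 0 with hT | hT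
    · simp only [Ioc_eq_empty (not_lt.mpr hT), Measure.restrict_empty, lintegral_zero_measure, ENNReal.zero_lt_top]
    · exact hp T ⟨hT, le_rfl⟩
  · filter_upwards [hg, he, key] with p h1 h2 h3
    filter_upwards [ae_restrict_mem measurableSet_Ioc] with t ht
    have hgf : ∫⁻ s in Ioc 0 t, gainA F (s, p) < ⊤ :=
      lt_of_le_of_lt (lintegral_mono_set (Ioc_subset_Ioc_right ht.2)) h1
    have hlf := h3 t ht
    have msec : Measurable fun s : ℝ => ((s, p) : ℝ × T3 × V) := by fun_prop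
    have mg' : Measurable fun s => gainA F (s, p) := mg.comp msec
    have ml' : Measurable fun s => lossA F (s, p) := ml.comp msec
    rw [integral_sub]
    · rw [integral_toReal mg'.aemeasurable (ae_lt_top mg' hgf.ne),
        integral_toReal ml'.aemeasurable (ae_lt_top ml' hlf.ne)]
      have h5 := congrArg ENNReal.toReal (h2 t ht)
      rw [ENNReal.toReal_add ENNReal.ofReal_ne_top hlf.ne,
        ENNReal.toReal_add ENNReal.ofReal_ne_top hgf.ne, ENNReal.toReal_ofReal (n0 _ _),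
        ENNReal.toReal_ofReal (show 0 ≤ along F (t, p) from n _ _ _)] at h5
      linarith
    · exact integrable_toReal_of_lintegral_ne_top mg'.aemeasurable hgf.ne
    · exact integrable_toReal_of_lintegral_ne_top ml'.aemeasurable hlf.ne

end Vale.Agent.P140
end
end

section

open MeasureTheory Set Filter
open scoped ENNReal Topology NNReal

noncomputable section

namespace Vale.Agent.P140

theorem psi2_eq_ph : psi2 = ph := rfl

/-- homogeneous solution as a real valued function -/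
def homR (G0 : V → ℝ≥0∞) (t : ℝ) (v : V) : ℝ := (lim G0 t v).toReal

theorem homR_nonneg (G0 : V → ℝ≥0∞) (t : ℝ) (v : V) : 0 ≤ homR G0 t v := ENNReal.toReal_nonneg

theorem measurable_homR {G0 : V → ℝ≥0∞} (h : Measurable G0) :
    Measurable fun p : ℝ × V => homR G0 p.1 p.2 := (measurable_lim h).ennreal_toReal

theorem homR_ae {G0 : V → ℝ≥0∞} (hG0 : Measurable G0) (h4 : Mo 2 G0 ≠ ⊤) :
    ∀ᵐ v : V, G0 v ≠ ⊤ ∧ ∀ t, 0 ≤ t → ENNReal.ofReal (homR G0 t v) = lim G0 t v := by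
  have hκ : Mo 1 G0 ≠ ⊤ := ne_top_of_le_ne_top h4 (Mo_mono (by norm_num))
  filter_upwards [ae_finite_lim hG0 hκ h4] with v hv
  exact ⟨hv.1, fun t ht => ENNReal.ofReal_toReal (hv.2 t ht).1⟩

theorem Mo_homR {G0 : V → ℝ≥0∞} (hG0 : Measurable G0) (h4 : Mo 2 G0 ≠ ⊤) (j : ℕ) {t : ℝ}
    (ht : 0 ≤ t) : Mo j (fun v => ENNReal.ofReal (homR G0 t v)) = Mo j (lim G0 t) := by
  unfold Mo
  apply lintegral_congr_ae
  filter_upwards [homR_ae hG0 h4] with v hv
  rw [hv.2 t ht]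

theorem homR_eq {G0 : V → ℝ≥0∞} (mG0 : Measurable G0) (h4 : Mo 2 G0 ≠ ⊤) :
    ∀ᵐ v : V, ∀ t, 0 ≤ t → ENNReal.ofReal (homR G0 t v) + ∫⁻ s in Ioc 0 t, loss (homR G0 s) v =
        G0 v + ∫⁻ s in Ioc 0 t, gain (homR G0 s) v := by
  have hκ : Mo 1 G0 ≠ ⊤ := ne_top_of_le_ne_top h4 (Mo_mono (by norm_num))
  set N : Set V := {v | ¬ (G0 v ≠ ⊤ ∧ ∀ t, 0 ≤ t → ENNReal.ofReal (homR G0 t v) = lim G0 t v)}
    with hNdef
  have hN : volume N = 0 := homR_ae mG0 h4
  have hNae : ∀ᵐ v : V, v ∉ N := measure_eq_zero_iff_ae_notMem.mp hN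
  have hoff : ∀ t, 0 ≤ t → ∀ v, v ∉ N → ENNReal.ofReal (homR G0 t v) = lim G0 t v := by
    intro t ht v hv
    simp only [hNdef, mem_ofPred_eq, not_not] at hv
    exact hv.2 t ht
  filter_upwards [lim_equation mG0 hκ h4, ae_post_notMem hN, hNae] with v h1 h2 h3
  intro t ht
  have h4 := h1 t ht
  rw [hoff t ht v h3]
  have e1 : ∫⁻ s in Ioc 0 t, loss (homR G0 s) v = ∫⁻ s in Ioc 0 t, Qm (lim G0 s) v := by
    apply setLIntegral_congr_fun measurableSet_Ioc
    intro s hs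
    simp only
    rw [loss_eq_Qm (homR_nonneg G0 s)]
    exact Qm_congr_of_notMem hN (hoff s hs.1.le) h3
  have e2 : ∫⁻ s in Ioc 0 t, gain (homR G0 s) v = ∫⁻ s in Ioc 0 t, Qp (lim G0 s) v := by
    apply setLIntegral_congr_fun measurableSet_Ioc
    intro s hs
    simp only
    rw [gain_eq_Qp (homR_nonneg G0 s)]
    exact Qp_congr_of_notMem (hoff s hs.1.le) h2
  rw [e1, e2]
  exact h4

theorem volume_T3 : (volume : Measure T3) univ = 1 := by
  have h : (volume : Measure T3) = Measure.pi (fun _ : Fin 3 => (volume : Measure UnitAddCircle)) :=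
    rfl
  rw [h, Measure.pi_univ]
  simp only [AddCircle.measure_univ, ENNReal.ofReal_one, Finset.prod_const_one]

theorem lintegral_T3_V {f : V → ℝ≥0∞} (hf : Measurable f) :
    ∫⁻ p : T3 × V, f p.2 = ∫⁻ v : V, f v := by
  have h : Measurable fun p : T3 × V => f p.2 := hf.comp measurable_snd
  rw [Measure.volume_eq_prod, lintegral_prod _ h.aemeasurable]
  simp only [lintegral_const]
  rw [volume_T3, mul_one]

theorem wInt_hom {f : V → ℝ} (hf : Measurable f) :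
    wInt psi2 (fun _ v => f v) = Mo 1 (fun v => ENNReal.ofReal (f v)) := by
  unfold wInt Mo
  have h : Measurable fun v => psi2 v * ENNReal.ofReal (f v) :=
    measurable_psi2.mul hf.ennreal_ofReal
  rw [lintegral_T3_V h]
  apply lintegral_congr
  intro v
  rw [psi2_eq_ph, pow_one, mul_comm]

theorem wInt0_hom {f : V → ℝ} (hf : Measurable f) :
    wInt psi0 (fun _ v => f v) = Mo 0 (fun v => ENNReal.ofReal (f v)) := by
  unfold wInt Mo
  have h : Measurable fun v => psi0 v * ENNReal.ofReal (f v) :=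
    measurable_psi0.mul hf.ennreal_ofReal
  rw [lintegral_T3_V h]
  apply lintegral_congr
  intro v
  rw [psi0, pow_zero, mul_comm]

theorem Qm_weight_le {f : V → ℝ≥0∞} (hf : Measurable f) :
    ∫⁻ v, Qm f v * ph v ≤ Ss * (Mo 2 f * Mo 0 f) + Ss * (Mo 1 f * Mo 1 f) := by
  rw [Qm_weak hf ph, ← I3_mom hf 2 0, ← I3_mom hf 1 1, ← I3_add (meas_momI hf 2 0)]
  apply I3_mono
  intro p
  simp only [pow_one, pow_zero, mul_one]
  calc kk p.1 p.2.1 p.2.2 * (f p.1 * f p.2.1) * ph p.1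
      ≤ (ph p.1 + ph p.2.1) * (f p.1 * f p.2.1) * ph p.1 := by
        gcongr
        exact kk_le_add _ _ _
    _ = _ := by ring

/-- bound for the mass of the gain term of the homogeneous solution -/
theorem gain_homR_le {G0 : V → ℝ≥0∞} (mG0 : Measurable G0) (h4 : Mo 2 G0 ≠ ⊤) {s : ℝ}
    (hs : 0 ≤ s) : ∫⁻ v, gain (homR G0 s) v ≤ 2 * (Ss * (Mo 0 G0 * Mo 1 G0)) := by
  have hκ : Mo 1 G0 ≠ ⊤ := ne_top_of_le_ne_top h4 (Mo_mono (by norm_num))
  have mR := measurable_homR mG0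
  have ms : Measurable (homR G0 s) := (mR.comp (measurable_const.prodMk measurable_id) :)
  have e1 : ∫⁻ v, gain (homR G0 s) v = ∫⁻ v, Qp (fun v => ENNReal.ofReal (homR G0 s v)) v := by
    apply lintegral_congr
    intro v
    exact gain_eq_Qp (homR_nonneg G0 s) v
  have e2 := Qp_mass ms.ennreal_ofReal
  rw [Mo_homR mG0 h4 1 hs, Mo_homR mG0 h4 0 hs, Mo1_lim mG0 hκ h4 hs, Mo0_lim mG0 hκ h4 hs] at e2
  rw [e1]
  exact e2

theorem loss_homR_weight_le {G0 : V → ℝ≥0∞} (mG0 : Measurable G0) (h4 : Mo 2 G0 ≠ ⊤) {s T : ℝ}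
    (hs : 0 ≤ s) (hsT : s ≤ T) : ∫⁻ v, psi2 v * loss (homR G0 s) v ≤
      Ss * (Mo 2 G0 * ENNReal.ofReal (Real.exp ((2 * (Ss * Mo 1 G0).toReal) * T)) * Mo 0 G0)
        + Ss * (Mo 1 G0 * Mo 1 G0) := by
  have hκ : Mo 1 G0 ≠ ⊤ := ne_top_of_le_ne_top h4 (Mo_mono (by norm_num))
  have mR := measurable_homR mG0
  have ms : Measurable (homR G0 s) := (mR.comp (measurable_const.prodMk measurable_id) :)
  have e1 : ∫⁻ v, psi2 v * loss (homR G0 s) v
      = ∫⁻ v, Qm (fun v => ENNReal.ofReal (homR G0 s v)) v * ph v := by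
    apply lintegral_congr
    intro v
    rw [loss_eq_Qm (homR_nonneg G0 s) v, psi2_eq_ph, mul_comm]
  have e2 := Qm_weight_le ms.ennreal_ofReal
  rw [Mo_homR mG0 h4 1 hs, Mo_homR mG0 h4 0 hs, Mo_homR mG0 h4 2 hs, Mo1_lim mG0 hκ h4 hs,
    Mo0_lim mG0 hκ h4 hs] at e2
  rw [e1]
  refine e2.trans ?_
  gcongr
  exact Mo2_lim_le' mG0 hκ h4 hs hsT

/-- the homogeneous solution is a mild solution -/
theorem isMild_homR {g0 : V → ℝ} (mg0 : Measurable g0) (ng0 : ∀ v, 0 ≤ g0 v)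
    (h4 : Mo 2 (fun v => ENNReal.ofReal (g0 v)) ≠ ⊤) (T : ℝ) :
    IsMild T (fun _ v => g0 v) (fun t _ v => homR (fun v => ENNReal.ofReal (g0 v)) t v) := by
  set G0 : V → ℝ≥0∞ := fun v => ENNReal.ofReal (g0 v) with hG0
  have mG0 : Measurable G0 := mg0.ennreal_ofReal
  have hκ : Mo 1 G0 ≠ ⊤ := ne_top_of_le_ne_top h4 (Mo_mono (by norm_num))
  have hμ : Mo 0 G0 ≠ ⊤ := ne_top_of_le_ne_top h4 (Mo_mono (by norm_num))
  have mR := measurable_homR mG0
  have mF : Measurable fun p : ℝ × T3 × V => homR G0 p.1 p.2.2 :=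
    (mR.comp (measurable_fst.prodMk measurable_snd.snd) :)
  have mg : Measurable fun p : ℝ × V => gain (homR G0 p.1) p.2 :=
    measurable_gain (α := ℝ) (f := fun a => homR G0 a) mR
  have mgs : Measurable fun p : V × ℝ => gain (homR G0 p.2) p.1 := by
    have h := mg.comp (measurable_swap (α := V) (β := ℝ))
    exact h
  have hm : Measurable fun v : V => ∫⁻ s in Ioc 0 T, gain (homR G0 s) v :=
    Measurable.lintegral_prod_right' (ν := volume.restrict (Ioc 0 T)) mgs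
  have hgain : ∀ᵐ v : V, ∫⁻ s in Ioc 0 T, gain (homR G0 s) v < ⊤ := by
    apply ae_lt_top hm
    rw [lintegral_lintegral_swap mgs.aemeasurable]
    apply ne_top_of_le_ne_top _ (setLIntegral_mono measurable_const
      fun s hs => gain_homR_le mG0 h4 (s := s) hs.1.le)
    rw [setLIntegral_const]
    exact ENNReal.mul_ne_top (ENNReal.mul_ne_top (by simp) (ENNReal.mul_ne_top Ss_ne_top
      (ENNReal.mul_ne_top hμ hκ))) (by simp only [Real.volume_Ioc, sub_zero, ne_eq, ENNReal.ofReal_ne_top, not_false_eq_true])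
  have hT3 : ∀ P : V → Prop, (∀ᵐ v : V, P v) → ∀ᵐ p : T3 × V, P p.2 := by
    intro P h
    exact (Measure.quasiMeasurePreserving_snd (μ := (volume : Measure T3))
      (ν := (volume : Measure V))).ae h
  refine isMild_of_ennreal (mg0.comp measurable_snd) (fun _ v => ng0 v) mF
    (fun t _ v => homR_nonneg G0 t v) ?_ ?_
  · exact hT3 _ hgain
  · filter_upwards [hT3 _ (homR_eq mG0 h4)] with p hp
    intro t ht
    exact hp t ht.1.le

end Vale.Agent.P140
end
end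

section

open MeasureTheory Set Filter
open scoped ENNReal Topology NNReal

noncomputable section

namespace Vale.Agent.P140

/-- truncated datum -/
def truncR (g0 : V → ℝ) (n : ℕ) (v : V) : ℝ := if ‖v‖ ≤ n then g0 v else 0

variable {g0 : V → ℝ}

theorem measurable_truncR (mg0 : Measurable g0) (n : ℕ) : Measurable (truncR g0 n) := by
  unfold truncR
  exact Measurable.ite (measurableSet_le measurable_norm measurable_const) mg0 measurable_const

theorem truncR_nonneg (ng0 : ∀ v, 0 ≤ g0 v) (n : ℕ) (v : V) : 0 ≤ truncR g0 n v := by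
  unfold truncR
  split_ifs
  · exact ng0 v
  · exact le_rfl

theorem truncR_le (ng0 : ∀ v, 0 ≤ g0 v) (n : ℕ) (v : V) : truncR g0 n v ≤ g0 v := by
  unfold truncR
  split_ifs
  · exact le_rfl
  · exact ng0 v

theorem ph_le_of_norm_le {n : ℕ} {v : V} (h : ‖v‖ ≤ n) : ph v ≤ ENNReal.ofReal (1 + (n : ℝ) ^ 2) := by
  unfold ph
  apply ENNReal.ofReal_le_ofReal
  have : ‖v‖ ^ 2 ≤ (n : ℝ) ^ 2 := by
    apply pow_le_pow_left₀ (norm_nonneg _) h
  linarith

theorem le_ph_of_lt_norm {n : ℕ} {v : V} (h : (n : ℝ) < ‖v‖) :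
    ENNReal.ofReal (1 + (n : ℝ) ^ 2) ≤ ph v := by
  unfold ph
  apply ENNReal.ofReal_le_ofReal
  have : (n : ℝ) ^ 2 ≤ ‖v‖ ^ 2 := by
    apply pow_le_pow_left₀ (Nat.cast_nonneg _) h.le
  linarith

/-- moments of truncated data -/
theorem Mo_truncR (n j : ℕ) : Mo (j + 1) (fun v => ENNReal.ofReal (truncR g0 n v))
    ≤ ENNReal.ofReal (1 + (n : ℝ) ^ 2) ^ j * Mo 1 (fun v => ENNReal.ofReal (g0 v)) := by
  unfold Mo
  have htop : ENNReal.ofReal (1 + (n : ℝ) ^ 2) ^ j ≠ ⊤ := ENNReal.pow_ne_top ENNReal.ofReal_ne_top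
  rw [← lintegral_const_mul' _ _ htop]
  apply lintegral_mono
  intro v
  simp only
  unfold truncR
  split_ifs with h
  · calc ENNReal.ofReal (g0 v) * ph v ^ (j + 1)
        = ph v ^ j * (ENNReal.ofReal (g0 v) * ph v ^ 1) := by ring
      _ ≤ _ := by
        gcongr
        exact ph_le_of_norm_le h
  · simp only [ENNReal.ofReal_zero, zero_mul, pow_one, zero_le]

theorem Mo_truncR_le (ng0 : ∀ v, 0 ≤ g0 v) (n j : ℕ) :
    Mo j (fun v => ENNReal.ofReal (truncR g0 n v)) ≤ Mo j (fun v => ENNReal.ofReal (g0 v)) :=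
  Mo_le_of_le (fun v => ENNReal.ofReal_le_ofReal (truncR_le ng0 n v)) j

/-- tail of the energy -/
def tailE (g0 : V → ℝ) (n : ℕ) : ℝ≥0∞ :=
  ∫⁻ v, psi2 v * ENNReal.ofReal |truncR g0 n v - g0 v|

theorem tailE_tendsto (mg0 : Measurable g0)
    (hK : Mo 1 (fun v => ENNReal.ofReal (g0 v)) ≠ ⊤) (ng0 : ∀ v, 0 ≤ g0 v) :
    Tendsto (tailE g0) atTop (𝓝 0) := by
  have h0 : (0 : ℝ≥0∞) = ∫⁻ v : V, (0 : ℝ≥0∞) := by simp only [lintegral_const, measure_univ_of_isAddLeftInvariant, zero_mul]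
  rw [h0]
  unfold tailE
  apply tendsto_lintegral_of_dominated_convergence (fun v => ENNReal.ofReal (g0 v) * ph v ^ 1)
  · intro n
    exact measurable_psi2.mul ((measurable_truncR mg0 n).sub mg0).abs.ennreal_ofReal
  · intro n
    apply Eventually.of_forall
    intro v
    simp only
    rw [psi2_eq_ph, pow_one, mul_comm]
    gcongr
    unfold truncR
    split_ifs
    · simpa only [sub_self, abs_zero] using ng0 v
    · simp [abs_of_nonneg (ng0 v)]
  · exact hK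
  · apply Eventually.of_forall
    intro v
    apply tendsto_const_nhds.congr'
    filter_upwards [eventually_ge_atTop ⌈‖v‖⌉₊] with n hn
    have : ‖v‖ ≤ n := (Nat.le_ceil _).trans (Nat.cast_le.mpr hn)
    simp only [truncR, this, ↓reduceIte, sub_self, abs_zero, ENNReal.ofReal_zero, mul_zero]

theorem wDist_trunc2 (mg0 : Measurable g0) (n : ℕ) :
    wDist psi2 (fun _ v => truncR g0 n v) (fun _ v => g0 v) = tailE g0 n := by
  unfold wDist tailE
  exact lintegral_T3_V (measurable_psi2.mul ((measurable_truncR mg0 n).sub mg0).abs.ennreal_ofReal)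

theorem wDist_trunc0 (mg0 : Measurable g0) (n : ℕ) :
    ENNReal.ofReal (1 + (n : ℝ) ^ 2) * wDist psi0 (fun _ v => truncR g0 n v) (fun _ v => g0 v)
      ≤ tailE g0 n := by
  have h : Measurable fun v => psi0 v * ENNReal.ofReal |truncR g0 n v - g0 v| :=
    measurable_psi0.mul ((measurable_truncR mg0 n).sub mg0).abs.ennreal_ofReal
  have e : wDist psi0 (fun _ v => truncR g0 n v) (fun _ v => g0 v)
      = ∫⁻ v, psi0 v * ENNReal.ofReal |truncR g0 n v - g0 v| := by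
    unfold wDist
    exact lintegral_T3_V h
  rw [e, ← lintegral_const_mul _ h]
  unfold tailE
  apply lintegral_mono
  intro v
  simp only
  unfold truncR
  split_ifs with h1
  · simp
  · rw [psi0, one_mul, psi2_eq_ph]
    gcongr
    exact le_ph_of_lt_norm (not_le.mp h1)

/-- mass of truncated data -/
theorem exists_mass_trunc (ng0 : ∀ v, 0 ≤ g0 v) (mg0 : Measurable g0) {μ : ℝ≥0∞}
    (hμ : μ < Mo 0 (fun v => ENNReal.ofReal (g0 v))) :
    ∀ᶠ n in atTop, μ ≤ Mo 0 (fun v => ENNReal.ofReal (truncR g0 n v)) := by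
  have hmono : Monotone fun n : ℕ => fun v => ENNReal.ofReal (truncR g0 n v) * ph v ^ 0 := by
    intro a b hab v
    simp only
    gcongr
    unfold truncR
    by_cases h : ‖v‖ ≤ a
    · have h' : ‖v‖ ≤ b := h.trans (Nat.cast_le.mpr hab)
      simp only [h, ↓reduceIte, h', Std.le_refl]
    · simp only [h, if_false]
      split_ifs
      · exact ng0 v
      · exact le_rfl
  have ht : Tendsto (fun n : ℕ => Mo 0 (fun v => ENNReal.ofReal (truncR g0 n v))) atTop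
      (𝓝 (Mo 0 (fun v => ENNReal.ofReal (g0 v)))) := by
    unfold Mo
    apply lintegral_tendsto_of_tendsto_of_monotone
    · intro n
      exact ((measurable_truncR mg0 n).ennreal_ofReal.mul (measurable_phpow 0)).aemeasurable
    · exact Eventually.of_forall fun v a b hab => hmono hab v
    · apply Eventually.of_forall
      intro v
      apply tendsto_const_nhds.congr'
      filter_upwards [eventually_ge_atTop ⌈‖v‖⌉₊] with n hn
      have : ‖v‖ ≤ n := (Nat.le_ceil _).trans (Nat.cast_le.mpr hn)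
      simp only [pow_zero, mul_one, truncR, this, ↓reduceIte]
  filter_upwards [ht.eventually (lt_mem_nhds hμ)] with n hn
  exact hn.le

theorem two_mul_ofReal (a : ℝ) : (2 : ℝ≥0∞) * ENNReal.ofReal a = ENNReal.ofReal (2 * a) := by
  rw [ENNReal.ofReal_mul (by norm_num)]
  simp

/-- third moments by fourth moments -/
theorem vmom3_le {f : V → ℝ} (hf0 : ∀ v, 0 ≤ f v) :
    vmom 3 f ≤ 4 * Mo 2 (fun v => ENNReal.ofReal (f v)) := by
  unfold vmom Mo
  rw [← lintegral_const_mul' _ _ (by simp)]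
  apply lintegral_mono
  intro v
  simp only
  unfold ph
  rw [← ENNReal.ofReal_pow (by (clear * -; positivity)), ← ENNReal.ofReal_mul (hf0 v),
    show (4 : ℝ≥0∞) = ENNReal.ofReal 4 by simp, ← ENNReal.ofReal_mul (by norm_num)]
  apply ENNReal.ofReal_le_ofReal
  have h := norm_nonneg v
  have h1 : (1 + ‖v‖) ^ 3 ≤ 4 * (1 + ‖v‖ ^ 2) ^ 2 := by
    have a1 : (1 + ‖v‖) ^ 2 ≤ 2 * (1 + ‖v‖ ^ 2) := by (clear * -; linarith only [sq_nonneg (1 - ‖v‖)])
    have a2 : (1 + ‖v‖) ^ 3 ≤ ((1 + ‖v‖) ^ 2) ^ 2 := by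
      rw [← pow_mul]
      exact pow_le_pow_right₀ (by linarith only [h]) (by norm_num)
    have a3 : ((1 + ‖v‖) ^ 2) ^ 2 ≤ (2 * (1 + ‖v‖ ^ 2)) ^ 2 :=
      pow_le_pow_left₀ (by (clear * -; positivity)) a1 2
    linarith
  linarith only [mul_le_mul_of_nonneg_right h1 (hf0 v)]

theorem vmom2_le {f : V → ℝ} (hf0 : ∀ v, 0 ≤ f v) :
    vmom 2 f ≤ 2 * Mo 1 (fun v => ENNReal.ofReal (f v)) := by
  unfold vmom Mo
  rw [← lintegral_const_mul' _ _ (by simp)]
  apply lintegral_mono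
  intro v
  simp only
  unfold ph
  rw [pow_one, ← ENNReal.ofReal_mul (hf0 v), two_mul_ofReal]
  apply ENNReal.ofReal_le_ofReal
  have h := norm_nonneg v
  have h1 : (1 + ‖v‖) ^ 2 ≤ 2 * (1 + ‖v‖ ^ 2) := by linarith only [sq_nonneg (1 - ‖v‖)]
  linarith only [mul_le_mul_of_nonneg_right h1 (hf0 v)]

theorem vmom3_time {f : V → ℝ} (hf : Measurable f) (hf0 : ∀ v, 0 ≤ f v) {s : ℝ} (hs : 0 ≤ s) :
    ENNReal.ofReal s * vmom 3 f ≤ Mo 1 (fun v => ENNReal.ofReal (f v))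
      + 2 * (ENNReal.ofReal (s ^ 2) * Mo 2 (fun v => ENNReal.ofReal (f v))) := by
  unfold vmom Mo
  have m2 : Measurable fun v => ENNReal.ofReal (f v) * ph v ^ 2 :=
    hf.ennreal_ofReal.mul (measurable_phpow 2)
  have m1 : Measurable fun v => ENNReal.ofReal (f v) * ph v ^ 1 :=
    hf.ennreal_ofReal.mul (measurable_phpow 1)
  rw [← lintegral_const_mul' _ _ ENNReal.ofReal_ne_top, ← lintegral_const_mul _ m2,
    ← lintegral_const_mul' _ _ (by simp), ← lintegral_add_left m1]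
  apply lintegral_mono
  intro v
  simp only
  unfold ph
  rw [pow_one, ← ENNReal.ofReal_pow (by (clear * -; positivity)), ← ENNReal.ofReal_mul (hf0 v),
    ← ENNReal.ofReal_mul (hf0 v), ← ENNReal.ofReal_mul hs, ← ENNReal.ofReal_mul (by positivity),
    two_mul_ofReal,
    ← ENNReal.ofReal_add (mul_nonneg (hf0 v) (by (clear * -; positivity)))
      (mul_nonneg (by norm_num) (mul_nonneg (by positivity) (mul_nonneg (hf0 v) (by (clear * -; positivity)))))]
  apply ENNReal.ofReal_le_ofReal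
  have h := norm_nonneg v
  have a1 : (1 + ‖v‖) ^ 2 ≤ 2 * (1 + ‖v‖ ^ 2) := by linarith only [sq_nonneg (1 - ‖v‖)]
  have a3 : ((1 + ‖v‖) ^ 2) ^ 2 ≤ (2 * (1 + ‖v‖ ^ 2)) ^ 2 :=
    pow_le_pow_left₀ (by (clear * -; positivity)) a1 2
  have h1 : s * (1 + ‖v‖) ^ 3 ≤ (1 + ‖v‖ ^ 2) + 2 * s ^ 2 * (1 + ‖v‖ ^ 2) ^ 2 := by
    have a4 : 2 * (s * (1 + ‖v‖) ^ 3) ≤ (1 + ‖v‖) ^ 2 + s ^ 2 * ((1 + ‖v‖) ^ 2) ^ 2 := by
      (clear * -; linarith only [sq_nonneg ((1 + ‖v‖) - s * (1 + ‖v‖) ^ 2)])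
    have a5 := mul_le_mul_of_nonneg_left a3 (sq_nonneg s)
    linarith
  linarith only [mul_le_mul_of_nonneg_right h1 (hf0 v)]

end Vale.Agent.P140
end
end

section

open MeasureTheory Set Filter
open scoped ENNReal Topology NNReal

noncomputable section

namespace Vale.Agent.P140

theorem gronwall_two {T : ℝ} {S K D0 D2 L B : ℝ≥0∞} {y0 y2 M3 : ℝ → ℝ≥0∞} (hS : S < ⊤)
    (hK : K < ⊤) (hD0 : D0 < ⊤) (hD2 : D2 < ⊤) (hL : L < ⊤) (hB : B < ⊤)
    (m0 : Measurable y0) (m2 : Measurable y2) (mM : Measurable M3)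
    (hM : ∫⁻ s in Ioc 0 T, M3 s < ⊤) (hMs : ∫⁻ s in Ioc 0 T, ENNReal.ofReal s * M3 s ≤ L)
    (b0 : ∀ᵐ t ∂(volume.restrict (Ioc 0 T)), y0 t ≤ B)
    (b2 : ∀ᵐ t ∂(volume.restrict (Ioc 0 T)), y2 t ≤ B)
    (h0 : ∀ᵐ t ∂(volume.restrict (Ioc 0 T)), y0 t ≤ D0 + 4 * S * ∫⁻ s in Ioc 0 t, 2 * K * y2 s)
    (h2 : ∀ᵐ t ∂(volume.restrict (Ioc 0 T)), y2 t ≤ D2 + 2 * S * ∫⁻ s in Ioc 0 t,
      (M3 s * y0 s + 2 * K * y2 s)) :
    ∀ᵐ t ∂(volume.restrict (Ioc 0 T)), y2 t ≤ (D2 + 2 * S * (D0 * ∫⁻ s in Ioc 0 T, M3 s))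
      * ENNReal.ofReal (Real.exp (2 * S * (8 * S * K * L + 2 * K * ENNReal.ofReal T)).toReal) := by
  have hsub : ∀ t, t ∈ Ioc 0 T → ∀ P : ℝ → Prop, (∀ᵐ t ∂(volume.restrict (Ioc 0 T)), P t) →
      ∀ᵐ t ∂(volume.restrict (Ioc 0 t)), P t := by
    intro t ht P h
    exact ae_restrict_of_ae_restrict_of_subset (Ioc_subset_Ioc_right ht.2) h
  have mI : Measurable fun s => M3 s * y0 s + 2 * K * y2 s := (mM.mul m0).add (m2.const_mul _)
  set W : ℝ → ℝ≥0∞ := fun t => D2 + 2 * S * ∫⁻ s in Ioc 0 t, (M3 s * y0 s + 2 * K * y2 s) with hW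
  have hWmono : Monotone W := by
    intro a b hab
    simp only [hW]
    (clear * - hab; gcongr)
  have mW : Measurable W := hWmono.measurable
  set Φ : ℝ → ℝ≥0∞ := fun s => 2 * S * (8 * S * K * (ENNReal.ofReal s * M3 s) + 2 * K) with hΦ
  have msM : Measurable fun s => ENNReal.ofReal s * M3 s := (ENNReal.measurable_ofReal).mul mM
  have mΦ : Measurable Φ := (((msM).const_mul _).add_const _).const_mul _
  have hΦi : ∀ t ≤ T, ∫⁻ s in Ioc 0 t, Φ s ≤ 2 * S * (8 * S * K * L + 2 * K * ENNReal.ofReal T) := by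
    intro t ht
    refine (lintegral_mono_set (Ioc_subset_Ioc_right ht)).trans ?_
    simp only [hΦ]
    have k1 : Measurable fun s => 8 * S * K * (ENNReal.ofReal s * M3 s) := msM.const_mul _
    have k2 : Measurable fun s => 8 * S * K * (ENNReal.ofReal s * M3 s) + 2 * K := k1.add_const _
    rw [lintegral_const_mul _ k2, lintegral_add_left k1, lintegral_const_mul _ msM,
      setLIntegral_const, Real.volume_Ioc, sub_zero]
    (clear * - hMs; gcongr)
  have hcap : 2 * S * (8 * S * K * L + 2 * K * ENNReal.ofReal T) < ⊤ := by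
    have h2S : 2 * S < ⊤ := ENNReal.mul_lt_top (by simp) hS
    have h8S : 8 * S < ⊤ := ENNReal.mul_lt_top (by simp) hS
    have h2K : 2 * K < ⊤ := ENNReal.mul_lt_top (by simp) hK
    exact ENNReal.mul_lt_top h2S (ENNReal.add_lt_top.mpr
      ⟨ENNReal.mul_lt_top (ENNReal.mul_lt_top h8S hK) hL, ENNReal.mul_lt_top h2K (by simp)⟩)
  set A : ℝ≥0∞ := D2 + 2 * S * (D0 * ∫⁻ s in Ioc 0 T, M3 s) with hA
  have hAt : A < ⊤ := ENNReal.add_lt_top.mpr ⟨hD2, ENNReal.mul_lt_top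
    (ENNReal.mul_lt_top (by simp) hS) (ENNReal.mul_lt_top hD0 hM)⟩
  -- `y0` in terms of `W`
  have hy0W : ∀ᵐ s ∂(volume.restrict (Ioc 0 T)), y0 s ≤ D0 + 8 * S * K * (ENNReal.ofReal s * W s) := by
    filter_upwards [h0, ae_restrict_mem measurableSet_Ioc] with s hs hmem
    refine hs.trans ?_
    gcongr D0 + ?_
    calc 4 * S * ∫⁻ r in Ioc 0 s, 2 * K * y2 r ≤ 4 * S * ∫⁻ r in Ioc 0 s, 2 * K * W s := by
          gcongr 4 * S * ?_
          apply lintegral_mono_ae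
          filter_upwards [hsub s hmem _ h2, ae_restrict_mem measurableSet_Ioc] with r hr hrm
          gcongr
          exact (show y2 r ≤ W r from hr).trans (hWmono hrm.2)
      _ = _ := by
          rw [setLIntegral_const, Real.volume_Ioc, sub_zero]
          ring
  have hWΦ : ∀ t ∈ Ioc 0 T, W t ≤ A + ∫⁻ s in Ioc 0 t, Φ s * W s := by
    intro t ht
    have e1 : 2 * S * ∫⁻ s in Ioc 0 t, (M3 s * y0 s + 2 * K * y2 s)
        ≤ 2 * S * ∫⁻ s in Ioc 0 t, (D0 * M3 s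
          + (8 * S * K * (ENNReal.ofReal s * M3 s) + 2 * K) * W s) := by
      gcongr 2 * S * ?_
      apply lintegral_mono_ae
      filter_upwards [hsub t ht _ hy0W, hsub t ht _ h2] with s hs1 hs2
      calc M3 s * y0 s + 2 * K * y2 s
          ≤ M3 s * (D0 + 8 * S * K * (ENNReal.ofReal s * W s)) + 2 * K * W s := by
            (clear * - hs1 hs2; gcongr)
        _ = _ := by ring
    have k1 : Measurable fun s => D0 * M3 s := mM.const_mul _
    have k2 : Measurable fun s => (8 * S * K * (ENNReal.ofReal s * M3 s) + 2 * K) * W s :=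
      ((msM.const_mul _).add_const _).mul mW
    calc W t = D2 + 2 * S * ∫⁻ s in Ioc 0 t, (M3 s * y0 s + 2 * K * y2 s) := rfl
      _ ≤ D2 + 2 * S * ∫⁻ s in Ioc 0 t, (D0 * M3 s
          + (8 * S * K * (ENNReal.ofReal s * M3 s) + 2 * K) * W s) := by (clear * - e1; gcongr D2 + ?_)
      _ = D2 + 2 * S * (D0 * ∫⁻ s in Ioc 0 t, M3 s) + ∫⁻ s in Ioc 0 t, Φ s * W s := by
          rw [lintegral_add_left k1, lintegral_const_mul _ mM, mul_add, ← lintegral_const_mul _ k2,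
            add_assoc]
          congr 2
          apply lintegral_congr
          intro s
          simp only [hΦ]
          ring
      _ ≤ A + ∫⁻ s in Ioc 0 t, Φ s * W s := by
          rw [hA]
          gcongr
          exact ht.2
  have hWB : ∀ t ∈ Ioc 0 T, W t ≤ D2 + 2 * S * ((∫⁻ s in Ioc 0 T, M3 s) * B
      + 2 * K * B * ENNReal.ofReal T) := by
    intro t ht
    refine (hWmono ht.2).trans ?_
    simp only [hW]
    gcongr D2 + 2 * S * ?_
    have k1 : Measurable fun s => M3 s * B := mM.mul_const _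
    calc ∫⁻ s in Ioc 0 T, (M3 s * y0 s + 2 * K * y2 s)
        ≤ ∫⁻ s in Ioc 0 T, (M3 s * B + 2 * K * B) := by
          apply lintegral_mono_ae
          filter_upwards [b0, b2] with s hs1 hs2
          (clear * - hs1 hs2; gcongr)
      _ = _ := by
          rw [lintegral_add_left k1, lintegral_mul_const _ mM, setLIntegral_const,
            Real.volume_Ioc, sub_zero]
  have hWBt : D2 + 2 * S * ((∫⁻ s in Ioc 0 T, M3 s) * B + 2 * K * B * ENNReal.ofReal T) < ⊤ := by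
    have h2S : 2 * S < ⊤ := ENNReal.mul_lt_top (by simp) hS
    have h2K : 2 * K < ⊤ := ENNReal.mul_lt_top (by simp) hK
    exact ENNReal.add_lt_top.mpr ⟨hD2, ENNReal.mul_lt_top h2S (ENNReal.add_lt_top.mpr
      ⟨ENNReal.mul_lt_top hM hB, ENNReal.mul_lt_top (ENNReal.mul_lt_top h2K hB) (by simp)⟩)⟩
  have hg := gronwall_ennreal (Φ := Φ) (W := W) (T := T) (A := A) mΦ mW
    (lt_of_le_of_lt (hΦi T le_rfl) hcap) hAt hWBt (Eventually.of_forall hWB)
    (Eventually.of_forall hWΦ)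
  rw [ae_restrict_iff' measurableSet_Ioc] at h2 ⊢
  filter_upwards [h2, hg] with t ht1 ht2 hmem
  refine (ht1 hmem).trans ((ht2 hmem).trans ?_)
  gcongr
  · exact hcap.ne
  · exact hΦi t hmem.2

end Vale.Agent.P140
end
end

section

open MeasureTheory Set Filter
open scoped ENNReal Topology NNReal

noncomputable section

namespace Vale.Agent.P140

/-- the approximating homogeneous solutions -/
def apx (g0 : V → ℝ) (n : ℕ) (t : ℝ) (_ : T3) (v : V) : ℝ :=
  homR (fun v => ENNReal.ofReal (truncR g0 n v)) t v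

variable {g0 : V → ℝ}

theorem measurable_homR_slice {G : V → ℝ≥0∞} (mG : Measurable G) (s : ℝ) :
    Measurable (homR G s) := ((measurable_homR mG).comp (measurable_const.prodMk measurable_id) :)

theorem wInt2_homR {G : V → ℝ≥0∞} (mG : Measurable G) (h2 : Mo 2 G ≠ ⊤) {t : ℝ} (ht : 0 ≤ t) :
    wInt psi2 (fun _ v => homR G t v) = Mo 1 G := by
  have h1 : Mo 1 G ≠ ⊤ := ne_top_of_le_ne_top h2 (Mo_mono (by norm_num))
  rw [wInt_hom (measurable_homR_slice mG t), Mo_homR mG h2 1 ht, Mo1_lim mG h1 h2 ht]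

theorem wInt0_homR {G : V → ℝ≥0∞} (mG : Measurable G) (h2 : Mo 2 G ≠ ⊤) {t : ℝ} (ht : 0 ≤ t) :
    wInt psi0 (fun _ v => homR G t v) = Mo 0 G := by
  have h1 : Mo 1 G ≠ ⊤ := ne_top_of_le_ne_top h2 (Mo_mono (by norm_num))
  rw [wInt0_hom (measurable_homR_slice mG t), Mo_homR mG h2 0 ht, Mo0_lim mG h1 h2 ht]

theorem hl_homR {G : V → ℝ≥0∞} (mG : Measurable G) (h2 : Mo 2 G ≠ ⊤) (T : ℝ) {τ : ℝ}
    (hτ : 0 < τ) : ∫⁻ s in Ioc τ T, ∫⁻ p : T3 × V, psi2 p.2 * loss (homR G s) p.2 < ⊤ := by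
  have h1 : Mo 1 G ≠ ⊤ := ne_top_of_le_ne_top h2 (Mo_mono (by norm_num))
  have h0 : Mo 0 G ≠ ⊤ := ne_top_of_le_ne_top h2 (Mo_mono (by norm_num))
  have hSt : Ss < ⊤ := lt_top_iff_ne_top.mpr Ss_ne_top
  have hb : ∀ s ∈ Ioc τ T, ∫⁻ p : T3 × V, psi2 p.2 * loss (homR G s) p.2 ≤
      Ss * (Mo 2 G * ENNReal.ofReal (Real.exp ((2 * (Ss * Mo 1 G).toReal) * T)) * Mo 0 G)
        + Ss * (Mo 1 G * Mo 1 G) := by
    intro s hs
    have hs0 : 0 ≤ s := hτ.le.trans hs.1.le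
    have ml : Measurable fun v => psi2 v * loss (homR G s) v := by
      have e : (fun v : V => loss (homR G s) v) = Qm (fun v => ENNReal.ofReal (homR G s v)) := by
        funext v
        exact loss_eq_Qm (homR_nonneg G s) v
      have h3 : Measurable fun v : V => loss (homR G s) v := by
        rw [e]
        exact measurable_Qm (measurable_homR_slice mG s).ennreal_ofReal
      exact measurable_psi2.mul h3
    rw [lintegral_T3_V ml]
    exact loss_homR_weight_le mG h2 hs0 hs.2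
  refine lt_of_le_of_lt (setLIntegral_mono measurable_const hb) ?_
  rw [setLIntegral_const]
  exact ENNReal.mul_lt_top (ENNReal.add_lt_top.mpr
    ⟨ENNReal.mul_lt_top hSt (ENNReal.mul_lt_top (ENNReal.mul_lt_top
      (lt_top_iff_ne_top.mpr h2) ENNReal.ofReal_lt_top) (lt_top_iff_ne_top.mpr h0)),
    ENNReal.mul_lt_top hSt (ENNReal.mul_lt_top (lt_top_iff_ne_top.mpr h1)
      (lt_top_iff_ne_top.mpr h1))⟩) (by simp only [Real.volume_Ioc, ENNReal.ofReal_lt_top])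

theorem measurable_vmom_homR {G : V → ℝ≥0∞} (mG : Measurable G) (k : ℕ) :
    Measurable fun s => vmom k (homR G s) := by
  have hh : Measurable fun p : ℝ × V => ENNReal.ofReal ((1 + ‖p.2‖) ^ k * homR G p.1 p.2) := by
    apply Measurable.ennreal_ofReal
    exact ((measurable_const.add measurable_snd.norm).pow_const k).mul (measurable_homR mG)
  exact Measurable.lintegral_prod_right' hh

theorem vmom3_int {G : V → ℝ≥0∞} (mG : Measurable G) (h2 : Mo 2 G ≠ ⊤) {T : ℝ} {X : ℝ≥0∞}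
    (hX : ∀ s ∈ Ioc 0 T, Mo 2 (lim G s) ≤ X) :
    ∫⁻ s in Ioc 0 T, vmom 3 (homR G s) ≤ 4 * X * ENNReal.ofReal T := by
  have hb : ∀ s ∈ Ioc 0 T, vmom 3 (homR G s) ≤ 4 * X := by
    intro s hs
    refine (vmom3_le (homR_nonneg G s)).trans ?_
    gcongr 4 * ?_
    rw [Mo_homR mG h2 2 hs.1.le]
    exact hX s hs
  refine (setLIntegral_mono measurable_const hb).trans ?_
  rw [setLIntegral_const, Real.volume_Ioc, sub_zero]

theorem vmom3_time_int {G : V → ℝ≥0∞} (mG : Measurable G) (h2 : Mo 2 G ≠ ⊤) {T : ℝ}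
    {K C : ℝ≥0∞} (hK : Mo 1 G ≤ K)
    (hp : ∫⁻ s in Ioc 0 T, ENNReal.ofReal (s ^ 2) * Mo 2 (lim G s) ≤ C * ENNReal.ofReal T) :
    ∫⁻ s in Ioc 0 T, ENNReal.ofReal s * vmom 3 (homR G s)
      ≤ K * ENNReal.ofReal T + 2 * (C * ENNReal.ofReal T) := by
  have h1 : Mo 1 G ≠ ⊤ := ne_top_of_le_ne_top h2 (Mo_mono (by norm_num))
  have hb : ∀ s ∈ Ioc 0 T, ENNReal.ofReal s * vmom 3 (homR G s)
      ≤ K + 2 * (ENNReal.ofReal (s ^ 2) * Mo 2 (lim G s)) := by
    intro s hs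
    refine (vmom3_time (measurable_homR_slice mG s) (homR_nonneg G s) hs.1.le).trans ?_
    rw [Mo_homR mG h2 2 hs.1.le, Mo_homR mG h2 1 hs.1.le, Mo1_lim mG h1 h2 hs.1.le]
    gcongr
  have mMo : Measurable fun s => ENNReal.ofReal (s ^ 2) * Mo 2 (lim G s) := by
    apply Measurable.mul
    · exact (measurable_id.pow_const 2).ennreal_ofReal
    · exact joint_Mo (measurable_lim mG) 2
  refine (lintegral_mono_ae ((ae_restrict_iff' measurableSet_Ioc).mpr
    (Eventually.of_forall hb))).trans ?_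
  rw [lintegral_add_left measurable_const, setLIntegral_const, Real.volume_Ioc, sub_zero,
    lintegral_const_mul _ mMo]
  (clear * - hp; gcongr)

theorem vmom2_homR {G : V → ℝ≥0∞} (mG : Measurable G) (h2 : Mo 2 G ≠ ⊤) {t : ℝ} (ht : 0 ≤ t)
    {K : ℝ≥0∞} (hK : Mo 1 G ≤ K) : vmom 2 (homR G t) ≤ 2 * K := by
  have h1 : Mo 1 G ≠ ⊤ := ne_top_of_le_ne_top h2 (Mo_mono (by norm_num))
  refine (vmom2_le (homR_nonneg G t)).trans ?_
  rw [Mo_homR mG h2 1 ht, Mo1_lim mG h1 h2 ht]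
  gcongr

/-- core estimates between a homogeneous strong solution and a mild solution -/
theorem core_hom {T : ℝ} (hT : 0 < T) {f0 : V → ℝ} (mf0 : Measurable f0) (nf0 : ∀ v, 0 ≤ f0 v)
    (h2 : Mo 2 (fun v => ENNReal.ofReal (f0 v)) ≠ ⊤) {G0 : T3 → V → ℝ} {K : ℝ≥0∞} (hK : K < ⊤)
    (hfK : Mo 1 (fun v => ENNReal.ofReal (f0 v)) ≤ K)
    {X : ℝ≥0∞} (hX : ∀ s ∈ Ioc 0 T, Mo 2 (lim (fun v => ENNReal.ofReal (f0 v)) s) ≤ X) (hXt : X < ⊤)
    {F : ℝ → T3 → V → ℝ} (hF : IsMild T G0 F) (hGK : wInt psi2 G0 < ⊤)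
    (e2 : ∀ᵐ t ∂(volume.restrict (Ioc 0 T)), wInt psi2 (F t) ≤ wInt psi2 G0)
    (e0 : ∀ᵐ t ∂(volume.restrict (Ioc 0 T)), wInt psi0 (F t) ≤ wInt psi0 G0)
    {R : ℝ → T3 → V → ℝ} (hR : R = fun t _ v => homR (fun v => ENNReal.ofReal (f0 v)) t v) :
    (∀ᵐ t ∂(volume.restrict (Ioc 0 T)), wDist psi0 (R t) (F t)
      ≤ wDist psi0 (fun _ v => f0 v) G0 + 4 * Ss * ∫⁻ s in Ioc 0 t, 2 * K * wDist psi2 (R s) (F s)) ∧
    (∀ᵐ t ∂(volume.restrict (Ioc 0 T)), wDist psi2 (R t) (F t)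
      ≤ wDist psi2 (fun _ v => f0 v) G0 + 2 * Ss * ∫⁻ s in Ioc 0 t,
        (vmom 3 (homR (fun v => ENNReal.ofReal (f0 v)) s) * wDist psi0 (R s) (F s)
          + 2 * K * wDist psi2 (R s) (F s))) := by
  have mG := mf0.ennreal_ofReal
  have hmin : ∀ k t x, vmom k (minF R F t x) ≤ vmom k (homR (fun v => ENNReal.ofReal (f0 v)) t) := by
    intro k t x
    apply vmom_mono_fun
    intro v
    rw [hR]
    exact min_le_left _ _
  have hIM3t : ∫⁻ s in Ioc 0 T, vmom 3 (homR (fun v => ENNReal.ofReal (f0 v)) s) < ⊤ :=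
    lt_of_le_of_lt (vmom3_int mG h2 hX) (ENNReal.mul_lt_top (ENNReal.mul_lt_top (by simp) hXt)
      (by simp))
  have hconst : ∫⁻ s in Ioc 0 T, 2 * K < ⊤ := by
    rw [setLIntegral_const]
    exact ENNReal.mul_lt_top (ENNReal.mul_lt_top (by simp) hK) (by simp only [Real.volume_Ioc, sub_zero, ENNReal.ofReal_lt_top])
  have hmild : IsMild T (fun _ v => f0 v) R := by
    rw [hR]
    exact isMild_homR mf0 nf0 h2 T
  have hw2 : ∀ t, 0 ≤ t → wInt psi2 (R t) = wInt psi2 (fun (_ : T3) v => f0 v) := by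
    intro t ht
    rw [hR]
    simp only
    rw [wInt2_homR mG h2 ht, wInt_hom mf0]
  have hw0 : ∀ t, 0 ≤ t → wInt psi0 (R t) = wInt psi0 (fun (_ : T3) v => f0 v) := by
    intro t ht
    rw [hR]
    simp only
    rw [wInt0_homR mG h2 ht, wInt0_hom mf0]
  have hl : ∀ τ, 0 < τ → ∫⁻ s in Ioc τ T, ∫⁻ p : T3 × V, psi2 p.2 * loss (R s p.1) p.2 < ⊤ := by
    intro τ hτ
    rw [hR]
    exact hl_homR mG h2 T hτ
  have f2 : wInt psi2 (fun (_ : T3) v => f0 v) < ⊤ := by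
    rw [wInt_hom mf0]
    exact lt_of_le_of_lt hfK hK
  have b2 : ∀ᵐ t ∂(volume.restrict (Ioc 0 T)), ∀ᵐ x : T3, vmom 2 (minF R F t x) ≤ 2 * K := by
    filter_upwards [ae_restrict_mem measurableSet_Ioc] with t ht
    exact Eventually.of_forall fun x => (hmin 2 t x).trans (vmom2_homR mG h2 ht.1.le hfK)
  have b1 : ∀ᵐ t ∂(volume.restrict (Ioc 0 T)), ∀ᵐ x : T3, vmom 1 (minF R F t x) ≤ 2 * K := by
    filter_upwards [ae_restrict_mem measurableSet_Ioc] with t ht
    exact Eventually.of_forall fun x => (hmin 1 t x).trans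
      ((vmom_mono (by norm_num) (homR_nonneg _ t)).trans (vmom2_homR mG h2 ht.1.le hfK))
  have b3 : ∀ᵐ t ∂(volume.restrict (Ioc 0 T)), ∀ᵐ x : T3, vmom 3 (minF R F t x)
      ≤ vmom 3 (homR (fun v => ENNReal.ofReal (f0 v)) t) :=
    Eventually.of_forall fun t => Eventually.of_forall fun x => hmin 3 t x
  have w2 : ∀ᵐ t ∂(volume.restrict (Ioc 0 T)), wInt psi2 (R t)
      ≤ wInt psi2 (fun (_ : T3) v => f0 v) := by
    filter_upwards [ae_restrict_mem measurableSet_Ioc] with t ht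
    exact (hw2 t ht.1.le).le
  have w0 : ∀ᵐ t ∂(volume.restrict (Ioc 0 T)), wInt psi0 (R t)
      ≤ wInt psi0 (fun (_ : T3) v => f0 v) := by
    filter_upwards [ae_restrict_mem measurableSet_Ioc] with t ht
    exact (hw0 t ht.1.le).le
  exact core_estimates hT hmild hF f2 hGK w2 e2 w0 e0 hl measurable_const measurable_const
    (measurable_vmom_homR mG 3) b1 b2 b3 hconst hconst
    (fun τ hτ => lt_of_le_of_lt (lintegral_mono_set (Ioc_subset_Ioc_left hτ.le)) hIM3t)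

end Vale.Agent.P140
end
end
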