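import Vale.Agent.P140.Bdl.B5
import Vale.Agent.P140.Bdl.B1
import Vale.Agent.P140.Bdl.B3
attribute [-instance] ProperSMul.toContinuousSMul IsTopologicalTorsor.toContinuousSMul IdemSemiring.toCanonicallyOrderedAdd IdemSemiring.toMulLeftMono IdemSemiring.toMulRightMono AddQuantale.instAddLeftMono AddQuantale.instAddRightMono Quantale.instMulLeftMono Quantale.instMulRightMono FiniteDimensional.rclike_to_real IsScalarTower.complexToReal FiniteDimensional.complexToReal

set_option linter.all false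

attribute [local instance 5000] Vale.Agent.P140.Sc.a01 Vale.Agent.P140.Sc.a02 Vale.Agent.P140.Sc.a03 Vale.Agent.P140.Sc.a04 Vale.Agent.P140.Sc.a05 Vale.Agent.P140.Sc.a06 Vale.Agent.P140.Sc.a07 Vale.Agent.P140.Sc.a08 Vale.Agent.P140.Sc.a09 Vale.Agent.P140.Sc.a10 Vale.Agent.P140.Sc.a11 Vale.Agent.P140.Sc.a12 Vale.Agent.P140.Sc.a13 Vale.Agent.P140.Sc.a14 Vale.Agent.P140.Sc.a15 Vale.Agent.P140.Sc.a16 Vale.Agent.P140.Sc.a17 Vale.Agent.P140.Sc.a18 Vale.Agent.P140.Sc.a19 Vale.Agent.P140.Sc.a20 Vale.Agent.P140.Sc.a21 Vale.Agent.P140.Sc.a22 Vale.Agent.P140.Sc.a23 Vale.Agent.P140.Sc.a24 Vale.Agent.P140.Sc.a25 Vale.Agent.P140.Sc.a26 Vale.Agent.P140.Sc.a27 Vale.Agent.P140.Sc.a28 Vale.Agent.P140.Sc.a29 Vale.Agent.P140.Sc.a30 Vale.Agent.P140.Sc.a31 Vale.Agent.P140.Sc.a32 Vale.Agent.P140.Sc.a33 Vale.Agent.P140.Sc.r01 Vale.Agent.P140.Sc.r02 Vale.Agent.P140.Sc.r03 Vale.Agent.P140.Sc.r04 Vale.Agent.P140.Sc.r05 Vale.Agent.P140.Sc.r06 Vale.Agent.P140.Sc.r07 Vale.Agent.P140.Sc.r08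 Vale.Agent.P140.Sc.r09 Vale.Agent.P140.Sc.r10 Vale.Agent.P140.Sc.r11 Vale.Agent.P140.Sc.r12 Vale.Agent.P140.Sc.r13 Vale.Agent.P140.Sc.r14 Vale.Agent.P140.Sc.r15 Vale.Agent.P140.Sc.r16 Vale.Agent.P140.Sc.r17 Vale.Agent.P140.Sc.r18

section

/-! Duhamel inequality for the distance of a mild solution to a Maxwellian. -/

open MeasureTheory Set Filter
open scoped ENNReal Topology NNReal

noncomputable section

namespace Vale.Agent.P140

/-- variation of constants -/
theorem var_const {r : ℝ → ℝ} {t : ℝ} (ht : 0 ≤ t) (hr : IntervalIntegrable r volume 0 t)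
    (c ν : ℝ) : c + ∫ s in (0:ℝ)..t, r s = Real.exp (-ν * t) * c +
      ∫ s in (0:ℝ)..t, Real.exp (-ν * (t - s)) * (ν * (c + ∫ u in (0:ℝ)..s, r u) + r s) := by
  have hz : ContDiffOn ℝ 1 (fun s : ℝ => Real.exp (ν * s) - Real.exp (ν * t)) (Icc 0 t) := by
    apply ContDiff.contDiffOn
    fun_prop
  have hd : ∀ s ∈ Icc 0 t, HasDerivAt (fun s : ℝ => Real.exp (ν * s) - Real.exp (ν * t))
      (ν * Real.exp (ν * s)) s := by
    intro s _
    have h1 : HasDerivAt (fun s : ℝ => ν * s) ν s := by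
      simpa using (hasDerivAt_id s).const_mul ν
    have h2 := h1.exp.sub_const (Real.exp (ν * t))
    convert! h2 using 1
    ring
  have h := ibp_primitive ht hr hz hd (by simp) c
  have hP : ContinuousOn (fun s => c + ∫ u in (0:ℝ)..s, r u) (uIcc 0 t) :=
    (ac_primitive hr c).continuousOn
  have i1 : IntervalIntegrable (fun s => r s * Real.exp (ν * s)) volume 0 t := by
    apply hr.mul_continuousOn
    fun_prop
  have i2 : IntervalIntegrable (fun s => ν * Real.exp (ν * s) * (c + ∫ u in (0:ℝ)..s, r u))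
      volume 0 t := by
    apply ContinuousOn.intervalIntegrable
    apply ContinuousOn.mul _ hP
    fun_prop
  have e1 : ∫ s in (0:ℝ)..t, r s * (Real.exp (ν * s) - Real.exp (ν * t)) =
      (∫ s in (0:ℝ)..t, r s * Real.exp (ν * s)) - Real.exp (ν * t) * ∫ s in (0:ℝ)..t, r s := by
    rw [← intervalIntegral.integral_const_mul, ← intervalIntegral.integral_sub i1 (hr.const_mul _)]
    apply intervalIntegral.integral_congr
    intro s _
    simp only
    ring
  rw [e1] at h
  have e2 : ∫ s in (0:ℝ)..t, Real.exp (-ν * (t - s)) * (ν * (c + ∫ u in (0:ℝ)..s, r u) + r s) =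
      Real.exp (-ν * t) * ((∫ s in (0:ℝ)..t, ν * Real.exp (ν * s) * (c + ∫ u in (0:ℝ)..s, r u)) +
        ∫ s in (0:ℝ)..t, r s * Real.exp (ν * s)) := by
    rw [← intervalIntegral.integral_add i2 i1, ← intervalIntegral.integral_const_mul]
    apply intervalIntegral.integral_congr
    intro s _
    simp only
    rw [show -ν * (t - s) = -ν * t + ν * s by ring, Real.exp_add]
    ring
  rw [e2]
  have e3 : Real.exp (-ν * t) * Real.exp (ν * t) = 1 := by
    rw [← Real.exp_add]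
    simp
  simp only [mul_zero, Real.exp_zero] at h
  linear_combination (-Real.exp (-ν * t)) * h + (c + ∫ s in (0:ℝ)..t, r s) * (- e3)

theorem ofReal_integral_abs_le {g : ℝ → ℝ} {t : ℝ} (ht : 0 ≤ t) :
    ENNReal.ofReal |∫ s in (0:ℝ)..t, g s| ≤ ∫⁻ s in Ioc 0 t, ENNReal.ofReal |g s| := by
  rw [intervalIntegral.integral_of_le ht, ← Real.enorm_eq_ofReal_abs]
  refine (enorm_integral_le_lintegral_enorm _).trans ?_
  apply lintegral_mono
  intro s
  simp only
  rw [Real.enorm_eq_ofReal_abs]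

theorem duh_abs {r : ℝ → ℝ} {t : ℝ} (ht : 0 ≤ t) (hr : IntervalIntegrable r volume 0 t)
    (c ν : ℝ) : ENNReal.ofReal |c + ∫ s in (0:ℝ)..t, r s| ≤ duh ν (ENNReal.ofReal |c|)
      (fun s => ENNReal.ofReal |ν * (c + ∫ u in (0:ℝ)..s, r u) + r s|) t := by
  rw [var_const ht hr c ν]
  unfold duh
  refine (ENNReal.ofReal_le_ofReal (abs_add_le _ _)).trans ?_
  rw [ENNReal.ofReal_add (abs_nonneg _) (abs_nonneg _), abs_mul, abs_of_pos (Real.exp_pos _),
    ENNReal.ofReal_mul (Real.exp_pos _).le]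
  gcongr
  refine (ofReal_integral_abs_le ht).trans ?_
  apply lintegral_mono
  intro s
  simp only
  rw [abs_mul, abs_of_pos (Real.exp_pos _), ENNReal.ofReal_mul (Real.exp_pos _).le]

theorem duh_mono_ae (l : ℝ) {h0 h0' : ℝ≥0∞} (hh : h0 ≤ h0') {G H : ℝ → ℝ≥0∞} {t : ℝ}
    (h : ∀ᵐ s ∂(volume.restrict (Ioc 0 t)), G s ≤ H s) : duh l h0 G t ≤ duh l h0' H t := by
  unfold duh
  gcongr ?_ + ?_
  · gcongr
  · apply lintegral_mono_ae
    filter_upwards [h] with s hs
    gcongr

variable {T : ℝ} {F0 : T3 → V → ℝ} {F : ℝ → T3 → V → ℝ} {M ζ : V → ℝ≥0∞} {CK C5 CM : ℝ≥0∞}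
  {ν0 : ℝ}

/-- **Duhamel inequality** -/
theorem duh_ineq (hF : IsMild T F0 F) (N : NE M ζ CK C5 CM ν0) :
    ∀ᵐ p : T3 × V, ∀ᵐ t ∂(volume.restrict (Ioc 0 T)),
      hh M F t (flow t p).1 p.2 ≤ duh (nu M p.2) (ENNReal.ofReal |F0 p.1 p.2 - (M p.2).toReal|)
        (fun s => SS M (hh M F s (flow s p).1) p.2) t := by
  have mg := measurable_gainA hF.measurable
  have ml := measurable_lossA hF.measurable
  filter_upwards [hF.gain_fin, hF.loss_fin, hF.mild] with p h1 h2 h3
  have msec : Measurable fun s : ℝ => ((s, p) : ℝ × T3 × V) := by fun_prop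
  have mg' : Measurable fun s => gainA F (s, p) := mg.comp msec
  have ml' : Measurable fun s => lossA F (s, p) := ml.comp msec
  set r : ℝ → ℝ := fun s => (gainA F (s, p)).toReal - (lossA F (s, p)).toReal with hr
  have hint : IntegrableOn r (Ioc 0 T) := by
    apply Integrable.sub
    · exact integrable_toReal_of_lintegral_ne_top mg'.aemeasurable h1.ne
    · exact integrable_toReal_of_lintegral_ne_top ml'.aemeasurable h2.ne
  have hgf : ∀ᵐ s ∂(volume.restrict (Ioc 0 T)), gainA F (s, p) < ⊤ := ae_lt_top mg' h1.ne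
  -- pointwise inequality
  have hpt : ∀ᵐ s ∂(volume.restrict (Ioc 0 T)), ENNReal.ofReal |nu M p.2 *
      ((F0 p.1 p.2 - (M p.2).toReal) + ∫ u in (0:ℝ)..s, r u) + r s| ≤
      SS M (hh M F s (flow s p).1) p.2 := by
    filter_upwards [h3, hgf, ae_restrict_mem measurableSet_Ioc] with s e1 e2 e3
    have h5 := SS_ineq N (f := F s (flow s p).1) (measurable_slice hF.measurable s _)
      (hF.nonneg s _) p.2 e2
    refine le_trans (le_of_eq ?_) h5
    congr 2
    rw [intervalIntegral.integral_of_le e3.1.le]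
    have e4 : F s (flow s p).1 p.2 = F0 p.1 p.2 + ∫ u in Ioc 0 s, r u := e1
    rw [e4]
    congr 1
    ring
  filter_upwards [h3, ae_restrict_mem measurableSet_Ioc] with t e1 e3
  have e4 : F t (flow t p).1 p.2 = F0 p.1 p.2 + ∫ u in Ioc 0 t, r u := e1
  have hi : IntervalIntegrable r volume 0 t := by
    rw [intervalIntegrable_iff_integrableOn_Ioc_of_le e3.1.le]
    exact hint.mono_set (Ioc_subset_Ioc_right e3.2)
  have h6 := duh_abs e3.1.le hi (F0 p.1 p.2 - (M p.2).toReal) (nu M p.2)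
  have e5 : hh M F t (flow t p).1 p.2 =
      ENNReal.ofReal |F0 p.1 p.2 - (M p.2).toReal + ∫ s in (0:ℝ)..t, r s| := by
    unfold hh
    rw [e4, intervalIntegral.integral_of_le e3.1.le]
    congr 2
    ring
  rw [e5]
  refine h6.trans ?_
  apply duh_mono_ae _ le_rfl
  exact ae_restrict_of_ae_restrict_of_subset (Ioc_subset_Ioc_right e3.2) hpt

end Vale.Agent.P140
end
end

section

/-! Integrating factors: consequences in extended nonnegative numbers. -/

open MeasureTheory Set Filter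
open scoped ENNReal Topology NNReal

noncomputable section

namespace Vale.Agent.P140

theorem duh_var_ennreal {r L : ℝ → ℝ} {T : ℝ} (hT : 0 ≤ T) (hr : IntervalIntegrable r volume 0 T)
    (hL : IntervalIntegrable L volume 0 T) (hL0 : ∀ᵐ s ∂(volume.restrict (Ioc 0 T)), 0 ≤ L s)
    {l : ℝ} (hl : 0 ≤ l) (hLl : ∀ᵐ s ∂(volume.restrict (Ioc 0 T)), 1 < s → l ≤ L s) (c : ℝ)
    {t : ℝ} (h0 : 0 ≤ t) (h2 : t ≤ T) :
    ENNReal.ofReal |c + ∫ s in (0:ℝ)..t, r s| ≤ ENNReal.ofReal (Real.exp l) *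
      duh l (ENNReal.ofReal |c|)
      (fun s => ENNReal.ofReal |r s + L s * (c + ∫ u in (0:ℝ)..s, r u)|) t := by
  refine (ENNReal.ofReal_le_ofReal (duh_var hT hr hL hL0 hl hLl c h0 h2)).trans ?_
  rw [ENNReal.ofReal_mul (Real.exp_pos _).le]
  gcongr
  unfold duh
  refine ENNReal.ofReal_add_le.trans ?_
  rw [ENNReal.ofReal_mul (Real.exp_pos _).le]
  gcongr
  have h3 := ofReal_integral_abs_le (g := fun s => Real.exp (-l * (t - s)) *
    |r s + L s * (c + ∫ u in (0:ℝ)..s, r u)|) h0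
  refine (ENNReal.ofReal_le_ofReal (le_abs_self _)).trans (h3.trans ?_)
  apply lintegral_mono
  intro s
  simp only
  rw [abs_mul, abs_abs, abs_of_pos (Real.exp_pos _), ENNReal.ofReal_mul (Real.exp_pos _).le]

/-- one-dimensional lower bound: a nonnegative function with production `ν m - S` and rate
`L ≤ ν + lh` exceeds `m (1 - exp(-ν))` after unit time, up to an error -/
theorem low_one_dim {r L : ℝ → ℝ} {T : ℝ} (hT : 0 ≤ T) (hr : IntervalIntegrable r volume 0 T)
    (hL : IntervalIntegrable L volume 0 T) (hL0 : ∀ᵐ s ∂(volume.restrict (Ioc 0 T)), 0 ≤ L s)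
    (c : ℝ) {ν m : ℝ} (hν : 0 ≤ ν) (hm : 0 ≤ m) {t : ℝ} (h1 : 1 ≤ t) (h2 : t ≤ T)
    {S : ℝ → ℝ≥0∞} (mS : Measurable S)
    (hp : 0 ≤ c + ∫ u in (0:ℝ)..(t - 1), r u)
    (hS : ∀ᵐ s ∂(volume.restrict (Ioc 0 T)), ∀ y ∈ Icc 0 m,
      ENNReal.ofReal (ν * (m - y) - (r s + L s * (c + ∫ u in (0:ℝ)..s, r u)) + L s * y) ≤ S s) :
    ENNReal.ofReal (m * (1 - Real.exp (-ν))) ≤ ENNReal.ofReal (c + ∫ u in (0:ℝ)..t, r u) +
      ∫⁻ s in Ioc (t - 1) t, S s := by
  by_cases hfin : ∫⁻ s in Ioc (t - 1) t, S s = ⊤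
  · rw [hfin]; simp only [add_top, le_top]
  set τ : ℝ := t - 1 with hτ
  have hτ0 : 0 ≤ τ := by rw [hτ]; linarith only [h1]
  have hτt : τ ≤ t := by rw [hτ]; linarith only []
  have ht0 : 0 ≤ t := by linarith only [h1]
  -- the comparison function
  set y : ℝ → ℝ := fun s => m * (1 - Real.exp (-ν * (s - τ))) with hy
  set y' : ℝ → ℝ := fun s => ν * m * Real.exp (-ν * (s - τ)) with hy'
  have hyd : ∀ s, HasDerivAt y (y' s) s := by
    intro s
    have a1 : HasDerivAt (fun s : ℝ => -ν * (s - τ)) (-ν) s := by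
      simpa only [neg_mul, id_eq, mul_one] using ((hasDerivAt_id s).sub_const τ).const_mul (-ν)
    have a2 := (a1.exp.const_sub 1).const_mul m
    convert! a2 using 1
    simp only [hy']
    ring
  have hy'c : Continuous y' := by
    simp only [hy']
    fun_prop
  have hyint : ∀ s, ∫ u in (0:ℝ)..s, y' u = y s - y 0 := fun s =>
    intervalIntegral.integral_eq_sub_of_hasDerivAt (fun u _ => hyd u)
      (hy'c.intervalIntegrable 0 s)
  have hsubT : ∀ {s : ℝ}, 0 ≤ s → s ≤ T → IntervalIntegrable r volume 0 s := by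
    intro s hs hsT
    exact hr.mono_set (by rw [uIcc_of_le hs, uIcc_of_le hT]; exact Icc_subset_Icc le_rfl hsT)
  have hz : ∀ s, 0 ≤ s → s ≤ T → (c - y 0) + ∫ u in (0:ℝ)..s, (r u - y' u) =
      (c + ∫ u in (0:ℝ)..s, r u) - y s := by
    intro s hs hsT
    rw [intervalIntegral.integral_sub (hsubT hs hsT) (hy'c.intervalIntegrable 0 s), hyint]
    ring
  have hr' : IntervalIntegrable (fun u => r u - y' u) volume 0 T :=
    hr.sub (hy'c.intervalIntegrable 0 T)
  have hf := int_factor hT hr' hL (c - y 0) hτ0 hτt h2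
  rw [hz t ht0 h2, hz τ hτ0 (hτt.trans h2)] at hf
  have hyτ : y τ = 0 := by simp [hy]
  have hyt : y t = m * (1 - Real.exp (-ν)) := by
    simp only [hy, hτ]
    congr 3
    ring
  set P : ℝ → ℝ := fun s => c + ∫ u in (0:ℝ)..s, r u with hP
  set E : ℝ → ℝ := fun s => Real.exp (0 + ∫ u in (0:ℝ)..s, L u) with hE
  have hEc : ContinuousOn E (Icc 0 T) := by
    have := (ac_primitive hL 0).continuousOn
    rw [uIcc_of_le hT] at this
    exact this.rexp
  have hEm : ∀ s, 0 ≤ s → s ≤ t → E s ≤ E t := by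
    intro s hs hst
    simp only [hE]
    rw [Real.exp_le_exp]
    have hLs : IntervalIntegrable L volume s t := hL.mono_set (by
      rw [uIcc_of_le hst, uIcc_of_le hT]; exact Icc_subset_Icc hs h2)
    have hL0s : IntervalIntegrable L volume 0 s := hL.mono_set (by
      rw [uIcc_of_le hs, uIcc_of_le hT]; exact Icc_subset_Icc le_rfl (hst.trans h2))
    rw [← intervalIntegral.integral_add_adjacent_intervals hL0s hLs]
    have h3 : 0 ≤ ∫ u in s..t, L u := by
      apply intervalIntegral.integral_nonneg_of_ae_restrict hst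
      have := ae_restrict_of_ae_restrict_of_subset (Ioc_subset_Ioc hs h2) hL0
      rw [← restrict_Ioc_eq_restrict_Icc]
      exact this
    linarith only [h3]
  have hEp : ∀ s, 0 < E s := fun s => Real.exp_pos _
  -- the source in real numbers
  have hSint : IntegrableOn (fun s => (S s).toReal) (Ioc τ t) :=
    integrable_toReal_of_lintegral_ne_top mS.aemeasurable hfin
  have hSii : IntervalIntegrable (fun s => (S s).toReal) volume τ t := by
    rw [intervalIntegrable_iff_integrableOn_Ioc_of_le hτt]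
    exact hSint
  have hSf : ∀ᵐ s ∂(volume.restrict (Ioc τ t)), S s < ⊤ := ae_lt_top mS hfin
  have hlow : ∀ᵐ s ∂(volume.restrict (Ioc τ t)),
      -(S s).toReal * E t ≤ (r s - y' s + L s * (P s - y s)) * E s := by
    filter_upwards [ae_restrict_of_ae_restrict_of_subset (Ioc_subset_Ioc hτ0 h2) hS,
      ae_restrict_of_ae_restrict_of_subset (Ioc_subset_Ioc hτ0 h2) hL0, hSf,
      ae_restrict_mem measurableSet_Ioc] with s a1 a2 a3 a4
    have hex1 : Real.exp (-ν * (s - τ)) ≤ 1 := by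
      rw [Real.exp_le_one_iff]
      linarith [mul_nonneg (sub_nonneg.2 hν) (le_of_lt (sub_pos.2 a4.1))]
    have hex0 := Real.exp_pos (-ν * (s - τ))
    have hym : y s ∈ Icc 0 m := by
      simp only [hy]
      constructor
      · exact mul_nonneg hm (by linarith only [hex1])
      · nlinarith only [hm, hex0]
    have hyy' : ν * (m - y s) = y' s := by
      simp only [hy, hy']
      ring
    have a5 := a1 (y s) hym
    rw [hyy', ENNReal.ofReal_le_iff_le_toReal a3.ne] at a5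
    have a6 : -(S s).toReal ≤ r s - y' s + L s * (P s - y s) := by
      simp only [hP]
      linarith
    have a7 := hEm s (hτ0.trans a4.1.le) a4.2
    have a8 : 0 ≤ (S s).toReal := ENNReal.toReal_nonneg
    calc -(S s).toReal * E t ≤ -(S s).toReal * E s := by linarith only [mul_nonneg (sub_nonneg.2 a7) (sub_nonneg.2 a8)]
      _ ≤ _ := mul_le_mul_of_nonneg_right a6 (hEp s).le
  have hi2 : ∫ s in τ..t, -(S s).toReal * E t = -(∫ s in τ..t, (S s).toReal) * E t := by
    rw [intervalIntegral.integral_mul_const, intervalIntegral.integral_neg]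
  have hPc : ContinuousOn (fun s => P s - y s) (Icc 0 T) := by
    apply ContinuousOn.sub
    · have := (ac_primitive hr c).continuousOn
      rwa [uIcc_of_le hT] at this
    · exact (continuous_iff_continuousAt.mpr fun s => (hyd s).continuousAt).continuousOn
  have hsub : uIcc τ t ⊆ uIcc 0 T := by
    rw [uIcc_of_le hτt, uIcc_of_le hT]
    exact Icc_subset_Icc hτ0 h2
  have hsub' : uIcc τ t ⊆ Icc 0 T := by
    rw [uIcc_of_le hτt]
    exact Icc_subset_Icc hτ0 h2
  have hint : IntervalIntegrable (fun s => (r s - y' s + L s * (P s - y s)) * E s) volume τ t := by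
    apply IntervalIntegrable.mul_continuousOn
    · exact (hr'.mono_set hsub).add ((hL.mono_set hsub).mul_continuousOn (hPc.mono hsub'))
    · exact hEc.mono hsub'
  have hcomp : ∫ s in τ..t, (r s - y' s + L s * ((c - y 0) + ∫ u in (0:ℝ)..s, (r u - y' u))) *
      Real.exp (0 + ∫ u in (0:ℝ)..s, L u) = ∫ s in τ..t, (r s - y' s + L s * (P s - y s)) * E s := by
    apply intervalIntegral.integral_congr
    intro s hs
    have hs' := hsub' hs
    simp only
    rw [hz s hs'.1 hs'.2]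
  rw [hcomp] at hf
  have hge : -(∫ s in τ..t, (S s).toReal) * E t ≤
      ∫ s in τ..t, (r s - y' s + L s * (P s - y s)) * E s := by
    rw [← hi2]
    apply intervalIntegral.integral_mono_ae_restrict hτt
    · exact (hSii.neg).mul_const _
    · exact hint
    · rw [← restrict_Ioc_eq_restrict_Icc]
      exact hlow
  have hfin2 : -(∫ s in τ..t, (S s).toReal) ≤ P t - y t := by
    have a1 : (P t - y t) * E t = (P τ - y τ) * E τ +
        ∫ s in τ..t, (r s - y' s + L s * (P s - y s)) * E s := hf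
    have a2 : 0 ≤ (P τ - y τ) * E τ := by
      rw [hyτ, sub_zero]
      exact mul_nonneg hp (hEp τ).le
    have a3 : -(∫ s in τ..t, (S s).toReal) * E t ≤ (P t - y t) * E t := by linarith only [a2, a1, hge]
    exact le_of_mul_le_mul_right a3 (hEp t)
  have hSe : ∫⁻ s in Ioc τ t, S s = ENNReal.ofReal (∫ s in τ..t, (S s).toReal) := by
    rw [intervalIntegral.integral_of_le hτt, integral_toReal mS.aemeasurable hSf,
      ENNReal.ofReal_toReal hfin]
  rw [hSe, ← hyt]
  refine le_trans (ENNReal.ofReal_le_ofReal (q := P t + ∫ s in τ..t, (S s).toReal) (by linarith only [hfin2])) ?_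
  exact ENNReal.ofReal_add_le

end Vale.Agent.P140
end
end

section

/-! Almost everywhere statements along the free flow. -/

open MeasureTheory Set Filter
open scoped ENNReal Topology NNReal

noncomputable section

namespace Vale.Agent.P140

variable {μ : Measure ℝ} [SFinite μ]

/-- a.e. in space-time implies a.e. along the flow -/
theorem ae_flow_of_ae {P : ℝ × T3 × V → Prop} (h : ∀ᵐ q ∂(μ.prod volume), P q) :
    ∀ᵐ p : T3 × V, ∀ᵐ t ∂μ, P (t, flow t p) := by
  have h1 := (measurePreserving_stFlow μ).quasiMeasurePreserving.ae h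
  have h2 := (Measure.measurePreserving_swap (μ := (volume : Measure (T3 × V)))
    (ν := μ)).quasiMeasurePreserving.ae h1
  exact (Measure.ae_ae_of_ae_prod h2 :)

theorem ae_prod_of_ae_p {P : ℝ × T3 × V → Prop} (hP : MeasurableSet {q | P q})
    (h : ∀ᵐ p : T3 × V, ∀ᵐ t ∂μ, P (t, p)) : ∀ᵐ q ∂(μ.prod volume), P q := by
  have h1 : ∀ᵐ z ∂((volume : Measure (T3 × V)).prod μ), P (z.2, z.1) := by
    rw [Measure.ae_prod_iff_ae_ae (p := fun z : (T3 × V) × ℝ => P (z.2, z.1)) (measurable_swap hP)]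
    exact h
  exact (Measure.measurePreserving_swap (μ := μ)
      (ν := (volume : Measure (T3 × V)))).quasiMeasurePreserving.ae h1

/-- a.e. along the flow implies a.e. in space-time -/
theorem ae_of_ae_flow {P : ℝ × T3 × V → Prop} (hP : MeasurableSet {q | P q})
    (h : ∀ᵐ p : T3 × V, ∀ᵐ t ∂μ, P (t, p)) :
    ∀ᵐ q ∂(μ.prod volume), P (q.1, flow (-q.1) q.2) := by
  have h2 := ae_prod_of_ae_p hP h
  have h3 : MeasurePreserving stFlowEquiv (μ.prod volume) (μ.prod volume) :=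
    measurePreserving_stFlow μ
  exact (h3.symm stFlowEquiv).quasiMeasurePreserving.ae h2

theorem ae_time_of_ae_flow {P : ℝ × T3 × V → Prop} (hP : MeasurableSet {q | P q})
    (h : ∀ᵐ p : T3 × V, ∀ᵐ t ∂μ, P (t, flow t p)) : ∀ᵐ t ∂μ, ∀ᵐ p : T3 × V, P (t, p) := by
  have hm : MeasurableSet {q : ℝ × T3 × V | P (q.1, flow q.1 q.2)} := measurable_stFlow hP
  have h1 := ae_of_ae_flow (P := fun q => P (q.1, flow q.1 q.2)) hm h
  simp only [flow_flow_neg] at h1
  exact Measure.ae_ae_of_ae_prod h1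

omit [SFinite μ] in
theorem assoc_symm : MeasurePreserving
    (MeasurableEquiv.prodAssoc (α := ℝ) (β := T3) (γ := V)).symm
    (μ.prod (volume : Measure (T3 × V)))
    ((μ.prod (volume : Measure T3)).prod (volume : Measure V)) := by
  have h := measurePreserving_prodAssoc μ (volume : Measure T3) (volume : Measure V)
  exact h.symm _

omit [SFinite μ] in
/-- Fubini: from space-time to positions and velocities -/
theorem ae_sX {P : ℝ × T3 × V → Prop} (h : ∀ᵐ q ∂(μ.prod volume), P q) :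
    ∀ᵐ z ∂(μ.prod (volume : Measure T3)), ∀ᵐ y : V, P (z.1, z.2, y) := by
  have h1 : MeasurePreserving (MeasurableEquiv.prodAssoc (α := ℝ) (β := T3) (γ := V))
      ((μ.prod (volume : Measure T3)).prod (volume : Measure V))
      (μ.prod (volume : Measure (T3 × V))) :=
    measurePreserving_prodAssoc μ (volume : Measure T3) (volume : Measure V)
  have h2 := h1.quasiMeasurePreserving.ae h
  exact (Measure.ae_ae_of_ae_prod h2 :)

/-- statements on positions along the flow -/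
theorem ae_flow_x {P : ℝ × T3 → Prop} (h : ∀ᵐ q ∂(μ.prod (volume : Measure T3)), P q) :
    ∀ᵐ p : T3 × V, ∀ᵐ t ∂μ, P (t, (flow t p).1) := by
  have h1 : ∀ᵐ z ∂((μ.prod (volume : Measure T3)).prod (volume : Measure V)), P z.1 :=
    Measure.quasiMeasurePreserving_fst.ae h
  have h2 := (assoc_symm (μ := μ)).quasiMeasurePreserving.ae h1
  exact ae_flow_of_ae (P := fun q => P (q.1, q.2.1)) h2

end Vale.Agent.P140
end
end

section

/-! Integrals over balls of functions on the torus. -/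

open MeasureTheory Set Filter
open scoped ENNReal Topology NNReal

noncomputable section

namespace Vale.Agent.P140

/-- unit cube with integer corner `k` -/
def ucube (k : Fin 3 → ℤ) : Set V := {y | ∀ i, y i ∈ Ioc (k i : ℝ) (k i + 1)}

theorem lintegral_ucube (k : Fin 3 → ℤ) {g : T3 → ℝ≥0∞} (hg : Measurable g) :
    ∫⁻ y in ucube k, g (toTorus y) = ∫⁻ x, g x := by
  have h1 : MeasurePreserving (fun (a : Fin 3 → ℝ) i => ((a i : ℝ) : UnitAddCircle))
      (Measure.pi fun i => volume.restrict (Ioc (k i : ℝ) (k i + 1))) (volume : Measure T3) :=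
    measurePreserving_pi _ _ (fun i => UnitAddCircle.measurePreserving_mk _)
  rw [← Measure.restrict_pi_pi] at h1
  have hs : MeasurableSet (univ.pi fun i : Fin 3 => Ioc (k i : ℝ) (k i + 1)) :=
    MeasurableSet.univ_pi fun i => measurableSet_Ioc
  have h2 := (PiLp.volume_preserving_ofLp (Fin 3)).restrict_preimage hs
  have h3 := h1.comp h2
  have e1 : (@WithLp.ofLp 2 (Fin 3 → ℝ)) ⁻¹' (univ.pi fun i : Fin 3 => Ioc (k i : ℝ) (k i + 1)) = ucube k := by
    ext y
    simp only [mem_preimage, Set.mem_pi, mem_univ, mem_Ioc, forall_const, ucube, mem_ofPred_eq]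
  rw [e1] at h3
  have h4 := h3.lintegral_comp hg
  rw [← h4]
  rfl

theorem ball_cover {R : ℝ} {n : ℕ} (hn : R < n) :
    {y : V | ‖y‖ ≤ R} ⊆ ⋃ k : (Fintype.piFinset (fun _ : Fin 3 => Finset.Ico (-(n : ℤ)) n)),
      ucube (k : Fin 3 → ℤ) := by
  intro y hy
  have hy' : ‖y‖ ≤ R := hy
  rw [mem_iUnion]
  have hb : ∀ i, |y i| < n := by
    intro i
    have h1 : ‖y i‖ ≤ ‖y‖ := PiLp.norm_apply_le y i
    rw [Real.norm_eq_abs] at h1
    linarith
  refine ⟨⟨fun i => ⌈y i⌉ - 1, ?_⟩, ?_⟩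
  · rw [Fintype.mem_piFinset]
    intro i
    rw [Finset.mem_Ico]
    have h := abs_lt.mp (hb i)
    constructor
    · have h1 : (-(n : ℤ) : ℤ) < ⌈y i⌉ := by
        rw [Int.lt_ceil]
        push_cast
        exact h.1
      omega
    · have h1 : ⌈y i⌉ ≤ (n : ℤ) := by
        rw [Int.ceil_le]
        push_cast
        exact h.2.le
      omega
  · intro i
    simp only
    push_cast
    constructor
    · have := Int.ceil_lt_add_one (y i)
      linarith
    · have := Int.le_ceil (y i)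
      linarith

theorem lintegral_ball_le {R : ℝ} {n : ℕ} (hn : R < n) {g : T3 → ℝ≥0∞} (hg : Measurable g) :
    ∫⁻ y in {y : V | ‖y‖ ≤ R}, g (toTorus y) ≤ ((2 * n) ^ 3 : ℕ) * ∫⁻ x, g x := by
  refine (lintegral_mono_set (ball_cover hn)).trans ?_
  refine (lintegral_iUnion_le _ _).trans ?_
  simp only [lintegral_ucube _ hg]
  rw [tsum_fintype, Finset.sum_const, nsmul_eq_mul]
  gcongr
  rw [Finset.card_univ, Fintype.card_coe, Fintype.card_piFinset]
  simp only [Int.card_Ico, Finset.prod_const, Finset.card_univ, Fintype.card_fin]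
  gcongr
  omega

/-- **Covering bound.** -/
theorem cover_bound (N κ : ℝ) (hN : 0 < N) (hκ : 0 < κ) : ∃ C : ℝ≥0∞, C ≠ ⊤ ∧
    ∀ b : T3 → ℝ≥0∞, Measurable b → ∀ (X : T3) (σ : ℝ), κ ≤ σ →
      ∫⁻ y in {y : V | ‖y‖ ≤ N}, b (X - toTorus (σ • y)) ≤ C * ∫⁻ x, b x := by
  refine ⟨ENNReal.ofReal ((2 * N + 4 / κ) ^ 3), ENNReal.ofReal_ne_top, ?_⟩
  intro b hb X σ hσ
  have hσ0 : 0 < σ := hκ.trans_le hσ
  set g : T3 → ℝ≥0∞ := fun Z => b (X + Z) with hg
  have mg : Measurable g := hb.comp (measurable_const.add measurable_id)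
  have e0 : ∫⁻ x, g x = ∫⁻ x, b x := lintegral_add_left_eq_self b X
  set f : V → ℝ≥0∞ := {Y : V | ‖Y‖ ≤ σ * N}.indicator fun Y => g (toTorus Y) with hf
  have hms : MeasurableSet {Y : V | ‖Y‖ ≤ σ * N} := measurableSet_le measurable_norm measurable_const
  have mf : Measurable f := (mg.comp measurable_toTorus).indicator hms
  have e1 : ∫⁻ y in {y : V | ‖y‖ ≤ N}, b (X - toTorus (σ • y)) = ∫⁻ y, f (σ • y) := by
    rw [← lintegral_indicator (measurableSet_le measurable_norm measurable_const)]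
    have mfs : Measurable fun y : V => f (σ • y) := mf.comp (measurable_const_smul σ)
    have mpn : MeasurePreserving (Neg.neg : V → V) volume volume := Measure.measurePreserving_neg _
    rw [← mpn.lintegral_comp mfs]
    apply lintegral_congr
    intro y
    have key : (σ • (-y) ∈ {Y : V | ‖Y‖ ≤ σ * N}) ↔ y ∈ {y : V | ‖y‖ ≤ N} := by
      simp only [mem_ofPred_eq, norm_smul, Real.norm_of_nonneg hσ0.le, norm_neg]
      constructor
      · intro hcon
        exact le_of_mul_le_mul_left hcon hσ0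
      · intro h
        gcongr
    by_cases h : y ∈ {y : V | ‖y‖ ≤ N}
    · rw [indicator_of_mem h, hf, indicator_of_mem (key.mpr h), hg]
      simp only
      rw [smul_neg, toTorus_neg, sub_eq_add_neg]
    · rw [indicator_of_notMem h, hf, indicator_of_notMem (fun hc => h (key.mp hc))]
  have e2 : ∫⁻ y, f (σ • y) = ENNReal.ofReal (|(σ ^ 3)⁻¹|) * ∫⁻ Y, f Y := by
    have h := Measure.map_addHaar_smul (volume : Measure V) hσ0.ne'
    have h2 : ∫⁻ Y, f Y ∂(Measure.map (σ • ·) (volume : Measure V)) = ∫⁻ y, f (σ • y) :=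
      lintegral_map mf (measurable_const_smul σ)
    rw [← h2, h, lintegral_smul_measure, smul_eq_mul]
    simp only [finrank_euclideanSpace, Fintype.card_fin, abs_inv, abs_pow]
  have e3 : ∫⁻ Y, f Y = ∫⁻ Y in {Y : V | ‖Y‖ ≤ σ * N}, g (toTorus Y) :=
    lintegral_indicator hms _
  have hn : σ * N < (⌈σ * N⌉₊ + 1 : ℕ) := by
    have := Nat.le_ceil (σ * N)
    push_cast
    linarith only [this]
  have h5 := lintegral_ball_le hn mg
  rw [e1, e2, e3]
  calc ENNReal.ofReal |(σ ^ 3)⁻¹| * ∫⁻ Y in {Y : V | ‖Y‖ ≤ σ * N}, g (toTorus Y)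
      ≤ ENNReal.ofReal |(σ ^ 3)⁻¹| * (((2 * (⌈σ * N⌉₊ + 1)) ^ 3 : ℕ) * ∫⁻ x, g x) := by (clear * - h5; gcongr)
    _ = (ENNReal.ofReal |(σ ^ 3)⁻¹| * ((2 * (⌈σ * N⌉₊ + 1)) ^ 3 : ℕ)) * ∫⁻ x, b x := by
        rw [e0, mul_assoc]
    _ ≤ ENNReal.ofReal ((2 * N + 4 / κ) ^ 3) * ∫⁻ x, b x := by
        gcongr
        rw [← ENNReal.ofReal_natCast, ← ENNReal.ofReal_mul (abs_nonneg _)]
        apply ENNReal.ofReal_le_ofReal
        rw [abs_of_pos (by (clear * - hσ0; positivity))]
        push_cast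
        have h6 : (⌈σ * N⌉₊ : ℝ) < σ * N + 1 := Nat.ceil_lt_add_one (by positivity)
        calc (σ ^ 3)⁻¹ * (2 * ((⌈σ * N⌉₊ : ℝ) + 1)) ^ 3
            ≤ (σ ^ 3)⁻¹ * (2 * (σ * N + 2)) ^ 3 := by
              apply mul_le_mul_of_nonneg_left _ (by positivity)
              apply pow_le_pow_left₀ (by positivity)
              linarith only [h6]
          _ = (2 * N + 4 / σ) ^ 3 := by
              field_simp
              ring
          _ ≤ _ := by (clear * - hN hσ0 hκ hσ; gcongr)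

end Vale.Agent.P140
end
end

section

open MeasureTheory Set Filter Metric
open scoped ENNReal Topology

namespace Vale.Agent.P140

/-- polar coordinates -/
theorem lint_polar0 {G : V → ℝ≥0∞} (hG : Measurable G) :
    ∫⁻ z : V, G z =
      ∫⁻ o : S2, (∫⁻ r in Ioi (0 : ℝ), ENNReal.ofReal (r ^ 2) * G (r • (o : V))) ∂surf := by
  have h0 : ∫⁻ z : V, G z = ∫⁻ z in ({0}ᶜ : Set V), G z := by
    rw [restrict_compl_singleton]
  have h1 : ∫⁻ z in ({0}ᶜ : Set V), G z =
      ∫⁻ z : ({0}ᶜ : Set V), G z ∂((volume : Measure V).comap (↑)) :=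
    (lintegral_subtype_comap (measurableSet_singleton _).compl G).symm
  have mp := (volume : Measure V).measurePreserving_homeomorphUnitSphereProd
  have hmG : Measurable fun p : S2 × Ioi (0 : ℝ) => G ((p.2 : ℝ) • (p.1 : V)) := by
    apply hG.comp
    exact (measurable_subtype_coe.comp measurable_snd).smul
      (measurable_subtype_coe.comp measurable_fst)
  have h2 := mp.lintegral_comp hmG
  have h3 : ∀ z : ({0}ᶜ : Set V), G (((homeomorphUnitSphereProd V z).2 : ℝ) •
      ((homeomorphUnitSphereProd V z).1 : V)) = G z := by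
    intro z
    congr 1
    have := homeomorphUnitSphereProd_symm_apply_coe V (homeomorphUnitSphereProd V z)
    rw [Homeomorph.symm_apply_apply] at this
    exact this.symm
  simp only [h3] at h2
  rw [h0, h1, h2, lintegral_prod _ hmG.aemeasurable]
  have hdim : Module.finrank ℝ V - 1 = 2 := by simp only [finrank_euclideanSpace, Fintype.card_fin, Nat.add_one_sub_one]
  apply lintegral_congr
  intro o
  have hmo : Measurable fun r : ℝ => ENNReal.ofReal (r ^ 2) * G (r • (o : V)) := by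
    apply Measurable.mul
    · exact (measurable_id.pow_const 2).ennreal_ofReal
    · exact hG.comp (measurable_id.smul_const _)
  rw [← lintegral_subtype_comap measurableSet_Ioi
    (fun r : ℝ => ENNReal.ofReal (r ^ 2) * G (r • (o : V)))]
  rw [Measure.volumeIoiPow, hdim, lintegral_withDensity_eq_lintegral_mul]
  · rfl
  · exact (measurable_subtype_coe.pow_const 2).ennreal_ofReal
  · have h := hmG.comp (by fun_prop : Measurable fun y : Ioi (0 : ℝ) => (o, y))
    exact h

/-- an orthonormal frame starting with a given unit vector, and the corresponding Fubini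
formula -/
theorem exists_frame (e : V) (he : ‖e‖ = 1) : ∃ b1 b2 : V,
    (∀ a x y : ℝ, ‖a • e + (x • b1 + y • b2)‖ ^ 2 = a ^ 2 + (x ^ 2 + y ^ 2)) ∧
    (∀ a x y : ℝ, inner ℝ (a • e + (x • b1 + y • b2)) e = a) ∧
    ∀ H : V → ℝ≥0∞, Measurable H →
      ∫⁻ z : V, H z = ∫⁻ a : ℝ, ∫⁻ q : ℝ × ℝ, H (a • e + (q.1 • b1 + q.2 • b2)) := by
  have hcard : Module.finrank ℝ V = Fintype.card (Fin 3) := by simp only [finrank_euclideanSpace, Fintype.card_fin]
  obtain ⟨b, hb⟩ := Orthonormal.exists_orthonormalBasis_extension_of_card_eq (𝕜 := ℝ) (E := V)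
    (ι := Fin 3) hcard (v := fun _ => e) (s := {0}) (by
      constructor
      · intro i; exact he
      · intro i j hij
        exact absurd (Subsingleton.elim i j) hij)
  have hb0 : b 0 = e := hb 0 (by simp only [Fin.isValue, mem_singleton_iff])
  refine ⟨b 1, b 2, ?_, ?_, ?_⟩
  · intro a x y
    have h : a • e + (x • b 1 + y • b 2) = b.repr.symm (WithLp.toLp 2 ![a, x, y]) := by
      rw [← b.sum_repr_symm]
      rw [Fin.sum_univ_three, hb0]
      simp only [Fin.isValue, Matrix.cons_val_zero, Matrix.cons_val_one, Matrix.cons_val]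
      rw [add_assoc]
    rw [h, LinearIsometryEquiv.norm_map, EuclideanSpace.norm_sq_eq]
    rw [Fin.sum_univ_three]
    simp only [Fin.isValue, Matrix.cons_val_zero, Real.norm_eq_abs, sq_abs, Matrix.cons_val_one, Matrix.cons_val]
    ring
  · intro a x y
    have h01 : inner ℝ (b 1) (b 0) = (0 : ℝ) := by
      rw [b.inner_eq_zero (by decide)]
    have h02 : inner ℝ (b 2) (b 0) = (0 : ℝ) := by
      rw [b.inner_eq_zero (by decide)]
    rw [← hb0, inner_add_left, inner_add_left, inner_smul_left, inner_smul_left, inner_smul_left,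
      h01, h02]
    simp only [Real.ringHom_apply, Fin.isValue, inner_self_eq_norm_sq_to_K, OrthonormalBasis.norm_eq_one, one_pow, mul_one, mul_zero, add_zero]
  · intro H hH
    have m1 : MeasurePreserving b.repr.symm (volume : Measure V) volume := b.measurePreserving_repr_symm
    have m2 : MeasurePreserving (WithLp.toLp 2 : (Fin 3 → ℝ) → V) volume volume :=
      PiLp.volume_preserving_toLp (Fin 3)
    have m3 : MeasurePreserving (MeasurableEquiv.piFinSuccAbove (fun _ : Fin 3 => ℝ) 0)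
        volume volume := volume_preserving_piFinSuccAbove (fun _ : Fin 3 => ℝ) 0
    have m4 : MeasurePreserving (@MeasurableEquiv.finTwoArrow ℝ _) volume volume :=
      volume_preserving_finTwoArrow ℝ
    have m5 : MeasurePreserving (fun w : Fin 3 → ℝ => (w 0, (w 1, w 2)))
        volume (volume : Measure (ℝ × (ℝ × ℝ))) := by
      have h := ((MeasurePreserving.id (volume : Measure ℝ)).prod m4).comp m3
      exact h
    have mT : Measurable fun p : ℝ × (ℝ × ℝ) => p.1 • e + (p.2.1 • b 1 + p.2.2 • b 2) := by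
      fun_prop
    have hHT := hH.comp mT
    have e1 := m1.lintegral_comp hH
    have e2 := m2.lintegral_comp (f := fun z => H (b.repr.symm z)) (hH.comp m1.measurable)
    have e3 := m5.lintegral_comp hHT
    rw [← e1, ← e2]
    have e4 : ∀ w : Fin 3 → ℝ, H (b.repr.symm (WithLp.toLp 2 w)) =
        (H ∘ fun p : ℝ × (ℝ × ℝ) => p.1 • e + (p.2.1 • b 1 + p.2.2 • b 2)) (w 0, (w 1, w 2)) := by
      intro w
      simp only [Function.comp]
      congr 1
      rw [← b.sum_repr_symm, Fin.sum_univ_three, hb0, add_assoc]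
    simp only [e4]
    rw [e3, Measure.volume_eq_prod, lintegral_prod _ hHT.aemeasurable]
    rfl

end Vale.Agent.P140
end

section

open MeasureTheory Set Filter Metric
open scoped ENNReal Topology

namespace Vale.Agent.P140

theorem lintegral_real_split {f : ℝ → ℝ≥0∞} (hf : Measurable f) :
    ∫⁻ a : ℝ, f a = ∫⁻ a in Ioi (0 : ℝ), (f a + f (-a)) := by
  have hneg : Measurable fun a : ℝ => f (-a) := hf.comp measurable_neg
  rw [lintegral_add_left hf]
  have h1 : ∫⁻ a : ℝ, f a = (∫⁻ a in Ioi (0 : ℝ), f a) + ∫⁻ a in (Ioi (0 : ℝ))ᶜ, f a :=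
    (lintegral_add_compl f measurableSet_Ioi).symm
  rw [h1]
  congr 1
  have mp : MeasurePreserving (Neg.neg : ℝ → ℝ) volume volume := Measure.measurePreserving_neg _
  have h2 := mp.setLIntegral_comp_preimage (s := (Ioi (0 : ℝ))ᶜ) measurableSet_Ioi.compl hf
  rw [← h2]
  have h3 : (Neg.neg : ℝ → ℝ) ⁻¹' (Ioi (0 : ℝ))ᶜ = Ici 0 := by
    ext x
    simp only [compl_Ioi, neg_preimage, neg_Iic, neg_zero, mem_Ici]
  rw [h3]
  exact setLIntegral_congr Ioi_ae_eq_Ici.symm

/-- cylindrical coordinates -/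
theorem cyl_coord {e b1 b2 : V} {H : V → ℝ≥0∞} (hH : Measurable H)
    (hF : ∫⁻ z : V, H z = ∫⁻ a : ℝ, ∫⁻ q : ℝ × ℝ, H (a • e + (q.1 • b1 + q.2 • b2))) :
    ∫⁻ z : V, H z = ∫⁻ φ in Ioo (-Real.pi) Real.pi, ∫⁻ a in Ioi (0 : ℝ), ∫⁻ ρ in Ioi (0 : ℝ),
      ENNReal.ofReal ρ * (H (a • e + ρ • (Real.cos φ • b1 + Real.sin φ • b2)) +
        H ((-a) • e + ρ • (Real.cos φ • b1 + Real.sin φ • b2))) := by
  set η : ℝ → V := fun φ => Real.cos φ • b1 + Real.sin φ • b2 with hη
  have mη : Measurable η := by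
    have : Continuous η := by (clear * -; fun_prop)
    exact this.measurable
  have mJ : Measurable fun q : (ℝ × ℝ) × ℝ => ENNReal.ofReal q.1.2 * H (q.1.1 • e + q.1.2 • η q.2) := by
    apply Measurable.mul
    · exact measurable_fst.snd.ennreal_ofReal
    · exact hH.comp ((measurable_fst.fst.smul_const e).add
        (measurable_fst.snd.smul (mη.comp measurable_snd)))
  have h1 : ∀ a : ℝ, ∫⁻ q : ℝ × ℝ, H (a • e + (q.1 • b1 + q.2 • b2)) =
      ∫⁻ ρ in Ioi (0 : ℝ), ∫⁻ φ in Ioo (-Real.pi) Real.pi, ENNReal.ofReal ρ * H (a • e + ρ • η φ) := by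
    intro a
    rw [← lintegral_comp_polarCoord_symm]
    have ht : polarCoord.target = Ioi (0 : ℝ) ×ˢ Ioo (-Real.pi) Real.pi := rfl
    have hm : Measurable fun p : ℝ × ℝ => ENNReal.ofReal p.1 * H (a • e + p.1 • η p.2) :=
      (mJ.comp (by fun_prop : Measurable fun p : ℝ × ℝ => ((a, p.1), p.2)) :)
    have e1 : ∫⁻ p in polarCoord.target, ENNReal.ofReal p.1 • H (a • e +
        ((polarCoord.symm p).1 • b1 + (polarCoord.symm p).2 • b2)) =
        ∫⁻ p in Ioi (0 : ℝ) ×ˢ Ioo (-Real.pi) Real.pi, ENNReal.ofReal p.1 * H (a • e + p.1 • η p.2) := by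
      rw [ht]
      apply lintegral_congr
      intro p
      rw [polarCoord_symm_apply, smul_eq_mul]
      simp only [hη, smul_add, smul_smul]
    rw [e1, Measure.volume_eq_prod, ← Measure.prod_restrict, lintegral_prod _ hm.aemeasurable]
  rw [hF]
  simp only [h1]
  have m2 : Measurable fun q : ℝ × ℝ => ∫⁻ φ in Ioo (-Real.pi) Real.pi,
      ENNReal.ofReal q.2 * H (q.1 • e + q.2 • η φ) :=
    Measurable.lintegral_prod_right' (ν := volume.restrict (Ioo (-Real.pi) Real.pi)) mJ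
  have m3 : Measurable fun a : ℝ => ∫⁻ ρ in Ioi (0 : ℝ), ∫⁻ φ in Ioo (-Real.pi) Real.pi,
      ENNReal.ofReal ρ * H (a • e + ρ • η φ) :=
    Measurable.lintegral_prod_right' (ν := volume.restrict (Ioi (0 : ℝ))) m2
  rw [lintegral_real_split m3]
  have mJ' : Measurable fun q : (ℝ × ℝ) × ℝ => ENNReal.ofReal q.1.2 *
      H ((-q.1.1) • e + q.1.2 • η q.2) := by
    have h := mJ.comp (by fun_prop : Measurable fun q : (ℝ × ℝ) × ℝ => ((-q.1.1, q.1.2), q.2))
    exact h
  have mS : Measurable fun q : (ℝ × ℝ) × ℝ => ENNReal.ofReal q.1.2 *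
      (H (q.1.1 • e + q.1.2 • η q.2) + H ((-q.1.1) • e + q.1.2 • η q.2)) := by
    simp only [mul_add]
    exact mJ.add mJ'
  -- combine
  have h4 : ∀ a : ℝ, (∫⁻ ρ in Ioi (0 : ℝ), ∫⁻ φ in Ioo (-Real.pi) Real.pi,
      ENNReal.ofReal ρ * H (a • e + ρ • η φ)) + (∫⁻ ρ in Ioi (0 : ℝ), ∫⁻ φ in Ioo (-Real.pi) Real.pi,
      ENNReal.ofReal ρ * H ((-a) • e + ρ • η φ)) =
      ∫⁻ ρ in Ioi (0 : ℝ), ∫⁻ φ in Ioo (-Real.pi) Real.pi,
      ENNReal.ofReal ρ * (H (a • e + ρ • η φ) + H ((-a) • e + ρ • η φ)) := by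
    intro a
    have k1 : Measurable fun ρ : ℝ => ∫⁻ φ in Ioo (-Real.pi) Real.pi,
        ENNReal.ofReal ρ * H (a • e + ρ • η φ) :=
      (m2.comp (by fun_prop : Measurable fun ρ : ℝ => (a, ρ)) :)
    rw [← lintegral_add_left k1]
    apply lintegral_congr
    intro ρ
    have k2 : Measurable fun φ : ℝ => ENNReal.ofReal ρ * H (a • e + ρ • η φ) :=
      (mJ.comp (by fun_prop : Measurable fun φ : ℝ => ((a, ρ), φ)) :)
    rw [← lintegral_add_left k2]
    apply lintegral_congr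
    intro φ
    rw [mul_add]
  simp only [h4]
  -- exchange the order
  have mS1 : Measurable fun q : ℝ × ℝ => ∫⁻ ρ in Ioi (0 : ℝ), ENNReal.ofReal ρ *
      (H (q.1 • e + ρ • η q.2) + H ((-q.1) • e + ρ • η q.2)) := by
    apply Measurable.lintegral_prod_right' (ν := volume.restrict (Ioi (0 : ℝ)))
      (f := fun q : (ℝ × ℝ) × ℝ => ENNReal.ofReal q.2 *
      (H (q.1.1 • e + q.2 • η q.1.2) + H ((-q.1.1) • e + q.2 • η q.1.2)))
    exact (mS.comp (by fun_prop : Measurable fun q : (ℝ × ℝ) × ℝ => ((q.1.1, q.2), q.1.2)) :)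
  have h5 : ∀ a : ℝ, ∫⁻ ρ in Ioi (0 : ℝ), ∫⁻ φ in Ioo (-Real.pi) Real.pi,
      ENNReal.ofReal ρ * (H (a • e + ρ • η φ) + H ((-a) • e + ρ • η φ)) =
      ∫⁻ φ in Ioo (-Real.pi) Real.pi, ∫⁻ ρ in Ioi (0 : ℝ),
      ENNReal.ofReal ρ * (H (a • e + ρ • η φ) + H ((-a) • e + ρ • η φ)) := by
    intro a
    apply lintegral_lintegral_swap
    exact (mS.comp (by fun_prop : Measurable fun q : ℝ × ℝ => ((a, q.1), q.2))).aemeasurable
  simp only [h5]
  exact lintegral_lintegral_swap mS1.aemeasurable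

/-- radial cut-off -/
noncomputable def chi (t : ℝ) : ℝ≥0∞ := (Icc (1 : ℝ) 4).indicator (fun _ => 1) t

theorem measurable_chi : Measurable chi := measurable_const.indicator measurableSet_Icc

/-- normalization constant -/
noncomputable def cchi : ℝ≥0∞ := ∫⁻ r in Ioi (0 : ℝ), ENNReal.ofReal (r ^ 2) * chi (r ^ 2)

theorem cchi_ne_top : cchi ≠ ⊤ := by
  unfold cchi
  have h : ∀ r ∈ Ioi (0 : ℝ), ENNReal.ofReal (r ^ 2) * chi (r ^ 2) ≤
      (Icc (0 : ℝ) 2).indicator (fun _ => ENNReal.ofReal 4) r := by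
    intro r hr
    unfold chi
    by_cases h : r ^ 2 ∈ Icc (1 : ℝ) 4
    · have h2 : r ≤ 2 := by
        have := h.2
        nlinarith [mem_Ioi.mp hr]
      rw [indicator_of_mem h, indicator_of_mem (show r ∈ Icc (0 : ℝ) 2 from ⟨le_of_lt hr, h2⟩), mul_one]
      exact ENNReal.ofReal_le_ofReal h.2
    · rw [indicator_of_notMem h, mul_zero]
      exact zero_le
  refine ne_top_of_le_ne_top ?_ (setLIntegral_mono' measurableSet_Ioi h)
  refine ne_top_of_le_ne_top ?_ (setLIntegral_le_lintegral _ _)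
  rw [lintegral_indicator measurableSet_Icc, setLIntegral_const, Real.volume_Icc]
  exact ENNReal.mul_ne_top ENNReal.ofReal_ne_top ENNReal.ofReal_ne_top

theorem cchi_ne_zero : cchi ≠ 0 := by
  have h : (1 : ℝ≥0∞) ≤ cchi := by
    unfold cchi
    calc (1 : ℝ≥0∞) = ∫⁻ r in Icc (1 : ℝ) 2, 1 := by
          rw [setLIntegral_const, Real.volume_Icc, one_mul]
          norm_num
      _ ≤ ∫⁻ r in Icc (1 : ℝ) 2, ENNReal.ofReal (r ^ 2) * chi (r ^ 2) := by
          apply setLIntegral_mono' measurableSet_Icc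
          intro r hr
          have h1 : (1 : ℝ) ≤ r ^ 2 := by nlinarith [hr.1]
          have h2 : r ^ 2 ≤ 4 := by nlinarith only [hr.1, hr.2]
          unfold chi
          rw [indicator_of_mem (show r ^ 2 ∈ Icc (1 : ℝ) 4 from ⟨h1, h2⟩), mul_one,
            ← ENNReal.ofReal_one]
          exact ENNReal.ofReal_le_ofReal h1
      _ ≤ _ := lintegral_mono_set (fun r hr => lt_of_lt_of_le one_pos hr.1)
  intro h0
  rw [h0] at h
  exact absurd h (by simp only [nonpos_iff_eq_zero, one_ne_zero, not_false_eq_true])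

/-- sphere integrals as space integrals -/
theorem sphere_eq {Ψ : V → ℝ≥0∞} (hΨ : Measurable Ψ) :
    ∫⁻ z : V, chi (‖z‖ ^ 2) * Ψ (‖z‖⁻¹ • z) = cchi * ∫⁻ o : S2, Ψ (o : V) ∂surf := by
  have hm : Measurable fun z : V => chi (‖z‖ ^ 2) * Ψ (‖z‖⁻¹ • z) :=
    (measurable_chi.comp (measurable_norm.pow_const 2)).mul
      (hΨ.comp (measurable_norm.inv.smul measurable_id))
  rw [lint_polar0 hm]
  have hms : Measurable fun o : S2 => Ψ (o : V) := hΨ.comp measurable_subtype_coe
  rw [← lintegral_const_mul _ hms]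
  apply lintegral_congr
  intro o
  unfold cchi
  have hmr : Measurable fun r : ℝ => ENNReal.ofReal (r ^ 2) * chi (r ^ 2) :=
    (measurable_id.pow_const 2).ennreal_ofReal.mul (measurable_chi.comp (measurable_id.pow_const 2))
  rw [← lintegral_mul_const _ hmr]
  apply setLIntegral_congr_fun measurableSet_Ioi
  intro r hr
  simp only
  have hr0 : (0 : ℝ) < r := hr
  rw [norm_smul, norm_o, mul_one, Real.norm_of_nonneg hr0.le, smul_smul,
    inv_mul_cancel₀ hr0.ne', one_smul]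
  ring

end Vale.Agent.P140
end

section

open MeasureTheory Set Filter Metric
open scoped ENNReal Topology

namespace Vale.Agent.P140

/-- kernel in cylindrical coordinates -/
noncomputable def exK (s : ℝ) (e η : V) (Φ : V → ℝ≥0∞) (σ a ρ : ℝ) : ℝ≥0∞ :=
  ENNReal.ofReal (a * ρ) * (chi (a ^ 2 + ρ ^ 2) * ENNReal.ofReal (s / Real.sqrt (a ^ 2 + ρ ^ 2)) *
    Φ ((s / (a ^ 2 + ρ ^ 2)) • ((a ^ 2) • e + (σ * (a * ρ)) • η)))

theorem exH1 {s : ℝ} (hs : 0 < s) {e η u z : V} (hu : u = s • e) {Φ : V → ℝ≥0∞} {a ρ σ : ℝ}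
    (ha : 0 < a) (hρ : 0 < ρ) (hσ : σ ^ 2 = 1) (hz : z = (σ * a) • e + ρ • η)
    (hn : ‖z‖ ^ 2 = a ^ 2 + ρ ^ 2) (hi : inner ℝ z e = σ * a) :
    ENNReal.ofReal ρ * (chi (‖z‖ ^ 2) * (ENNReal.ofReal |inner ℝ u (‖z‖⁻¹ • z)| *
      Φ ((inner ℝ u (‖z‖⁻¹ • z) : ℝ) • (‖z‖⁻¹ • z)))) = exK s e η Φ σ a ρ := by
  have hN : ‖z‖ = Real.sqrt (a ^ 2 + ρ ^ 2) := by
    rw [← hn, Real.sqrt_sq (norm_nonneg _)]
  have hpos : 0 < a ^ 2 + ρ ^ 2 := by positivity
  have hNpos : 0 < ‖z‖ := by rw [hN]; exact Real.sqrt_pos.mpr hpos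
  have hin : (inner ℝ u (‖z‖⁻¹ • z) : ℝ) = s * (σ * a) / ‖z‖ := by
    rw [hu, inner_smul_left, inner_smul_right, real_inner_comm, hi]
    simp only [Real.ringHom_apply]
    ring
  have habs : |(inner ℝ u (‖z‖⁻¹ • z) : ℝ)| = s * a / ‖z‖ := by
    rw [hin, abs_div, abs_of_pos hNpos, abs_mul, abs_mul, abs_of_pos hs, abs_of_pos ha]
    have : |σ| = 1 := by
      rw [← sq_eq_sq₀ (abs_nonneg _) zero_le_one, sq_abs, hσ]; norm_num
    rw [this, one_mul]
  have hvec : (inner ℝ u (‖z‖⁻¹ • z) : ℝ) • (‖z‖⁻¹ • z) =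
      (s / (a ^ 2 + ρ ^ 2)) • ((a ^ 2) • e + (σ * (a * ρ)) • η) := by
    rw [hin, smul_smul]
    have e1 : s * (σ * a) / ‖z‖ * ‖z‖⁻¹ = s / (a ^ 2 + ρ ^ 2) * (σ * a) := by
      rw [← hn]
      (clear * - hNpos ha hs; field_simp)
    rw [e1, mul_smul]
    congr 1
    rw [hz, smul_add, smul_smul, smul_smul]
    congr 1
    · congr 1
      calc σ * a * (σ * a) = σ ^ 2 * a ^ 2 := by ring
        _ = a ^ 2 := by rw [hσ, one_mul]
    · congr 1
      ring
  rw [hvec, habs]
  unfold exK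
  rw [hn, hN]
  have e2 : ENNReal.ofReal (s * a / Real.sqrt (a ^ 2 + ρ ^ 2)) =
      ENNReal.ofReal a * ENNReal.ofReal (s / Real.sqrt (a ^ 2 + ρ ^ 2)) := by
    rw [← ENNReal.ofReal_mul ha.le]
    congr 1
    ring
  rw [e2, ENNReal.ofReal_mul ha.le]
  ring

theorem exH2 {s : ℝ} (hs : 0 < s) {e η u z : V} (hu : u = s • e) {Φ : V → ℝ≥0∞} {a ρ σ : ℝ}
    (ha : 0 < a) (hρ : 0 < ρ) (hσ : σ ^ 2 = 1) (hz : z = (σ * a) • e + ρ • η)
    (hn : ‖z‖ ^ 2 = a ^ 2 + ρ ^ 2) (hi : inner ℝ z e = σ * a) :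
    ENNReal.ofReal ρ * (chi (‖z‖ ^ 2) * (ENNReal.ofReal |inner ℝ u (‖z‖⁻¹ • z)| *
      Φ (u - (inner ℝ u (‖z‖⁻¹ • z) : ℝ) • (‖z‖⁻¹ • z)))) = exK s e η Φ (-σ) ρ a := by
  have hN : ‖z‖ = Real.sqrt (a ^ 2 + ρ ^ 2) := by
    rw [← hn, Real.sqrt_sq (norm_nonneg _)]
  have hpos : 0 < a ^ 2 + ρ ^ 2 := by positivity
  have hNpos : 0 < ‖z‖ := by rw [hN]; exact Real.sqrt_pos.mpr hpos
  have hin : (inner ℝ u (‖z‖⁻¹ • z) : ℝ) = s * (σ * a) / ‖z‖ := by
    rw [hu, inner_smul_left, inner_smul_right, real_inner_comm, hi]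
    simp only [Real.ringHom_apply]
    ring
  have habs : |(inner ℝ u (‖z‖⁻¹ • z) : ℝ)| = s * a / ‖z‖ := by
    rw [hin, abs_div, abs_of_pos hNpos, abs_mul, abs_mul, abs_of_pos hs, abs_of_pos ha]
    have : |σ| = 1 := by
      rw [← sq_eq_sq₀ (abs_nonneg _) zero_le_one, sq_abs, hσ]; norm_num
    rw [this, one_mul]
  have hvec : u - (inner ℝ u (‖z‖⁻¹ • z) : ℝ) • (‖z‖⁻¹ • z) =
      (s / (a ^ 2 + ρ ^ 2)) • ((ρ ^ 2) • e + ((-σ) * (ρ * a)) • η) := by
    rw [hin, smul_smul]
    have e1 : s * (σ * a) / ‖z‖ * ‖z‖⁻¹ = s / (a ^ 2 + ρ ^ 2) * (σ * a) := by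
      rw [← hn]
      (clear * - hNpos ha hs; field_simp)
    have e3 : u = (s / (a ^ 2 + ρ ^ 2)) • ((a ^ 2 + ρ ^ 2) • e) := by
      rw [smul_smul, hu]
      congr 1
      field_simp
    rw [e1, mul_smul]
    nth_rewrite 1 [e3]
    rw [← smul_sub]
    congr 1
    rw [hz, smul_add, smul_smul, smul_smul]
    have e4 : σ * a * (σ * a) = a ^ 2 := by
      calc σ * a * (σ * a) = σ ^ 2 * a ^ 2 := by ring
        _ = a ^ 2 := by rw [hσ, one_mul]
    rw [e4]
    module
  rw [hvec, habs]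
  unfold exK
  rw [hn, hN]
  have e2 : ENNReal.ofReal (s * a / Real.sqrt (a ^ 2 + ρ ^ 2)) =
      ENNReal.ofReal a * ENNReal.ofReal (s / Real.sqrt (a ^ 2 + ρ ^ 2)) := by
    rw [← ENNReal.ofReal_mul ha.le]
    congr 1
    ring
  rw [e2, ENNReal.ofReal_mul hρ.le, add_comm (ρ ^ 2) (a ^ 2)]
  ring

theorem measurable_exK (s : ℝ) (e η : V) {Φ : V → ℝ≥0∞} (hΦ : Measurable Φ) (σ : ℝ) :
    Measurable fun q : ℝ × ℝ => exK s e η Φ σ q.1 q.2 := by
  unfold exK
  apply Measurable.mul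
  · exact (measurable_fst.mul measurable_snd).ennreal_ofReal
  · have m1 : Measurable fun q : ℝ × ℝ => q.1 ^ 2 + q.2 ^ 2 := by fun_prop
    apply Measurable.mul
    · apply Measurable.mul
      · exact measurable_chi.comp m1
      · exact (measurable_const.div m1.sqrt).ennreal_ofReal
    · apply hΦ.comp
      have k1 : Measurable fun q : ℝ × ℝ => s / (q.1 ^ 2 + q.2 ^ 2) := measurable_const.div m1
      have k2 : Measurable fun q : ℝ × ℝ => q.1 ^ 2 • e + (σ * (q.1 * q.2)) • η := by fun_prop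
      exact k1.smul k2

theorem exchange_aux (u : V) {Φ : V → ℝ≥0∞} (hΦ : Measurable Φ) :
    ∫⁻ o : S2, ENNReal.ofReal |inner ℝ u (o : V)| * Φ ((inner ℝ u (o : V) : ℝ) • (o : V)) ∂surf =
    ∫⁻ o : S2, ENNReal.ofReal |inner ℝ u (o : V)| * Φ (u - (inner ℝ u (o : V) : ℝ) • (o : V)) ∂surf := by
  rcases eq_or_ne u 0 with hu0 | hu0
  · simp only [hu0, inner_zero_left, abs_zero, ENNReal.ofReal_zero, zero_smul, zero_mul, lintegral_const, sub_self]
  set s : ℝ := ‖u‖ with hs
  have hs0 : 0 < s := norm_pos_iff.mpr hu0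
  set e : V := s⁻¹ • u with he
  have he1 : ‖e‖ = 1 := by
    rw [he, norm_smul, norm_inv, Real.norm_of_nonneg hs0.le]
    exact inv_mul_cancel₀ hs0.ne'
  have hu : u = s • e := by
    rw [he, smul_smul, mul_inv_cancel₀ hs0.ne', one_smul]
  obtain ⟨b1, b2, hn, hi, hF⟩ := exists_frame e he1
  have mi : Measurable fun z : V => (inner ℝ u z : ℝ) := by fun_prop
  have m1 : Measurable fun z : V => ENNReal.ofReal |inner ℝ u z| * Φ ((inner ℝ u z : ℝ) • z) :=
    (mi.abs.ennreal_ofReal).mul (hΦ.comp (mi.smul measurable_id))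
  have m2 : Measurable fun z : V => ENNReal.ofReal |inner ℝ u z| * Φ (u - (inner ℝ u z : ℝ) • z) :=
    (mi.abs.ennreal_ofReal).mul (hΦ.comp (measurable_const.sub (mi.smul measurable_id)))
  have s1 := sphere_eq m1
  have s2 := sphere_eq m2
  have hm : ∀ {Ψ : V → ℝ≥0∞}, Measurable Ψ → Measurable fun z : V => chi (‖z‖ ^ 2) * Ψ (‖z‖⁻¹ • z) :=
    fun hΨ => (measurable_chi.comp (measurable_norm.pow_const 2)).mul
      (hΨ.comp (measurable_norm.inv.smul measurable_id))
  rw [cyl_coord (hm m1) (hF _ (hm m1))] at s1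
  rw [cyl_coord (hm m2) (hF _ (hm m2))] at s2
  have key : ∀ φ ∈ Ioo (-Real.pi) Real.pi, ∀ a ∈ Ioi (0 : ℝ), ∀ ρ ∈ Ioi (0 : ℝ), ∀ σ : ℝ, σ ^ 2 = 1 →
      ‖(σ * a) • e + ρ • (Real.cos φ • b1 + Real.sin φ • b2)‖ ^ 2 = a ^ 2 + ρ ^ 2 ∧
      inner ℝ ((σ * a) • e + ρ • (Real.cos φ • b1 + Real.sin φ • b2)) e = σ * a := by
    intro φ _ a _ ρ _ σ hσ
    have hv : (σ * a) • e + ρ • (Real.cos φ • b1 + Real.sin φ • b2) =
        (σ * a) • e + ((ρ * Real.cos φ) • b1 + (ρ * Real.sin φ) • b2) := by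
      rw [smul_add ρ, smul_smul ρ (Real.cos φ), smul_smul ρ (Real.sin φ)]
    rw [hv, hn, hi]
    refine ⟨?_, rfl⟩
    have := Real.sin_sq_add_cos_sq φ
    calc (σ * a) ^ 2 + ((ρ * Real.cos φ) ^ 2 + (ρ * Real.sin φ) ^ 2)
        = σ ^ 2 * a ^ 2 + ρ ^ 2 * (Real.sin φ ^ 2 + Real.cos φ ^ 2) := by ring
      _ = _ := by rw [hσ, this]; ring
  have hpos : (1 : ℝ) ^ 2 = 1 := by norm_num
  have hneg : (-1 : ℝ) ^ 2 = 1 := by norm_num
  have hL : cchi * ∫⁻ o : S2, ENNReal.ofReal |inner ℝ u (o : V)| *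
      Φ ((inner ℝ u (o : V) : ℝ) • (o : V)) ∂surf =
      ∫⁻ φ in Ioo (-Real.pi) Real.pi, ∫⁻ a in Ioi (0 : ℝ), ∫⁻ ρ in Ioi (0 : ℝ),
      (exK s e (Real.cos φ • b1 + Real.sin φ • b2) Φ 1 a ρ +
        exK s e (Real.cos φ • b1 + Real.sin φ • b2) Φ (-1) a ρ) := by
    rw [← s1]
    apply setLIntegral_congr_fun measurableSet_Ioo
    intro φ hφ
    apply setLIntegral_congr_fun measurableSet_Ioi
    intro a ha
    apply setLIntegral_congr_fun measurableSet_Ioi
    intro ρ hρ
    simp only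
    have k1 := key φ hφ a ha ρ hρ 1 hpos
    have k2 := key φ hφ a ha ρ hρ (-1) hneg
    rw [mul_add, ← exH1 hs0 hu (Φ := Φ) ha hρ hpos rfl k1.1 k1.2,
      ← exH1 hs0 hu (Φ := Φ) ha hρ hneg rfl k2.1 k2.2]
    simp only [one_mul, neg_mul]
  have hR : cchi * ∫⁻ o : S2, ENNReal.ofReal |inner ℝ u (o : V)| *
      Φ (u - (inner ℝ u (o : V) : ℝ) • (o : V)) ∂surf =
      ∫⁻ φ in Ioo (-Real.pi) Real.pi, ∫⁻ a in Ioi (0 : ℝ), ∫⁻ ρ in Ioi (0 : ℝ),
      (exK s e (Real.cos φ • b1 + Real.sin φ • b2) Φ 1 ρ a +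
        exK s e (Real.cos φ • b1 + Real.sin φ • b2) Φ (-1) ρ a) := by
    rw [← s2]
    apply setLIntegral_congr_fun measurableSet_Ioo
    intro φ hφ
    apply setLIntegral_congr_fun measurableSet_Ioi
    intro a ha
    apply setLIntegral_congr_fun measurableSet_Ioi
    intro ρ hρ
    simp only
    have k1 := key φ hφ a ha ρ hρ 1 hpos
    have k2 := key φ hφ a ha ρ hρ (-1) hneg
    have g1 := exH2 hs0 hu (Φ := Φ) ha hρ hpos rfl k1.1 k1.2
    have g2 := exH2 hs0 hu (Φ := Φ) ha hρ hneg rfl k2.1 k2.2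
    rw [neg_neg] at g2
    rw [mul_add, add_comm (exK _ _ _ _ _ _ _), ← g1, ← g2]
    simp only [one_mul, neg_mul]
  have hswap : ∀ φ : ℝ, ∫⁻ a in Ioi (0 : ℝ), ∫⁻ ρ in Ioi (0 : ℝ),
      (exK s e (Real.cos φ • b1 + Real.sin φ • b2) Φ 1 a ρ +
        exK s e (Real.cos φ • b1 + Real.sin φ • b2) Φ (-1) a ρ) =
      ∫⁻ a in Ioi (0 : ℝ), ∫⁻ ρ in Ioi (0 : ℝ),
      (exK s e (Real.cos φ • b1 + Real.sin φ • b2) Φ 1 ρ a +
        exK s e (Real.cos φ • b1 + Real.sin φ • b2) Φ (-1) ρ a) := by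
    intro φ
    apply lintegral_lintegral_swap
    exact ((measurable_exK s e _ hΦ 1).add (measurable_exK s e _ hΦ (-1))).aemeasurable
  simp only [hswap] at hL
  rw [← hL] at hR
  exact ((ENNReal.mul_right_inj cchi_ne_zero cchi_ne_top).mp hR).symm

/-- **Exchange of the two post-collisional velocities.** -/
theorem lintegral_exchange (v w : V) {Φ : V × V → ℝ≥0∞} (hΦ : Measurable Φ) :
    ∫⁻ o, kk v w o * Φ (post v w o, postStar v w o) ∂surf =
      ∫⁻ o, kk v w o * Φ (postStar v w o, post v w o) ∂surf := by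
  have mΨ : Measurable fun z : V => Φ (v - z, w + z) :=
    hΦ.comp ((measurable_const.sub measurable_id).prodMk (measurable_const.add measurable_id))
  have h := exchange_aux (v - w) (Φ := fun z => Φ (v - z, w + z)) mΨ
  have e1 : ∀ o : S2, kk v w o * Φ (post v w o, postStar v w o) =
      ENNReal.ofReal |inner ℝ (v - w) (o : V)| *
        Φ (v - (inner ℝ (v - w) (o : V) : ℝ) • (o : V), w + (inner ℝ (v - w) (o : V) : ℝ) • (o : V)) :=
    fun o => rfl
  have e2 : ∀ o : S2, kk v w o * Φ (postStar v w o, post v w o) =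
      ENNReal.ofReal |inner ℝ (v - w) (o : V)| *
        Φ (v - (v - w - (inner ℝ (v - w) (o : V) : ℝ) • (o : V)),
          w + (v - w - (inner ℝ (v - w) (o : V) : ℝ) • (o : V))) := by
    intro o
    have a1 : postStar v w o = v - (v - w - (inner ℝ (v - w) (o : V) : ℝ) • (o : V)) := by
      unfold postStar relA
      abel
    have a2 : post v w o = w + (v - w - (inner ℝ (v - w) (o : V) : ℝ) • (o : V)) := by
      unfold post relA
      abel
    rw [← a1, ← a2]
    rfl
  simp only [e1, e2]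
  exact h

end Vale.Agent.P140
end

section

open MeasureTheory Set Filter Metric
open scoped ENNReal Topology

namespace Vale.Agent.P140

/-- Gaussian weight -/
noncomputable def gau (c : ℝ) (v : V) : ℝ≥0∞ := ENNReal.ofReal (Real.exp (-(c * ‖v‖ ^ 2)))

theorem measurable_gau (c : ℝ) : Measurable (gau c) := by
  unfold gau
  apply ENNReal.measurable_ofReal.comp
  apply Continuous.measurable
  fun_prop

theorem gau_ne_top (c : ℝ) (v : V) : gau c v ≠ ⊤ := ENNReal.ofReal_ne_top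

theorem gau_le_one {c : ℝ} (hc : 0 ≤ c) (v : V) : gau c v ≤ 1 := by
  unfold gau
  rw [ENNReal.ofReal_le_one, Real.exp_le_one_iff]
  have := mul_nonneg hc (sq_nonneg ‖v‖)
  linarith only [this]

/-- plane Gaussian integral -/
noncomputable def G2 (c : ℝ) : ℝ≥0∞ :=
  ∫⁻ q : ℝ × ℝ, ENNReal.ofReal (Real.exp (-(c * (q.1 ^ 2 + q.2 ^ 2))))

theorem G2_ne_top {c : ℝ} (hc : 0 < c) : G2 c ≠ ⊤ := by
  have h1 : Integrable fun x : ℝ => Real.exp (-c * x ^ 2) := integrable_exp_neg_mul_sq hc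
  have h2 := h1.mul_prod h1
  have h3 : ∀ q : ℝ × ℝ, Real.exp (-(c * (q.1 ^ 2 + q.2 ^ 2))) =
      Real.exp (-c * q.1 ^ 2) * Real.exp (-c * q.2 ^ 2) := by
    intro q
    rw [← Real.exp_add]
    congr 1
    ring
  unfold G2
  simp only [h3]
  have h4 := h2.2
  unfold HasFiniteIntegral at h4
  refine ne_of_lt (lt_of_le_of_lt (lintegral_mono fun q => ?_) h4)
  rw [← ofReal_norm, Real.norm_of_nonneg (by positivity)]

/-- integration over lines and orthogonal planes -/
theorem line_int (o : S2) {A : ℝ → ℝ≥0∞} (hA : Measurable A) (c : ℝ) :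
    ∫⁻ w : V, A (inner ℝ w (o : V)) *
      ENNReal.ofReal (Real.exp (-(c * ‖w - (inner ℝ w (o : V) : ℝ) • (o : V)‖ ^ 2))) =
    G2 c * ∫⁻ r : ℝ, A r := by
  obtain ⟨b1, b2, hn, hi, hF⟩ := exists_frame (o : V) (norm_o o)
  have mi : Measurable fun w : V => (inner ℝ w (o : V) : ℝ) := by fun_prop
  have hm : Measurable fun w : V => A (inner ℝ w (o : V)) *
      ENNReal.ofReal (Real.exp (-(c * ‖w - (inner ℝ w (o : V) : ℝ) • (o : V)‖ ^ 2))) := by
    apply (hA.comp mi).mul
    apply ENNReal.measurable_ofReal.comp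
    apply Continuous.measurable
    fun_prop
  rw [hF _ hm]
  have h1 : ∀ (a : ℝ) (q : ℝ × ℝ), A (inner ℝ (a • (o : V) + (q.1 • b1 + q.2 • b2)) (o : V)) *
      ENNReal.ofReal (Real.exp (-(c * ‖(a • (o : V) + (q.1 • b1 + q.2 • b2)) -
        (inner ℝ (a • (o : V) + (q.1 • b1 + q.2 • b2)) (o : V) : ℝ) • (o : V)‖ ^ 2))) =
      A a * ENNReal.ofReal (Real.exp (-(c * (q.1 ^ 2 + q.2 ^ 2)))) := by
    intro a q
    rw [hi, add_sub_cancel_left]
    have h2 : ‖q.1 • b1 + q.2 • b2‖ ^ 2 = q.1 ^ 2 + q.2 ^ 2 := by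
      have := hn 0 q.1 q.2
      simpa only [zero_smul, zero_add, ne_eq, OfNat.ofNat_ne_zero, not_false_eq_true, zero_pow] using this
    rw [h2]
  simp only [h1]
  have hme : Measurable fun q : ℝ × ℝ => ENNReal.ofReal (Real.exp (-(c * (q.1 ^ 2 + q.2 ^ 2)))) := by
    apply ENNReal.measurable_ofReal.comp
    apply Continuous.measurable
    fun_prop
  have h3 : ∀ a : ℝ, ∫⁻ q : ℝ × ℝ, A a * ENNReal.ofReal (Real.exp (-(c * (q.1 ^ 2 + q.2 ^ 2)))) =
      A a * G2 c := by
    intro a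
    rw [lintegral_const_mul _ hme]
    rfl
  simp only [h3]
  rw [lintegral_mul_const _ hA, mul_comm]

/-- polar coordinates on lines through `v` -/
theorem line_polar {f : V → ℝ≥0∞} (hf : Measurable f) (v : V) :
    ∫⁻ o : S2, (∫⁻ r : ℝ, ENNReal.ofReal |r| * f (v + r • (o : V))) ∂surf =
      2 * ∫⁻ y : V, ENNReal.ofReal ‖y - v‖⁻¹ * f y := by
  have mn : Measurable fun z : V => ENNReal.ofReal ‖z‖⁻¹ := measurable_norm.inv.ennreal_ofReal
  have mp : Measurable fun z : V => ENNReal.ofReal ‖z‖⁻¹ * f (v + z) :=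
    mn.mul (hf.comp (measurable_const.add measurable_id))
  have mm : Measurable fun z : V => ENNReal.ofReal ‖z‖⁻¹ * f (v - z) :=
    mn.mul (hf.comp (measurable_const.sub measurable_id))
  have e1 := lint_polar0 mp
  have e2 := lint_polar0 mm
  have e3 : ∫⁻ z : V, ENNReal.ofReal ‖z‖⁻¹ * f (v - z) = ∫⁻ z : V, ENNReal.ofReal ‖z‖⁻¹ * f (v + z) := by
    have mpn : MeasurePreserving (Neg.neg : V → V) volume volume := Measure.measurePreserving_neg _
    rw [← mpn.lintegral_comp mp]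
    apply lintegral_congr
    intro z
    rw [norm_neg, sub_eq_add_neg]
  have e4 : ∫⁻ z : V, ENNReal.ofReal ‖z‖⁻¹ * f (v + z) = ∫⁻ y : V, ENNReal.ofReal ‖y - v‖⁻¹ * f y := by
    have h := lintegral_add_left_eq_self (μ := (volume : Measure V))
      (fun y => ENNReal.ofReal ‖y - v‖⁻¹ * f y) v
    rw [← h]
    apply lintegral_congr
    intro z
    rw [add_sub_cancel_left]
  rw [e3] at e2
  rw [two_mul, ← e4]
  nth_rewrite 1 [e1]
  rw [e2]
  have mr : ∀ (σ : ℝ), Measurable fun q : S2 × ℝ => ENNReal.ofReal (q.2 ^ 2) *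
      (ENNReal.ofReal ‖q.2 • (q.1 : V)‖⁻¹ * f (v + (σ * q.2) • (q.1 : V))) := by
    intro σ
    apply Measurable.mul
    · exact (measurable_snd.pow_const 2).ennreal_ofReal
    · apply Measurable.mul
      · exact ((measurable_snd.smul (measurable_subtype_coe.comp measurable_fst)).norm.inv).ennreal_ofReal
      · exact hf.comp (measurable_const.add ((measurable_snd.const_mul σ).smul
          (measurable_subtype_coe.comp measurable_fst)))
  have e5 : ∀ o : S2, ∫⁻ r : ℝ, ENNReal.ofReal |r| * f (v + r • (o : V)) =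
      (∫⁻ r in Ioi (0 : ℝ), ENNReal.ofReal (r ^ 2) *
        (ENNReal.ofReal ‖r • (o : V)‖⁻¹ * f (v + r • (o : V)))) +
      ∫⁻ r in Ioi (0 : ℝ), ENNReal.ofReal (r ^ 2) *
        (ENNReal.ofReal ‖r • (o : V)‖⁻¹ * f (v - r • (o : V))) := by
    intro o
    have m1 : Measurable fun r : ℝ => ENNReal.ofReal |r| * f (v + r • (o : V)) := by
      apply Measurable.mul
      · exact (continuous_abs.measurable).ennreal_ofReal
      · exact hf.comp (measurable_const.add (measurable_id.smul_const _))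
    rw [lintegral_real_split m1]
    have m2 : Measurable fun r : ℝ => ENNReal.ofReal (r ^ 2) *
        (ENNReal.ofReal ‖r • (o : V)‖⁻¹ * f (v + r • (o : V))) := by
      have h := (mr 1).comp (by fun_prop : Measurable fun r : ℝ => (o, r))
      simp only [one_mul] at h
      exact h
    rw [← lintegral_add_left m2]
    apply setLIntegral_congr_fun measurableSet_Ioi
    intro r hr
    have hr0 : (0 : ℝ) < r := hr
    simp only
    have k : ENNReal.ofReal (r ^ 2) * ENNReal.ofReal ‖r • (o : V)‖⁻¹ = ENNReal.ofReal |r| := by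
      rw [norm_smul, norm_o, mul_one, Real.norm_of_nonneg hr0.le,
        ← ENNReal.ofReal_mul (by (clear * - hr0; positivity)), abs_of_pos hr0]
      congr 1
      (clear * - hr0; field_simp)
    rw [← mul_assoc, ← mul_assoc, k, abs_neg, neg_smul, sub_eq_add_neg]
  simp only [e5]
  have m3 : Measurable fun o : S2 => ∫⁻ r in Ioi (0 : ℝ), ENNReal.ofReal (r ^ 2) *
        (ENNReal.ofReal ‖r • (o : V)‖⁻¹ * f (v + r • (o : V))) := by
    have h := mr 1
    simp only [one_mul] at h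
    exact Measurable.lintegral_prod_right' (ν := volume.restrict (Ioi (0 : ℝ))) h
  rw [lintegral_add_left m3]

/-- Carleman-type bound for the gain operator -/
theorem carleman {f : V → ℝ≥0∞} (hf : Measurable f) {h : V → S2 → ℝ≥0∞} {c : ℝ}
    (hc : 0 < c) (hm : Measurable fun p : V × S2 => h p.1 p.2)
    (hh : ∀ w (o : S2), h w o ≤
      ENNReal.ofReal (Real.exp (-(c * ‖w - (inner ℝ w (o : V) : ℝ) • (o : V)‖ ^ 2)))) (v : V) :
    ∫⁻ w, ∫⁻ o, kk v w o * (f (post v w o) * h w o) ∂surf ≤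
      G2 c * (2 * ∫⁻ y : V, ENNReal.ofReal ‖y - v‖⁻¹ * f y) := by
  have mk : Measurable fun p : V × S2 => kk v p.1 p.2 * (f (post v p.1 p.2) * h p.1 p.2) := by
    have k1 : Measurable fun p : V × S2 => ((v, p.1, p.2) : V × V × S2) := by fun_prop
    have k2 := measurable_kk.comp k1
    have k3 := (meas_post_comp hf).comp k1
    exact k2.mul (k3.mul hm)
  rw [lintegral_lintegral_swap mk.aemeasurable, ← line_polar hf v,
    ← lintegral_const_mul']
  · apply lintegral_mono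
    intro o
    simp only
    have hA : Measurable fun b : ℝ => ENNReal.ofReal |inner ℝ v (o : V) - b| *
        f (v + (b - inner ℝ v (o : V)) • (o : V)) := by
      apply Measurable.mul
      · exact (measurable_const.sub measurable_id).abs.ennreal_ofReal
      · exact hf.comp (measurable_const.add ((measurable_id.sub measurable_const).smul_const _))
    have hl := line_int o hA c
    have e1 : ∫⁻ r : ℝ, ENNReal.ofReal |inner ℝ v (o : V) - r| *
        f (v + (r - inner ℝ v (o : V)) • (o : V)) = ∫⁻ r : ℝ, ENNReal.ofReal |r| * f (v + r • (o : V)) := by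
      have h := lintegral_add_right_eq_self (μ := (volume : Measure ℝ))
        (fun r => ENNReal.ofReal |inner ℝ v (o : V) - r| *
        f (v + (r - inner ℝ v (o : V)) • (o : V))) (inner ℝ v (o : V))
      rw [← h]
      apply lintegral_congr
      intro r
      rw [add_sub_cancel_right, sub_add_cancel_right, abs_neg]
    rw [e1] at hl
    rw [← hl]
    apply lintegral_mono
    intro w
    simp only
    have e2 : relA v w o = inner ℝ v (o : V) - inner ℝ w (o : V) := by
      unfold relA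
      rw [inner_sub_left]
    have e3 : post v w o = v + (inner ℝ w (o : V) - inner ℝ v (o : V) : ℝ) • (o : V) := by
      unfold post
      rw [e2, sub_eq_add_neg, ← neg_smul, neg_sub]
    unfold kk
    rw [e2, e3, mul_assoc]
    gcongr
    exact hh w o
  · exact G2_ne_top hc

end Vale.Agent.P140
end

section

/-! Gaussian weights: moments, loss and gain operators; Duhamel operator on explicit functions. -/

open MeasureTheory Set Filter Metric
open scoped ENNReal Topology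

namespace Vale.Agent.P140

theorem lintegral_gau {c : ℝ} (hc : 0 < c) : ∫⁻ v, gau c v ≠ ⊤ := by
  have h := GaussianFourier.integrable_cexp_neg_mul_sq_norm_add (V := V) (b := (c : ℂ))
    (by simpa only [Complex.ofReal_re] using hc) 0 (0 : V)
  have h2 := h.2
  unfold HasFiniteIntegral at h2
  refine ne_of_lt (lt_of_le_of_lt (lintegral_mono fun v => ?_) h2)
  rw [← ofReal_norm, Complex.norm_exp]
  unfold gau
  apply ENNReal.ofReal_le_ofReal
  rw [Real.exp_le_exp]
  apply le_of_eq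
  have : (-(c : ℂ) * (‖v‖ : ℂ) ^ 2 + 0 * ((inner ℝ (0 : V) v : ℝ) : ℂ)) = ((-(c * ‖v‖ ^ 2) : ℝ) : ℂ) := by
    push_cast
    ring
  rw [this, Complex.ofReal_re]

theorem ph_pow_gau_le (j : ℕ) {c : ℝ} (hc : 0 < c) : ∃ C : ℝ≥0∞, C ≠ ⊤ ∧
    ∀ v, gau c v * ph v ^ j ≤ C * gau (c / 2) v := by
  refine ⟨ENNReal.ofReal (j.factorial * (2 / c) ^ j * Real.exp (c / 2)), ENNReal.ofReal_ne_top,
    fun v => ?_⟩
  unfold gau ph
  rw [← ENNReal.ofReal_pow (by (clear * -; positivity)), ← ENNReal.ofReal_mul (by positivity),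
    ← ENNReal.ofReal_mul (by positivity)]
  apply ENNReal.ofReal_le_ofReal
  have h1 := Real.pow_div_factorial_le_exp (c / 2 * (1 + ‖v‖ ^ 2)) (by positivity) j
  have hj : (0 : ℝ) < j.factorial := by positivity
  rw [div_le_iff₀ hj, mul_pow] at h1
  have h2 : (1 + ‖v‖ ^ 2) ^ j ≤ (2 / c) ^ j * (Real.exp (c / 2 * (1 + ‖v‖ ^ 2)) * j.factorial) := by
    calc (1 + ‖v‖ ^ 2) ^ j = (2 / c) ^ j * ((c / 2) ^ j * (1 + ‖v‖ ^ 2) ^ j) := by
          rw [← mul_assoc, ← mul_pow, div_mul_div_comm, mul_comm 2 c, div_self (by positivity),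
            one_pow, one_mul]
      _ ≤ _ := by (clear * - h1 hc; gcongr)
  calc Real.exp (-(c * ‖v‖ ^ 2)) * (1 + ‖v‖ ^ 2) ^ j
      ≤ Real.exp (-(c * ‖v‖ ^ 2)) *
        ((2 / c) ^ j * (Real.exp (c / 2 * (1 + ‖v‖ ^ 2)) * j.factorial)) := by (clear * - h2; gcongr)
    _ = j.factorial * (2 / c) ^ j * (Real.exp (-(c * ‖v‖ ^ 2)) *
        Real.exp (c / 2 * (1 + ‖v‖ ^ 2))) := by ring
    _ = j.factorial * (2 / c) ^ j * (Real.exp (c / 2) * Real.exp (-(c / 2 * ‖v‖ ^ 2))) := by
        rw [← Real.exp_add, ← Real.exp_add]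
        congr 2
        ring
    _ = _ := by ring

theorem Mo_gau (j : ℕ) {c : ℝ} (hc : 0 < c) : Mo j (gau c) ≠ ⊤ := by
  obtain ⟨C, hC, h⟩ := ph_pow_gau_le j hc
  unfold Mo
  refine ne_top_of_le_ne_top ?_ (lintegral_mono h)
  rw [lintegral_const_mul' _ _ hC]
  exact ENNReal.mul_ne_top hC (lintegral_gau (by positivity))

theorem gau_post (c : ℝ) (v w : V) (o : S2) :
    gau c (post v w o) * gau c (postStar v w o) = gau c v * gau c w := by
  unfold gau
  rw [← ENNReal.ofReal_mul (by positivity), ← ENNReal.ofReal_mul (by positivity),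
    ← Real.exp_add, ← Real.exp_add]
  congr 2
  have := energy_post v w o
  linear_combination (-c) * this

theorem gau_ne_zero (c : ℝ) (v : V) : gau c v ≠ 0 := by
  unfold gau
  rw [ne_eq, ENNReal.ofReal_eq_zero, not_le]
  positivity

theorem Bg_gau (c : ℝ) (v : V) : Bg (gau c) (gau c) v = gau c v * Ln (gau c) v := by
  unfold Bg Ln
  rw [← lintegral_const_mul' _ _ (gau_ne_top c v)]
  apply lintegral_congr
  intro w
  rw [← lintegral_const_mul' _ _ (gau_ne_top c v)]
  apply lintegral_congr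
  intro o
  rw [gau_post]
  ring

theorem Ln_le_ph {f : V → ℝ≥0∞} (hf : Measurable f) (v : V) : Ln f v ≤ Ss * Mo 1 f * ph v := by
  unfold Ln Mo
  calc ∫⁻ w, ∫⁻ o, kk v w o * f w ∂surf ≤ ∫⁻ w, ∫⁻ _, (ph v * ph w) * f w ∂surf := by
        gcongr with w o
        exact kk_le_mul v w o
    _ = ∫⁻ w, Ss * ph v * (f w * ph w ^ 1) := by
        apply lintegral_congr
        intro w
        rw [lintegral_const]
        change _ * Ss = _
        ring
    _ = Ss * ph v * ∫⁻ w, f w * ph w ^ 1 := by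
        rw [lintegral_const_mul]
        exact hf.mul (measurable_phpow 1)
    _ = _ := by ring

/-- Duhamel operator on explicit functions -/
theorem duh_of_deriv {l t : ℝ} (ht : 0 ≤ t) {y y' : ℝ → ℝ}
    (hy : ∀ s ∈ Icc 0 t, HasDerivAt y (y' s) s) (hc : ContinuousOn y' (Icc 0 t))
    (hn : ∀ s ∈ Ioc 0 t, 0 ≤ y' s + l * y s) (h0 : 0 ≤ y 0) :
    duh l (ENNReal.ofReal (y 0)) (fun s => ENNReal.ofReal (y' s + l * y s)) t =
      ENNReal.ofReal (y t) := by
  have hyc : ContinuousOn y (Icc 0 t) := fun s hs => (hy s hs).continuousAt.continuousWithinAt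
  have hce : ContinuousOn (fun s => Real.exp (-l * (t - s)) * (y' s + l * y s)) (Icc 0 t) := by
    apply ContinuousOn.mul
    · apply Continuous.continuousOn
      fun_prop
    · exact hc.add (hyc.const_mul l |>.congr fun s _ => by simp)
  have hi : IntervalIntegrable (fun s => Real.exp (-l * (t - s)) * (y' s + l * y s)) volume 0 t := by
    apply ContinuousOn.intervalIntegrable
    rwa [uIcc_of_le ht]
  have hint : ∫ s in (0 : ℝ)..t, Real.exp (-l * (t - s)) * (y' s + l * y s) =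
      Real.exp (-l * (t - t)) * y t - Real.exp (-l * (t - 0)) * y 0 := by
    apply intervalIntegral.integral_eq_sub_of_hasDerivAt
      (f := fun s => Real.exp (-l * (t - s)) * y s) _ hi
    intro s hs
    rw [uIcc_of_le ht] at hs
    have h1 : HasDerivAt (fun s : ℝ => Real.exp (-l * (t - s))) (Real.exp (-l * (t - s)) * l) s := by
      have h2 : HasDerivAt (fun s : ℝ => -l * (t - s)) l s := by
        have h3 := ((hasDerivAt_id s).const_sub t).const_mul (-l)
        simpa only [neg_mul, id_eq, mul_neg, mul_one, neg_neg] using h3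
      exact h2.exp
    have h4 := h1.mul (hy s hs)
    convert! h4 using 1
    ring
  rw [sub_self, mul_zero, Real.exp_zero, one_mul, sub_zero] at hint
  unfold duh
  have e1 : ∫⁻ s in Ioc 0 t, ENNReal.ofReal (Real.exp (-l * (t - s))) *
      ENNReal.ofReal (y' s + l * y s) =
      ENNReal.ofReal (∫ s in (0 : ℝ)..t, Real.exp (-l * (t - s)) * (y' s + l * y s)) := by
    rw [intervalIntegral.integral_of_le ht, ofReal_integral_eq_lintegral_ofReal]
    · apply setLIntegral_congr_fun measurableSet_Ioc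
      intro s hs
      simp only
      rw [ENNReal.ofReal_mul (by positivity)]
    · exact (intervalIntegrable_iff_integrableOn_Ioc_of_le ht).mp hi
    · rw [EventuallyLE, ae_restrict_iff' measurableSet_Ioc]
      filter_upwards with s hs
      exact mul_nonneg (Real.exp_pos _).le (hn s hs)
  rw [e1, ← ENNReal.ofReal_mul (by positivity), ← ENNReal.ofReal_add (by (clear * - h0; positivity)), hint]
  · congr 1
    ring
  · rw [intervalIntegral.integral_of_le ht]
    apply setIntegral_nonneg measurableSet_Ioc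
    intro s hs
    exact mul_nonneg (Real.exp_pos _).le (hn s hs)

end Vale.Agent.P140
end

section

/-! A priori bound near equilibrium (double Duhamel argument). -/

open MeasureTheory Set Filter
open scoped ENNReal Topology NNReal

noncomputable section

namespace Vale.Agent.P140

theorem exists_small {K c : ℝ≥0∞} (hK : K ≠ ⊤) (hc : c ≠ 0) :
    ∃ δ : ℝ, 0 < δ ∧ K * ENNReal.ofReal δ ≤ c := by
  set c' : ℝ≥0∞ := min c 1 with hc'
  have h1 : c' ≠ 0 := by
    rw [hc']
    exact (lt_min (pos_iff_ne_zero.mpr hc) one_pos).ne'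
  have h2 : c' ≠ ⊤ := ne_top_of_le_ne_top ENNReal.one_ne_top (min_le_right _ _)
  have h3 : K + 1 ≠ ⊤ := ENNReal.add_ne_top.mpr ⟨hK, ENNReal.one_ne_top⟩
  have h4 : K + 1 ≠ 0 := by simp only [ne_eq, add_eq_zero, one_ne_zero, and_false, not_false_eq_true]
  have h5 : c' / (K + 1) ≠ ⊤ := ENNReal.div_ne_top h2 h4
  refine ⟨(c' / (K + 1)).toReal, ENNReal.toReal_pos (ENNReal.div_ne_zero.mpr ⟨h1, h3⟩) h5, ?_⟩
  rw [ENNReal.ofReal_toReal h5]
  calc K * (c' / (K + 1)) ≤ (K + 1) * (c' / (K + 1)) := by gcongr; exact le_self_add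
    _ = c' := ENNReal.mul_div_cancel h4 h3
    _ ≤ c := min_le_left _ _

theorem duh_ofReal_const {l t : ℝ} (hl : 0 ≤ l) (ht : 0 ≤ t) :
    duh l 0 (fun _ => ENNReal.ofReal l) t ≤ 1 := by
  have h := duh_of_deriv (l := l) ht (y := fun s => 1 - Real.exp (-l * s))
    (y' := fun s => l * Real.exp (-l * s)) (fun s _ => by
      have h1 : HasDerivAt (fun s : ℝ => -l * s) (-l) s := by
        simpa only [neg_mul, id_eq, mul_one] using (hasDerivAt_id s).const_mul (-l)
      have h2 := h1.exp.const_sub 1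
      convert! h2 using 1
      ring) (by apply Continuous.continuousOn; (clear * -; fun_prop)) (fun s hs => by
      have h3 : Real.exp (-l * s) ≤ 1 := by
        rw [Real.exp_le_one_iff]
        linarith only [mul_nonneg (sub_nonneg.2 hl) (le_of_lt (sub_pos.2 hs.1))]
      linarith) (by simp)
  have e1 : ENNReal.ofReal (1 - Real.exp (-l * 0)) = 0 := by simp
  rw [e1] at h
  have e2 : (fun s => ENNReal.ofReal (l * Real.exp (-l * s) + l * (1 - Real.exp (-l * s)))) =
      fun _ => ENNReal.ofReal l := by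
    funext s
    congr 1
    ring
  rw [e2] at h
  rw [h]
  rw [← ENNReal.ofReal_one]
  apply ENNReal.ofReal_le_ofReal
  have := Real.exp_pos (-l * t)
  linarith only [this]

theorem duh_const_le {l t : ℝ} (hl : 0 ≤ l) (ht : 0 ≤ t) (c : ℝ≥0∞) :
    ENNReal.ofReal l * duh l 0 (fun _ => c) t ≤ c := by
  by_cases hc : c = ⊤
  · rw [hc]; exact le_top
  have e1 : (fun _ : ℝ => c) = fun _ : ℝ => c * 1 := by simp
  calc ENNReal.ofReal l * duh l 0 (fun _ => c) t
      = ENNReal.ofReal l * (c * duh l 0 (fun _ => 1) t) := by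
        rw [← duh_const_mul l hc (fun _ => 1) t]
        simp
    _ = c * duh l 0 (fun _ => ENNReal.ofReal l * 1) t := by
        rw [duh_const_mul l ENNReal.ofReal_ne_top (fun _ => 1) t]
        ring
    _ ≤ c * 1 := by
        gcongr
        simp only [mul_one]
        exact duh_ofReal_const hl ht
    _ = c := mul_one c

theorem duh_l_const_le {l t : ℝ} (hl : 0 ≤ l) (ht : 0 ≤ t) (q : ℝ≥0∞) :
    duh l 0 (fun _ => ENNReal.ofReal l * q) t ≤ q := by
  by_cases hc : q = ⊤
  · rw [hc]; exact le_top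
  have e1 : (fun _ : ℝ => ENNReal.ofReal l * q) = fun _ : ℝ => q * ENNReal.ofReal l := by
    funext s; ring
  rw [e1, duh_const_mul l hc (fun _ => ENNReal.ofReal l) t]
  calc q * duh l 0 (fun _ => ENNReal.ofReal l) t ≤ q * 1 := by
        gcongr
        exact duh_ofReal_const hl ht
    _ = q := mul_one q

theorem duh_h0_le {l t : ℝ} (hl : 0 ≤ l) (ht : 0 ≤ t) (h0 : ℝ≥0∞) (G : ℝ → ℝ≥0∞) :
    duh l h0 G t ≤ h0 + duh l 0 G t := by
  unfold duh
  rw [mul_zero, zero_add]
  gcongr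
  calc ENNReal.ofReal (Real.exp (-l * t)) * h0 ≤ 1 * h0 := by
        gcongr
        rw [ENNReal.ofReal_le_one, Real.exp_le_one_iff]
        (clear * - hl ht; linarith only [mul_nonneg (sub_nonneg.2 hl) (sub_nonneg.2 ht)])
    _ = h0 := one_mul _

theorem joint_Bg {α : Type*} [MeasurableSpace α] {f g : α → V → ℝ≥0∞}
    (hf : Measurable fun p : α × V => f p.1 p.2) (hg : Measurable fun p : α × V => g p.1 p.2) :
    Measurable fun p : α × V => Bg (f p.1) (g p.1) p.2 := by
  unfold Bg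
  exact joint_int (H := fun q : ((α × V) × V) × S2 => kk q.1.1.2 q.1.2 q.2 *
    (f q.1.1.1 (post q.1.1.2 q.1.2 q.2) * g q.1.1.1 (postStar q.1.1.2 q.1.2 q.2)))
    (joint_kk.mul ((joint_post hf).mul (joint_postStar hg)))

theorem joint_KB {α : Type*} [MeasurableSpace α] {M : V → ℝ≥0∞} (hM : Measurable M)
    {h : α → V → ℝ≥0∞} (hh : Measurable fun p : α × V => h p.1 p.2) :
    Measurable fun p : α × V => KB M (h p.1) p.2 := by
  unfold KB
  have hM' : Measurable fun p : α × V => (fun _ : α => M) p.1 p.2 := hM.comp measurable_snd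
  exact ((joint_Bg (f := fun _ => M) hM' hh).add (joint_Bg (g := fun _ => M) hh hM')).add
    ((hM.comp measurable_snd).mul (joint_Ln hh))

theorem measTF_KB {M : V → ℝ≥0∞} (hM : Measurable M) {h : TF} (hh : MeasTF h) :
    MeasTF (fun t x v => KB M (h t x) v) := by
  apply MeasTF.of_assoc
  exact joint_KB hM (α := ℝ × T3) (h := fun q => h q.1 q.2) hh.assoc

theorem KB_mono {M h h' : V → ℝ≥0∞} (hle : ∀ v, h v ≤ h' v) (v : V) : KB M h v ≤ KB M h' v := by
  unfold KB
  gcongr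
  · exact Bg_mono (fun _ => le_rfl) hle v
  · exact Bg_mono hle (fun _ => le_rfl) v
  · exact Ln_mono hle v

variable {M ζ : V → ℝ≥0∞} {CK C5 CM : ℝ≥0∞} {ν0 : ℝ}

theorem NE.ofReal_nu (N : NE M ζ CK C5 CM ν0) (v : V) : ENNReal.ofReal (nu M v) = Ln M v :=
  ENNReal.ofReal_toReal (N.fν v)

theorem NE.KB_le (N : NE M ζ CK C5 CM ν0) {h : V → ℝ≥0∞} {r : ℝ≥0∞}
    (hle : ∀ v, h v ≤ r * ζ v) (v : V) : KB M h v ≤ CK * r * ζ v := by
  have mr : Measurable fun w => r * ζ w := N.mζ.const_mul r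
  calc KB M h v ≤ KB M (fun w => r * ζ w) v := KB_mono hle v
    _ = r * KB M ζ v := by
        unfold KB
        have e1 := Bg_const_mul N.mM N.mζ 1 r v
        have e2 := Bg_const_mul N.mζ N.mM r 1 v
        simp only [one_mul, mul_one] at e1 e2
        rw [e1, e2, Ln_const_mul N.mζ]
        ring
    _ ≤ r * (CK * ζ v) := by
        gcongr
        exact N.KBζ v
    _ = _ := by ring

theorem NE.quad_le (N : NE M ζ CK C5 CM ν0) {h : V → ℝ≥0∞} {r : ℝ≥0∞}
    (hle : ∀ v, h v ≤ r * ζ v) (v : V) :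
    Bg h h v + h v * Ln h v ≤ ENNReal.ofReal (nu M v) * (2 * C5 * (r * r) * ζ v) := by
  rw [N.ofReal_nu]
  calc Bg h h v + h v * Ln h v
      ≤ Bg (fun w => r * ζ w) (fun w => r * ζ w) v + (r * ζ v) * Ln (fun w => r * ζ w) v := by
        gcongr
        · exact Bg_mono hle hle v
        · exact hle v
        · exact Ln_mono hle v
    _ = 2 * (r * r) * ζ v * Ln ζ v := by
        rw [Bg_const_mul N.mζ N.mζ, Ln_const_mul N.mζ, N.eqζ]
        ring
    _ ≤ 2 * (r * r) * ζ v * (C5 * Ln M v) := by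
        gcongr
        exact N.Lnζ v
    _ = _ := by ring

/-- first reduction: only the linear operator remains -/
theorem NE.duh_SS_le (N : NE M ζ CK C5 CM ν0) {T : ℝ} {h : TF} {r ε : ℝ≥0∞}
    (hb : ∀ t ∈ Ioc 0 T, ∀ x v, h t x v ≤ r * ζ v) {t : ℝ} (ht : t ∈ Ioc 0 T) (p : T3 × V)
    {h0 : ℝ≥0∞} (hh0 : h0 ≤ ε * ζ p.2) :
    duh (nu M p.2) h0 (fun s => SS M (h s (flow s p).1) p.2) t ≤
      (ε + 2 * C5 * (r * r)) * ζ p.2 +
        duh (nu M p.2) 0 (fun s => KB M (h s (flow s p).1) p.2) t := by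
  have hnu := nu_nonneg M p.2
  set q : ℝ≥0∞ := 2 * C5 * (r * r) * ζ p.2 with hq
  calc duh (nu M p.2) h0 (fun s => SS M (h s (flow s p).1) p.2) t
      ≤ duh (nu M p.2) (h0 + 0) (fun s => ENNReal.ofReal (nu M p.2) * q +
          KB M (h s (flow s p).1) p.2) t := by
        apply duh_mono_on _ (by rw [add_zero])
        intro s hs
        unfold SS
        rw [add_comm]
        gcongr
        exact N.quad_le (hb s ⟨hs.1, hs.2.trans ht.2⟩ _) _
    _ = duh (nu M p.2) h0 (fun _ => ENNReal.ofReal (nu M p.2) * q) t +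
        duh (nu M p.2) 0 (fun s => KB M (h s (flow s p).1) p.2) t :=
        duh_add _ _ _ measurable_const _ _
    _ ≤ (ε * ζ p.2 + q) + duh (nu M p.2) 0 (fun s => KB M (h s (flow s p).1) p.2) t := by
        gcongr ?_ + _
        refine (duh_h0_le hnu ht.1.le _ _).trans ?_
        gcongr
        exact duh_l_const_le hnu ht.1.le q
    _ = _ := by rw [hq]; ring

end Vale.Agent.P140
end
end

section

/-! A priori bound near equilibrium: averages in velocity. -/

open MeasureTheory Set Filter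
open scoped ENNReal Topology NNReal

noncomputable section

namespace Vale.Agent.P140

variable {M ζ : V → ℝ≥0∞} {CK C5 CM : ℝ≥0∞} {ν0 : ℝ}

theorem flow_back (s τ : ℝ) (X : T3) (y : V) :
    (flow τ (flow (-s) (X, y))).1 = X - toTorus ((s - τ) • y) := by
  unfold flow
  simp only
  rw [add_assoc, ← toTorus_add, ← add_smul, sub_eq_add_neg, ← toTorus_neg, ← neg_smul]
  congr 3
  ring

theorem NE.inv_ne_top (N : NE M ζ CK C5 CM ν0) : (ENNReal.ofReal ν0)⁻¹ ≠ ⊤ := by
  rw [ENNReal.inv_ne_top]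
  exact (ENNReal.ofReal_pos.mpr N.pν0).ne'

theorem NE.duh_le_inv (N : NE M ζ CK C5 CM ν0) {t : ℝ} (ht : 0 ≤ t) {l : ℝ} (hl : ν0 ≤ l)
    (c : ℝ≥0∞) : duh l 0 (fun _ => c) t ≤ (ENNReal.ofReal ν0)⁻¹ * c := by
  have h1 := duh_const_le (l := l) (N.pν0.le.trans hl) ht c
  have h0 : ENNReal.ofReal ν0 ≠ 0 := (ENNReal.ofReal_pos.mpr N.pν0).ne'
  calc duh l 0 (fun _ => c) t
      = (ENNReal.ofReal ν0)⁻¹ * (ENNReal.ofReal ν0 * duh l 0 (fun _ => c) t) := by
        rw [← mul_assoc, ENNReal.inv_mul_cancel h0 ENNReal.ofReal_ne_top, one_mul]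
    _ ≤ (ENNReal.ofReal ν0)⁻¹ * (ENNReal.ofReal l * duh l 0 (fun _ => c) t) := by
        (clear * - hl; gcongr)
    _ ≤ _ := by (clear * - h1; gcongr)

theorem NE.ν0_le_nu (N : NE M ζ CK C5 CM ν0) (v : V) : ν0 ≤ nu M v := by
  have h := N.lowν v
  rw [← N.ofReal_nu] at h
  exact (ENNReal.ofReal_le_ofReal_iff (nu_nonneg M v)).mp h

/-- bound of velocity averages -/
theorem NE.avg_bound (N : NE M ζ CK C5 CM ν0) {N1 N2 κ2 : ℝ} (hκ2 : 0 < κ2) {δ2 C2 Cc : ℝ≥0∞}
    (hs2 : ∀ h : V → ℝ≥0∞, Measurable h → ∀ r : ℝ≥0∞, (∀ v, h v ≤ r * ζ v) →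
      ∀ v, ‖v‖ ≤ N1 → KB M h v ≤ δ2 * r + C2 * ∫⁻ y in {y : V | ‖y‖ ≤ N2}, h y)
    (hcov : ∀ b : T3 → ℝ≥0∞, Measurable b → ∀ (X : T3) (σ : ℝ), κ2 ≤ σ →
      ∫⁻ y in {y : V | ‖y‖ ≤ N1}, b (X - toTorus (σ • y)) ≤ Cc * ∫⁻ x, b x)
    {T : ℝ} {h : TF} (mh : MeasTF h) {r E η : ℝ≥0∞}
    (hb : ∀ t ∈ Ioc 0 T, ∀ x v, h t x v ≤ r * ζ v)
    (hP : ∀ᵐ p : T3 × V, ∀ᵐ t ∂(volume.restrict (Ioc 0 T)), h t (flow t p).1 p.2 ≤ E * ζ p.2 +
      duh (nu M p.2) 0 (fun s => KB M (h s (flow s p).1) p.2) t)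
    (hL : ∀ᵐ t ∂(volume.restrict (Ioc 0 T)), ∫⁻ p : T3 × V, h t p.1 p.2 ≤ η) :
    ∀ᵐ q ∂((volume.restrict (Ioc 0 T)).prod (volume : Measure T3)),
      ∫⁻ y in {y : V | ‖y‖ ≤ N1}, h q.1 q.2 y ≤ E * (∫⁻ y, ζ y) +
        (CK * r * (∫⁻ y, ζ y) * ENNReal.ofReal κ2 +
          (ENNReal.ofReal ν0)⁻¹ * (δ2 * r) * volume {y : V | ‖y‖ ≤ N1} +
          (ENNReal.ofReal ν0)⁻¹ * (C2 * (Cc * η))) := by
  have mB : MeasurableSet {y : V | ‖y‖ ≤ N1} := measurableSet_le measurable_norm measurable_const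
  -- measurability of the inequality in `hP`
  have mK : Measurable fun q : ℝ × T3 × V => KB M (h q.1 q.2.1) q.2.2 := measTF_KB N.mM mh
  have mK2 : Measurable fun q : ℝ × (T3 × V) => KB M (h q.1 (flow q.1 q.2).1) q.2.2 :=
    (mK.comp measurable_stFlow :)
  have mD : Measurable fun q : ℝ × (T3 × V) => duh (nu M q.2.2) 0
      (fun s => KB M (h s (flow s q.2).1) q.2.2) q.1 :=
    measurable_duh_param (α := T3 × V) (l := fun p => nu M p.2) (h0 := fun _ => 0)
      ((measurable_nu N.mM).comp measurable_snd) measurable_const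
      (G := fun s p => KB M (h s (flow s p).1) p.2) mK2
  have hset : MeasurableSet {q : ℝ × T3 × V | h q.1 (flow q.1 q.2).1 q.2.2 ≤ E * ζ q.2.2 +
      duh (nu M q.2.2) 0 (fun s => KB M (h s (flow s q.2).1) q.2.2) q.1} := by
    apply measurableSet_le
    · exact mh.comp measurable_stFlow
    · exact ((N.mζ.comp measurable_snd.snd).const_mul E).add mD
  have h1 := ae_of_ae_flow (μ := volume.restrict (Ioc 0 T))
    (P := fun q => h q.1 (flow q.1 q.2).1 q.2.2 ≤ E * ζ q.2.2 +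
      duh (nu M q.2.2) 0 (fun s => KB M (h s (flow s q.2).1) q.2.2) q.1) hset hP
  have h2 := ae_sX h1
  -- averages over `‖z‖ ≤ N2`
  set b : ℝ → T3 → ℝ≥0∞ := fun τ Z => ∫⁻ z in {z : V | ‖z‖ ≤ N2}, h τ Z z with hbdef
  have mb : Measurable fun q : ℝ × T3 => b q.1 q.2 := by
    have := mh.assoc
    exact Measurable.lintegral_prod_right' (ν := (volume : Measure V).restrict {z : V | ‖z‖ ≤ N2}) this
  have hbη : ∀ᵐ t ∂(volume.restrict (Ioc 0 T)), ∫⁻ x, b t x ≤ η := by
    filter_upwards [hL] with t ht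
    refine le_trans ?_ ht
    have mt : Measurable fun p : T3 × V => h t p.1 p.2 :=
      mh.comp (by fun_prop : Measurable fun p : T3 × V => (t, p.1, p.2))
    rw [Measure.volume_eq_prod, lintegral_prod _ mt.aemeasurable]
    apply lintegral_mono
    intro x
    exact setLIntegral_le_lintegral _ _
  have hT : ∀ᵐ q ∂((volume.restrict (Ioc 0 T)).prod (volume : Measure T3)), q.1 ∈ Ioc 0 T := by
    have h3 : ∀ᵐ t ∂(volume.restrict (Ioc 0 T)), t ∈ Ioc 0 T := ae_restrict_mem measurableSet_Ioc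
    exact Measure.quasiMeasurePreserving_fst.ae h3
  filter_upwards [h2, hT] with q hq hqT
  obtain ⟨s, X⟩ := q
  simp only at hq hqT ⊢
  set B : Set V := {y : V | ‖y‖ ≤ N1} with hB
  set ex : ℝ → ℝ≥0∞ := fun τ => ENNReal.ofReal (Real.exp (-ν0 * (s - τ))) with hex
  have mex : Measurable ex := by
    apply ENNReal.measurable_ofReal.comp
    apply Continuous.measurable
    fun_prop
  set iA : ℝ → ℝ≥0∞ := fun τ => if s - τ < κ2 then 1 else 0 with hiA
  set iB : ℝ → ℝ≥0∞ := fun τ => if κ2 ≤ s - τ then 1 else 0 with hiB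
  have miA : Measurable iA := Measurable.ite
    (measurableSet_lt (measurable_const.sub measurable_id) measurable_const)
    measurable_const measurable_const
  have miB : Measurable iB := Measurable.ite
    (measurableSet_le measurable_const (measurable_const.sub measurable_id))
    measurable_const measurable_const
  have mbs : Measurable fun z : V × ℝ => b z.2 (X - toTorus ((s - z.2) • z.1)) := by
    have hmap : Measurable fun z : V × ℝ => ((z.2, X - toTorus ((s - z.2) • z.1)) : ℝ × T3) := by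
      apply measurable_snd.prodMk
      apply measurable_const.sub
      exact measurable_toTorus.comp ((measurable_const.sub measurable_snd).smul measurable_fst)
    exact mb.comp hmap
  set T1 : V → ℝ≥0∞ := fun y => ∫⁻ τ in Ioc 0 s, iB τ * ex τ * C2 *
    b τ (X - toTorus ((s - τ) • y)) with hT1
  have mT1i : Measurable fun z : V × ℝ => iB z.2 * ex z.2 * C2 *
      b z.2 (X - toTorus ((s - z.2) • z.1)) :=
    (((miB.comp measurable_snd).mul (mex.comp measurable_snd)).mul measurable_const).mul mbs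
  have mT1 : Measurable T1 :=
    Measurable.lintegral_prod_right' (ν := volume.restrict (Ioc 0 s)) mT1i
  have hs0 : 0 < s := hqT.1
  -- pointwise bound of the Duhamel term
  have hpt : ∀ y ∈ B, duh (nu M y) 0 (fun τ => KB M (h τ (flow τ (flow (-s) (X, y))).1) y) s ≤
      CK * r * ζ y * ENNReal.ofReal κ2 + ((ENNReal.ofReal ν0)⁻¹ * (δ2 * r) + T1 y) := by
    intro y hy
    have mbsy : Measurable fun τ : ℝ => b τ (X - toTorus ((s - τ) • y)) :=
      mbs.comp (by fun_prop : Measurable fun τ : ℝ => (y, τ))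
    have a1 : duh (nu M y) 0 (fun τ => KB M (h τ (flow τ (flow (-s) (X, y))).1) y) s ≤
        ∫⁻ τ in Ioc 0 s, (iA τ * (CK * r * ζ y) + (ex τ * (δ2 * r) + iB τ * ex τ * C2 *
          b τ (X - toTorus ((s - τ) • y)))) := by
      unfold duh
      rw [mul_zero, zero_add]
      apply setLIntegral_mono' measurableSet_Ioc
      intro τ hτ
      have hτT : τ ∈ Ioc 0 T := ⟨hτ.1, hτ.2.trans hqT.2⟩
      simp only [flow_back]
      have hexle : ENNReal.ofReal (Real.exp (-nu M y * (s - τ))) ≤ ex τ := by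
        rw [hex]
        apply ENNReal.ofReal_le_ofReal
        rw [Real.exp_le_exp]
        have := N.ν0_le_nu y
        linarith only [mul_nonneg (sub_nonneg.2 this) (sub_nonneg.2 hτ.2)]
      have hex1 : ex τ ≤ 1 := by
        rw [hex]
        simp only
        rw [ENNReal.ofReal_le_one, Real.exp_le_one_iff]
        nlinarith only [hτ.2, N.pν0]
      by_cases hc : s - τ < κ2
      · have e1 : iA τ = 1 := by rw [hiA]; exact if_pos hc
        rw [e1, one_mul]
        refine le_trans ?_ le_self_add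
        calc ENNReal.ofReal (Real.exp (-nu M y * (s - τ))) *
              KB M (h τ (X - toTorus ((s - τ) • y))) y
            ≤ 1 * (CK * r * ζ y) := by
              gcongr
              · exact hexle.trans hex1
              · exact N.KB_le (hb τ hτT _) y
          _ = _ := one_mul _
      · have e2 : iB τ = 1 := by rw [hiB]; exact if_pos (not_lt.mp hc)
        rw [e2, one_mul]
        refine le_trans ?_ le_add_self
        calc ENNReal.ofReal (Real.exp (-nu M y * (s - τ))) *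
              KB M (h τ (X - toTorus ((s - τ) • y))) y
            ≤ ex τ * (δ2 * r + C2 * b τ (X - toTorus ((s - τ) • y))) := by
              gcongr
              exact hs2 _ (mh.sec _ _) r (hb τ hτT _) y hy
          _ = _ := by ring
    refine a1.trans ?_
    rw [lintegral_add_left (miA.mul_const _), lintegral_add_left (mex.mul_const _)]
    gcongr ?_ + (?_ + _)
    · rw [lintegral_mul_const _ miA, mul_comm]
      gcongr
      calc ∫⁻ τ in Ioc 0 s, iA τ ≤ ∫⁻ τ in Ioc 0 s, (Ioc (s - κ2) s).indicator (fun _ => 1) τ := by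
            apply setLIntegral_mono' measurableSet_Ioc
            intro τ hτ
            rw [hiA]
            simp only
            by_cases hc : s - τ < κ2
            · rw [if_pos hc, indicator_of_mem (show τ ∈ Ioc (s - κ2) s from ⟨by linarith only [hc], hτ.2⟩)]
            · rw [if_neg hc]
              exact zero_le
        _ ≤ ∫⁻ τ, (Ioc (s - κ2) s).indicator (fun _ => 1) τ := setLIntegral_le_lintegral _ _
        _ = ENNReal.ofReal κ2 := by
            rw [lintegral_indicator measurableSet_Ioc, setLIntegral_const, Real.volume_Ioc]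
            simp
    · have a2 := N.duh_le_inv hs0.le le_rfl (δ2 * r)
      unfold duh at a2
      rw [mul_zero, zero_add] at a2
      exact a2
  -- integration over the ball
  have hfin : ∫⁻ y in B, T1 y ≤ (ENNReal.ofReal ν0)⁻¹ * (C2 * (Cc * η)) := by
    have e1 : ∫⁻ y in B, T1 y = ∫⁻ τ in Ioc 0 s, ∫⁻ y in B, iB τ * ex τ * C2 *
        b τ (X - toTorus ((s - τ) • y)) :=
      lintegral_lintegral_swap mT1i.aemeasurable
    rw [e1]
    have a2 := N.duh_le_inv hs0.le le_rfl (C2 * (Cc * η))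
    unfold duh at a2
    rw [mul_zero, zero_add] at a2
    refine le_trans ?_ a2
    apply lintegral_mono_ae
    filter_upwards [ae_restrict_of_ae_restrict_of_subset (Ioc_subset_Ioc_right hqT.2) hbη,
      ae_restrict_mem measurableSet_Ioc] with τ hτ hmem
    have mbτ : Measurable (b τ) := mb.comp (by fun_prop : Measurable fun x : T3 => (τ, x))
    have mby : Measurable fun y : V => b τ (X - toTorus ((s - τ) • y)) :=
      mbs.comp (by fun_prop : Measurable fun y : V => (y, τ))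
    rw [lintegral_const_mul _ mby]
    by_cases hc : κ2 ≤ s - τ
    · have e2 : iB τ = 1 := by rw [hiB]; exact if_pos hc
      rw [e2, one_mul, mul_assoc]
      gcongr
      exact (hcov (b τ) mbτ X (s - τ) hc).trans (by (clear * - hτ; gcongr))
    · have e2 : iB τ = 0 := by rw [hiB]; exact if_neg hc
      rw [e2]
      simp
  calc ∫⁻ y in B, h s X y
      ≤ ∫⁻ y in B, (E * ζ y + (CK * r * ζ y * ENNReal.ofReal κ2 +
          ((ENNReal.ofReal ν0)⁻¹ * (δ2 * r) + T1 y))) := by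
        apply lintegral_mono_ae
        filter_upwards [ae_restrict_of_ae hq, ae_restrict_mem mB] with y hy1 hy2
        refine le_trans ?_ (add_le_add le_rfl (hpt y hy2))
        have : (flow s (flow (-s) (X, y))) = (X, y) := flow_flow_neg s (X, y)
        rw [this] at hy1
        exact hy1
    _ = (∫⁻ y in B, E * ζ y) + ((∫⁻ y in B, CK * r * ζ y * ENNReal.ofReal κ2) +
          ((∫⁻ _ in B, (ENNReal.ofReal ν0)⁻¹ * (δ2 * r)) + ∫⁻ y in B, T1 y)) := by
        rw [lintegral_add_left (N.mζ.const_mul E), lintegral_add_left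
          ((N.mζ.const_mul _).mul_const _), lintegral_add_left measurable_const]
    _ ≤ E * (∫⁻ y, ζ y) + (CK * r * (∫⁻ y, ζ y) * ENNReal.ofReal κ2 +
          ((ENNReal.ofReal ν0)⁻¹ * (δ2 * r) * volume B +
          (ENNReal.ofReal ν0)⁻¹ * (C2 * (Cc * η)))) := by
        gcongr
        · rw [← lintegral_const_mul _ N.mζ]
          exact setLIntegral_le_lintegral _ _
        · rw [← lintegral_const_mul _ N.mζ, ← lintegral_mul_const _ (N.mζ.const_mul _)]
          exact setLIntegral_le_lintegral _ _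
        · rw [setLIntegral_const]
    _ = _ := by ring

end Vale.Agent.P140
end
end

section

/-! A priori bound near equilibrium: main estimate. -/

open MeasureTheory Set Filter
open scoped ENNReal Topology NNReal

noncomputable section

namespace Vale.Agent.P140

variable {M ζ : V → ℝ≥0∞} {CK C5 CM : ℝ≥0∞} {ν0 : ℝ}

theorem NE.int_ζ (N : NE M ζ CK C5 CM ν0) : ∫⁻ v, ζ v ≠ ⊤ := by
  have h := ne_top_of_le_ne_top N.momζ (Mo_mono (f := ζ) (i := 0) (j := 2) (by norm_num))
  unfold Mo at h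
  simpa using h

theorem volume_nball_ne_top (R : ℝ) : volume {y : V | ‖y‖ ≤ R} ≠ ⊤ := by
  have h : {y : V | ‖y‖ ≤ R} = Metric.closedBall 0 R := by
    ext y
    simp only [mem_ofPred_eq, Metric.mem_closedBall, dist_zero_right]
  rw [h]
  exact measure_closedBall_lt_top.ne

/-- **A priori bound.** -/
theorem NE.apriori (N : NE M ζ CK C5 CM ν0) {κ : ℝ≥0∞} (hκ : κ ≠ 0) : ∃ C : ℝ≥0∞, C ≠ ⊤ ∧
    ∀ (T : ℝ) (h : TF), MeasTF h → ∀ (h0 : T3 → V → ℝ≥0∞) (r ε η : ℝ≥0∞),
    (∀ t ∈ Ioc 0 T, ∀ x v, h t x v ≤ r * ζ v) →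
    (∀ᵐ p : T3 × V, h0 p.1 p.2 ≤ ε * ζ p.2) →
    (∀ᵐ p : T3 × V, ∀ᵐ t ∂(volume.restrict (Ioc 0 T)), h t (flow t p).1 p.2 ≤
      duh (nu M p.2) (h0 p.1 p.2) (fun s => SS M (h s (flow s p).1) p.2) t) →
    (∀ᵐ t ∂(volume.restrict (Ioc 0 T)), ∫⁻ p : T3 × V, h t p.1 p.2 ≤ η) →
    ∀ᵐ p : T3 × V, ∀ᵐ t ∂(volume.restrict (Ioc 0 T)), h t (flow t p).1 p.2 ≤
      (κ * r + C * (ε + r * r + η)) * ζ p.2 := by
  set I : ℝ≥0∞ := ∫⁻ v, ζ v with hI
  have fI : I ≠ ⊤ := N.int_ζ
  set ι : ℝ≥0∞ := (ENNReal.ofReal ν0)⁻¹ with hι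
  have fι : ι ≠ ⊤ := N.inv_ne_top
  set κ4 : ℝ≥0∞ := κ / 4 with hκ4
  have pκ4 : κ4 ≠ 0 := ENNReal.div_ne_zero.mpr ⟨hκ, by simp⟩
  obtain ⟨d1, hd1, hd1'⟩ := exists_small N.fCK pκ4
  obtain ⟨N0, hN0⟩ := N.large (ENNReal.ofReal d1) (ENNReal.ofReal_pos.mpr hd1).ne'
  obtain ⟨z, hz, hzζ⟩ := N.lowζ N0
  set zi : ℝ≥0∞ := z⁻¹ with hzi
  have fzi : zi ≠ ⊤ := ENNReal.inv_ne_top.mpr hz
  have fιz : ι * zi ≠ ⊤ := ENNReal.mul_ne_top fι fzi
  obtain ⟨δ1, hδ1, hδ1'⟩ := exists_small fιz pκ4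
  obtain ⟨N', C1, fC1, hsp1⟩ := N.split (ENNReal.ofReal δ1) (ENNReal.ofReal_pos.mpr hδ1).ne' N0
  set N1 : ℝ := max N' 1 with hN1
  have hN1p : 0 < N1 := lt_of_lt_of_le one_pos (le_max_right _ _)
  obtain ⟨κ2, hκ2, hκ2'⟩ := exists_small (K := ι * zi * C1 * CK * I)
    (ENNReal.mul_ne_top (ENNReal.mul_ne_top (ENNReal.mul_ne_top fιz fC1) N.fCK) fI) pκ4
  set vB : ℝ≥0∞ := volume {y : V | ‖y‖ ≤ N1} with hvB
  have fvB : vB ≠ ⊤ := volume_nball_ne_top N1
  obtain ⟨δ2, hδ2, hδ2'⟩ := exists_small (K := ι * zi * C1 * ι * vB)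
    (ENNReal.mul_ne_top (ENNReal.mul_ne_top (ENNReal.mul_ne_top fιz fC1) fι) fvB) pκ4
  obtain ⟨N2, C2, fC2, hsp2⟩ := N.split (ENNReal.ofReal δ2) (ENNReal.ofReal_pos.mpr hδ2).ne' N1
  obtain ⟨Cc, fCc, hcov⟩ := cover_bound N1 κ2 hN1p hκ2
  refine ⟨(1 + ι * zi * C1 * I) * (1 + 2 * C5) + ι * zi * C1 * (ι * (C2 * Cc)), ?_, ?_⟩
  · refine ENNReal.add_ne_top.mpr ⟨ENNReal.mul_ne_top (ENNReal.add_ne_top.mpr ⟨by simp,
      ENNReal.mul_ne_top (ENNReal.mul_ne_top fιz fC1) fI⟩) (ENNReal.add_ne_top.mpr ⟨by simp,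
      ENNReal.mul_ne_top (by simp) N.fC5⟩), ENNReal.mul_ne_top (ENNReal.mul_ne_top fιz fC1)
      (ENNReal.mul_ne_top fι (ENNReal.mul_ne_top fC2 fCc))⟩
  intro T h mh h0 r ε η hb hh0 hD hL
  set E : ℝ≥0∞ := ε + 2 * C5 * (r * r) with hE
  -- only the linear operator remains
  have hP : ∀ᵐ p : T3 × V, ∀ᵐ t ∂(volume.restrict (Ioc 0 T)), h t (flow t p).1 p.2 ≤ E * ζ p.2 +
      duh (nu M p.2) 0 (fun s => KB M (h s (flow s p).1) p.2) t := by
    filter_upwards [hD, hh0] with p hp1 hp2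
    filter_upwards [hp1, ae_restrict_mem measurableSet_Ioc] with t ht1 ht2
    exact ht1.trans (N.duh_SS_le hb ht2 p hp2)
  set A : ℝ≥0∞ := E * I + (CK * r * I * ENNReal.ofReal κ2 +
          ι * (ENNReal.ofReal δ2 * r) * vB + ι * (C2 * (Cc * η))) with hA
  have hav := N.avg_bound hκ2 hsp2 hcov mh hb hP hL
  have hav2 := ae_flow_x (μ := volume.restrict (Ioc 0 T))
    (P := fun q => ∫⁻ y in {y : V | ‖y‖ ≤ N1}, h q.1 q.2 y ≤ A) hav
  filter_upwards [hP, hav2] with p hp1 hp2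
  filter_upwards [hp1, ae_restrict_mem measurableSet_Ioc] with t ht1 ht2
  have hduh : duh (nu M p.2) 0 (fun s => KB M (h s (flow s p).1) p.2) t ≤
      (κ4 * r + ι * zi * (ENNReal.ofReal δ1 * r + C1 * A)) * ζ p.2 := by
    by_cases hv : ‖p.2‖ ≤ N0
    · have hz1 := hzζ p.2 hv
      have fz : z ≠ ⊤ := ne_top_of_le_ne_top (N.fζ _) hz1
      calc duh (nu M p.2) 0 (fun s => KB M (h s (flow s p).1) p.2) t
          ≤ duh (nu M p.2) 0 (fun _ => ENNReal.ofReal δ1 * r + C1 * A) t := by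
            apply duh_mono_ae _ le_rfl
            filter_upwards [ae_restrict_of_ae_restrict_of_subset (Ioc_subset_Ioc_right ht2.2) hp2,
              ae_restrict_mem measurableSet_Ioc] with s hs1 hs2
            refine (hsp1 _ (mh.sec _ _) r (hb s ⟨hs2.1, hs2.2.trans ht2.2⟩ _) _ hv).trans ?_
            gcongr
            refine le_trans ?_ hs1
            apply lintegral_mono_set
            intro y hy
            exact le_trans (show ‖y‖ ≤ N' from hy) (le_max_left _ _)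
        _ ≤ ι * (ENNReal.ofReal δ1 * r + C1 * A) := N.duh_le_inv ht2.1.le (N.ν0_le_nu _) _
        _ = ι * (ENNReal.ofReal δ1 * r + C1 * A) * (zi * z) := by
            rw [hzi, ENNReal.inv_mul_cancel hz fz, mul_one]
        _ ≤ ι * (ENNReal.ofReal δ1 * r + C1 * A) * (zi * ζ p.2) := by (clear * - hz1; gcongr)
        _ = ι * zi * (ENNReal.ofReal δ1 * r + C1 * A) * ζ p.2 := by ring
        _ ≤ _ := by
            gcongr
            exact le_add_self
    · have hv' : N0 < ‖p.2‖ := not_le.mp hv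
      have h1 := hN0 p.2 hv'
      calc duh (nu M p.2) 0 (fun s => KB M (h s (flow s p).1) p.2) t
          ≤ duh (nu M p.2) 0 (fun _ => CK * r * ζ p.2) t := by
            apply duh_mono_on _ le_rfl
            intro s hs
            exact N.KB_le (hb s ⟨hs.1, hs.2.trans ht2.2⟩ _) _
        _ = 1 * duh (nu M p.2) 0 (fun _ => CK * r * ζ p.2) t := (one_mul _).symm
        _ ≤ (ENNReal.ofReal d1 * Ln M p.2) * duh (nu M p.2) 0 (fun _ => CK * r * ζ p.2) t := by
            (clear * - h1; gcongr)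
        _ = ENNReal.ofReal d1 * (ENNReal.ofReal (nu M p.2) *
            duh (nu M p.2) 0 (fun _ => CK * r * ζ p.2) t) := by
            rw [N.ofReal_nu]
            ring
        _ ≤ ENNReal.ofReal d1 * (CK * r * ζ p.2) := by
            gcongr ENNReal.ofReal d1 * ?_
            exact duh_const_le (nu_nonneg _ _) ht2.1.le _
        _ = (CK * ENNReal.ofReal d1) * r * ζ p.2 := by ring
        _ ≤ κ4 * r * ζ p.2 := by (clear * - hd1'; gcongr)
        _ ≤ _ := by
            gcongr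
            exact le_self_add
  have hE2 : E ≤ (1 + 2 * C5) * (ε + r * r) := by
    rw [hE]
    calc ε + 2 * C5 * (r * r) ≤ (ε + 2 * C5 * (r * r)) + (r * r + 2 * C5 * ε) := le_self_add
      _ = _ := by ring
  have h4 : κ4 + κ4 + κ4 + κ4 = κ := by
    rw [hκ4, show κ / 4 + κ / 4 + κ / 4 + κ / 4 = 4 * (κ / 4) by ring,
      ENNReal.mul_div_cancel (by simp) (by simp)]
  calc h t (flow t p).1 p.2
      ≤ E * ζ p.2 + (κ4 * r + ι * zi * (ENNReal.ofReal δ1 * r + C1 * A)) * ζ p.2 :=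
        ht1.trans (by (clear * - hduh; gcongr))
    _ = (E * (1 + ι * zi * C1 * I) + (κ4 + (ι * zi) * ENNReal.ofReal δ1 +
          (ι * zi * C1 * CK * I) * ENNReal.ofReal κ2 +
          (ι * zi * C1 * ι * vB) * ENNReal.ofReal δ2) * r +
          ι * zi * C1 * (ι * (C2 * Cc)) * η) * ζ p.2 := by
        rw [hA]
        ring
    _ ≤ ((1 + 2 * C5) * (ε + r * r) * (1 + ι * zi * C1 * I) + (κ4 + κ4 + κ4 + κ4) * r +
          ι * zi * C1 * (ι * (C2 * Cc)) * η) * ζ p.2 := by
        (clear * - hE2 hδ1' hκ2' hδ2'; gcongr)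
    _ ≤ _ := by
        rw [h4]
        gcongr ?_ * _
        calc (1 + 2 * C5) * (ε + r * r) * (1 + ι * zi * C1 * I) + κ * r +
              ι * zi * C1 * (ι * (C2 * Cc)) * η
            ≤ ((1 + 2 * C5) * (ε + r * r) * (1 + ι * zi * C1 * I) + κ * r +
              ι * zi * C1 * (ι * (C2 * Cc)) * η) + ((1 + 2 * C5) * η * (1 + ι * zi * C1 * I) +
              ι * zi * C1 * (ι * (C2 * Cc)) * (ε + r * r)) := le_self_add
          _ = _ := by ring

end Vale.Agent.P140
end
end
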