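import Vale.Agent.P140.Bdl.B6
import Vale.Agent.P140.Bdl.B4
import Vale.Agent.P140.Bdl.B5

set_option linter.all false

attribute [local instance 5000] Vale.Agent.P140.Sc.a01 Vale.Agent.P140.Sc.a02 Vale.Agent.P140.Sc.a03 Vale.Agent.P140.Sc.a04 Vale.Agent.P140.Sc.a05 Vale.Agent.P140.Sc.a06 Vale.Agent.P140.Sc.a07 Vale.Agent.P140.Sc.a08 Vale.Agent.P140.Sc.a09 Vale.Agent.P140.Sc.a10 Vale.Agent.P140.Sc.a11 Vale.Agent.P140.Sc.a12 Vale.Agent.P140.Sc.a13 Vale.Agent.P140.Sc.a14 Vale.Agent.P140.Sc.a15 Vale.Agent.P140.Sc.a16 Vale.Agent.P140.Sc.a17 Vale.Agent.P140.Sc.a18 Vale.Agent.P140.Sc.a19 Vale.Agent.P140.Sc.a20 Vale.Agent.P140.Sc.a21 Vale.Agent.P140.Sc.a22 Vale.Agent.P140.Sc.a23 Vale.Agent.P140.Sc.a24 Vale.Agent.P140.Sc.a25 Vale.Agent.P140.Sc.a26 Vale.Agent.P140.Sc.a27 Vale.Agent.P140.Sc.a28 Vale.Agent.P140.Sc.a29 Vale.Agent.P140.Sc.a30 Vale.Agent.P140.Sc.a31 Vale.Agent.P140.Sc.a32 Vale.Agent.P140.Sc.a33 Vale.Agent.P140.Sc.r01 Vale.Agent.P140.Sc.r02 Vale.Agent.P140.Sc.r03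 Vale.Agent.P140.Sc.r04 Vale.Agent.P140.Sc.r05 Vale.Agent.P140.Sc.r06 Vale.Agent.P140.Sc.r07 Vale.Agent.P140.Sc.r08 Vale.Agent.P140.Sc.r09 Vale.Agent.P140.Sc.r10 Vale.Agent.P140.Sc.r11 Vale.Agent.P140.Sc.r12 Vale.Agent.P140.Sc.r13 Vale.Agent.P140.Sc.r14 Vale.Agent.P140.Sc.r15 Vale.Agent.P140.Sc.r16 Vale.Agent.P140.Sc.r17 Vale.Agent.P140.Sc.r18

section

/-! Collision inequalities for solutions at large distance from a Maxwellian. -/

open MeasureTheory Set Filter
open scoped ENNReal Topology NNReal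

noncomputable section

namespace Vale.Agent.P140

/-- perturbation operator when the loss frequency of the solution is kept -/
def S2c (M h : V → ℝ≥0∞) (v : V) : ℝ≥0∞ := KB M h v + Bg h h v

section
variable {M h fe : V → ℝ≥0∞}

theorem coll_lower (mM : Measurable M) (fM : ∀ v, M v ≠ ⊤) (eqM : ∀ v, Bg M M v = M v * Ln M v)
    (mfe : Measurable fe) (mh : Measurable h) (h2 : ∀ w, M w ≤ fe w + h w) (v : V) :
    M v * Ln M v ≤ Bg fe fe v + (Bg M h v + Bg h M v) := by
  rw [← eqM]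
  have e1 : Bg fe fe v + (Bg M h v + Bg h M v) = ∫⁻ w, ∫⁻ o, (kk v w o * (fe (post v w o) *
      fe (postStar v w o)) + (kk v w o * (M (post v w o) * h (postStar v w o)) +
      kk v w o * (h (post v w o) * M (postStar v w o)))) ∂surf := by
    have k1 := meas_BgI mfe mfe
    have k2 := meas_BgI mM mh
    have k3 := meas_BgI mh mM
    unfold Bg
    have a1 : ∀ w, ∫⁻ o, (kk v w o * (fe (post v w o) *
      fe (postStar v w o)) + (kk v w o * (M (post v w o) * h (postStar v w o)) +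
      kk v w o * (h (post v w o) * M (postStar v w o)))) ∂surf =
      (∫⁻ o, kk v w o * (fe (post v w o) * fe (postStar v w o)) ∂surf) +
      ((∫⁻ o, kk v w o * (M (post v w o) * h (postStar v w o)) ∂surf) +
      ∫⁻ o, kk v w o * (h (post v w o) * M (postStar v w o)) ∂surf) := by
      intro w
      rw [lintegral_add_left (meas_sec_o k1 v w), lintegral_add_left (meas_sec_o k2 v w)]
    simp only [a1]
    rw [lintegral_add_left (meas_sec_w k1 v), lintegral_add_left (meas_sec_w k2 v)]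
  rw [e1]
  unfold Bg
  gcongr with w o
  rw [← mul_add, ← mul_add]
  gcongr
  exact mul_le_mix (h2 _) (h2 _) (fM _) (fM _)

theorem coll_upper (mM : Measurable M) (eqM : ∀ v, Bg M M v = M v * Ln M v)
    (mfe : Measurable fe) (mh : Measurable h) (h1 : ∀ w, fe w ≤ M w + h w)
    (h2 : ∀ w, M w ≤ fe w + h w) (v : V) :
    Bg fe fe v ≤ M v * Ln fe v + S2c M h v := by
  have hLn2 : Ln M v ≤ Ln fe v + Ln h v := by
    rw [← Ln_add mfe]
    exact Ln_mono h2 v
  calc Bg fe fe v ≤ Bg (fun w => M w + h w) (fun w => M w + h w) v := Bg_mono h1 h1 v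
    _ = Bg M M v + Bg M h v + (Bg h M v + Bg h h v) := by
        have ms : Measurable fun w => M w + h w := mM.add mh
        rw [Bg_add_left mM ms, Bg_add_right mM mM, Bg_add_right mh mM]
    _ = M v * Ln M v + (Bg M h v + Bg h M v + Bg h h v) := by rw [eqM]; ring
    _ ≤ M v * (Ln fe v + Ln h v) + (Bg M h v + Bg h M v + Bg h h v) := by (clear * - hLn2; gcongr)
    _ = _ := by
        unfold S2c KB
        ring

theorem coll_lower2 (mM : Measurable M) (fM : ∀ v, M v ≠ ⊤)
    (eqM : ∀ v, Bg M M v = M v * Ln M v) (mfe : Measurable fe) (mh : Measurable h)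
    (h1 : ∀ w, fe w ≤ M w + h w) (h2 : ∀ w, M w ≤ fe w + h w) (v : V) :
    M v * Ln fe v ≤ Bg fe fe v + KB M h v := by
  have hLn1 : Ln fe v ≤ Ln M v + Ln h v := by
    rw [← Ln_add mM]
    exact Ln_mono h1 v
  calc M v * Ln fe v ≤ M v * (Ln M v + Ln h v) := by (clear * - hLn1; gcongr)
    _ = M v * Ln M v + M v * Ln h v := by ring
    _ ≤ (Bg fe fe v + (Bg M h v + Bg h M v)) + M v * Ln h v := by
        gcongr
        exact coll_lower mM fM eqM mfe mh h2 v
    _ = _ := by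
        unfold KB
        ring

end

section real
variable {M : V → ℝ≥0∞} {f : V → ℝ}

theorem hdist_bounds (fM : ∀ v, M v ≠ ⊤) (nf : ∀ v, 0 ≤ f v) :
    (∀ w, ENNReal.ofReal (f w) ≤ M w + ENNReal.ofReal |f w - (M w).toReal|) ∧
    (∀ w, M w ≤ ENNReal.ofReal (f w) + ENNReal.ofReal |f w - (M w).toReal|) := by
  have eM : ∀ w, ENNReal.ofReal (M w).toReal = M w := fun w => ENNReal.ofReal_toReal (fM w)
  constructor
  · intro w
    nth_rewrite 1 [← eM w]
    rw [← ENNReal.ofReal_add ENNReal.toReal_nonneg (abs_nonneg _)]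
    apply ENNReal.ofReal_le_ofReal
    have := le_abs_self (f w - (M w).toReal)
    linarith only [this]
  · intro w
    rw [← ENNReal.ofReal_add (nf w) (abs_nonneg _)]
    nth_rewrite 1 [← eM w]
    apply ENNReal.ofReal_le_ofReal
    have := neg_abs_le (f w - (M w).toReal)
    linarith only [this]

/-- two-sided inequality with the loss frequency of `f` -/
theorem q_ineq (mM : Measurable M) (fM : ∀ v, M v ≠ ⊤) (eqM : ∀ v, Bg M M v = M v * Ln M v)
    (mf : Measurable f) (nf : ∀ v, 0 ≤ f v) (v : V) (hg : gain f v < ⊤)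
    (hL : Ln (fun w => ENNReal.ofReal (f w)) v ≠ ⊤) :
    ENNReal.ofReal |((gain f v).toReal - (loss f v).toReal) +
      (Ln (fun w => ENNReal.ofReal (f w)) v).toReal * (f v - (M v).toReal)| ≤
      S2c M (fun w => ENNReal.ofReal |f w - (M w).toReal|) v := by
  set h : V → ℝ≥0∞ := fun w => ENNReal.ofReal |f w - (M w).toReal| with hdef
  set fe : V → ℝ≥0∞ := fun w => ENNReal.ofReal (f w) with hfe
  have mfe : Measurable fe := mf.ennreal_ofReal
  have mh : Measurable h := (mf.sub mM.ennreal_toReal).abs.ennreal_ofReal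
  obtain ⟨h1, h2⟩ := hdist_bounds fM nf
  by_cases hS : S2c M h v = ⊤
  · rw [hS]; exact le_top
  have hU := coll_upper mM eqM mfe mh h1 h2 v
  have hLo := coll_lower2 mM fM eqM mfe mh h1 h2 v
  have eg : gain f v = Bg fe fe v := by rw [gain_eq_Qp nf, Qp_eq_Bg]
  have el : loss f v = fe v * Ln fe v := by rw [loss_eq_Qm nf, Qm_eq_Ln mfe]
  have f8 : Bg fe fe v ≠ ⊤ := by rw [← eg]; exact hg.ne
  have hfr : (fe v).toReal = f v := ENNReal.toReal_ofReal (nf v)
  have fKB : KB M h v ≠ ⊤ := ne_top_of_le_ne_top hS le_self_add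
  have rU := ENNReal.toReal_mono (ENNReal.add_ne_top.mpr ⟨ENNReal.mul_ne_top (fM v) hL, hS⟩) hU
  have rL := ENNReal.toReal_mono (ENNReal.add_ne_top.mpr ⟨f8, fKB⟩) hLo
  rw [ENNReal.toReal_add (ENNReal.mul_ne_top (fM v) hL) hS, ENNReal.toReal_mul] at rU
  rw [ENNReal.toReal_add f8 fKB, ENNReal.toReal_mul] at rL
  have hKS : (KB M h v).toReal ≤ (S2c M h v).toReal := ENNReal.toReal_mono hS le_self_add
  rw [← ENNReal.ofReal_toReal hS]
  apply ENNReal.ofReal_le_ofReal
  rw [eg, el, ENNReal.toReal_mul, hfr, abs_le]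
  constructor
  · linarith only [rL, hKS]
  · linarith only [rU]

/-- lower production inequality -/
theorem prod_ineq (mM : Measurable M) (fM : ∀ v, M v ≠ ⊤) (fν : ∀ v, Ln M v ≠ ⊤)
    (pM : ∀ v, M v ≠ 0)
    (eqM : ∀ v, Bg M M v = M v * Ln M v)
    (mf : Measurable f) (nf : ∀ v, 0 ≤ f v) (v : V) (hg : gain f v < ⊤)
    (hL : Ln (fun w => ENNReal.ofReal (f w)) v ≠ ⊤) {y : ℝ} (hy : y ∈ Icc 0 (M v).toReal) :
    ENNReal.ofReal (nu M v * ((M v).toReal - y) -
      (((gain f v).toReal - (loss f v).toReal) +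
        (Ln (fun w => ENNReal.ofReal (f w)) v).toReal * f v) +
      (Ln (fun w => ENNReal.ofReal (f w)) v).toReal * y) ≤
      KB M (fun w => ENNReal.ofReal |f w - (M w).toReal|) v := by
  set h : V → ℝ≥0∞ := fun w => ENNReal.ofReal |f w - (M w).toReal| with hdef
  set fe : V → ℝ≥0∞ := fun w => ENNReal.ofReal (f w) with hfe
  have mfe : Measurable fe := mf.ennreal_ofReal
  have mh : Measurable h := (mf.sub mM.ennreal_toReal).abs.ennreal_ofReal
  obtain ⟨h1, h2⟩ := hdist_bounds fM nf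
  by_cases hS : KB M h v = ⊤
  · rw [hS]; exact le_top
  have hLo := coll_lower mM fM eqM mfe mh h2 v
  have hLn1 : Ln fe v ≤ Ln M v + Ln h v := by
    rw [← Ln_add mM]
    exact Ln_mono h1 v
  have eg : gain f v = Bg fe fe v := by rw [gain_eq_Qp nf, Qp_eq_Bg]
  have el : loss f v = fe v * Ln fe v := by rw [loss_eq_Qm nf, Qm_eq_Ln mfe]
  have f8 : Bg fe fe v ≠ ⊤ := by rw [← eg]; exact hg.ne
  have hfr : (fe v).toReal = f v := ENNReal.toReal_ofReal (nf v)
  have hS' := hS
  unfold KB at hS'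
  simp only [ENNReal.add_eq_top, not_or] at hS'
  obtain ⟨⟨f1, f2⟩, f3⟩ := hS'
  have f6 : Ln h v ≠ ⊤ := by
    intro hcon
    rw [hcon, ENNReal.mul_top (pM v)] at f3
    exact f3 rfl
  have rL := ENNReal.toReal_mono (ENNReal.add_ne_top.mpr ⟨f8, ENNReal.add_ne_top.mpr ⟨f1, f2⟩⟩) hLo
  rw [ENNReal.toReal_add f8 (ENNReal.add_ne_top.mpr ⟨f1, f2⟩), ENNReal.toReal_add f1 f2,
    ENNReal.toReal_mul] at rL
  have r1 := ENNReal.toReal_mono (ENNReal.add_ne_top.mpr ⟨fν v, f6⟩) hLn1
  rw [ENNReal.toReal_add (fν v) f6] at r1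
  have eKB : KB M h v = ENNReal.ofReal ((Bg M h v).toReal + (Bg h M v).toReal +
      (M v).toReal * (Ln h v).toReal) := by
    rw [← ENNReal.toReal_mul, ← ENNReal.toReal_add f1 f2,
      ← ENNReal.toReal_add (ENNReal.add_ne_top.mpr ⟨f1, f2⟩) f3, ENNReal.ofReal_toReal]
    · rfl
    · exact hS
  rw [eKB]
  apply ENNReal.ofReal_le_ofReal
  rw [eg, el, ENNReal.toReal_mul, hfr]
  unfold nu
  set G := (Bg fe fe v).toReal
  set lf := (Ln fe v).toReal
  set lh := (Ln h v).toReal
  set lM := (Ln M v).toReal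
  set m := (M v).toReal
  have nlh : 0 ≤ lh := ENNReal.toReal_nonneg
  have k1 : (lf - lM) * y ≤ lh * m := by
    calc (lf - lM) * y ≤ lh * y := mul_le_mul_of_nonneg_right (by linarith only [r1]) hy.1
      _ ≤ lh * m := mul_le_mul_of_nonneg_left hy.2 nlh
  linarith

end real

end Vale.Agent.P140
end
end

section

/-! Large amplitude: abstract structure and smallness of velocity averages. -/

open MeasureTheory Set Filter
open scoped ENNReal Topology NNReal

noncomputable section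

namespace Vale.Agent.P140

/-- controlling linear operator -/
def TT (M ζ h : V → ℝ≥0∞) (v : V) : ℝ≥0∞ := Bg h ζ v + Bg ζ h v + M v * Ln h v

/-- a Maxwellian `M` and a weight `ζ` for which the gain operator is regularizing -/
structure LA (M ζ : V → ℝ≥0∞) (CM : ℝ≥0∞) : Prop where
  mM : Measurable M
  mζ : Measurable ζ
  fM : ∀ v, M v ≠ ⊤
  pM : ∀ v, M v ≠ 0
  ζ1 : ∀ v, ζ v ≤ 1
  fCM : CM ≠ ⊤
  eqM : ∀ v, Bg M M v = M v * Ln M v
  fν : ∀ v, Ln M v ≠ ⊤
  Mζ : ∀ v, M v ≤ CM * ζ v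
  momζ : Mo 2 ζ ≠ ⊤
  ζg : ∃ (k : ℝ) (C : ℝ≥0∞), 0 < k ∧ C ≠ ⊤ ∧ ∀ v, ζ v ≤ C * gau k v
  SP : ∀ δ : ℝ≥0∞, δ ≠ 0 → ∃ (N : ℝ) (C : ℝ≥0∞), C ≠ ⊤ ∧
    ∀ h : V → ℝ≥0∞, Measurable h → ∀ r : ℝ≥0∞, (∀ v, h v ≤ r * ζ v) →
    ∀ v, TT M ζ h v ≤ (δ * r + C * ∫⁻ y in {y : V | ‖y‖ ≤ N}, h y) * ζ v
  low : ∃ (N : ℝ) (β : ℝ≥0∞), β ≠ 0 ∧ ∀ f : V → ℝ≥0∞, Measurable f →
    (∀ᵐ v, ‖v‖ ≤ N → ENNReal.ofReal ((M v).toReal * (1 - Real.exp (-nu M v))) ≤ f v) →
    ∀ v, β * (ENNReal.ofReal ‖v‖ + 1) ≤ Ln f v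

variable {M ζ : V → ℝ≥0∞} {CM : ℝ≥0∞}

theorem LA.fζ (N : LA M ζ CM) (v : V) : ζ v ≠ ⊤ := ne_top_of_le_ne_top ENNReal.one_ne_top (N.ζ1 v)

theorem LA.int_ζ (N : LA M ζ CM) : ∫⁻ v, ζ v ≠ ⊤ := by
  have h := ne_top_of_le_ne_top N.momζ (Mo_mono (f := ζ) (i := 0) (j := 2) (by norm_num))
  unfold Mo at h
  simpa using h

theorem TT_mono {h h' : V → ℝ≥0∞} (hle : ∀ v, h v ≤ h' v) (v : V) : TT M ζ h v ≤ TT M ζ h' v := by
  unfold TT
  gcongr
  · exact Bg_mono hle (fun _ => le_rfl) v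
  · exact Bg_mono (fun _ => le_rfl) hle v
  · exact Ln_mono hle v

theorem joint_TT {α : Type*} [MeasurableSpace α] (hM : Measurable M) (hζ : Measurable ζ)
    {h : α → V → ℝ≥0∞} (hh : Measurable fun p : α × V => h p.1 p.2) :
    Measurable fun p : α × V => TT M ζ (h p.1) p.2 := by
  unfold TT
  have hζ' : Measurable fun p : α × V => (fun _ : α => ζ) p.1 p.2 := hζ.comp measurable_snd
  exact ((joint_Bg (g := fun _ => ζ) hh hζ').add (joint_Bg (f := fun _ => ζ) hζ' hh)).add
    ((hM.comp measurable_snd).mul (joint_Ln hh))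

theorem measTF_TT (hM : Measurable M) (hζ : Measurable ζ) {h : TF} (hh : MeasTF h) :
    MeasTF (fun t x v => TT M ζ (h t x) v) := by
  apply MeasTF.of_assoc
  exact joint_TT hM hζ (α := ℝ × T3) (h := fun q => h q.1 q.2) hh.assoc

/-- `KB` is controlled by `TT` -/
theorem LA.KB_le_TT (N : LA M ζ CM) {h : V → ℝ≥0∞} (mh : Measurable h) (v : V) :
    KB M h v ≤ (CM + 1) * TT M ζ h v := by
  have e1 := Bg_const_mul N.mζ mh CM 1 v
  have e2 := Bg_const_mul mh N.mζ 1 CM v
  simp only [one_mul, mul_one] at e1 e2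
  unfold KB
  calc Bg M h v + Bg h M v + M v * Ln h v
      ≤ Bg (fun w => CM * ζ w) h v + Bg h (fun w => CM * ζ w) v + M v * Ln h v := by
        gcongr
        · exact Bg_mono N.Mζ (fun _ => le_rfl) v
        · exact Bg_mono (fun _ => le_rfl) N.Mζ v
    _ = CM * Bg ζ h v + CM * Bg h ζ v + M v * Ln h v := by rw [e1, e2]
    _ ≤ (CM * Bg ζ h v + CM * Bg h ζ v + M v * Ln h v) +
        (Bg ζ h v + Bg h ζ v + CM * (M v * Ln h v)) := le_self_add
    _ = _ := by
        unfold TT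
        ring

/-- the quadratic gain is controlled by `TT` -/
theorem LA.Bg_le_TT (N : LA M ζ CM) {g h : V → ℝ≥0∞} (mg : Measurable g) {r : ℝ≥0∞}
    (hr : ∀ v, h v ≤ r * ζ v) (v : V) : Bg g h v ≤ r * TT M ζ g v := by
  have e2 := Bg_const_mul mg N.mζ 1 r v
  simp only [one_mul] at e2
  calc Bg g h v ≤ Bg g (fun w => r * ζ w) v := Bg_mono (fun _ => le_rfl) hr v
    _ = r * Bg g ζ v := e2
    _ ≤ _ := by
        gcongr
        unfold TT
        rw [add_assoc]
        exact le_self_add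

theorem LA.Bg_le_TT' (N : LA M ζ CM) {g h : V → ℝ≥0∞} (mg : Measurable g) {r : ℝ≥0∞}
    (hr : ∀ v, h v ≤ r * ζ v) (v : V) : Bg h g v ≤ r * TT M ζ g v := by
  have e2 := Bg_const_mul N.mζ mg r 1 v
  simp only [one_mul, mul_one] at e2
  calc Bg h g v ≤ Bg (fun w => r * ζ w) g v := Bg_mono hr (fun _ => le_rfl) v
    _ = r * Bg ζ g v := e2
    _ ≤ _ := by
        gcongr
        unfold TT
        calc Bg ζ g v ≤ Bg ζ g v + (Bg g ζ v + M v * Ln g v) := le_self_add
          _ = _ := by ring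

/-- uniform bound of `TT` -/
theorem LA.TT_bound (N : LA M ζ CM) : ∃ CT : ℝ≥0∞, CT ≠ ⊤ ∧ ∀ h : V → ℝ≥0∞, Measurable h →
    ∀ r : ℝ≥0∞, (∀ v, h v ≤ r * ζ v) → ∀ v, TT M ζ h v ≤ CT * r * ζ v := by
  obtain ⟨N1, C, fC, hC⟩ := N.SP 1 one_ne_zero
  refine ⟨1 + C * ∫⁻ v, ζ v, ENNReal.add_ne_top.mpr ⟨by simp,
    ENNReal.mul_ne_top fC N.int_ζ⟩, fun h mh r hr v => ?_⟩
  refine (hC h mh r hr v).trans ?_
  gcongr
  have h5 : ∫⁻ y in {y : V | ‖y‖ ≤ N1}, h y ≤ ∫⁻ y, r * ζ y :=
    (setLIntegral_le_lintegral _ _).trans (lintegral_mono fun y => hr y)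
  calc 1 * r + C * ∫⁻ y in {y : V | ‖y‖ ≤ N1}, h y ≤ 1 * r + C * ∫⁻ y, r * ζ y := by
        exact add_le_add le_rfl (mul_le_mul' le_rfl h5)
    _ = _ := by
        rw [lintegral_const_mul _ N.mζ]
        ring

/-- **smallness of velocity averages** of the Duhamel term -/
theorem LA.avg_small (N : LA M ζ CM) {N1 : ℝ} (hN1 : 0 < N1) {σ r W : ℝ≥0∞} (hσ : σ ≠ 0)
    (hr : r ≠ ⊤) (hW : W ≠ ⊤) : ∃ η : ℝ≥0∞, η ≠ 0 ∧ ∀ (T : ℝ) (h : TF), MeasTF h →
    (∀ t ∈ Ioc 0 T, ∀ x v, h t x v ≤ r * ζ v) →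
    (∀ᵐ t ∂(volume.restrict (Ioc 0 T)), ∫⁻ p : T3 × V, h t p.1 p.2 ≤ η) →
    ∀ w : ℝ → ℝ≥0∞, Measurable w → (∀ u, w u ≤ 1) → ∀ t ∈ Ioc 0 T,
    (∫⁻ s in Ioc 0 t, w (t - s)) ≤ W → ∀ X : T3,
      ∫⁻ y in {y : V | ‖y‖ ≤ N1}, ∫⁻ s in Ioc 0 t,
        w (t - s) * TT M ζ (h s (X - toTorus ((t - s) • y))) y ≤ σ := by
  set I : ℝ≥0∞ := ∫⁻ v, ζ v with hI
  have fI : I ≠ ⊤ := N.int_ζ
  obtain ⟨CT, fCT, hCT⟩ := N.TT_bound
  set σ3 : ℝ≥0∞ := σ / 3 with hσ3
  have pσ3 : σ3 ≠ 0 := ENNReal.div_ne_zero.mpr ⟨hσ, by simp⟩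
  obtain ⟨κ, hκ, hκ'⟩ := exists_small (K := CT * r * I)
    (ENNReal.mul_ne_top (ENNReal.mul_ne_top fCT hr) fI) pσ3
  obtain ⟨δ, hδ, hδ'⟩ := exists_small (K := W * r * I)
    (ENNReal.mul_ne_top (ENNReal.mul_ne_top hW hr) fI) pσ3
  obtain ⟨N2, C, fC, hC⟩ := N.SP (ENNReal.ofReal δ) (ENNReal.ofReal_pos.mpr hδ).ne'
  obtain ⟨Cc, fCc, hcov⟩ := cover_bound N1 κ hN1 hκ
  obtain ⟨η, hη, hη'⟩ := exists_small (K := W * C * Cc)
    (ENNReal.mul_ne_top (ENNReal.mul_ne_top hW fC) fCc) pσ3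
  refine ⟨ENNReal.ofReal η, (ENNReal.ofReal_pos.mpr hη).ne', ?_⟩
  intro T h mh hb hL w mw w1 t ht hwW X
  have mB : MeasurableSet {y : V | ‖y‖ ≤ N1} := measurableSet_le measurable_norm measurable_const
  set b : ℝ → T3 → ℝ≥0∞ := fun τ Z => ∫⁻ z in {z : V | ‖z‖ ≤ N2}, h τ Z z with hbdef
  have mb : Measurable fun q : ℝ × T3 => b q.1 q.2 := by
    have := mh.assoc
    exact Measurable.lintegral_prod_right' (ν := (volume : Measure V).restrict {z : V | ‖z‖ ≤ N2}) this
  have hbη : ∀ᵐ t ∂(volume.restrict (Ioc 0 T)), ∫⁻ x, b t x ≤ ENNReal.ofReal η := by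
    filter_upwards [hL] with t ht
    refine le_trans ?_ ht
    have mt : Measurable fun p : T3 × V => h t p.1 p.2 :=
      mh.comp (by fun_prop : Measurable fun p : T3 × V => (t, p.1, p.2))
    rw [Measure.volume_eq_prod, lintegral_prod _ mt.aemeasurable]
    apply lintegral_mono
    intro x
    exact setLIntegral_le_lintegral _ _
  set B : Set V := {y : V | ‖y‖ ≤ N1} with hB
  set iA : ℝ → ℝ≥0∞ := fun s => if t - s < κ then 1 else 0 with hiA
  set iB : ℝ → ℝ≥0∞ := fun s => if κ ≤ t - s then 1 else 0 with hiB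
  have miA : Measurable iA := Measurable.ite
    (measurableSet_lt (measurable_const.sub measurable_id) measurable_const)
    measurable_const measurable_const
  have miB : Measurable iB := Measurable.ite
    (measurableSet_le measurable_const (measurable_const.sub measurable_id))
    measurable_const measurable_const
  have mwt : Measurable fun s => w (t - s) := mw.comp (measurable_const.sub measurable_id)
  have mbs : Measurable fun z : V × ℝ => b z.2 (X - toTorus ((t - z.2) • z.1)) := by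
    have hmap : Measurable fun z : V × ℝ => ((z.2, X - toTorus ((t - z.2) • z.1)) : ℝ × T3) := by
      apply measurable_snd.prodMk
      apply measurable_const.sub
      exact measurable_toTorus.comp ((measurable_const.sub measurable_snd).smul measurable_fst)
    exact mb.comp hmap
  set T1 : V → ℝ≥0∞ := fun y => ∫⁻ s in Ioc 0 t, iB s * w (t - s) * C *
    b s (X - toTorus ((t - s) • y)) with hT1
  have mT1i : Measurable fun z : V × ℝ => iB z.2 * w (t - z.2) * C *
      b z.2 (X - toTorus ((t - z.2) • z.1)) :=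
    (((miB.comp measurable_snd).mul (mwt.comp measurable_snd)).mul measurable_const).mul mbs
  have mT1 : Measurable T1 :=
    Measurable.lintegral_prod_right' (ν := volume.restrict (Ioc 0 t)) mT1i
  -- pointwise bound
  have hpt : ∀ y, ∫⁻ s in Ioc 0 t, w (t - s) * TT M ζ (h s (X - toTorus ((t - s) • y))) y ≤
      CT * r * ζ y * ENNReal.ofReal κ + (W * (ENNReal.ofReal δ * r) * ζ y + T1 y) := by
    intro y
    have a1 : ∫⁻ s in Ioc 0 t, w (t - s) * TT M ζ (h s (X - toTorus ((t - s) • y))) y ≤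
        ∫⁻ s in Ioc 0 t, (iA s * (CT * r * ζ y) + (w (t - s) * (ENNReal.ofReal δ * r * ζ y) +
          iB s * w (t - s) * C * b s (X - toTorus ((t - s) • y)))) := by
      apply setLIntegral_mono' measurableSet_Ioc
      intro s hs
      have hsT : s ∈ Ioc 0 T := ⟨hs.1, hs.2.trans ht.2⟩
      by_cases hc : t - s < κ
      · have e1 : iA s = 1 := by rw [hiA]; exact if_pos hc
        rw [e1, one_mul]
        refine le_trans ?_ le_self_add
        calc w (t - s) * TT M ζ (h s (X - toTorus ((t - s) • y))) y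
            ≤ 1 * (CT * r * ζ y) := by
              gcongr
              · exact w1 _
              · exact hCT _ (mh.sec _ _) r (hb s hsT _) y
          _ = _ := one_mul _
      · have e2 : iB s = 1 := by rw [hiB]; exact if_pos (not_lt.mp hc)
        rw [e2, one_mul]
        refine le_trans ?_ le_add_self
        calc w (t - s) * TT M ζ (h s (X - toTorus ((t - s) • y))) y
            ≤ w (t - s) * ((ENNReal.ofReal δ * r + C * b s (X - toTorus ((t - s) • y))) * ζ y) := by
              gcongr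
              exact hC _ (mh.sec _ _) r (hb s hsT _) y
          _ = w (t - s) * (ENNReal.ofReal δ * r * ζ y) +
              w (t - s) * C * b s (X - toTorus ((t - s) • y)) * ζ y := by ring
          _ ≤ w (t - s) * (ENNReal.ofReal δ * r * ζ y) +
              w (t - s) * C * b s (X - toTorus ((t - s) • y)) * 1 := by
              gcongr
              exact N.ζ1 y
          _ = _ := by rw [mul_one]
    refine a1.trans ?_
    rw [lintegral_add_left (miA.mul_const _), lintegral_add_left (mwt.mul_const _)]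
    gcongr ?_ + (?_ + _)
    · rw [lintegral_mul_const _ miA, mul_comm]
      gcongr
      calc ∫⁻ s in Ioc 0 t, iA s ≤ ∫⁻ s in Ioc 0 t, (Ioc (t - κ) t).indicator (fun _ => 1) s := by
            apply setLIntegral_mono' measurableSet_Ioc
            intro s hs
            rw [hiA]
            simp only
            by_cases hc : t - s < κ
            · rw [if_pos hc, indicator_of_mem (show s ∈ Ioc (t - κ) t from ⟨by linarith only [hc], hs.2⟩)]
            · rw [if_neg hc]
              exact zero_le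
        _ ≤ ∫⁻ s, (Ioc (t - κ) t).indicator (fun _ => 1) s := setLIntegral_le_lintegral _ _
        _ = ENNReal.ofReal κ := by
            rw [lintegral_indicator measurableSet_Ioc, setLIntegral_const, Real.volume_Ioc]
            simp
    · rw [lintegral_mul_const _ mwt]
      calc (∫⁻ s in Ioc 0 t, w (t - s)) * (ENNReal.ofReal δ * r * ζ y)
          ≤ W * (ENNReal.ofReal δ * r * ζ y) := by (clear * - hwW; gcongr)
        _ = _ := by ring
  -- integration over the ball
  have hfin : ∫⁻ y in B, T1 y ≤ W * (C * (Cc * ENNReal.ofReal η)) := by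
    have e1 : ∫⁻ y in B, T1 y = ∫⁻ s in Ioc 0 t, ∫⁻ y in B, iB s * w (t - s) * C *
        b s (X - toTorus ((t - s) • y)) :=
      lintegral_lintegral_swap mT1i.aemeasurable
    rw [e1]
    calc ∫⁻ s in Ioc 0 t, ∫⁻ y in B, iB s * w (t - s) * C * b s (X - toTorus ((t - s) • y))
        ≤ ∫⁻ s in Ioc 0 t, w (t - s) * (C * (Cc * ENNReal.ofReal η)) := by
          apply lintegral_mono_ae
          filter_upwards [ae_restrict_of_ae_restrict_of_subset (Ioc_subset_Ioc_right ht.2) hbη]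
            with s hs
          have mbτ : Measurable (b s) := mb.comp (by fun_prop : Measurable fun x : T3 => (s, x))
          have mby : Measurable fun y : V => b s (X - toTorus ((t - s) • y)) :=
            mbs.comp (by fun_prop : Measurable fun y : V => (y, s))
          rw [lintegral_const_mul _ mby]
          by_cases hc : κ ≤ t - s
          · have e2 : iB s = 1 := by rw [hiB]; exact if_pos hc
            rw [e2, one_mul, mul_assoc]
            gcongr
            exact (hcov (b s) mbτ X (t - s) hc).trans (by (clear * - hs; gcongr))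
          · have e2 : iB s = 0 := by rw [hiB]; exact if_neg hc
            rw [e2]
            simp only [zero_mul, zero_le]
      _ = (∫⁻ s in Ioc 0 t, w (t - s)) * (C * (Cc * ENNReal.ofReal η)) :=
          lintegral_mul_const _ mwt
      _ ≤ _ := by (clear * - hwW; gcongr)
  have h3 : σ3 + (σ3 + σ3) = σ := by
    rw [hσ3, show σ / 3 + (σ / 3 + σ / 3) = 3 * (σ / 3) by ring,
      ENNReal.mul_div_cancel (by simp) (by simp)]
  calc ∫⁻ y in B, ∫⁻ s in Ioc 0 t, w (t - s) * TT M ζ (h s (X - toTorus ((t - s) • y))) y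
      ≤ ∫⁻ y in B, (CT * r * ζ y * ENNReal.ofReal κ + (W * (ENNReal.ofReal δ * r) * ζ y + T1 y)) :=
        lintegral_mono fun y => hpt y
    _ = (∫⁻ y in B, CT * r * ζ y * ENNReal.ofReal κ) +
        ((∫⁻ y in B, W * (ENNReal.ofReal δ * r) * ζ y) + ∫⁻ y in B, T1 y) := by
        rw [lintegral_add_left ((N.mζ.const_mul _).mul_const _),
          lintegral_add_left (N.mζ.const_mul _)]
    _ ≤ CT * r * I * ENNReal.ofReal κ + (W * (ENNReal.ofReal δ * r) * I +
        W * (C * (Cc * ENNReal.ofReal η))) := by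
        gcongr
        · rw [hI, ← lintegral_const_mul _ N.mζ, ← lintegral_mul_const _ (N.mζ.const_mul _)]
          exact setLIntegral_le_lintegral _ _
        · rw [hI, ← lintegral_const_mul _ N.mζ]
          exact setLIntegral_le_lintegral _ _
    _ = (CT * r * I) * ENNReal.ofReal κ + ((W * r * I) * ENNReal.ofReal δ +
        (W * C * Cc) * ENNReal.ofReal η) := by ring
    _ ≤ σ3 + (σ3 + σ3) := by (clear * - hκ' hδ' hη'; gcongr)
    _ = σ := h3

end Vale.Agent.P140
end
end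

section

/-! Large amplitude: inequalities along characteristics. -/

open MeasureTheory Set Filter
open scoped ENNReal Topology NNReal

noncomputable section

namespace Vale.Agent.P140

variable {M ζ : V → ℝ≥0∞} {CM : ℝ≥0∞} {T : ℝ} {F0 : T3 → V → ℝ} {F : ℝ → T3 → V → ℝ}

/-- loss frequency of `F` along a characteristic -/
def LF (F : ℝ → T3 → V → ℝ) (p : T3 × V) (s : ℝ) : ℝ :=
  (Ln (fun w => ENNReal.ofReal (F s (flow s p).1 w)) p.2).toReal

/-- net collision rate along a characteristic -/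
def RF (F : ℝ → T3 → V → ℝ) (p : T3 × V) (s : ℝ) : ℝ :=
  (gainA F (s, p)).toReal - (lossA F (s, p)).toReal

theorem LA.Lnζ_ne_top (N : LA M ζ CM) (v : V) : Ln ζ v ≠ ⊤ := by
  have h1 : Mo 1 ζ ≠ ⊤ := ne_top_of_le_ne_top N.momζ (Mo_mono (by norm_num))
  exact ne_top_of_le_ne_top (ENNReal.mul_ne_top (ENNReal.mul_ne_top Ss_ne_top h1) (ph_ne_top v))
    (Ln_le_ph N.mζ v)

theorem LA.fe_le (N : LA M ζ CM) (hn : ∀ t x v, 0 ≤ F t x v) {r : ℝ≥0∞}
    (hb : ∀ t ∈ Ioc 0 T, ∀ x v, hh M F t x v ≤ r * ζ v) {t : ℝ} (ht : t ∈ Ioc 0 T) (x : T3) (v : V) :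
    ENNReal.ofReal (F t x v) ≤ (CM + r) * ζ v := by
  refine ((hdist_bounds N.fM (hn t x)).1 v).trans ?_
  rw [add_mul]
  exact add_le_add (N.Mζ v) (hb t ht x v)

theorem LA.LnF_le (N : LA M ζ CM) (hn : ∀ t x v, 0 ≤ F t x v) {r : ℝ≥0∞}
    (hb : ∀ t ∈ Ioc 0 T, ∀ x v, hh M F t x v ≤ r * ζ v) {t : ℝ} (ht : t ∈ Ioc 0 T) (x : T3) (v : V) :
    Ln (fun w => ENNReal.ofReal (F t x w)) v ≤ (CM + r) * Ln ζ v := by
  rw [← Ln_const_mul N.mζ]
  exact Ln_mono (N.fe_le hn hb ht x) v

theorem measurable_LF (hF : Measurable fun p : ℝ × T3 × V => F p.1 p.2.1 p.2.2) (p : T3 × V) :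
    Measurable (LF F p) := by
  have h1 : MeasTF (fun t x v => ENNReal.ofReal (F t x v)) := hF.ennreal_ofReal
  have h2 : MeasTF (fun t x v => Ln (fun w => ENNReal.ofReal (F t x w)) v) := by
    apply MeasTF.of_assoc
    exact joint_Ln (α := ℝ × T3) (f := fun q w => ENNReal.ofReal (F q.1 q.2 w)) h1.assoc
  exact (h2.comp (meas_flow_sec p)).ennreal_toReal

/-- inequalities along almost every characteristic -/
theorem LA.flow_data (N : LA M ζ CM) (hF : IsMild T F0 F) (hT : 0 ≤ T) {r : ℝ≥0∞} (hr : r ≠ ⊤)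
    (hb : ∀ t ∈ Ioc 0 T, ∀ x v, hh M F t x v ≤ r * ζ v) : ∀ᵐ p : T3 × V,
    IntervalIntegrable (RF F p) volume 0 T ∧ IntervalIntegrable (LF F p) volume 0 T ∧
    (∀ᵐ s ∂(volume.restrict (Ioc 0 T)), F s (flow s p).1 p.2 =
      F0 p.1 p.2 + ∫ u in (0:ℝ)..s, RF F p u) ∧
    (∀ᵐ s ∂(volume.restrict (Ioc 0 T)), ENNReal.ofReal |RF F p s +
      LF F p s * (F s (flow s p).1 p.2 - (M p.2).toReal)| ≤ S2c M (hh M F s (flow s p).1) p.2) ∧
    (∀ᵐ s ∂(volume.restrict (Ioc 0 T)), ∀ y ∈ Icc 0 (M p.2).toReal,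
      ENNReal.ofReal (nu M p.2 * ((M p.2).toReal - y) -
        (RF F p s + LF F p s * F s (flow s p).1 p.2) + LF F p s * y) ≤
      KB M (hh M F s (flow s p).1) p.2) := by
  have mg := measurable_gainA hF.measurable
  have ml := measurable_lossA hF.measurable
  filter_upwards [hF.gain_fin, hF.loss_fin, hF.mild] with p h1 h2 h3
  have msec : Measurable fun s : ℝ => ((s, p) : ℝ × T3 × V) := by fun_prop
  have mg' : Measurable fun s => gainA F (s, p) := mg.comp msec
  have ml' : Measurable fun s => lossA F (s, p) := ml.comp msec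
  have hint : IntegrableOn (RF F p) (Ioc 0 T) := by
    apply Integrable.sub
    · exact integrable_toReal_of_lintegral_ne_top mg'.aemeasurable h1.ne
    · exact integrable_toReal_of_lintegral_ne_top ml'.aemeasurable h2.ne
  have hgf : ∀ᵐ s ∂(volume.restrict (Ioc 0 T)), gainA F (s, p) < ⊤ := ae_lt_top mg' h1.ne
  have hLfin : ∀ s ∈ Ioc 0 T, Ln (fun w => ENNReal.ofReal (F s (flow s p).1 w)) p.2 ≠ ⊤ :=
    fun s hs => ne_top_of_le_ne_top (ENNReal.mul_ne_top (ENNReal.add_ne_top.mpr ⟨N.fCM, hr⟩)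
      (N.Lnζ_ne_top p.2)) (N.LnF_le hF.nonneg hb hs _ _)
  refine ⟨?_, ?_, ?_, ?_, ?_⟩
  · rwa [intervalIntegrable_iff_integrableOn_Ioc_of_le hT]
  · rw [intervalIntegrable_iff_integrableOn_Ioc_of_le hT]
    refine Measure.integrableOn_of_bounded (M := ((CM + r) * Ln ζ p.2).toReal)
      (by simp only [Real.volume_Ioc, sub_zero, ne_eq, ENNReal.ofReal_ne_top, not_false_eq_true]) (measurable_LF hF.measurable p).aestronglyMeasurable ?_
    filter_upwards [ae_restrict_mem measurableSet_Ioc] with s hs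
    unfold LF
    rw [Real.norm_eq_abs, abs_of_nonneg ENNReal.toReal_nonneg]
    exact ENNReal.toReal_mono (ENNReal.mul_ne_top (ENNReal.add_ne_top.mpr ⟨N.fCM, hr⟩)
      (N.Lnζ_ne_top p.2)) (N.LnF_le hF.nonneg hb hs _ _)
  · filter_upwards [h3, ae_restrict_mem measurableSet_Ioc] with s e1 e3
    rw [intervalIntegral.integral_of_le e3.1.le]
    exact e1
  · filter_upwards [hgf, ae_restrict_mem measurableSet_Ioc] with s e2 e3
    exact q_ineq N.mM N.fM N.eqM (measurable_slice hF.measurable s _) (hF.nonneg s _) p.2 e2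
      (hLfin s e3)
  · filter_upwards [hgf, ae_restrict_mem measurableSet_Ioc] with s e2 e3 y hy
    exact prod_ineq N.mM N.fM N.fν N.pM N.eqM (measurable_slice hF.measurable s _)
      (hF.nonneg s _) p.2 e2 (hLfin s e3) hy

theorem nonneg_of_ae {P : ℝ → ℝ} {T : ℝ} (hT : 0 < T) (hc : ContinuousOn P (Icc 0 T))
    (h : ∀ᵐ s ∂(volume.restrict (Ioc 0 T)), 0 ≤ P s) {s : ℝ} (hs : s ∈ Icc 0 T) : 0 ≤ P s := by
  have hae : (fun s => min (P s) 0) =ᵐ[volume.restrict (Icc 0 T)] fun _ => (0 : ℝ) := by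
    rw [← restrict_Ioc_eq_restrict_Icc]
    filter_upwards [h] with s hs
    exact min_eq_right hs
  have h8 := Measure.eqOn_Icc_of_ae_eq volume hT.ne hae
    (hc.inf continuousOn_const) continuousOn_const hs
  simp only at h8
  have := min_le_left (P s) 0
  rw [h8] at this
  exact this

/-- production along characteristics after unit time -/
theorem LA.low_flow (N : LA M ζ CM) (hF : IsMild T F0 F) (hT : 0 < T) {r : ℝ≥0∞} (hr : r ≠ ⊤)
    (hb : ∀ t ∈ Ioc 0 T, ∀ x v, hh M F t x v ≤ r * ζ v) : ∀ᵐ p : T3 × V,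
    ∀ᵐ t ∂(volume.restrict (Ioc 0 T)), 1 ≤ t →
      ENNReal.ofReal ((M p.2).toReal * (1 - Real.exp (-nu M p.2))) ≤
      ENNReal.ofReal (F t (flow t p).1 p.2) +
        ∫⁻ s in Ioc (t - 1) t, KB M (hh M F s (flow s p).1) p.2 := by
  filter_upwards [N.flow_data hF hT.le hr hb] with p hp
  obtain ⟨i1, i2, h3, -, h5⟩ := hp
  have hPc : ContinuousOn (fun s => F0 p.1 p.2 + ∫ u in (0:ℝ)..s, RF F p u) (Icc 0 T) := by
    have := (ac_primitive i1 (F0 p.1 p.2)).continuousOn
    rwa [uIcc_of_le hT.le] at this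
  have hPn : ∀ᵐ s ∂(volume.restrict (Ioc 0 T)), 0 ≤ F0 p.1 p.2 + ∫ u in (0:ℝ)..s, RF F p u := by
    filter_upwards [h3] with s hs
    rw [← hs]
    exact hF.nonneg _ _ _
  have mK0 : Measurable fun q : ℝ × T3 × V => KB M (hh M F q.1 q.2.1) q.2.2 :=
    measTF_KB N.mM (measTF_hh N.mM hF.measurable)
  have mK : Measurable fun s : ℝ => KB M (hh M F s (flow s p).1) p.2 := by
    have h0 := mK0.comp (meas_flow_sec p)
    simp only [Function.comp_def] at h0
    exact h0
  have hS : ∀ᵐ s ∂(volume.restrict (Ioc 0 T)), ∀ y ∈ Icc 0 (M p.2).toReal,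
      ENNReal.ofReal (nu M p.2 * ((M p.2).toReal - y) - (RF F p s + LF F p s *
        (F0 p.1 p.2 + ∫ u in (0:ℝ)..s, RF F p u)) + LF F p s * y) ≤
      KB M (hh M F s (flow s p).1) p.2 := by
    filter_upwards [h3, h5] with s a1 a2 y hy
    rw [← a1]
    exact a2 y hy
  have hL0 : ∀ᵐ s ∂(volume.restrict (Ioc 0 T)), 0 ≤ LF F p s :=
    Eventually.of_forall fun s => ENNReal.toReal_nonneg
  filter_upwards [h3, ae_restrict_mem measurableSet_Ioc] with t e1 e3 h1t
  rw [e1]
  have hp1 : 0 ≤ F0 p.1 p.2 + ∫ u in (0:ℝ)..(t - 1), RF F p u :=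
    nonneg_of_ae hT hPc hPn ⟨by linarith, by linarith only [e3.2]⟩
  exact low_one_dim hT.le i1 i2 hL0 (F0 p.1 p.2) (nu_nonneg M p.2) ENNReal.toReal_nonneg h1t
    e3.2 mK hp1 hS

/-- Duhamel inequality with the rate bounded below after unit time -/
theorem LA.duh_ineq (N : LA M ζ CM) (hF : IsMild T F0 F) (hT : 0 ≤ T) {r : ℝ≥0∞} (hr : r ≠ ⊤)
    (hb : ∀ t ∈ Ioc 0 T, ∀ x v, hh M F t x v ≤ r * ζ v) {l : ℝ} (hl : 0 ≤ l)
    (hlow : ∀ᵐ p : T3 × V, ∀ᵐ s ∂(volume.restrict (Ioc 0 T)), 1 < s → l ≤ LF F p s) :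
    ∀ᵐ p : T3 × V, ∀ᵐ t ∂(volume.restrict (Ioc 0 T)),
      hh M F t (flow t p).1 p.2 ≤ ENNReal.ofReal (Real.exp l) *
        duh l (ENNReal.ofReal |F0 p.1 p.2 - (M p.2).toReal|)
        (fun s => S2c M (hh M F s (flow s p).1) p.2) t := by
  filter_upwards [N.flow_data hF hT hr hb, hlow] with p hp hlp
  obtain ⟨i1, i2, h3, h4, -⟩ := hp
  filter_upwards [h3, ae_restrict_mem measurableSet_Ioc] with t e1 e3
  have h6 := duh_var_ennreal hT i1 i2 (Eventually.of_forall fun s => ENNReal.toReal_nonneg) hl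
    hlp (F0 p.1 p.2 - (M p.2).toReal) e3.1.le e3.2
  have e5 : hh M F t (flow t p).1 p.2 =
      ENNReal.ofReal |F0 p.1 p.2 - (M p.2).toReal + ∫ s in (0:ℝ)..t, RF F p s| := by
    unfold hh
    rw [e1]
    congr 2
    ring
  rw [e5]
  refine h6.trans ?_
  gcongr
  apply duh_mono_ae _ le_rfl
  filter_upwards [ae_restrict_of_ae_restrict_of_subset (Ioc_subset_Ioc_right e3.2) h4,
    ae_restrict_of_ae_restrict_of_subset (Ioc_subset_Ioc_right e3.2) h3] with s a1 a2
  refine le_trans (le_of_eq ?_) a1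
  rw [a2]
  congr 3
  ring

end Vale.Agent.P140
end
end

section

/-! Singular kernel `1/|y-v|` and bounds of the collision frequency. -/

open MeasureTheory Set Filter Metric
open scoped ENNReal Topology

namespace Vale.Agent.P140

/-- integral of the singular kernel over a small ball -/
theorem sing_small {η : ℝ} (hη : 0 < η) :
    ∫⁻ z : V, {z : V | ‖z‖ < η}.indicator (fun z => ENNReal.ofReal ‖z‖⁻¹) z ≤
      Ss * ENNReal.ofReal (η ^ 2) := by
  have hm : MeasurableSet {z : V | ‖z‖ < η} := measurableSet_lt measurable_norm measurable_const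
  have mf : Measurable ({z : V | ‖z‖ < η}.indicator (fun z => ENNReal.ofReal ‖z‖⁻¹)) :=
    measurable_norm.inv.ennreal_ofReal.indicator hm
  rw [lint_polar0 mf]
  have h1 : ∀ o : S2, ∫⁻ r in Ioi (0 : ℝ), ENNReal.ofReal (r ^ 2) *
      {z : V | ‖z‖ < η}.indicator (fun z => ENNReal.ofReal ‖z‖⁻¹) (r • (o : V)) ≤
      ENNReal.ofReal (η ^ 2) := by
    intro o
    calc ∫⁻ r in Ioi (0 : ℝ), ENNReal.ofReal (r ^ 2) *
          {z : V | ‖z‖ < η}.indicator (fun z => ENNReal.ofReal ‖z‖⁻¹) (r • (o : V))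
        ≤ ∫⁻ r in Ioi (0 : ℝ), (Ioc 0 η).indicator (fun _ => ENNReal.ofReal η) r := by
          apply setLIntegral_mono' measurableSet_Ioi
          intro r hr
          have hr0 : (0 : ℝ) < r := hr
          have hn : ‖r • (o : V)‖ = r := by
            rw [norm_smul, norm_o, mul_one, Real.norm_of_nonneg hr0.le]
          by_cases h : r < η
          · rw [indicator_of_mem (show r • (o : V) ∈ {z : V | ‖z‖ < η} by
              simp only [mem_ofPred_eq, hn]; exact h), indicator_of_mem (show r ∈ Ioc 0 η from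
              ⟨hr0, h.le⟩), hn, ← ENNReal.ofReal_mul (by positivity)]
            apply ENNReal.ofReal_le_ofReal
            have : r ^ 2 * r⁻¹ = r := by field_simp
            rw [this]
            exact h.le
          · rw [indicator_of_notMem (show r • (o : V) ∉ {z : V | ‖z‖ < η} by
              simp only [mem_ofPred_eq, hn]; exact h)]
            simp only [mul_zero, zero_le]
      _ ≤ ∫⁻ r, (Ioc 0 η).indicator (fun _ => ENNReal.ofReal η) r := setLIntegral_le_lintegral _ _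
      _ = ENNReal.ofReal (η ^ 2) := by
          rw [lintegral_indicator measurableSet_Ioc, setLIntegral_const, Real.volume_Ioc, sub_zero,
            ← ENNReal.ofReal_mul hη.le, sq]
  calc ∫⁻ o : S2, (∫⁻ r in Ioi (0 : ℝ), ENNReal.ofReal (r ^ 2) *
        {z : V | ‖z‖ < η}.indicator (fun z => ENNReal.ofReal ‖z‖⁻¹) (r • (o : V))) ∂surf
      ≤ ∫⁻ _ : S2, ENNReal.ofReal (η ^ 2) ∂surf := lintegral_mono h1
    _ = _ := by
        rw [lintegral_const, mul_comm]
        rfl

/-- splitting of the singular integral -/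
theorem sing_split {h : V → ℝ≥0∞} (hh : Measurable h) {B : ℝ≥0∞} (hB : ∀ y, h y ≤ B) {η : ℝ}
    (hη : 0 < η) (v : V) : ∫⁻ y : V, ENNReal.ofReal ‖y - v‖⁻¹ * h y ≤
      B * (Ss * ENNReal.ofReal (η ^ 2)) + ENNReal.ofReal η⁻¹ * ∫⁻ y, h y := by
  have hm : MeasurableSet {z : V | ‖z‖ < η} := measurableSet_lt measurable_norm measurable_const
  have mf : Measurable ({z : V | ‖z‖ < η}.indicator (fun z => ENNReal.ofReal ‖z‖⁻¹)) :=
    measurable_norm.inv.ennreal_ofReal.indicator hm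
  have e1 : ∫⁻ y : V, {z : V | ‖z‖ < η}.indicator (fun z => ENNReal.ofReal ‖z‖⁻¹) (y - v) =
      ∫⁻ z : V, {z : V | ‖z‖ < η}.indicator (fun z => ENNReal.ofReal ‖z‖⁻¹) z :=
    lintegral_sub_right_eq_self _ v
  calc ∫⁻ y : V, ENNReal.ofReal ‖y - v‖⁻¹ * h y
      ≤ ∫⁻ y : V, (B * {z : V | ‖z‖ < η}.indicator (fun z => ENNReal.ofReal ‖z‖⁻¹) (y - v) +
          ENNReal.ofReal η⁻¹ * h y) := by
        apply lintegral_mono
        intro y
        simp only
        by_cases hy : ‖y - v‖ < η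
        · rw [indicator_of_mem (show y - v ∈ {z : V | ‖z‖ < η} from hy), mul_comm]
          refine le_trans ?_ le_self_add
          gcongr
          exact hB y
        · refine le_trans ?_ le_add_self
          gcongr
          exact not_lt.mp hy
    _ = B * (∫⁻ y : V, {z : V | ‖z‖ < η}.indicator (fun z => ENNReal.ofReal ‖z‖⁻¹) (y - v)) +
          ENNReal.ofReal η⁻¹ * ∫⁻ y, h y := by
        have m1 : Measurable fun y : V =>
            {z : V | ‖z‖ < η}.indicator (fun z => ENNReal.ofReal ‖z‖⁻¹) (y - v) :=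
          mf.comp (measurable_id.sub measurable_const)
        rw [lintegral_add_left (m1.const_mul B), lintegral_const_mul _ m1, lintegral_const_mul _ hh]
    _ ≤ _ := by
        rw [e1]
        gcongr
        exact sing_small hη

theorem kk_le_norm (v w : V) (o : S2) : kk v w o ≤ ENNReal.ofReal ‖v‖ + ENNReal.ofReal ‖w‖ := by
  unfold kk
  rw [← ENNReal.ofReal_add (norm_nonneg _) (norm_nonneg _)]
  exact ENNReal.ofReal_le_ofReal (abs_relA_le v w o)

/-- linear upper bound of the collision frequency -/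
theorem Ln_le_lin {f : V → ℝ≥0∞} (hf : Measurable f) (v : V) :
    Ln f v ≤ Ss * (ENNReal.ofReal ‖v‖ * (∫⁻ w, f w) + ∫⁻ w, ENNReal.ofReal ‖w‖ * f w) := by
  unfold Ln
  calc ∫⁻ w, ∫⁻ o, kk v w o * f w ∂surf
      ≤ ∫⁻ w, ∫⁻ _, (ENNReal.ofReal ‖v‖ + ENNReal.ofReal ‖w‖) * f w ∂surf := by
        gcongr with w o
        exact kk_le_norm v w o
    _ = ∫⁻ w, (Ss * ENNReal.ofReal ‖v‖ * f w + Ss * (ENNReal.ofReal ‖w‖ * f w)) := by
        apply lintegral_congr
        intro w
        rw [lintegral_const]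
        change _ * Ss = _
        ring
    _ = _ := by
        have m1 : Measurable fun w : V => ENNReal.ofReal ‖w‖ * f w :=
          measurable_norm.ennreal_ofReal.mul hf
        rw [lintegral_add_left (hf.const_mul _), lintegral_const_mul _ hf, lintegral_const_mul _ m1]
        ring

/-- lower bound for the angular average -/
theorem exists_ang : ∃ c : ℝ, 0 < c ∧ ∀ u : V, ENNReal.ofReal (c * ‖u‖) ≤
    ∫⁻ o : S2, ENNReal.ofReal |inner ℝ u (o : V)| ∂surf := by
  obtain ⟨c, hc, h⟩ := exists_JJ_bound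
  obtain ⟨v0, hv0⟩ : ∃ v0 : V, ‖v0‖ = 1 := by
    obtain ⟨v, hv⟩ := exists_ne (0 : V)
    exact ⟨‖v‖⁻¹ • v, by rw [norm_smul, norm_inv, norm_norm, inv_mul_cancel₀ (norm_ne_zero_iff.mpr hv)]⟩
  refine ⟨c, hc, fun u => ?_⟩
  have h1 := h u v0
  rw [hv0, one_pow, mul_one] at h1
  refine (ENNReal.ofReal_le_ofReal h1).trans ?_
  unfold JJ
  have hcont : Continuous fun o : S2 => jj u v0 o := by
    have hf : Continuous fun o : S2 => (((u, v0), o) : (V × V) × S2) := by fun_prop
    exact (continuous_jj.comp hf :)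
  have hint : Integrable (fun o : S2 => jj u v0 o) surf := by
    have : IsFiniteMeasure surf := inferInstance
    exact hcont.integrable_of_hasCompactSupport (HasCompactSupport.of_compactSpace _)
  rw [ofReal_integral_eq_lintegral_ofReal hint (Eventually.of_forall fun o => jj_nonneg u v0 o)]
  apply lintegral_mono
  intro o
  apply ENNReal.ofReal_le_ofReal
  unfold jj
  have h2 := inner_o_sq_le v0 o
  rw [hv0, one_pow] at h2 ⊢
  have h3 : (inner ℝ v0 (o : V)) ^ 2 * (1 - (inner ℝ v0 (o : V)) ^ 2) ≤ 1 := by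
    nlinarith only [h2]
  calc |inner ℝ u (o : V)| * ((inner ℝ v0 (o : V)) ^ 2 * (1 - (inner ℝ v0 (o : V)) ^ 2))
      ≤ |inner ℝ u (o : V)| * 1 := by (clear * - h3; gcongr)
    _ = _ := mul_one _

theorem kk_sym_ge (v w : V) (o : S2) : ENNReal.ofReal |inner ℝ v (o : V)| +
    ENNReal.ofReal |inner ℝ w (o : V)| ≤ kk v w o + kk v (-w) o := by
  unfold kk relA
  rw [← ENNReal.ofReal_add (abs_nonneg _) (abs_nonneg _),
    ← ENNReal.ofReal_add (abs_nonneg _) (abs_nonneg _)]
  apply ENNReal.ofReal_le_ofReal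
  rw [inner_sub_left, inner_sub_left, inner_neg_left]
  set a : ℝ := inner ℝ v (o : V)
  set b : ℝ := inner ℝ w (o : V)
  have h1 : |(a - b) + (a - -b)| ≤ |a - b| + |a - -b| := abs_add_le _ _
  have h2 : |(a - -b) - (a - b)| ≤ |a - -b| + |a - b| := abs_sub _ _
  have e1 : (a - b) + (a - -b) = 2 * a := by ring
  have e2 : (a - -b) - (a - b) = 2 * b := by ring
  rw [e1, abs_mul, abs_two] at h1
  rw [e2, abs_mul, abs_two] at h2
  linarith

/-- lower bound of the collision frequency of an even function -/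
theorem Ln_ge {f : V → ℝ≥0∞} (hf : Measurable f) (heven : ∀ w, f (-w) = f w) {c : ℝ}
    (hc : 0 ≤ c)
    (hang : ∀ u : V, ENNReal.ofReal (c * ‖u‖) ≤ ∫⁻ o : S2, ENNReal.ofReal |inner ℝ u (o : V)| ∂surf)
    (v : V) : ENNReal.ofReal c * (ENNReal.ofReal ‖v‖ * (∫⁻ w, f w) + ∫⁻ w, ENNReal.ofReal ‖w‖ * f w)
      ≤ 2 * Ln f v := by
  have mpn : MeasurePreserving (Neg.neg : V → V) volume volume := Measure.measurePreserving_neg _
  have mH : Measurable fun w : V => ∫⁻ o, kk v w o * f w ∂surf :=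
    meas_sec_w (meas_LnI hf) v
  have e1 : Ln f v = ∫⁻ w, ∫⁻ o, kk v (-w) o * f w ∂surf := by
    unfold Ln
    rw [← mpn.lintegral_comp mH]
    apply lintegral_congr
    intro w
    rw [heven]
  have mk1 : ∀ w : V, Measurable fun o : S2 => kk v w o := by
    intro w
    unfold kk relA
    apply ENNReal.measurable_ofReal.comp
    apply Continuous.measurable
    fun_prop
  rw [two_mul]
  nth_rewrite 2 [e1]
  unfold Ln
  rw [← lintegral_add_left mH]
  have mn : Measurable fun w : V => ENNReal.ofReal ‖w‖ * f w := measurable_norm.ennreal_ofReal.mul hf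
  calc ENNReal.ofReal c * (ENNReal.ofReal ‖v‖ * (∫⁻ w, f w) + ∫⁻ w, ENNReal.ofReal ‖w‖ * f w)
      = ∫⁻ w, (ENNReal.ofReal (c * ‖v‖) + ENNReal.ofReal (c * ‖w‖)) * f w := by
        have ms : Measurable fun w : V => ENNReal.ofReal ‖v‖ * f w + ENNReal.ofReal ‖w‖ * f w :=
          (hf.const_mul _).add mn
        rw [← lintegral_const_mul _ hf, ← lintegral_add_left (hf.const_mul _),
          ← lintegral_const_mul _ ms]
        apply lintegral_congr
        intro w
        rw [ENNReal.ofReal_mul hc, ENNReal.ofReal_mul hc]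
        ring
    _ ≤ ∫⁻ w, (∫⁻ o, kk v w o * f w ∂surf + ∫⁻ o, kk v (-w) o * f w ∂surf) := by
        apply lintegral_mono
        intro w
        simp only
        have mi : Measurable fun o : S2 => ENNReal.ofReal |inner ℝ v (o : V)| := by
          apply ENNReal.measurable_ofReal.comp
          apply Continuous.measurable
          (clear * -; fun_prop)
        rw [lintegral_mul_const _ (mk1 w), lintegral_mul_const _ (mk1 (-w)), ← add_mul,
          ← lintegral_add_left (mk1 w)]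
        gcongr
        calc ENNReal.ofReal (c * ‖v‖) + ENNReal.ofReal (c * ‖w‖)
            ≤ (∫⁻ o : S2, ENNReal.ofReal |inner ℝ v (o : V)| ∂surf) +
              ∫⁻ o : S2, ENNReal.ofReal |inner ℝ w (o : V)| ∂surf := add_le_add (hang v) (hang w)
          _ = ∫⁻ o : S2, (ENNReal.ofReal |inner ℝ v (o : V)| +
              ENNReal.ofReal |inner ℝ w (o : V)|) ∂surf := (lintegral_add_left mi _).symm
          _ ≤ _ := lintegral_mono fun o => kk_sym_ge v w o

end Vale.Agent.P140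
end

section

/-! Large amplitude: lower bound of the loss frequency after unit time. -/

open MeasureTheory Set Filter
open scoped ENNReal Topology NNReal

noncomputable section

namespace Vale.Agent.P140

variable {M ζ : V → ℝ≥0∞} {CM : ℝ≥0∞}

theorem LA.rate_abs (N : LA M ζ CM) : ∃ β : ℝ≥0∞, β ≠ 0 ∧ β ≠ ⊤ ∧ ∀ r : ℝ≥0∞, r ≠ ⊤ →
    ∃ η : ℝ≥0∞, η ≠ 0 ∧ ∀ (T : ℝ) (h fe : TF), MeasTF h → MeasTF fe →
    (∀ t ∈ Ioc 0 T, ∀ x v, h t x v ≤ r * ζ v) →
    (∀ᵐ t ∂(volume.restrict (Ioc 0 T)), ∫⁻ p : T3 × V, h t p.1 p.2 ≤ η) →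
    (∀ᵐ p : T3 × V, ∀ᵐ t ∂(volume.restrict (Ioc 0 T)), 1 ≤ t →
      ENNReal.ofReal ((M p.2).toReal * (1 - Real.exp (-nu M p.2))) ≤
      fe t (flow t p).1 p.2 + ∫⁻ s in Ioc (t - 1) t, KB M (h s (flow s p).1) p.2) →
    ∀ᵐ q ∂((volume.restrict (Ioc 0 T)).prod (volume : Measure T3)), 1 < q.1 →
      ∀ v, β ≤ Ln (fe q.1 q.2) v := by
  obtain ⟨N0, β0, hβ0, hlow⟩ := N.low
  set β : ℝ≥0∞ := min β0 1 with hβ
  have pβ : β ≠ 0 := (lt_min (pos_iff_ne_zero.mpr hβ0) one_pos).ne'
  have fβ : β ≠ ⊤ := ne_top_of_le_ne_top ENNReal.one_ne_top (min_le_right _ _)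
  have pβ2 : β / 2 ≠ 0 := ENNReal.div_ne_zero.mpr ⟨pβ, by simp⟩
  have fβ2 : β / 2 ≠ ⊤ := ENNReal.div_ne_top fβ (by simp)
  refine ⟨β / 2, pβ2, fβ2, fun r hr => ?_⟩
  set N1 : ℝ := max N0 1 with hN1
  have hN1p : 0 < N1 := lt_of_lt_of_le one_pos (le_max_right _ _)
  have h1N1 : 1 ≤ N1 := le_max_right _ _
  -- smallness parameter
  obtain ⟨σ', hσ', hσ2⟩ := exists_small (K := Ss * ENNReal.ofReal N1 * (CM + 1))
    (ENNReal.mul_ne_top (ENNReal.mul_ne_top Ss_ne_top ENNReal.ofReal_ne_top)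
      (ENNReal.add_ne_top.mpr ⟨N.fCM, by simp⟩)) pβ2
  obtain ⟨η, hη, havg⟩ := N.avg_small hN1p (σ := ENNReal.ofReal σ') (r := r) (W := 1)
    (ENNReal.ofReal_pos.mpr hσ').ne' hr (by simp)
  refine ⟨η, hη, fun T h fe mh mfe hb hL hfl => ?_⟩
  have mK : Measurable fun q : ℝ × T3 × V => KB M (h q.1 q.2.1) q.2.2 := measTF_KB N.mM mh
  -- the low bound in space-time
  set w : ℝ → ℝ≥0∞ := fun u => if u < 1 then 1 else 0 with hw
  have mw : Measurable w := Measurable.ite measurableSet_Iio measurable_const measurable_const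
  have w1 : ∀ u, w u ≤ 1 := by
    intro u
    simp only [hw]
    split_ifs
    · exact le_rfl
    · exact zero_le
  set g : ℝ → T3 × V → ℝ≥0∞ := fun t p =>
    ∫⁻ s in Ioc 0 t, w (t - s) * KB M (h s (flow s p).1) p.2 with hg
  have mKf : Measurable fun q : ℝ × (T3 × V) => KB M (h q.1 (flow q.1 q.2).1) q.2.2 :=
    (mK.comp measurable_stFlow :)
  have mg : Measurable fun q : ℝ × (T3 × V) => g q.1 q.2 := by
    have e : (fun q : ℝ × (T3 × V) => g q.1 q.2) = fun q : ℝ × (T3 × V) =>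
        ∫⁻ s, (if 0 < s ∧ s ≤ q.1 then w (q.1 - s) * KB M (h s (flow s q.2).1) q.2.2 else 0) := by
      funext q
      rw [hg]
      simp only
      rw [← lintegral_indicator measurableSet_Ioc]
      apply lintegral_congr
      intro s
      simp only [indicator, mem_Ioc]
    rw [e]
    have hj : Measurable fun z : (ℝ × (T3 × V)) × ℝ =>
        (if 0 < z.2 ∧ z.2 ≤ z.1.1 then w (z.1.1 - z.2) * KB M (h z.2 (flow z.2 z.1.2).1) z.1.2.2
          else 0) := by
      apply Measurable.ite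
      · exact (measurableSet_lt measurable_const measurable_snd).inter
          (measurableSet_le measurable_snd measurable_fst.fst)
      · apply Measurable.mul
        · exact mw.comp (measurable_fst.fst.sub measurable_snd)
        · exact (mKf.comp (measurable_snd.prodMk measurable_fst.snd) :)
      · exact measurable_const
    exact hj.lintegral_prod_right'
  have hfl2 : ∀ᵐ p : T3 × V, ∀ᵐ t ∂(volume.restrict (Ioc 0 T)), 1 < t →
      ENNReal.ofReal ((M p.2).toReal * (1 - Real.exp (-nu M p.2))) ≤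
      fe t (flow t p).1 p.2 + g t p := by
    filter_upwards [hfl] with p hp
    filter_upwards [hp] with t ht h1
    refine (ht h1.le).trans ?_
    gcongr
    rw [hg]
    simp only
    have hsub : Ioc (t - 1) t ⊆ Ioc 0 t := Ioc_subset_Ioc_left (by (clear * - h1; linarith))
    calc ∫⁻ s in Ioc (t - 1) t, KB M (h s (flow s p).1) p.2
        = ∫⁻ s in Ioc (t - 1) t, w (t - s) * KB M (h s (flow s p).1) p.2 := by
          apply setLIntegral_congr_fun measurableSet_Ioc
          intro s hs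
          have : t - s < 1 := by linarith only [hs.1]
          simp only [hw, if_pos this, one_mul]
      _ ≤ _ := lintegral_mono_set hsub
  have hset : MeasurableSet {q : ℝ × T3 × V | 1 < q.1 →
      ENNReal.ofReal ((M q.2.2).toReal * (1 - Real.exp (-nu M q.2.2))) ≤
      fe q.1 (flow q.1 q.2).1 q.2.2 + g q.1 q.2} := by
    have hA : MeasurableSet {q : ℝ × T3 × V | 1 < q.1} :=
      measurableSet_lt measurable_const measurable_fst
    have hB : MeasurableSet {q : ℝ × T3 × V |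
        ENNReal.ofReal ((M q.2.2).toReal * (1 - Real.exp (-nu M q.2.2))) ≤
        fe q.1 (flow q.1 q.2).1 q.2.2 + g q.1 q.2} := by
      apply measurableSet_le
      · have m1 : Measurable fun v : V => (M v).toReal * (1 - Real.exp (-nu M v)) :=
          N.mM.ennreal_toReal.mul (measurable_const.sub (measurable_nu N.mM).neg.exp)
        exact (m1.comp measurable_snd.snd).ennreal_ofReal
      · exact (mfe.comp measurable_stFlow).add mg
    have : {q : ℝ × T3 × V | 1 < q.1 →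
      ENNReal.ofReal ((M q.2.2).toReal * (1 - Real.exp (-nu M q.2.2))) ≤
      fe q.1 (flow q.1 q.2).1 q.2.2 + g q.1 q.2} =
      {q : ℝ × T3 × V | 1 < q.1}ᶜ ∪ {q : ℝ × T3 × V |
        ENNReal.ofReal ((M q.2.2).toReal * (1 - Real.exp (-nu M q.2.2))) ≤
        fe q.1 (flow q.1 q.2).1 q.2.2 + g q.1 q.2} := by
      ext q
      simp only [mem_ofPred_eq, mem_union, mem_compl_iff]
      (clear * -; tauto)
    rw [this]
    exact hA.compl.union hB
  have h1 := ae_of_ae_flow (μ := volume.restrict (Ioc 0 T)) hset hfl2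
  have h2 := ae_sX h1
  have hTm : ∀ᵐ q ∂((volume.restrict (Ioc 0 T)).prod (volume : Measure T3)), q.1 ∈ Ioc 0 T := by
    have h3 : ∀ᵐ t ∂(volume.restrict (Ioc 0 T)), t ∈ Ioc 0 T := ae_restrict_mem measurableSet_Ioc
    exact Measure.quasiMeasurePreserving_fst.ae h3
  filter_upwards [h2, hTm] with q hq hqT hq1 v
  obtain ⟨t, X⟩ := q
  simp only at hq hqT hq1 ⊢
  set B : Set V := {y : V | ‖y‖ ≤ N1} with hB
  have mB : MeasurableSet B := measurableSet_le measurable_norm measurable_const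
  set f1 : V → ℝ≥0∞ := fe t X with hf1
  have mf1 : Measurable f1 := mfe.sec t X
  set g1 : V → ℝ≥0∞ := B.indicator fun y => g t (flow (-t) (X, y)) with hg1
  have mflow : Measurable fun y : V => ((t, flow (-t) (X, y)) : ℝ × (T3 × V)) := by
    apply measurable_const.prodMk
    exact (measurable_flow_uncurry.comp (measurable_const.prodMk
      (measurable_const.prodMk measurable_id)) :)
  have mgy : Measurable fun y : V => g t (flow (-t) (X, y)) := mg.comp mflow
  have mg1 : Measurable g1 := mgy.indicator mB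
  have hcmp : ∀ᵐ y : V, ‖y‖ ≤ N0 →
      ENNReal.ofReal ((M y).toReal * (1 - Real.exp (-nu M y))) ≤ f1 y + g1 y := by
    filter_upwards [hq] with y hy hyN
    have hyB : y ∈ B := le_trans hyN (le_max_left _ _)
    have a1 := hy hq1
    have e1 : flow t (flow (-t) (X, y)) = (X, y) := flow_flow_neg t (X, y)
    rw [e1] at a1
    have e2 : (flow (-t) (X, y)).2 = y := rfl
    rw [hg1, indicator_of_mem hyB]
    exact a1
  have a2 := hlow _ (mf1.add mg1) hcmp v
  have a3 : Ln (fun w => f1 w + g1 w) v = Ln f1 v + Ln g1 v := Ln_add mf1 v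
  have hsm : Ln g1 v ≤ (β / 2) * (ENNReal.ofReal ‖v‖ + 1) := by
    have b1 : ∫⁻ w, g1 w ≤ (CM + 1) * ENNReal.ofReal σ' := by
      rw [hg1, lintegral_indicator mB]
      have b2 := havg T h mh hb hL w mw w1 t hqT (by
        calc ∫⁻ s in Ioc 0 t, w (t - s) ≤ ∫⁻ s in Ioc 0 t, (Ioc (t - 1) t).indicator (fun _ => 1) s := by
              apply setLIntegral_mono' measurableSet_Ioc
              intro s hs
              simp only [hw]
              by_cases hc : t - s < 1
              · rw [if_pos hc, indicator_of_mem (show s ∈ Ioc (t - 1) t from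
                  ⟨by linarith only [hc], hs.2⟩)]
              · rw [if_neg hc]
                exact zero_le
          _ ≤ ∫⁻ s, (Ioc (t - 1) t).indicator (fun _ => 1) s := setLIntegral_le_lintegral _ _
          _ = 1 := by
              rw [lintegral_indicator measurableSet_Ioc, setLIntegral_const, Real.volume_Ioc]
              simp) X
      calc ∫⁻ y in B, g t (flow (-t) (X, y))
          ≤ ∫⁻ y in B, (CM + 1) * ∫⁻ s in Ioc 0 t,
              w (t - s) * TT M ζ (h s (X - toTorus ((t - s) • y))) y := by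
            apply lintegral_mono
            intro y
            rw [hg]
            simp only [flow_back]
            rw [← lintegral_const_mul' _ _ (ENNReal.add_ne_top.mpr ⟨N.fCM, by simp⟩)]
            apply lintegral_mono
            intro s
            simp only
            have e2 : (flow (-t) (X, y)).2 = y := rfl
            rw [e2]
            calc w (t - s) * KB M (h s (X - toTorus ((t - s) • y))) y
                ≤ w (t - s) * ((CM + 1) * TT M ζ (h s (X - toTorus ((t - s) • y))) y) := by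
                  gcongr
                  exact N.KB_le_TT (mh.sec _ _) y
              _ = _ := by ring
        _ = (CM + 1) * ∫⁻ y in B, ∫⁻ s in Ioc 0 t,
              w (t - s) * TT M ζ (h s (X - toTorus ((t - s) • y))) y :=
            lintegral_const_mul' _ _ (ENNReal.add_ne_top.mpr ⟨N.fCM, by simp⟩)
        _ ≤ _ := by (clear * - b2; gcongr)
    have b3 : ∫⁻ w, ENNReal.ofReal ‖w‖ * g1 w ≤ ENNReal.ofReal N1 * ∫⁻ w, g1 w := by
      rw [← lintegral_const_mul _ mg1]
      apply lintegral_mono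
      intro y
      simp only
      by_cases hy : y ∈ B
      · gcongr
        exact hy
      · rw [hg1, indicator_of_notMem hy]
        simp
    calc Ln g1 v ≤ Ss * (ENNReal.ofReal ‖v‖ * (∫⁻ w, g1 w) + ∫⁻ w, ENNReal.ofReal ‖w‖ * g1 w) :=
          Ln_le_lin mg1 v
      _ ≤ Ss * (ENNReal.ofReal ‖v‖ * (ENNReal.ofReal N1 * ∫⁻ w, g1 w) +
          ENNReal.ofReal N1 * ∫⁻ w, g1 w) := by
          gcongr
          calc ∫⁻ w, g1 w = 1 * ∫⁻ w, g1 w := (one_mul _).symm
            _ ≤ ENNReal.ofReal N1 * ∫⁻ w, g1 w := by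
                gcongr
                rw [← ENNReal.ofReal_one]
                exact ENNReal.ofReal_le_ofReal h1N1
      _ = Ss * ENNReal.ofReal N1 * (∫⁻ w, g1 w) * (ENNReal.ofReal ‖v‖ + 1) := by ring
      _ ≤ Ss * ENNReal.ofReal N1 * ((CM + 1) * ENNReal.ofReal σ') * (ENNReal.ofReal ‖v‖ + 1) := by
          (clear * - b1; gcongr)
      _ = (Ss * ENNReal.ofReal N1 * (CM + 1) * ENNReal.ofReal σ') * (ENNReal.ofReal ‖v‖ + 1) := by
          ring
      _ ≤ _ := by (clear * - hσ2; gcongr)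
  set q1 : ℝ≥0∞ := ENNReal.ofReal ‖v‖ + 1 with hq1d
  have fq : q1 ≠ ⊤ := ENNReal.add_ne_top.mpr ⟨ENNReal.ofReal_ne_top, by simp⟩
  have a4 : β * q1 ≤ Ln f1 v + (β / 2) * q1 := by
    calc β * q1 ≤ β0 * q1 := by
          gcongr
          exact min_le_left _ _
      _ ≤ Ln (fun w => f1 w + g1 w) v := a2
      _ = Ln f1 v + Ln g1 v := a3
      _ ≤ _ := by (clear * - hsm; gcongr)
  have a5 : β * q1 = (β / 2) * q1 + (β / 2) * q1 := by
    rw [← add_mul, ENNReal.add_halves]
  rw [a5] at a4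
  have a6 : (β / 2) * q1 ≤ Ln f1 v :=
    (ENNReal.add_le_add_iff_right (ENNReal.mul_ne_top fβ2 fq)).mp a4
  calc β / 2 = (β / 2) * 1 := (mul_one _).symm
    _ ≤ (β / 2) * q1 := by
        gcongr
        exact le_add_self
    _ ≤ _ := a6

theorem LA.rate_low (N : LA M ζ CM) : ∃ l : ℝ, 0 < l ∧ ∀ r : ℝ≥0∞, r ≠ ⊤ → ∃ η : ℝ≥0∞, η ≠ 0 ∧
    ∀ (T : ℝ) (F0 : T3 → V → ℝ) (F : ℝ → T3 → V → ℝ), 0 < T → IsMild T F0 F →
    (∀ t ∈ Ioc 0 T, ∀ x v, hh M F t x v ≤ r * ζ v) →
    (∀ᵐ t ∂(volume.restrict (Ioc 0 T)), ∫⁻ p : T3 × V, hh M F t p.1 p.2 ≤ η) →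
    ∀ᵐ p : T3 × V, ∀ᵐ s ∂(volume.restrict (Ioc 0 T)), 1 < s → l ≤ LF F p s := by
  obtain ⟨β, pβ, fβ, hβ⟩ := N.rate_abs
  refine ⟨β.toReal, ENNReal.toReal_pos pβ fβ, fun r hr => ?_⟩
  obtain ⟨η, hη, hm⟩ := hβ r hr
  refine ⟨η, hη, fun T F0 F hT hF hb hL => ?_⟩
  have hmain := hm T (hh M F) (fun t x v => ENNReal.ofReal (F t x v)) (measTF_hh N.mM hF.measurable)
    hF.measurable.ennreal_ofReal hb hL (N.low_flow hF hT hr hb)
  have hmain2 := ae_flow_x (μ := volume.restrict (Ioc 0 T))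
    (P := fun q => 1 < q.1 → ∀ v, β ≤ Ln (fun w => ENNReal.ofReal (F q.1 q.2 w)) v) hmain
  filter_upwards [hmain2] with p hp
  filter_upwards [hp, ae_restrict_mem measurableSet_Ioc] with s hs hsm h1s
  have a7 := hs h1s p.2
  unfold LF
  apply ENNReal.toReal_mono _ a7
  exact ne_top_of_le_ne_top (ENNReal.mul_ne_top (ENNReal.add_ne_top.mpr ⟨N.fCM, hr⟩)
      (N.Lnζ_ne_top p.2)) (N.LnF_le hF.nonneg hb hsm _ _)

end Vale.Agent.P140
end
end

section

/-! Large amplitude: the a priori bound. -/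

open MeasureTheory Set Filter
open scoped ENNReal Topology NNReal

noncomputable section

namespace Vale.Agent.P140

variable {M ζ : V → ℝ≥0∞} {CM : ℝ≥0∞}

theorem duh_le_inv' {l t : ℝ} (hl : 0 < l) (ht : 0 ≤ t) (c : ℝ≥0∞) :
    duh l 0 (fun _ => c) t ≤ (ENNReal.ofReal l)⁻¹ * c := by
  have h1 := duh_const_le (l := l) hl.le ht c
  have h0 : ENNReal.ofReal l ≠ 0 := (ENNReal.ofReal_pos.mpr hl).ne'
  calc duh l 0 (fun _ => c) t
      = (ENNReal.ofReal l)⁻¹ * (ENNReal.ofReal l * duh l 0 (fun _ => c) t) := by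
        rw [← mul_assoc, ENNReal.inv_mul_cancel h0 ENNReal.ofReal_ne_top, one_mul]
    _ ≤ _ := by gcongr

/-- exponential weight -/
def wexp (l u : ℝ) : ℝ≥0∞ := ENNReal.ofReal (Real.exp (-l * max u 0))

theorem measurable_wexp (l : ℝ) : Measurable (wexp l) := by
  unfold wexp
  apply ENNReal.measurable_ofReal.comp
  apply Continuous.measurable
  fun_prop

theorem wexp_le_one {l : ℝ} (hl : 0 ≤ l) (u : ℝ) : wexp l u ≤ 1 := by
  unfold wexp
  rw [ENNReal.ofReal_le_one, Real.exp_le_one_iff]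
  linarith only [mul_nonneg (sub_nonneg.2 hl) (sub_nonneg.2 (le_max_right u 0))]

theorem wexp_eq {l u : ℝ} (hu : 0 ≤ u) : wexp l u = ENNReal.ofReal (Real.exp (-l * u)) := by
  unfold wexp
  rw [max_eq_left hu]

theorem int_wexp {l t : ℝ} (hl : 0 < l) (ht : 0 ≤ t) :
    ∫⁻ s in Ioc 0 t, wexp l (t - s) ≤ (ENNReal.ofReal l)⁻¹ := by
  have h := duh_le_inv' hl ht 1
  unfold duh at h
  rw [mul_zero, zero_add, mul_one] at h
  refine le_trans (le_of_eq ?_) h
  apply setLIntegral_congr_fun measurableSet_Ioc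
  intro s hs
  simp only
  rw [wexp_eq (by linarith only [hs.2]), mul_one]

theorem joint_S2c {α : Type*} [MeasurableSpace α] (hM : Measurable M)
    {h : α → V → ℝ≥0∞} (hh : Measurable fun p : α × V => h p.1 p.2) :
    Measurable fun p : α × V => S2c M (h p.1) p.2 := by
  unfold S2c
  exact (joint_KB hM hh).add (joint_Bg hh hh)

theorem measTF_S2c (hM : Measurable M) {h : TF} (hh : MeasTF h) :
    MeasTF (fun t x v => S2c M (h t x) v) := by
  apply MeasTF.of_assoc
  exact joint_S2c hM (α := ℝ × T3) (h := fun q => h q.1 q.2) hh.assoc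

theorem LA.S2c_le_TT (N : LA M ζ CM) {h : V → ℝ≥0∞} (mh : Measurable h) {r : ℝ≥0∞}
    (hr : ∀ v, h v ≤ r * ζ v) (v : V) : S2c M h v ≤ (CM + 1 + r) * TT M ζ h v := by
  unfold S2c
  rw [add_mul]
  exact add_le_add (N.KB_le_TT mh v) (N.Bg_le_TT mh hr v)

/-- the source with the initial layer separated -/
theorem LA.S2c_split (N : LA M ζ CM) {h g : V → ℝ≥0∞} (mh : Measurable h) (mg : Measurable g)
    {r a : ℝ≥0∞} (hr : ∀ v, h v ≤ r * ζ v) (hg : ∀ v, h v ≤ a * ζ v + g v) (v : V) :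
    S2c M h v ≤ (CM + 1 + a) * TT M ζ h v + r * TT M ζ g v := by
  unfold S2c
  have h1 : Bg h h v ≤ a * TT M ζ h v + r * TT M ζ g v := by
    calc Bg h h v ≤ Bg h (fun w => a * ζ w + g w) v := Bg_mono (fun _ => le_rfl) hg v
      _ = Bg h (fun w => a * ζ w) v + Bg h g v := Bg_add_right mh (N.mζ.const_mul a) v
      _ ≤ _ := add_le_add (N.Bg_le_TT mh (fun _ => le_rfl) v) (N.Bg_le_TT' mg hr v)
  calc KB M h v + Bg h h v ≤ (CM + 1) * TT M ζ h v + (a * TT M ζ h v + r * TT M ζ g v) :=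
        add_le_add (N.KB_le_TT mh v) h1
    _ = _ := by ring

/-- averages of the part beyond the initial layer are small -/
theorem LA.avg_layer (N : LA M ζ CM) {l : ℝ} (hl : 0 < l) {K0 : ℝ≥0∞} (hK0 : K0 ≠ ⊤)
    {N1 : ℝ} (hN1 : 0 < N1) {σ r : ℝ≥0∞} (hσ : σ ≠ 0) (hr : r ≠ ⊤) :
    ∃ η : ℝ≥0∞, η ≠ 0 ∧ ∀ (T : ℝ) (h g : TF), MeasTF h → MeasTF g →
    (∀ t ∈ Ioc 0 T, ∀ x v, h t x v ≤ r * ζ v) →
    (∀ᵐ t ∂(volume.restrict (Ioc 0 T)), ∫⁻ p : T3 × V, h t p.1 p.2 ≤ η) →
    (∀ᵐ p : T3 × V, ∀ᵐ t ∂(volume.restrict (Ioc 0 T)), g t (flow t p).1 p.2 ≤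
      K0 * duh l 0 (fun s => S2c M (h s (flow s p).1) p.2) t) →
    ∀ᵐ q ∂((volume.restrict (Ioc 0 T)).prod (volume : Measure T3)),
      ∫⁻ y in {y : V | ‖y‖ ≤ N1}, g q.1 q.2 y ≤ σ := by
  have fC : CM + 1 + r ≠ ⊤ := ENNReal.add_ne_top.mpr
    ⟨ENNReal.add_ne_top.mpr ⟨N.fCM, by simp⟩, hr⟩
  obtain ⟨σ', hσ', hσ2⟩ := exists_small (K := K0 * (CM + 1 + r)) (ENNReal.mul_ne_top hK0 fC) hσ
  have fW : (ENNReal.ofReal l)⁻¹ ≠ ⊤ := ENNReal.inv_ne_top.mpr (ENNReal.ofReal_pos.mpr hl).ne'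
  obtain ⟨η, hη, havg⟩ := N.avg_small hN1 (σ := ENNReal.ofReal σ') (r := r)
    (ENNReal.ofReal_pos.mpr hσ').ne' hr fW
  refine ⟨η, hη, fun T h g mh mg hb hL hD => ?_⟩
  have mS : Measurable fun q : ℝ × T3 × V => S2c M (h q.1 q.2.1) q.2.2 := measTF_S2c N.mM mh
  have mS2 : Measurable fun q : ℝ × (T3 × V) => S2c M (h q.1 (flow q.1 q.2).1) q.2.2 :=
    (mS.comp measurable_stFlow :)
  have mD : Measurable fun q : ℝ × (T3 × V) => duh l 0
      (fun s => S2c M (h s (flow s q.2).1) q.2.2) q.1 :=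
    measurable_duh_param (α := T3 × V) (l := fun _ => l) (h0 := fun _ => 0)
      measurable_const measurable_const
      (G := fun s p => S2c M (h s (flow s p).1) p.2) mS2
  have hset : MeasurableSet {q : ℝ × T3 × V | g q.1 (flow q.1 q.2).1 q.2.2 ≤
      K0 * duh l 0 (fun s => S2c M (h s (flow s q.2).1) q.2.2) q.1} := by
    apply measurableSet_le
    · exact mg.comp measurable_stFlow
    · exact mD.const_mul K0
  have h1 := ae_of_ae_flow (μ := volume.restrict (Ioc 0 T))
    (P := fun q => g q.1 (flow q.1 q.2).1 q.2.2 ≤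
      K0 * duh l 0 (fun s => S2c M (h s (flow s q.2).1) q.2.2) q.1) hset hD
  have h2 := ae_sX h1
  have hTm : ∀ᵐ q ∂((volume.restrict (Ioc 0 T)).prod (volume : Measure T3)), q.1 ∈ Ioc 0 T := by
    have h3 : ∀ᵐ t ∂(volume.restrict (Ioc 0 T)), t ∈ Ioc 0 T := ae_restrict_mem measurableSet_Ioc
    exact Measure.quasiMeasurePreserving_fst.ae h3
  filter_upwards [h2, hTm] with q hq hqT
  obtain ⟨t, X⟩ := q
  simp only at hq hqT ⊢
  have a1 := havg T h mh hb hL (wexp l) (measurable_wexp l) (wexp_le_one hl.le) t hqT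
    (int_wexp hl hqT.1.le) X
  calc ∫⁻ y in {y : V | ‖y‖ ≤ N1}, g t X y
      ≤ ∫⁻ y in {y : V | ‖y‖ ≤ N1}, (K0 * (CM + 1 + r)) * ∫⁻ s in Ioc 0 t,
          wexp l (t - s) * TT M ζ (h s (X - toTorus ((t - s) • y))) y := by
        apply lintegral_mono_ae
        filter_upwards [ae_restrict_of_ae hq] with y hy
        have e0 : (flow t (flow (-t) (X, y))) = (X, y) := flow_flow_neg t (X, y)
        rw [e0] at hy
        refine hy.trans ?_
        rw [mul_assoc]
        gcongr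
        unfold duh
        rw [mul_zero, zero_add, ← lintegral_const_mul' _ _ fC]
        apply setLIntegral_mono' measurableSet_Ioc
        intro s hs
        have hsT : s ∈ Ioc 0 T := ⟨hs.1, hs.2.trans hqT.2⟩
        simp only [flow_back]
        have e2 : (flow (-t) (X, y)).2 = y := rfl
        rw [e2, ← wexp_eq (by linarith only [hs.2])]
        calc wexp l (t - s) * S2c M (h s (X - toTorus ((t - s) • y))) y
            ≤ wexp l (t - s) * ((CM + 1 + r) * TT M ζ (h s (X - toTorus ((t - s) • y))) y) := by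
              gcongr
              exact N.S2c_le_TT (mh.sec _ _) (hb s hsT _) y
          _ = _ := by ring
    _ = (K0 * (CM + 1 + r)) * ∫⁻ y in {y : V | ‖y‖ ≤ N1}, ∫⁻ s in Ioc 0 t,
          wexp l (t - s) * TT M ζ (h s (X - toTorus ((t - s) • y))) y :=
        lintegral_const_mul' _ _ (ENNReal.mul_ne_top hK0 fC)
    _ ≤ (K0 * (CM + 1 + r)) * ENNReal.ofReal σ' := by (clear * - a1; gcongr)
    _ ≤ σ := hσ2

/-- **A priori bound**, large amplitude -/
theorem LA.apriori_abs (N : LA M ζ CM) {l : ℝ} (hl : 0 < l) {K0 A : ℝ≥0∞} (hK0 : K0 ≠ ⊤)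
    (hA : A ≠ ⊤) : ∃ R : ℝ≥0∞, R ≠ ⊤ ∧ 1 ≤ R ∧ ∀ r : ℝ≥0∞, R ≤ r → r ≠ ⊤ →
    ∃ η : ℝ≥0∞, η ≠ 0 ∧ ∀ (T : ℝ) (h : TF) (h0 : T3 → V → ℝ≥0∞), MeasTF h →
    (∀ t ∈ Ioc 0 T, ∀ x v, h t x v ≤ r * ζ v) →
    (∀ᵐ p : T3 × V, h0 p.1 p.2 ≤ A * ζ p.2) →
    (∀ᵐ t ∂(volume.restrict (Ioc 0 T)), ∫⁻ p : T3 × V, h t p.1 p.2 ≤ η) →
    (∀ᵐ p : T3 × V, ∀ᵐ t ∂(volume.restrict (Ioc 0 T)), h t (flow t p).1 p.2 ≤
      K0 * duh l (h0 p.1 p.2) (fun s => S2c M (h s (flow s p).1) p.2) t) →
    ∀ᵐ p : T3 × V, ∀ᵐ t ∂(volume.restrict (Ioc 0 T)),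
      h t (flow t p).1 p.2 ≤ (r / 2) * ζ p.2 := by
  set I : ℝ≥0∞ := ∫⁻ v, ζ v with hI
  have fI : I ≠ ⊤ := N.int_ζ
  set a : ℝ≥0∞ := K0 * A with ha
  have fa : a ≠ ⊤ := ENNReal.mul_ne_top hK0 hA
  set ι : ℝ≥0∞ := (ENNReal.ofReal l)⁻¹ with hι
  have fι : ι ≠ ⊤ := ENNReal.inv_ne_top.mpr (ENNReal.ofReal_pos.mpr hl).ne'
  set B : ℝ≥0∞ := K0 * ι * (CM + 1 + a) with hB
  have fB : B ≠ ⊤ := ENNReal.mul_ne_top (ENNReal.mul_ne_top hK0 fι) (ENNReal.add_ne_top.mpr
    ⟨ENNReal.add_ne_top.mpr ⟨N.fCM, by simp⟩, fa⟩)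
  have p8 : (1 / 8 : ℝ≥0∞) ≠ 0 := by simp
  have p16 : (1 / 16 : ℝ≥0∞) ≠ 0 := by simp
  obtain ⟨δ, hδ, hδ'⟩ := exists_small fB p8
  obtain ⟨N', C, fC, hC⟩ := N.SP (ENNReal.ofReal δ) (ENNReal.ofReal_pos.mpr hδ).ne'
  refine ⟨8 * (a + B * (C * (a * I))) + 1, ?_, le_add_self, ?_⟩
  · exact ENNReal.add_ne_top.mpr ⟨ENNReal.mul_ne_top (by simp) (ENNReal.add_ne_top.mpr ⟨fa,
      ENNReal.mul_ne_top fB (ENNReal.mul_ne_top fC (ENNReal.mul_ne_top fa fI))⟩), by simp⟩
  intro r hRr hr
  have h1r : 1 ≤ r := le_trans le_add_self hRr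
  have hRr' : 8 * (a + B * (C * (a * I))) ≤ r := le_trans le_self_add hRr
  obtain ⟨σ1, hσ1, hσ1'⟩ := exists_small (K := B * C) (ENNReal.mul_ne_top fB fC) p8
  obtain ⟨δ2, hδ2, hδ2'⟩ := exists_small (K := K0 * ι * r)
    (ENNReal.mul_ne_top (ENNReal.mul_ne_top hK0 fι) hr) p16
  obtain ⟨N2, C2, fC2, hC2⟩ := N.SP (ENNReal.ofReal δ2) (ENNReal.ofReal_pos.mpr hδ2).ne'
  obtain ⟨σ2, hσ2, hσ2'⟩ := exists_small (K := K0 * ι * r * C2)
    (ENNReal.mul_ne_top (ENNReal.mul_ne_top (ENNReal.mul_ne_top hK0 fι) hr) fC2) p16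
  set N1 : ℝ := max (max N' N2) 1 with hN1
  have hN1p : 0 < N1 := lt_of_lt_of_le one_pos (le_max_right _ _)
  set σ : ℝ≥0∞ := min (ENNReal.ofReal σ1) (ENNReal.ofReal σ2) with hσ
  have pσ : σ ≠ 0 := (lt_min (ENNReal.ofReal_pos.mpr hσ1) (ENNReal.ofReal_pos.mpr hσ2)).ne'
  obtain ⟨η, hη, hlay⟩ := N.avg_layer hl hK0 hN1p pσ hr
  refine ⟨η, hη, fun T h h0 mh hb hh0 hL hD => ?_⟩
  -- the part beyond the layer
  set g : TF := fun t x v => h t x v - a * ζ v with hg
  have mg : MeasTF g := by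
    unfold MeasTF
    exact Measurable.sub mh ((N.mζ.comp measurable_snd.snd).const_mul a)
  have hgh : ∀ t x v, g t x v ≤ h t x v := fun t x v => tsub_le_self
  have hhg : ∀ t x v, h t x v ≤ a * ζ v + g t x v := by
    intro t x v
    rw [hg]
    simp only
    exact le_add_tsub
  have hD2 : ∀ᵐ p : T3 × V, ∀ᵐ t ∂(volume.restrict (Ioc 0 T)), h t (flow t p).1 p.2 ≤
      a * ζ p.2 + K0 * duh l 0 (fun s => S2c M (h s (flow s p).1) p.2) t := by
    filter_upwards [hD, hh0] with p hp1 hp2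
    filter_upwards [hp1, ae_restrict_mem measurableSet_Ioc] with t ht1 ht2
    refine ht1.trans ?_
    calc K0 * duh l (h0 p.1 p.2) (fun s => S2c M (h s (flow s p).1) p.2) t
        ≤ K0 * (h0 p.1 p.2 + duh l 0 (fun s => S2c M (h s (flow s p).1) p.2) t) := by
          gcongr
          exact duh_h0_le hl.le ht2.1.le _ _
      _ ≤ K0 * (A * ζ p.2 + duh l 0 (fun s => S2c M (h s (flow s p).1) p.2) t) := by (clear * - hp2; gcongr)
      _ = _ := by rw [ha]; ring
  have hD3 : ∀ᵐ p : T3 × V, ∀ᵐ t ∂(volume.restrict (Ioc 0 T)), g t (flow t p).1 p.2 ≤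
      K0 * duh l 0 (fun s => S2c M (h s (flow s p).1) p.2) t := by
    filter_upwards [hD2] with p hp
    filter_upwards [hp] with t ht
    rw [hg]
    simp only
    rw [tsub_le_iff_left]
    exact ht
  have hav := hlay T h g mh mg hb hL hD3
  -- bound of the source
  set Q : ℝ≥0∞ := (CM + 1 + a) * (ENNReal.ofReal δ * r + C * (a * I + ENNReal.ofReal σ1)) +
    r * (ENNReal.ofReal δ2 * r + C2 * ENNReal.ofReal σ2) with hQ
  have hTm : ∀ᵐ q ∂((volume.restrict (Ioc 0 T)).prod (volume : Measure T3)), q.1 ∈ Ioc 0 T := by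
    have h3 : ∀ᵐ t ∂(volume.restrict (Ioc 0 T)), t ∈ Ioc 0 T := ae_restrict_mem measurableSet_Ioc
    exact Measure.quasiMeasurePreserving_fst.ae h3
  have hS : ∀ᵐ q ∂((volume.restrict (Ioc 0 T)).prod (volume : Measure T3)),
      ∀ v, S2c M (h q.1 q.2) v ≤ Q * ζ v := by
    filter_upwards [hav, hTm] with q hq hqT v
    obtain ⟨s, X⟩ := q
    simp only at hq hqT ⊢
    have sub1 : {y : V | ‖y‖ ≤ N'} ⊆ {y : V | ‖y‖ ≤ N1} := fun y hy =>
      le_trans (show ‖y‖ ≤ N' from hy) ((le_max_left _ _).trans (le_max_left _ _))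
    have sub2 : {y : V | ‖y‖ ≤ N2} ⊆ {y : V | ‖y‖ ≤ N1} := fun y hy =>
      le_trans (show ‖y‖ ≤ N2 from hy) ((le_max_right _ _).trans (le_max_left _ _))
    have b1 : ∫⁻ y in {y : V | ‖y‖ ≤ N'}, h s X y ≤ a * I + ENNReal.ofReal σ1 := by
      calc ∫⁻ y in {y : V | ‖y‖ ≤ N'}, h s X y
          ≤ ∫⁻ y in {y : V | ‖y‖ ≤ N'}, (a * ζ y + g s X y) := lintegral_mono fun y => hhg s X y
        _ = (∫⁻ y in {y : V | ‖y‖ ≤ N'}, a * ζ y) + ∫⁻ y in {y : V | ‖y‖ ≤ N'}, g s X y :=
            lintegral_add_left (N.mζ.const_mul a) _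
        _ ≤ a * I + ENNReal.ofReal σ1 := by
            apply add_le_add
            · rw [hI, ← lintegral_const_mul _ N.mζ]
              exact setLIntegral_le_lintegral _ _
            · exact (lintegral_mono_set sub1).trans (hq.trans (min_le_left _ _))
    have b2 : ∫⁻ y in {y : V | ‖y‖ ≤ N2}, g s X y ≤ ENNReal.ofReal σ2 :=
      (lintegral_mono_set sub2).trans (hq.trans (min_le_right _ _))
    have hgr : ∀ v, g s X v ≤ r * ζ v := fun v => (hgh s X v).trans (hb s hqT X v)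
    calc S2c M (h s X) v ≤ (CM + 1 + a) * TT M ζ (h s X) v + r * TT M ζ (g s X) v :=
          N.S2c_split (mh.sec s X) (mg.sec s X) (hb s hqT X) (hhg s X) v
      _ ≤ (CM + 1 + a) * ((ENNReal.ofReal δ * r + C * (a * I + ENNReal.ofReal σ1)) * ζ v) +
          r * ((ENNReal.ofReal δ2 * r + C2 * ENNReal.ofReal σ2) * ζ v) := by
          apply add_le_add
          · gcongr
            refine (hC _ (mh.sec s X) r (hb s hqT X) v).trans ?_
            (clear * - b1; gcongr)
          · gcongr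
            refine (hC2 _ (mg.sec s X) r hgr v).trans ?_
            (clear * - b2; gcongr)
      _ = _ := by rw [hQ]; ring
  have hS2 := ae_flow_x (μ := volume.restrict (Ioc 0 T))
    (P := fun q => ∀ v, S2c M (h q.1 q.2) v ≤ Q * ζ v) hS
  -- conclusion
  have hfinal : a + K0 * (ι * Q) ≤ r / 2 := by
    have e1 : a + K0 * (ι * Q) = (a + B * (C * (a * I))) + (B * ENNReal.ofReal δ) * r +
        (B * C) * ENNReal.ofReal σ1 + (K0 * ι * r * ENNReal.ofReal δ2) * r +
        (K0 * ι * r * C2) * ENNReal.ofReal σ2 := by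
      rw [hQ, hB]
      ring
    rw [e1]
    have c1 : a + B * (C * (a * I)) ≤ r / 8 := by
      rw [ENNReal.le_div_iff_mul_le (by simp) (by simp), mul_comm]
      exact hRr'
    have c2 : (B * ENNReal.ofReal δ) * r ≤ r / 8 := by
      calc (B * ENNReal.ofReal δ) * r ≤ (1 / 8) * r := by (clear * - hδ'; gcongr)
        _ = r / 8 := by rw [one_div, mul_comm, ← div_eq_mul_inv]
    have c3 : (B * C) * ENNReal.ofReal σ1 ≤ r / 8 := by
      refine hσ1'.trans ?_
      (clear * - h1r; gcongr)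
    have c4 : (K0 * ι * r * ENNReal.ofReal δ2) * r ≤ r / 16 := by
      calc (K0 * ι * r * ENNReal.ofReal δ2) * r ≤ (1 / 16) * r := by (clear * - hδ2'; gcongr)
        _ = r / 16 := by rw [one_div, mul_comm, ← div_eq_mul_inv]
    have c5 : (K0 * ι * r * C2) * ENNReal.ofReal σ2 ≤ r / 16 := by
      refine hσ2'.trans ?_
      (clear * - h1r; gcongr)
    calc (a + B * (C * (a * I))) + (B * ENNReal.ofReal δ) * r +
        (B * C) * ENNReal.ofReal σ1 + (K0 * ι * r * ENNReal.ofReal δ2) * r +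
        (K0 * ι * r * C2) * ENNReal.ofReal σ2
        ≤ r / 8 + r / 8 + r / 8 + r / 16 + r / 16 := by (clear * - c1 c2 c3 c4 c5; gcongr)
      _ = r / 2 := by
          have fr8 : r / 8 ≠ ⊤ := ENNReal.div_ne_top hr (by simp)
          rw [div_eq_mul_inv, div_eq_mul_inv, div_eq_mul_inv, ← mul_add, ← mul_add, ← mul_add,
            ← mul_add]
          congr 1
          rw [← ENNReal.toReal_eq_toReal_iff' (by simp only [ne_eq, ENNReal.add_eq_top, ENNReal.inv_eq_top, OfNat.ofNat_ne_zero, or_self, not_false_eq_true]) (by simp)]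
          rw [ENNReal.toReal_add (by simp only [ne_eq, ENNReal.add_eq_top, ENNReal.inv_eq_top, OfNat.ofNat_ne_zero, or_self, not_false_eq_true]) (by simp), ENNReal.toReal_add (by simp only [ne_eq, ENNReal.add_eq_top, ENNReal.inv_eq_top, OfNat.ofNat_ne_zero, or_self, not_false_eq_true]) (by simp),
            ENNReal.toReal_add (by simp) (by simp), ENNReal.toReal_add (by simp) (by simp)]
          simp only [ENNReal.toReal_inv, ENNReal.toReal_ofNat]
          norm_num
  filter_upwards [hD2, hS2] with p hp1 hp2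
  filter_upwards [hp1, ae_restrict_mem measurableSet_Ioc] with t ht1 ht2
  calc h t (flow t p).1 p.2
      ≤ a * ζ p.2 + K0 * duh l 0 (fun s => S2c M (h s (flow s p).1) p.2) t := ht1
    _ ≤ a * ζ p.2 + K0 * duh l 0 (fun _ => Q * ζ p.2) t := by
        gcongr
        apply duh_mono_ae _ le_rfl
        filter_upwards [ae_restrict_of_ae_restrict_of_subset (Ioc_subset_Ioc_right ht2.2) hp2]
          with s hs
        exact hs p.2
    _ ≤ a * ζ p.2 + K0 * (ι * (Q * ζ p.2)) := by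
        gcongr
        exact duh_le_inv' hl ht2.1.le _
    _ = (a + K0 * (ι * Q)) * ζ p.2 := by ring
    _ ≤ _ := by (clear * - hfinal; gcongr)

end Vale.Agent.P140
end
end

section

/-! Local strong solutions for data below a Gaussian (Kaniel-Shinbrot barriers). -/

open MeasureTheory Set Filter Metric
open scoped ENNReal Topology

noncomputable section

namespace Vale.Agent.P140

/-- local barrier -/
def locU (A α μ : ℝ) (t : ℝ) (v : V) : ℝ≥0∞ :=
  ENNReal.ofReal (A * Real.exp (μ * t * (1 + ‖v‖ ^ 2) - α * ‖v‖ ^ 2))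

variable {A α μ : ℝ}

theorem locU_eq (hA : 0 ≤ A) (t : ℝ) : locU A α μ t =
    fun v => ENNReal.ofReal (A * Real.exp (μ * t)) * gau (α - μ * t) v := by
  funext v
  unfold locU gau
  rw [← ENNReal.ofReal_mul (by positivity), mul_assoc A, ← Real.exp_add]
  congr 3
  ring

theorem measurable_locU (A α μ : ℝ) : Measurable fun p : ℝ × V => locU A α μ p.1 p.2 := by
  unfold locU
  apply ENNReal.measurable_ofReal.comp
  apply Continuous.measurable
  fun_prop

theorem locU_Bg (hA : 0 ≤ A) (t : ℝ) (v : V) :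
    Bg (locU A α μ t) (locU A α μ t) v = locU A α μ t v * Ln (locU A α μ t) v := by
  rw [locU_eq hA, Bg_const_mul (measurable_gau _) (measurable_gau _), Bg_gau,
    Ln_const_mul (measurable_gau _)]
  ring

theorem locU_le (hA : 0 ≤ A) {T : ℝ} (hμ : 0 ≤ μ) (h1 : μ * T ≤ 1) (h2 : μ * T ≤ α / 2)
    {t : ℝ} (ht : t ∈ Icc 0 T) (v : V) :
    locU A α μ t v ≤ ENNReal.ofReal (A * Real.exp 1) * gau (α / 2) v := by
  unfold locU gau
  rw [← ENNReal.ofReal_mul (by (clear * - hA; positivity)), mul_assoc A, ← Real.exp_add]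
  apply ENNReal.ofReal_le_ofReal
  gcongr
  have h3 : μ * t ≤ μ * T := by
    gcongr
    exact ht.2
  nlinarith only [h1, h3, h2]

theorem Mo_const_mul {f : V → ℝ≥0∞} (hf : Measurable f) (c : ℝ≥0∞) (j : ℕ) :
    Mo j (fun v => c * f v) = c * Mo j f := by
  unfold Mo
  have h : Measurable fun v => f v * ph v ^ j := hf.mul (measurable_phpow j)
  rw [← lintegral_const_mul _ h]
  apply lintegral_congr
  intro v
  ring

theorem Bg_mono_on {f g f' g' : V → ℝ≥0∞} (h : ∀ v, f v ≤ f' v) (h' : ∀ v, g v ≤ g' v) (v : V) :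
    Bg f g v ≤ Bg f' g' v := Bg_mono h h' v

/-- local existence with Gaussian barrier -/
theorem loc_exists (hA : 0 < A) (hα : 0 < α) : ∃ T : ℝ, 0 < T ∧
    ∀ F0 : T3 → V → ℝ, Measurable (fun p : T3 × V => F0 p.1 p.2) → (∀ x v, 0 ≤ F0 x v) →
    (∀ x v, F0 x v ≤ A * Real.exp (-(α * ‖v‖ ^ 2))) →
    ∃ R : TF, EnvSol T F0 R (fun v => ENNReal.ofReal (A * Real.exp 1) * gau (α / 2) v) := by
  set e : V → ℝ≥0∞ := fun v => ENNReal.ofReal (A * Real.exp 1) * gau (α / 2) v with he
  have me : Measurable e := (measurable_gau _).const_mul _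
  have hMo : ∀ j, Mo j e ≠ ⊤ := by
    intro j
    rw [he, Mo_const_mul (measurable_gau _)]
    exact ENNReal.mul_ne_top ENNReal.ofReal_ne_top (Mo_gau j (by positivity))
  set K : ℝ≥0∞ := Ss * Mo 1 e with hK
  have hKf : K ≠ ⊤ := ENNReal.mul_ne_top Ss_ne_top (hMo 1)
  set C1 : ℝ := K.toReal + 1 with hC1
  have hC1p : 0 < C1 := by (clear * -; positivity)
  set L : V → ℝ := fun v => C1 * (1 + ‖v‖ ^ 2) with hL
  have hLp : ∀ v, 0 ≤ L v := fun v => by (clear * -; positivity)
  set μ : ℝ := 7 * C1 with hμ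
  have hμp : 0 < μ := by positivity
  set T : ℝ := min (1 / μ) (α / (2 * μ)) with hT
  have hTp : 0 < T := lt_min (by positivity) (by (clear * - hα; positivity))
  have hT1 : μ * T ≤ 1 := by
    calc μ * T ≤ μ * (1 / μ) := by
          gcongr
          exact min_le_left _ _
      _ = 1 := by (clear * - hμp; field_simp)
  have hT2 : μ * T ≤ α / 2 := by
    calc μ * T ≤ μ * (α / (2 * μ)) := by
          gcongr
          exact min_le_right _ _
      _ = α / 2 := by (clear * - hμp hα; field_simp)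
  have hle : ∀ t ∈ Icc 0 T, ∀ v, locU A α μ t v ≤ e v := fun t ht v =>
    locU_le hA.le hμp.le hT1 hT2 ht v
  have hLn : ∀ t ∈ Icc 0 T, ∀ v, Ln (locU A α μ t) v ≤ ENNReal.ofReal (L v) := by
    intro t ht v
    calc Ln (locU A α μ t) v ≤ Ln e v := Ln_mono (hle t ht) v
      _ ≤ K * ph v := Ln_le_ph me v
      _ ≤ ENNReal.ofReal (L v) := by
          rw [hL]
          simp only
          rw [ENNReal.ofReal_mul hC1p.le]
          unfold ph
          gcongr
          rw [hC1, ENNReal.le_ofReal_iff_toReal_le hKf (by (clear * -; positivity))]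
          linarith only []
  -- the barrier as explicit function of time
  have hder : ∀ v : V, ∀ s : ℝ, HasDerivAt (fun s => A * Real.exp (μ * s * (1 + ‖v‖ ^ 2) - α * ‖v‖ ^ 2))
      (μ * (1 + ‖v‖ ^ 2) * (A * Real.exp (μ * s * (1 + ‖v‖ ^ 2) - α * ‖v‖ ^ 2))) s := by
    intro v s
    have h1 : HasDerivAt (fun s : ℝ => μ * s * (1 + ‖v‖ ^ 2) - α * ‖v‖ ^ 2) (μ * (1 + ‖v‖ ^ 2)) s := by
      have h2 := (((hasDerivAt_id s).const_mul μ).mul_const (1 + ‖v‖ ^ 2)).sub_const (α * ‖v‖ ^ 2)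
      simpa using h2
    have h3 := h1.exp.const_mul A
    convert! h3 using 1
    ring
  have hduh : ∀ t : ℝ, 0 ≤ t → ∀ v : V, duh (L v) (locU A α μ 0 v)
      (fun s => ENNReal.ofReal (8 * L v) * locU A α μ s v) t = locU A α μ t v := by
    intro t ht v
    have h1 := duh_of_deriv (l := L v) ht
      (y := fun s => A * Real.exp (μ * s * (1 + ‖v‖ ^ 2) - α * ‖v‖ ^ 2))
      (y' := fun s => μ * (1 + ‖v‖ ^ 2) * (A * Real.exp (μ * s * (1 + ‖v‖ ^ 2) - α * ‖v‖ ^ 2)))
      (fun s _ => hder v s) (by apply Continuous.continuousOn; (clear * -; fun_prop))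
      (fun s _ => by (clear * - hA; positivity)) (by positivity)
    unfold locU
    rw [← h1]
    congr 1
    funext s
    rw [← ENNReal.ofReal_mul (by (clear * -; positivity))]
    congr 1
    rw [hL, hμ]
    ring
  refine ⟨T, hTp, fun F0 mF0 nF0 bF0 => ?_⟩
  have hb0 : ∀ x v, ENNReal.ofReal (F0 x v) ≤ locU A α μ 0 v := by
    intro x v
    unfold locU
    apply ENNReal.ofReal_le_ofReal
    refine (bF0 x v).trans (le_of_eq ?_)
    congr 2
    ring
  have hLn0 : ∀ v : V, Ln (fun _ => 0) v = 0 := by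
    intro v
    unfold Ln
    simp only [mul_zero, lintegral_const, zero_mul, measure_univ_of_isAddLeftInvariant]
  have H : KSData L (fun x v => ENNReal.ofReal (F0 x v)) T (fun _ _ => 0) (locU A α μ) := by
    refine ⟨?_, mF0.ennreal_ofReal, measurable_const, measurable_locU A α μ, hLp,
      fun t _ v => zero_le, fun t _ v => ?_, ?_, hLn, ?_, fun t _ x v => zero_le, ?_⟩
    · rw [hL]
      exact (measurable_const.add (measurable_norm.pow_const 2)).const_mul _
    · unfold locU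
      exact ENNReal.ofReal_ne_top
    · intro t ht v
      rw [Qp_eq_Bg, locU_Bg hA.le]
      exact ENNReal.mul_ne_top (by unfold locU; exact ENNReal.ofReal_ne_top)
        (ne_top_of_le_ne_top ENNReal.ofReal_ne_top (hLn t ht v))
    · intro v
      have h1 : ∀ s ∈ Ioc 0 T, Qp (locU A α μ s) v + ENNReal.ofReal (L v) * locU A α μ s v ≤
          2 * ENNReal.ofReal (L v) * e v := by
        intro s hs
        have hs' : s ∈ Icc 0 T := ⟨hs.1.le, hs.2⟩
        rw [Qp_eq_Bg, locU_Bg hA.le]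
        calc locU A α μ s v * Ln (locU A α μ s) v + ENNReal.ofReal (L v) * locU A α μ s v
            ≤ e v * ENNReal.ofReal (L v) + ENNReal.ofReal (L v) * e v := by
              gcongr
              · exact hle s hs' v
              · exact hLn s hs' v
              · exact hle s hs' v
          _ = _ := by ring
      refine ne_top_of_le_ne_top ?_ (setLIntegral_mono measurable_const h1)
      rw [setLIntegral_const]
      refine ENNReal.mul_ne_top (ENNReal.mul_ne_top (ENNReal.mul_ne_top (by simp)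
        ENNReal.ofReal_ne_top) ?_) (by simp only [Real.volume_Ioc, sub_zero, ne_eq, ENNReal.ofReal_ne_top, not_false_eq_true])
      rw [he]
      exact ENNReal.mul_ne_top ENNReal.ofReal_ne_top (gau_ne_top _ _)
    · intro t ht x v
      unfold Ph PhL
      rw [← hduh t ht.1 v]
      apply duh_mono_on
      · exact hb0 _ _
      · intro s hs
        have hs' : s ∈ Icc 0 T := ⟨hs.1.le, hs.2.trans ht.2⟩
        unfold src
        simp only
        rw [Qp_eq_Bg, locU_Bg hA.le]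
        calc locU A α μ s v * Ln (locU A α μ s) v +
              (ENNReal.ofReal (L v) - Ln (fun _ => 0) v) * locU A α μ s v
            ≤ locU A α μ s v * ENNReal.ofReal (L v) + ENNReal.ofReal (L v) * locU A α μ s v := by
              gcongr
              · exact hLn s hs' v
              · exact tsub_le_self
          _ = 2 * ENNReal.ofReal (L v) * locU A α μ s v := by ring
          _ ≤ _ := by
              gcongr
              rw [show (2 : ℝ≥0∞) = ENNReal.ofReal 2 by simp, ← ENNReal.ofReal_mul (by norm_num)]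
              apply ENNReal.ofReal_le_ofReal
              linarith only [hLp v]
  have K1 : KSContr L T (fun _ _ => 0) (locU A α μ) (locU A α μ) (1 / 2) 1 := by
    refine ⟨measurable_locU A α μ, fun t _ v => by unfold locU; exact ENNReal.ofReal_ne_top,
      by simp, fun t _ v => by rw [one_mul], by
        rw [one_div]
        exact ENNReal.inv_lt_one.mpr (by norm_num), ?_⟩
    intro t ht v
    have h1 : duh (L v) 0 (fun s => Bg (locU A α μ s) (locU A α μ s) v +
        Bg (locU A α μ s) (locU A α μ s) v + (ENNReal.ofReal (L v) - Ln (fun _ => 0) v) *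
          locU A α μ s v + locU A α μ s v * Ln (locU A α μ s) v) t ≤
        duh (L v) 0 (fun s => (1 / 2) * (ENNReal.ofReal (8 * L v) * locU A α μ s v)) t := by
      apply duh_mono_on _ le_rfl
      intro s hs
      have hs' : s ∈ Icc 0 T := ⟨hs.1.le, hs.2.trans ht.2⟩
      rw [locU_Bg hA.le]
      have h8 : (1 / 2 : ℝ≥0∞) * (ENNReal.ofReal (8 * L v) * locU A α μ s v) =
          4 * ENNReal.ofReal (L v) * locU A α μ s v := by
        rw [ENNReal.ofReal_mul (by norm_num), ← mul_assoc, ← mul_assoc]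
        congr 2
        rw [show ENNReal.ofReal 8 = 2 * 4 by norm_num, ← mul_assoc, one_div,
          ENNReal.inv_mul_cancel (by simp) (by simp), one_mul]
      rw [h8]
      calc locU A α μ s v * Ln (locU A α μ s) v + locU A α μ s v * Ln (locU A α μ s) v +
            (ENNReal.ofReal (L v) - Ln (fun _ => 0) v) * locU A α μ s v +
            locU A α μ s v * Ln (locU A α μ s) v
          ≤ locU A α μ s v * ENNReal.ofReal (L v) + locU A α μ s v * ENNReal.ofReal (L v) +
            ENNReal.ofReal (L v) * locU A α μ s v +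
            locU A α μ s v * ENNReal.ofReal (L v) := by
            gcongr
            · exact hLn s hs' v
            · exact hLn s hs' v
            · exact tsub_le_self
            · exact hLn s hs' v
        _ = _ := by ring
    refine h1.trans ?_
    rw [duh_const_mul _ (by simp)]
    gcongr
    rw [← hduh t ht.1 v]
    exact duh_mono_on _ zero_le fun s _ => le_rfl
  obtain ⟨R, mR, hR, -, hEq⟩ := ks_solution H K1
  refine ⟨R, ⟨mF0, nF0, mR, me, fun v => ENNReal.mul_ne_top ENNReal.ofReal_ne_top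
    (gau_ne_top _ _), hMo 2, fun t ht x v => (hR t ht x v).2.trans (hle t ht v), hEq⟩⟩

end Vale.Agent.P140
end
end

section

/-! Large amplitude: local existence below a multiple of the weight. -/

open MeasureTheory Set Filter
open scoped ENNReal Topology NNReal

noncomputable section

namespace Vale.Agent.P140

variable {M ζ : V → ℝ≥0∞} {CM : ℝ≥0∞}

theorem LA.window_exists (N : LA M ζ CM) {a : ℝ≥0∞} (ha : a ≠ ⊤) : ∃ w : ℝ, 0 < w ∧
    ∀ F0 : T3 → V → ℝ, Measurable (fun p : T3 × V => F0 p.1 p.2) → (∀ x v, 0 ≤ F0 x v) →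
    (∀ x v, ENNReal.ofReal (F0 x v) ≤ a * ζ v) →
    ∃ R : TF, EnvSol w F0 R (fun v => 2 * (a + 1) * ζ v) := by
  obtain ⟨k, Cg, hk, fCg, hg⟩ := N.ζg
  obtain ⟨CT', fCT', hCT'⟩ := N.TT_bound
  set a' : ℝ := (a + 1).toReal with ha'
  have fa1 : a + 1 ≠ ⊤ := ENNReal.add_ne_top.mpr ⟨ha, by simp⟩
  have ea' : ENNReal.ofReal a' = a + 1 := ENNReal.ofReal_toReal fa1
  have pa' : 0 < a' := ENNReal.toReal_pos (by simp only [ne_eq, add_eq_zero, one_ne_zero, and_false, not_false_eq_true]) fa1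
  set CT : ℝ := CT'.toReal + 1 with hCT
  have pCT : 0 < CT := by (clear * -; positivity)
  have hCTle : CT' ≤ ENNReal.ofReal CT := by
    rw [← ENNReal.ofReal_toReal fCT']
    apply ENNReal.ofReal_le_ofReal
    rw [hCT]
    linarith only []
  have hBζ : ∀ v, Bg ζ ζ v ≤ ENNReal.ofReal CT * ζ v := by
    intro v
    have h1 := N.Bg_le_TT N.mζ (h := ζ) (r := 1) (fun v => by rw [one_mul]) v
    have h2 := hCT' ζ N.mζ 1 (fun v => by rw [one_mul]) v
    rw [one_mul] at h1
    rw [mul_one] at h2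
    exact h1.trans (h2.trans (by (clear * - hCTle; gcongr)))
  -- the Gaussian used for the contraction
  set e' : V → ℝ≥0∞ := fun v => ENNReal.ofReal (1 * Real.exp 1) * gau (k / 2) v with he'
  have me' : Measurable e' := (measurable_gau _).const_mul _
  have hMo : Mo 1 e' ≠ ⊤ := by
    rw [he', Mo_const_mul (measurable_gau _)]
    exact ENNReal.mul_ne_top ENNReal.ofReal_ne_top (Mo_gau 1 (by positivity))
  have hMoζ : Mo 1 ζ ≠ ⊤ := ne_top_of_le_ne_top N.momζ (Mo_mono (by norm_num))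
  set C0 : ℝ≥0∞ := 2 * ENNReal.ofReal a' * Cg with hC0
  have fC0 : C0 ≠ ⊤ := ENNReal.mul_ne_top (ENNReal.mul_ne_top (by simp) ENNReal.ofReal_ne_top) fCg
  set K1 : ℝ≥0∞ := Ss * Mo 1 e' + C0 * (Ss * Mo 1 e') + 2 * ENNReal.ofReal a' * (Ss * Mo 1 ζ)
    with hK1
  have fK1 : K1 ≠ ⊤ := ENNReal.add_ne_top.mpr ⟨ENNReal.add_ne_top.mpr
    ⟨ENNReal.mul_ne_top Ss_ne_top hMo, ENNReal.mul_ne_top fC0 (ENNReal.mul_ne_top Ss_ne_top hMo)⟩,
    ENNReal.mul_ne_top (ENNReal.mul_ne_top (by simp) ENNReal.ofReal_ne_top)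
      (ENNReal.mul_ne_top Ss_ne_top hMoζ)⟩
  set C1 : ℝ := K1.toReal + 1 with hC1
  have hC1p : 0 < C1 := by (clear * -; positivity)
  set L : V → ℝ := fun v => C1 * (1 + ‖v‖ ^ 2) with hL
  have hLp : ∀ v, 0 ≤ L v := fun v => by (clear * -; positivity)
  have hK1L : ∀ v, K1 * ph v ≤ ENNReal.ofReal (L v) := by
    intro v
    rw [hL]
    simp only
    rw [ENNReal.ofReal_mul hC1p.le]
    unfold ph
    gcongr
    rw [hC1, ENNReal.le_ofReal_iff_toReal_le fK1 (by (clear * -; positivity))]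
    linarith only []
  set μ : ℝ := 7 * C1 with hμ
  have hμp : 0 < μ := by (clear * -; positivity)
  set w : ℝ := min (min (1 / μ) (k / (2 * μ))) (1 / (4 * a' * CT)) with hw
  have hwp : 0 < w := lt_min (lt_min (by (clear * -; positivity)) (by (clear * - hk; positivity))) (by (clear * - pa'; positivity))
  have hw1 : μ * w ≤ 1 := by
    calc μ * w ≤ μ * (1 / μ) := by
          gcongr
          exact (min_le_left _ _).trans (min_le_left _ _)
      _ = 1 := by (clear * - hμp; field_simp)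
  have hw2 : μ * w ≤ k / 2 := by
    calc μ * w ≤ μ * (k / (2 * μ)) := by
          gcongr
          exact (min_le_left _ _).trans (min_le_right _ _)
      _ = k / 2 := by (clear * - hμp hk; field_simp)
  have hw3 : 4 * a' * CT * w ≤ 1 := by
    calc 4 * a' * CT * w ≤ 4 * a' * CT * (1 / (4 * a' * CT)) := by
          gcongr
          exact min_le_right _ _
      _ = 1 := by (clear * - pa' pCT; field_simp)
  set E : ℝ → V → ℝ≥0∞ := locU 1 k μ with hE
  have hEe : ∀ t ∈ Icc 0 w, ∀ v, E t v ≤ e' v := fun t ht v =>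
    locU_le zero_le_one hμp.le hw1 hw2 ht v
  have hLnE : ∀ t ∈ Icc 0 w, ∀ v, Ln (E t) v ≤ Ss * Mo 1 e' * ph v := by
    intro t ht v
    calc Ln (E t) v ≤ Ln e' v := Ln_mono (hEe t ht) v
      _ ≤ _ := Ln_le_ph me' v
  have hder : ∀ v : V, ∀ s : ℝ, HasDerivAt (fun s => 1 * Real.exp (μ * s * (1 + ‖v‖ ^ 2) - k * ‖v‖ ^ 2))
      (μ * (1 + ‖v‖ ^ 2) * (1 * Real.exp (μ * s * (1 + ‖v‖ ^ 2) - k * ‖v‖ ^ 2))) s := by
    intro v s
    have h1 : HasDerivAt (fun s : ℝ => μ * s * (1 + ‖v‖ ^ 2) - k * ‖v‖ ^ 2) (μ * (1 + ‖v‖ ^ 2)) s := by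
      have h2 := (((hasDerivAt_id s).const_mul μ).mul_const (1 + ‖v‖ ^ 2)).sub_const (k * ‖v‖ ^ 2)
      simpa only [hasDerivAt_sub_const_iff, id_eq, mul_one] using h2
    have h3 := h1.exp.const_mul 1
    convert! h3 using 1
    ring
  have hduhE : ∀ t : ℝ, 0 ≤ t → ∀ v : V, duh (L v) (E 0 v)
      (fun s => ENNReal.ofReal (8 * L v) * E s v) t = E t v := by
    intro t ht v
    have h1 := duh_of_deriv (l := L v) ht
      (y := fun s => 1 * Real.exp (μ * s * (1 + ‖v‖ ^ 2) - k * ‖v‖ ^ 2))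
      (y' := fun s => μ * (1 + ‖v‖ ^ 2) * (1 * Real.exp (μ * s * (1 + ‖v‖ ^ 2) - k * ‖v‖ ^ 2)))
      (fun s _ => hder v s) (by apply Continuous.continuousOn; fun_prop)
      (fun s _ => by (clear * -; positivity)) (by positivity)
    rw [hE]
    unfold locU
    rw [← h1]
    congr 1
    funext s
    rw [← ENNReal.ofReal_mul (by (clear * -; positivity))]
    congr 1
    rw [hL, hμ]
    ring
  -- the barrier
  set u0 : ℝ → V → ℝ≥0∞ := fun t v => ENNReal.ofReal (a' * (1 + t / w)) * ζ v with hu0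
  have mu0 : Measurable fun p : ℝ × V => u0 p.1 p.2 := by
    apply Measurable.mul
    · apply ENNReal.measurable_ofReal.comp
      apply Continuous.measurable
      fun_prop
    · exact N.mζ.comp measurable_snd
  have hu02 : ∀ t ∈ Icc 0 w, ∀ v, u0 t v ≤ 2 * ENNReal.ofReal a' * ζ v := by
    intro t ht v
    simp only [hu0]
    gcongr
    rw [show (2 : ℝ≥0∞) = ENNReal.ofReal 2 by simp, ← ENNReal.ofReal_mul (by norm_num)]
    apply ENNReal.ofReal_le_ofReal
    have : t / w ≤ 1 := (div_le_one hwp).mpr ht.2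
    linarith only [mul_nonneg (le_of_lt (sub_pos.2 pa')) (sub_nonneg.2 this)]
  have hgE : ∀ t ∈ Icc 0 w, ∀ v, gau k v ≤ E t v := by
    intro t ht v
    rw [hE]
    unfold gau locU
    apply ENNReal.ofReal_le_ofReal
    rw [one_mul, Real.exp_le_exp]
    have : 0 ≤ μ * t * (1 + ‖v‖ ^ 2) := by
      have := ht.1
      (clear * - this; positivity)
    linarith only [this]
  have hu0E : ∀ t ∈ Icc 0 w, ∀ v, u0 t v ≤ C0 * E t v := by
    intro t ht v
    calc u0 t v ≤ 2 * ENNReal.ofReal a' * ζ v := hu02 t ht v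
      _ ≤ 2 * ENNReal.ofReal a' * (Cg * E t v) := by
          gcongr
          exact (hg v).trans (by gcongr; exact hgE t ht v)
      _ = _ := by rw [hC0]; ring
  have hLnu : ∀ t ∈ Icc 0 w, ∀ v, Ln (u0 t) v ≤ ENNReal.ofReal (L v) := by
    intro t ht v
    calc Ln (u0 t) v ≤ Ln (fun v => 2 * ENNReal.ofReal a' * ζ v) v := Ln_mono (hu02 t ht) v
      _ = 2 * ENNReal.ofReal a' * Ln ζ v := Ln_const_mul N.mζ _ v
      _ ≤ 2 * ENNReal.ofReal a' * (Ss * Mo 1 ζ * ph v) := by
          gcongr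
          exact Ln_le_ph N.mζ v
      _ = 2 * ENNReal.ofReal a' * (Ss * Mo 1 ζ) * ph v := by ring
      _ ≤ K1 * ph v := by
          gcongr
          exact le_add_self
      _ ≤ _ := hK1L v
  have hQu : ∀ t ∈ Icc 0 w, ∀ v, Qp (u0 t) v ≤ ENNReal.ofReal (4 * a' ^ 2 * CT) * ζ v := by
    intro t ht v
    rw [Qp_eq_Bg]
    calc Bg (u0 t) (u0 t) v
        ≤ Bg (fun v => 2 * ENNReal.ofReal a' * ζ v) (fun v => 2 * ENNReal.ofReal a' * ζ v) v :=
          Bg_mono (hu02 t ht) (hu02 t ht) v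
      _ = 2 * ENNReal.ofReal a' * (2 * ENNReal.ofReal a') * Bg ζ ζ v := Bg_const_mul N.mζ N.mζ _ _ v
      _ ≤ 2 * ENNReal.ofReal a' * (2 * ENNReal.ofReal a') * (ENNReal.ofReal CT * ζ v) := by
          gcongr
          exact hBζ v
      _ = _ := by
          rw [← mul_assoc]
          congr 1
          rw [show (2 : ℝ≥0∞) = ENNReal.ofReal 2 by simp, ← ENNReal.ofReal_mul (by norm_num),
            ← ENNReal.ofReal_mul (by (clear * - pa'; positivity)), ← ENNReal.ofReal_mul (by (clear * - pa'; positivity))]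
          congr 1
          ring
  have hLn0 : ∀ v : V, Ln (fun _ => 0) v = 0 := by
    intro v
    unfold Ln
    simp only [mul_zero, lintegral_const, zero_mul, measure_univ_of_isAddLeftInvariant]
  refine ⟨w, hwp, fun F0 mF0 nF0 bF0 => ?_⟩
  have H : KSData L (fun x v => ENNReal.ofReal (F0 x v)) w (fun _ _ => 0) u0 := by
    refine ⟨?_, mF0.ennreal_ofReal, measurable_const, mu0, hLp,
      fun t _ v => zero_le, fun t _ v => ?_, ?_, hLnu, ?_, fun t _ x v => zero_le, ?_⟩
    · rw [hL]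
      exact (measurable_const.add (measurable_norm.pow_const 2)).const_mul _
    · exact ENNReal.mul_ne_top ENNReal.ofReal_ne_top (N.fζ v)
    · intro t ht v
      exact ne_top_of_le_ne_top (ENNReal.mul_ne_top ENNReal.ofReal_ne_top (N.fζ v)) (hQu t ht v)
    · intro v
      have h1 : ∀ s ∈ Ioc 0 w, Qp (u0 s) v + ENNReal.ofReal (L v) * u0 s v ≤
          ENNReal.ofReal (4 * a' ^ 2 * CT) * ζ v +
            ENNReal.ofReal (L v) * (2 * ENNReal.ofReal a' * ζ v) := by
        intro s hs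
        have hs' : s ∈ Icc 0 w := ⟨hs.1.le, hs.2⟩
        exact add_le_add (hQu s hs' v) (by gcongr; exact hu02 s hs' v)
      refine ne_top_of_le_ne_top ?_ (setLIntegral_mono measurable_const h1)
      rw [setLIntegral_const]
      refine ENNReal.mul_ne_top (ENNReal.add_ne_top.mpr ⟨ENNReal.mul_ne_top ENNReal.ofReal_ne_top
        (N.fζ v), ENNReal.mul_ne_top ENNReal.ofReal_ne_top (ENNReal.mul_ne_top
        (ENNReal.mul_ne_top (by simp) ENNReal.ofReal_ne_top) (N.fζ v))⟩)
        (by simp only [Real.volume_Ioc, sub_zero, ne_eq, ENNReal.ofReal_ne_top, not_false_eq_true])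
    · intro t ht x v
      set z : ℝ := (ζ v).toReal with hz
      have ez : ENNReal.ofReal z = ζ v := ENNReal.ofReal_toReal (N.fζ v)
      have pz : 0 ≤ z := ENNReal.toReal_nonneg
      have hd := duh_of_deriv (l := L v) ht.1 (y := fun s => a' * (1 + s / w) * z)
        (y' := fun _ => a' * z / w) (fun s _ => by
          have h1 := (((hasDerivAt_id s).div_const w).const_add 1).const_mul a'
          have h2 := h1.mul_const z
          convert! h2 using 1
          ring) continuousOn_const (fun s hs => by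
          have := hs.1
          have := hLp v
          positivity) (by (clear * - pa' hk; positivity))
      have eu : ∀ s, ENNReal.ofReal (a' * (1 + s / w) * z) = u0 s v := by
        intro s
        simp only [hu0]
        rw [ENNReal.ofReal_mul' pz, ez]
      rw [eu, eu] at hd
      rw [← hd]
      unfold Ph PhL
      apply duh_mono_on
      · refine (bF0 _ _).trans ?_
        simp only [hu0, zero_div, add_zero, mul_one]
        rw [ea']
        have e2 : (flow (-t) (x, v)).2 = v := rfl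
        rw [e2]
        gcongr
        exact le_self_add
      · intro s hs
        have hs' : s ∈ Icc 0 w := ⟨hs.1.le, hs.2.trans ht.2⟩
        unfold src
        simp only
        calc Qp (u0 s) v + (ENNReal.ofReal (L v) - Ln (fun _ => 0) v) * u0 s v
            ≤ ENNReal.ofReal (4 * a' ^ 2 * CT) * ζ v + ENNReal.ofReal (L v) * u0 s v := by
              gcongr
              · exact hQu s hs' v
              · exact tsub_le_self
          _ = ENNReal.ofReal (4 * a' ^ 2 * CT * z + L v * (a' * (1 + s / w) * z)) := by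
              have hs0 := hs.1
              have hLv := hLp v
              have e1 : ENNReal.ofReal (4 * a' ^ 2 * CT * z) =
                  ENNReal.ofReal (4 * a' ^ 2 * CT) * ζ v := by rw [ENNReal.ofReal_mul' pz, ez]
              have e2 : ENNReal.ofReal (L v * (a' * (1 + s / w) * z)) =
                  ENNReal.ofReal (L v) * u0 s v := by rw [ENNReal.ofReal_mul hLv, eu]
              rw [ENNReal.ofReal_add (by (clear * - pa'; positivity)) (by (clear * - pa' hs0 hk; positivity)), e1, e2]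
          _ ≤ _ := by
              apply ENNReal.ofReal_le_ofReal
              gcongr
              rw [le_div_iff₀ hwp]
              have h5 : 4 * a' ^ 2 * CT * z * w = (4 * a' * CT * w) * (a' * z) := by ring
              rw [h5]
              calc (4 * a' * CT * w) * (a' * z) ≤ 1 * (a' * z) := by (clear * - hw3 pa'; gcongr)
                _ = a' * z := one_mul _
  have KC : KSContr L w (fun _ _ => 0) u0 E (1 / 2) C0 := by
    refine ⟨measurable_locU 1 k μ, fun t _ v => by rw [hE]; unfold locU; exact ENNReal.ofReal_ne_top,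
      fC0, hu0E, by
        rw [one_div]
        exact ENNReal.inv_lt_one.mpr (by norm_num), ?_⟩
    intro t ht v
    have h1 : duh (L v) 0 (fun s => Bg (E s) (u0 s) v +
        Bg (u0 s) (E s) v + (ENNReal.ofReal (L v) - Ln (fun _ => 0) v) *
          E s v + u0 s v * Ln (E s) v) t ≤
        duh (L v) 0 (fun s => (1 / 2) * (ENNReal.ofReal (8 * L v) * E s v)) t := by
      apply duh_mono_on _ le_rfl
      intro s hs
      have hs' : s ∈ Icc 0 w := ⟨hs.1.le, hs.2.trans ht.2⟩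
      have mE : Measurable (E s) := ((measurable_locU 1 k μ).comp
        (measurable_const.prodMk measurable_id) :)
      have hEE : Bg (E s) (E s) v = E s v * Ln (E s) v := locU_Bg zero_le_one s v
      have b1 : Bg (E s) (u0 s) v ≤ C0 * (E s v * Ln (E s) v) := by
        have e1 := Bg_const_mul mE mE 1 C0 v
        simp only [one_mul] at e1
        rw [← hEE, ← e1]
        exact Bg_mono (fun _ => le_rfl) (hu0E s hs') v
      have b2 : Bg (u0 s) (E s) v ≤ C0 * (E s v * Ln (E s) v) := by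
        have e1 := Bg_const_mul mE mE C0 1 v
        simp only [one_mul, mul_one] at e1
        rw [← hEE, ← e1]
        exact Bg_mono (hu0E s hs') (fun _ => le_rfl) v
      have b3 : C0 * Ln (E s) v ≤ ENNReal.ofReal (L v) := by
        calc C0 * Ln (E s) v ≤ C0 * (Ss * Mo 1 e' * ph v) := by
              gcongr
              exact hLnE s hs' v
          _ = C0 * (Ss * Mo 1 e') * ph v := by ring
          _ ≤ K1 * ph v := by
              gcongr
              rw [hK1]
              calc C0 * (Ss * Mo 1 e') ≤ C0 * (Ss * Mo 1 e') +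
                    (Ss * Mo 1 e' + 2 * ENNReal.ofReal a' * (Ss * Mo 1 ζ)) := le_self_add
                _ = _ := by ring
          _ ≤ _ := hK1L v
      have h8 : (1 / 2 : ℝ≥0∞) * (ENNReal.ofReal (8 * L v) * E s v) =
          4 * ENNReal.ofReal (L v) * E s v := by
        rw [ENNReal.ofReal_mul (by norm_num), ← mul_assoc, ← mul_assoc]
        congr 2
        rw [show ENNReal.ofReal 8 = 2 * 4 by norm_num, ← mul_assoc, one_div,
          ENNReal.inv_mul_cancel (by simp) (by simp), one_mul]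
      rw [h8]
      calc Bg (E s) (u0 s) v + Bg (u0 s) (E s) v +
            (ENNReal.ofReal (L v) - Ln (fun _ => 0) v) * E s v + u0 s v * Ln (E s) v
          ≤ C0 * (E s v * Ln (E s) v) + C0 * (E s v * Ln (E s) v) +
            ENNReal.ofReal (L v) * E s v + (C0 * E s v) * Ln (E s) v := by
            gcongr
            · exact tsub_le_self
            · exact hu0E s hs' v
        _ = (C0 * Ln (E s) v) * E s v + (C0 * Ln (E s) v) * E s v +
            ENNReal.ofReal (L v) * E s v + (C0 * Ln (E s) v) * E s v := by ring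
        _ ≤ ENNReal.ofReal (L v) * E s v + ENNReal.ofReal (L v) * E s v +
            ENNReal.ofReal (L v) * E s v + ENNReal.ofReal (L v) * E s v := by (clear * - b3; gcongr)
        _ = _ := by ring
    refine h1.trans ?_
    rw [duh_const_mul _ (by simp)]
    gcongr
    rw [← hduhE t ht.1 v]
    exact duh_mono_on _ zero_le fun s _ => le_rfl
  obtain ⟨R, mR, hR, -, hEq⟩ := ks_solution H KC
  refine ⟨R, ⟨mF0, nF0, mR, N.mζ.const_mul _, fun v => ENNReal.mul_ne_top
    (ENNReal.mul_ne_top (by simp) fa1) (N.fζ v), ?_, fun t ht x v => ?_, hEq⟩⟩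
  · rw [Mo_const_mul N.mζ]
    exact ENNReal.mul_ne_top (ENNReal.mul_ne_top (by simp) fa1) N.momζ
  · rw [← ea']
    exact (hR t ht x v).2.trans (hu02 t ht v)

end Vale.Agent.P140
end
end
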