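import Vale.Agent.P140.Bdl.B6
import Vale.Agent.P140.Bdl.B7
import Vale.Agent.P140.Bdl.B5
attribute [-instance] ProperSMul.toContinuousSMul IsTopologicalTorsor.toContinuousSMul IdemSemiring.toCanonicallyOrderedAdd IdemSemiring.toMulLeftMono IdemSemiring.toMulRightMono AddQuantale.instAddLeftMono AddQuantale.instAddRightMono Quantale.instMulLeftMono Quantale.instMulRightMono FiniteDimensional.rclike_to_real IsScalarTower.complexToReal FiniteDimensional.complexToReal

set_option linter.all false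

attribute [local instance 5000] Vale.Agent.P140.Sc.a01 Vale.Agent.P140.Sc.a02 Vale.Agent.P140.Sc.a03 Vale.Agent.P140.Sc.a04 Vale.Agent.P140.Sc.a05 Vale.Agent.P140.Sc.a06 Vale.Agent.P140.Sc.a07 Vale.Agent.P140.Sc.a08 Vale.Agent.P140.Sc.a09 Vale.Agent.P140.Sc.a10 Vale.Agent.P140.Sc.a11 Vale.Agent.P140.Sc.a12 Vale.Agent.P140.Sc.a13 Vale.Agent.P140.Sc.a14 Vale.Agent.P140.Sc.a15 Vale.Agent.P140.Sc.a16 Vale.Agent.P140.Sc.a17 Vale.Agent.P140.Sc.a18 Vale.Agent.P140.Sc.a19 Vale.Agent.P140.Sc.a20 Vale.Agent.P140.Sc.a21 Vale.Agent.P140.Sc.a22 Vale.Agent.P140.Sc.a23 Vale.Agent.P140.Sc.a24 Vale.Agent.P140.Sc.a25 Vale.Agent.P140.Sc.a26 Vale.Agent.P140.Sc.a27 Vale.Agent.P140.Sc.a28 Vale.Agent.P140.Sc.a29 Vale.Agent.P140.Sc.a30 Vale.Agent.P140.Sc.a31 Vale.Agent.P140.Sc.a32 Vale.Agent.P140.Sc.a33 Vale.Agent.P140.Sc.r01 Vale.Agent.P140.Sc.r02 Vale.Agent.P140.Sc.r03 Vale.Agent.P140.Sc.r04 Vale.Agent.P140.Sc.r05 Vale.Agent.P140.Sc.r06 Vale.Agent.P140.Sc.r07 Vale.Agent.P140.Sc.r08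 Vale.Agent.P140.Sc.r09 Vale.Agent.P140.Sc.r10 Vale.Agent.P140.Sc.r11 Vale.Agent.P140.Sc.r12 Vale.Agent.P140.Sc.r13 Vale.Agent.P140.Sc.r14 Vale.Agent.P140.Sc.r15 Vale.Agent.P140.Sc.r16 Vale.Agent.P140.Sc.r17 Vale.Agent.P140.Sc.r18

section

/-! Strong solutions near equilibrium on a unit time window. -/

open MeasureTheory Set Filter
open scoped ENNReal Topology NNReal

noncomputable section

namespace Vale.Agent.P140

variable {M ζ : V → ℝ≥0∞} {CK C5 CM : ℝ≥0∞} {ν0 : ℝ}

/-- lower bound for the Duhamel operator on explicit functions -/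
theorem duh_ge_of_deriv {l t : ℝ} (ht : 0 ≤ t) {y y' : ℝ → ℝ}
    (hy : ∀ s ∈ Icc 0 t, HasDerivAt y (y' s) s) (hc : ContinuousOn y' (Icc 0 t)) :
    ENNReal.ofReal (y t) ≤
      duh l (ENNReal.ofReal (y 0)) (fun s => ENNReal.ofReal (y' s + l * y s)) t := by
  have hyc : ContinuousOn y (Icc 0 t) := fun s hs => (hy s hs).continuousAt.continuousWithinAt
  have hce : ContinuousOn (fun s => Real.exp (-l * (t - s)) * (y' s + l * y s)) (Icc 0 t) := by
    apply ContinuousOn.mul
    · apply Continuous.continuousOn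
      fun_prop
    · exact hc.add (hyc.const_mul l |>.congr fun s _ => by simp)
  have hi : IntervalIntegrable (fun s => Real.exp (-l * (t - s)) * (y' s + l * y s)) volume 0 t := by
    apply ContinuousOn.intervalIntegrable
    rwa [uIcc_of_le ht]
  have hint : ∫ s in (0 : ℝ)..t, Real.exp (-l * (t - s)) * (y' s + l * y s) =
      Real.exp (-l * (t - t)) * y t - Real.exp (-l * (t - 0)) * y 0 := by
    apply intervalIntegral.integral_eq_sub_of_hasDerivAt
      (f := fun s => Real.exp (-l * (t - s)) * y s) _ hi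
    intro s hs
    rw [uIcc_of_le ht] at hs
    have h1 : HasDerivAt (fun s : ℝ => Real.exp (-l * (t - s))) (Real.exp (-l * (t - s)) * l) s := by
      have h2 : HasDerivAt (fun s : ℝ => -l * (t - s)) l s := by
        have h3 := ((hasDerivAt_id s).const_sub t).const_mul (-l)
        simpa using h3
      exact h2.exp
    have h4 := h1.mul (hy s hs)
    convert! h4 using 1
    ring
  rw [sub_self, mul_zero, Real.exp_zero, one_mul, sub_zero] at hint
  have hyt : y t = Real.exp (-l * t) * y 0 +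
      ∫ s in (0 : ℝ)..t, Real.exp (-l * (t - s)) * (y' s + l * y s) := by
    rw [hint]; ring
  rw [hyt]
  unfold duh
  refine ENNReal.ofReal_add_le.trans ?_
  gcongr
  · rw [ENNReal.ofReal_mul (Real.exp_pos _).le]
  · rw [intervalIntegral.integral_of_le ht]
    have hi2 := (intervalIntegrable_iff_integrableOn_Ioc_of_le ht).mp hi
    have h5 : ∫ s in Ioc 0 t, Real.exp (-l * (t - s)) * (y' s + l * y s) ≤
        ∫ s in Ioc 0 t, max (Real.exp (-l * (t - s)) * (y' s + l * y s)) 0 := by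
      apply integral_mono hi2 hi2.pos_part
      intro s
      exact le_max_left _ _
    refine (ENNReal.ofReal_le_ofReal h5).trans ?_
    rw [ofReal_integral_eq_lintegral_ofReal hi2.pos_part (Eventually.of_forall fun s =>
      le_max_right _ _)]
    apply lintegral_mono
    intro s
    simp only
    rw [← ENNReal.ofReal_mul (Real.exp_pos _).le]
    rcases le_total (Real.exp (-l * (t - s)) * (y' s + l * y s)) 0 with h | h
    · rw [max_eq_right h]
      simp
    · rw [max_eq_left h]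


/-- upper barrier -/
def wU (M ζ : V → ℝ≥0∞) (P : ℝ≥0∞) (v : V) : ℝ≥0∞ := M v + P * ζ v

/-- lower barrier -/
def wL (M ζ : V → ℝ≥0∞) (P : ℝ≥0∞) (v : V) : ℝ≥0∞ := M v - P * ζ v

theorem NE.meas_wU (N : NE M ζ CK C5 CM ν0) (P : ℝ≥0∞) : Measurable (wU M ζ P) :=
  N.mM.add (N.mζ.const_mul P)

theorem NE.meas_wL (N : NE M ζ CK C5 CM ν0) (P : ℝ≥0∞) : Measurable (wL M ζ P) :=
  N.mM.sub (N.mζ.const_mul P)

theorem wL_add (P : ℝ≥0∞) (v : V) : M v ≤ wL M ζ P v + P * ζ v := by
  unfold wL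
  exact le_tsub_add

theorem NE.Qp_wU (N : NE M ζ CK C5 CM ν0) (P : ℝ≥0∞) (v : V) :
    Qp (wU M ζ P) v = M v * Ln M v + P * (Bg M ζ v + Bg ζ M v) + P * P * (ζ v * Ln ζ v) := by
  have m1 : Measurable fun w => P * ζ w := N.mζ.const_mul P
  have m2 : Measurable fun w => M w + P * ζ w := N.mM.add m1
  have e1 : Bg M (fun w => P * ζ w) v = P * Bg M ζ v := by
    have h := Bg_const_mul N.mM N.mζ 1 P v
    simp only [one_mul] at h
    exact h
  have e2 : Bg (fun w => P * ζ w) M v = P * Bg ζ M v := by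
    have h := Bg_const_mul N.mζ N.mM P 1 v
    simp only [one_mul, mul_one] at h
    exact h
  rw [Qp_eq_Bg]
  unfold wU
  rw [Bg_add_left N.mM m2, Bg_add_right N.mM N.mM, Bg_add_right m1 N.mM, e1, e2,
    Bg_const_mul N.mζ N.mζ, N.eqM, N.eqζ]
  ring

theorem NE.Ln_wU (N : NE M ζ CK C5 CM ν0) (P : ℝ≥0∞) (v : V) :
    Ln (wU M ζ P) v = Ln M v + P * Ln ζ v := by
  unfold wU
  rw [Ln_add N.mM, Ln_const_mul N.mζ]

theorem NE.Ln_wL (N : NE M ζ CK C5 CM ν0) (P : ℝ≥0∞) (v : V) :
    Ln M v ≤ Ln (wL M ζ P) v + P * Ln ζ v := by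
  rw [← Ln_const_mul N.mζ, ← Ln_add (N.meas_wL P)]
  exact Ln_mono (fun w => wL_add P w) v

theorem NE.Qp_wL (N : NE M ζ CK C5 CM ν0) {P : ℝ≥0∞} (v : V) :
    M v * Ln M v ≤ Qp (wL M ζ P) v + P * (Bg M ζ v + Bg ζ M v) := by
  have e1 : Bg M (fun w => P * ζ w) v = P * Bg M ζ v := by
    have h := Bg_const_mul N.mM N.mζ 1 P v
    simp only [one_mul] at h
    exact h
  have e2 : Bg (fun w => P * ζ w) M v = P * Bg ζ M v := by
    have h := Bg_const_mul N.mζ N.mM P 1 v
    simp only [one_mul, mul_one] at h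
    exact h
  rw [← N.eqM, mul_add, ← e1, ← e2, Qp_eq_Bg]
  have k1 := meas_BgI (N.meas_wL P) (N.meas_wL P)
  have k2 := meas_BgI N.mM (N.mζ.const_mul P)
  have k3 := meas_BgI (N.mζ.const_mul P) N.mM
  unfold Bg
  have a1 : ∀ w, ∫⁻ o, (kk v w o * (wL M ζ P (post v w o) *
    wL M ζ P (postStar v w o)) + (kk v w o * (M (post v w o) * (P * ζ (postStar v w o))) +
    kk v w o * (P * ζ (post v w o) * M (postStar v w o)))) ∂surf =
    (∫⁻ o, kk v w o * (wL M ζ P (post v w o) * wL M ζ P (postStar v w o)) ∂surf) +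
    ((∫⁻ o, kk v w o * (M (post v w o) * (P * ζ (postStar v w o))) ∂surf) +
    ∫⁻ o, kk v w o * (P * ζ (post v w o) * M (postStar v w o)) ∂surf) := by
    intro w
    rw [lintegral_add_left (meas_sec_o k1 v w), lintegral_add_left (meas_sec_o k2 v w)]
  rw [← lintegral_add_left (meas_sec_w k2 v), ← lintegral_add_left (meas_sec_w k1 v)]
  simp only [← a1]
  gcongr with w o
  rw [← mul_add, ← mul_add]
  gcongr
  exact mul_le_mix (wL_add P _) (wL_add P _) (N.fM _) (N.fM _)

/-- supersolution inequality -/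
theorem NE.sup_ineq (N : NE M ζ CK C5 CM ν0) {P : ℝ≥0∞} (hP : 8 * P * C5 ≤ 1) (v : V) :
    Qp (wU M ζ P) v + (2 * Ln M v - Ln (wL M ζ P) v) * wU M ζ P v ≤
      2 * (M v * Ln M v) + (CK * P * ζ v + 2 * (P * ζ v * Ln M v)) := by
  have h1 : 2 * Ln M v - Ln (wL M ζ P) v ≤ Ln M v + P * Ln ζ v := by
    rw [tsub_le_iff_right]
    calc 2 * Ln M v = Ln M v + Ln M v := two_mul _
      _ ≤ Ln M v + (Ln (wL M ζ P) v + P * Ln ζ v) := by
          gcongr
          exact N.Ln_wL P v
      _ = _ := by ring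
  have h2 : 2 * (P * P * (ζ v * Ln ζ v)) ≤ P * ζ v * Ln M v := by
    calc 2 * (P * P * (ζ v * Ln ζ v)) ≤ 2 * (P * P * (ζ v * (C5 * Ln M v))) := by
          gcongr
          exact N.Lnζ v
      _ = (2 * P * C5) * (P * ζ v * Ln M v) := by ring
      _ ≤ 1 * (P * ζ v * Ln M v) := by
          gcongr
          refine le_trans ?_ hP
          gcongr
          norm_num
      _ = _ := one_mul _
  calc Qp (wU M ζ P) v + (2 * Ln M v - Ln (wL M ζ P) v) * wU M ζ P v
      ≤ (M v * Ln M v + P * (Bg M ζ v + Bg ζ M v) + P * P * (ζ v * Ln ζ v)) +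
        (Ln M v + P * Ln ζ v) * (M v + P * ζ v) := by
        rw [N.Qp_wU]
        unfold wU
        gcongr
    _ = 2 * (M v * Ln M v) + (P * KB M ζ v + (P * ζ v * Ln M v) +
        2 * (P * P * (ζ v * Ln ζ v))) := by
        unfold KB
        ring
    _ ≤ 2 * (M v * Ln M v) + (P * (CK * ζ v) + (P * ζ v * Ln M v) + P * ζ v * Ln M v) := by
        gcongr
        exact N.KBζ v
    _ = _ := by ring

/-- subsolution inequality, in real numbers -/
theorem NE.sub_ineq (N : NE M ζ CK C5 CM ν0) {ρ l : ℝ} (hρ : 0 ≤ ρ)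
    (hP : 8 * ENNReal.ofReal ρ * C5 ≤ 1) (hl : CK.toReal ≤ l) (v : V)
    (hw : 0 ≤ (M v).toReal - ρ * (ζ v).toReal) :
    ENNReal.ofReal (-(l * ρ * (ζ v).toReal) + 2 * nu M v * ((M v).toReal - ρ * (ζ v).toReal)) ≤
      Qp (wL M ζ (ENNReal.ofReal ρ)) v +
        (2 * Ln M v - Ln (wU M ζ (ENNReal.ofReal ρ)) v) * wL M ζ (ENNReal.ofReal ρ) v := by
  set P : ℝ≥0∞ := ENNReal.ofReal ρ with hPdef
  have fP : P ≠ ⊤ := ENNReal.ofReal_ne_top
  have fLζ : Ln ζ v ≠ ⊤ := ne_top_of_le_ne_top (ENNReal.mul_ne_top N.fC5 (N.fν v)) (N.Lnζ v)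
  have fKB : KB M ζ v ≠ ⊤ := ne_top_of_le_ne_top (ENNReal.mul_ne_top N.fCK (N.fζ v)) (N.KBζ v)
  have hKB := fKB
  unfold KB at hKB
  simp only [ne_eq, ENNReal.add_eq_top, not_or] at hKB
  obtain ⟨⟨f1, f2⟩, f3⟩ := hKB
  by_cases hQ : Qp (wL M ζ P) v = ⊤
  · rw [hQ]
    simp
  have ewL : wL M ζ P v = ENNReal.ofReal ((M v).toReal - ρ * (ζ v).toReal) := by
    unfold wL
    rw [ENNReal.ofReal_sub _ (by positivity), ENNReal.ofReal_toReal (N.fM v),
      ENNReal.ofReal_mul hρ, ENNReal.ofReal_toReal (N.fζ v)]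
  have hPL : P * Ln ζ v ≤ Ln M v := by
    calc P * Ln ζ v ≤ P * (C5 * Ln M v) := by
          gcongr
          exact N.Lnζ v
      _ = (1 * P * C5) * Ln M v := by ring
      _ ≤ (8 * P * C5) * Ln M v := by
          gcongr
          norm_num
      _ ≤ 1 * Ln M v := by gcongr
      _ = _ := one_mul _
  have e2 : 2 * Ln M v - Ln (wU M ζ P) v = Ln M v - P * Ln ζ v := by
    rw [N.Ln_wU, two_mul, ENNReal.add_sub_add_eq_sub_left (N.fν v)]
  have e3 : Ln M v - P * Ln ζ v = ENNReal.ofReal (nu M v - ρ * (Ln ζ v).toReal) := by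
    rw [ENNReal.ofReal_sub _ (by positivity), N.ofReal_nu, ENNReal.ofReal_mul hρ,
      ENNReal.ofReal_toReal fLζ]
  have e4 : 0 ≤ nu M v - ρ * (Ln ζ v).toReal := by
    have h := ENNReal.toReal_mono (N.fν v) hPL
    rw [ENNReal.toReal_mul, hPdef, ENNReal.toReal_ofReal hρ] at h
    unfold nu
    linarith
  have hQr := ENNReal.toReal_mono (ENNReal.add_ne_top.mpr ⟨hQ, ENNReal.mul_ne_top fP
    (ENNReal.add_ne_top.mpr ⟨f1, f2⟩)⟩) (N.Qp_wL (P := P) v)
  rw [ENNReal.toReal_add hQ (ENNReal.mul_ne_top fP (ENNReal.add_ne_top.mpr ⟨f1, f2⟩)),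
    ENNReal.toReal_mul, ENNReal.toReal_mul, ENNReal.toReal_add f1 f2, hPdef,
    ENNReal.toReal_ofReal hρ, ← hPdef] at hQr
  have hKr := ENNReal.toReal_mono (ENNReal.mul_ne_top N.fCK (N.fζ v)) (N.KBζ v)
  unfold KB at hKr
  rw [ENNReal.toReal_add (ENNReal.add_ne_top.mpr ⟨f1, f2⟩) f3, ENNReal.toReal_add f1 f2,
    ENNReal.toReal_mul, ENNReal.toReal_mul] at hKr
  rw [e2, e3, ewL, ← ENNReal.ofReal_mul e4, ← ENNReal.ofReal_toReal hQ,
    ← ENNReal.ofReal_add ENNReal.toReal_nonneg (mul_nonneg e4 hw)]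
  apply ENNReal.ofReal_le_ofReal
  have hν : (Ln M v).toReal = nu M v := rfl
  rw [hν] at hQr
  set m := (M v).toReal
  set z := (ζ v).toReal
  set n := (Ln ζ v).toReal
  set b1 := (Bg M ζ v).toReal
  set b2 := (Bg ζ M v).toReal
  set q := (Qp (wL M ζ P) v).toReal
  have nz : 0 ≤ z := ENNReal.toReal_nonneg
  have nn : 0 ≤ n := ENNReal.toReal_nonneg
  have k1 : ρ * (b1 + b2 + m * n) ≤ ρ * (l * z) := by
    apply mul_le_mul_of_nonneg_left _ hρ
    calc b1 + b2 + m * n ≤ CK.toReal * z := hKr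
      _ ≤ l * z := by gcongr
  have k2 : 0 ≤ ρ * n * (ρ * z) := by (clear * - hρ; positivity)
  have k3 : 0 ≤ nu M v * (ρ * z) := mul_nonneg (nu_nonneg M v) (by positivity)
  linarith only [k3, k2, k1, hQr]

end Vale.Agent.P140
end
end

section

/-! Strong solutions near equilibrium on a unit time window: existence. -/

open MeasureTheory Set Filter
open scoped ENNReal Topology NNReal

noncomputable section

namespace Vale.Agent.P140

variable {M ζ : V → ℝ≥0∞} {CK C5 CM : ℝ≥0∞} {ν0 : ℝ}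

/-- amplitude -/
def amp (r l t : ℝ) : ℝ := r * Real.exp (l * t)

theorem amp_nonneg {r : ℝ} (hr : 0 ≤ r) (l t : ℝ) : 0 ≤ amp r l t := by
  unfold amp
  positivity

theorem amp_deriv (r l s : ℝ) : HasDerivAt (amp r l) (l * amp r l s) s := by
  unfold amp
  have h1 : HasDerivAt (fun s : ℝ => l * s) l s := by
    simpa using (hasDerivAt_id s).const_mul l
  have h2 := h1.exp.const_mul r
  convert! h2 using 1
  ring

theorem amp_continuous (r l : ℝ) : Continuous (amp r l) := by
  unfold amp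
  fun_prop

/-- existence on a unit window -/
theorem NE.window (N : NE M ζ CK C5 CM ν0) : ∃ r1 K : ℝ≥0∞, r1 ≠ 0 ∧ r1 ≠ ⊤ ∧ K ≠ ⊤ ∧ 1 ≤ K ∧
    ∀ F1 : T3 → V → ℝ, Measurable (fun p : T3 × V => F1 p.1 p.2) → (∀ x v, 0 ≤ F1 x v) →
    ∀ r0 : ℝ≥0∞, r0 ≤ r1 → (∀ x v, ENNReal.ofReal |F1 x v - (M v).toReal| ≤ r0 * ζ v) →
    ∃ R : TF, EnvSol 1 F1 R (fun v => (CM + 1) * ζ v) ∧
      ∀ t ∈ Icc (0 : ℝ) 1, ∀ x v,
        ENNReal.ofReal |realF R t x v - (M v).toReal| ≤ K * r0 * ζ v := by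
  set l : ℝ := CK.toReal with hl
  have hl0 : 0 ≤ l := ENNReal.toReal_nonneg
  set D : ℝ := Real.exp l * (8 * C5.toReal + 1) with hD
  have hDp : 0 < D := by positivity
  refine ⟨ENNReal.ofReal D⁻¹, ENNReal.ofReal (Real.exp l),
    (ENNReal.ofReal_pos.mpr (by positivity)).ne', ENNReal.ofReal_ne_top, ENNReal.ofReal_ne_top, ?_, ?_⟩
  · rw [ENNReal.one_le_ofReal]
    exact Real.one_le_exp hl0
  intro F1 mF1 nF1 r0 hr0 hF1
  have fr0 : r0 ≠ ⊤ := ne_top_of_le_ne_top ENNReal.ofReal_ne_top hr0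
  set r : ℝ := r0.toReal with hr
  have hr0' : ENNReal.ofReal r = r0 := ENNReal.ofReal_toReal fr0
  have hrn : 0 ≤ r := ENNReal.toReal_nonneg
  have hrD : r ≤ D⁻¹ := by
    rw [hr]
    have := ENNReal.toReal_mono ENNReal.ofReal_ne_top hr0
    rwa [ENNReal.toReal_ofReal (by positivity)] at this
  -- amplitude bounds
  have hamp : ∀ t ∈ Icc (0 : ℝ) 1, amp r l t * (8 * C5.toReal + 1) ≤ 1 := by
    intro t ht
    unfold amp
    calc r * Real.exp (l * t) * (8 * C5.toReal + 1)
        ≤ D⁻¹ * Real.exp (l * 1) * (8 * C5.toReal + 1) := by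
          gcongr
          exact ht.2
      _ = D⁻¹ * D := by rw [mul_one, hD]; ring
      _ = 1 := inv_mul_cancel₀ hDp.ne'
  have hampm : ∀ {s t : ℝ}, s ≤ t → amp r l s ≤ amp r l t := by
    intro s t hst
    unfold amp
    gcongr
  have fC5 : ENNReal.ofReal C5.toReal = C5 := ENNReal.ofReal_toReal N.fC5
  have hP1 : ∀ t ∈ Icc (0 : ℝ) 1, ENNReal.ofReal (amp r l t) ≤ 1 := by
    intro t ht
    rw [ENNReal.ofReal_le_one]
    have h1 := hamp t ht
    have h2 := amp_nonneg hrn l t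
    have h3 : 0 ≤ C5.toReal := ENNReal.toReal_nonneg
    linarith only [mul_nonneg h2 h3, h1]
  have hP8 : ∀ t ∈ Icc (0 : ℝ) 1, 8 * ENNReal.ofReal (amp r l t) * C5 ≤ 1 := by
    intro t ht
    rw [← fC5, show (8 : ℝ≥0∞) = ENNReal.ofReal 8 by simp, ← ENNReal.ofReal_mul (by norm_num),
      ← ENNReal.ofReal_mul (mul_nonneg (by norm_num) (amp_nonneg hrn l t)), ENNReal.ofReal_le_one]
    have h1 := hamp t ht
    have h2 := amp_nonneg hrn l t
    linarith only [h2, h1]
  set L : V → ℝ := fun v => 2 * nu M v with hL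
  have hLn : ∀ v, 0 ≤ L v := fun v => by have := nu_nonneg M v; positivity
  have eL : ∀ v, ENNReal.ofReal (L v) = 2 * Ln M v := by
    intro v
    rw [hL]
    simp only
    rw [ENNReal.ofReal_mul (by norm_num), N.ofReal_nu]
    simp
  set U : ℝ → V → ℝ≥0∞ := fun t => wU M ζ (ENNReal.ofReal (amp r l t)) with hU
  set W : ℝ → V → ℝ≥0∞ := fun t => wL M ζ (ENNReal.ofReal (amp r l t)) with hW
  have mA : Measurable fun p : ℝ × V => ENNReal.ofReal (amp r l p.1) :=
    ((amp_continuous r l).measurable.comp measurable_fst).ennreal_ofReal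
  have mU : Measurable fun p : ℝ × V => U p.1 p.2 := by
    rw [hU]
    exact (N.mM.comp measurable_snd).add (mA.mul (N.mζ.comp measurable_snd))
  have mW : Measurable fun p : ℝ × V => W p.1 p.2 := by
    rw [hW]
    exact (N.mM.comp measurable_snd).sub (mA.mul (N.mζ.comp measurable_snd))
  have hUe : ∀ t ∈ Icc (0 : ℝ) 1, ∀ v, U t v ≤ (CM + 1) * ζ v := by
    intro t ht v
    change M v + ENNReal.ofReal (amp r l t) * ζ v ≤ (CM + 1) * ζ v
    rw [add_mul]
    gcongr
    · exact N.Mζ v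
    · exact hP1 t ht
  have hLU : ∀ t ∈ Icc (0 : ℝ) 1, ∀ v, Ln (U t) v ≤ ENNReal.ofReal (L v) := by
    intro t ht v
    rw [eL, hU]
    simp only
    rw [N.Ln_wU, two_mul]
    gcongr
    calc ENNReal.ofReal (amp r l t) * Ln ζ v ≤ ENNReal.ofReal (amp r l t) * (C5 * Ln M v) := by
          gcongr
          exact N.Lnζ v
      _ = (1 * ENNReal.ofReal (amp r l t) * C5) * Ln M v := by ring
      _ ≤ (8 * ENNReal.ofReal (amp r l t) * C5) * Ln M v := by
          gcongr
          norm_num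
      _ ≤ 1 * Ln M v := by
          gcongr
          exact hP8 t ht
      _ = Ln M v := one_mul _
  have fLζ : ∀ v, Ln ζ v ≠ ⊤ := fun v =>
    ne_top_of_le_ne_top (ENNReal.mul_ne_top N.fC5 (N.fν v)) (N.Lnζ v)
  have hQU : ∀ t ∈ Icc (0 : ℝ) 1, ∀ v, Qp (U t) v ≤ (CM + 1) * (CM + 1) * (ζ v * Ln ζ v) := by
    intro t ht v
    calc Qp (U t) v ≤ Bg (fun w => (CM + 1) * ζ w) (fun w => (CM + 1) * ζ w) v := by
          rw [Qp_eq_Bg]
          exact Bg_mono (hUe t ht) (hUe t ht) v
      _ = _ := by rw [Bg_const_mul N.mζ N.mζ, N.eqζ]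
  have fCM1 : CM + 1 ≠ ⊤ := ENNReal.add_ne_top.mpr ⟨N.fCM, by simp⟩
  -- datum between the barriers
  have hF1U : ∀ x v, ENNReal.ofReal (F1 x v) ≤ U 0 v := by
    intro x v
    rw [hU]
    unfold wU amp
    simp only [mul_zero, Real.exp_zero, mul_one]
    rw [hr0', ← ENNReal.ofReal_toReal (N.fM v)]
    refine le_trans ?_ (add_le_add le_rfl (hF1 x v))
    rw [← ENNReal.ofReal_add ENNReal.toReal_nonneg (abs_nonneg _)]
    apply ENNReal.ofReal_le_ofReal
    have := le_abs_self (F1 x v - (M v).toReal)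
    linarith
  have hWF1 : ∀ x v, W 0 v ≤ ENNReal.ofReal (F1 x v) := by
    intro x v
    rw [hW]
    unfold wL amp
    simp only [mul_zero, Real.exp_zero, mul_one]
    rw [hr0', tsub_le_iff_right, ← ENNReal.ofReal_toReal (N.fM v)]
    refine le_trans ?_ (add_le_add le_rfl (hF1 x v))
    rw [← ENNReal.ofReal_add (nF1 x v) (abs_nonneg _)]
    apply ENNReal.ofReal_le_ofReal
    have := neg_abs_le (F1 x v - (M v).toReal)
    linarith
  have H : KSData L (fun x v => ENNReal.ofReal (F1 x v)) 1 W U := by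
    refine ⟨(measurable_nu N.mM).const_mul 2, mF1.ennreal_ofReal, mW, mU, hLn, ?_, ?_, ?_, hLU,
      ?_, ?_, ?_⟩
    · intro t _ v
      rw [hU, hW]
      unfold wU wL
      exact tsub_le_self.trans le_self_add
    · intro t ht v
      exact ne_top_of_le_ne_top (ENNReal.mul_ne_top fCM1 (N.fζ v)) (hUe t ht v)
    · intro t ht v
      exact ne_top_of_le_ne_top (ENNReal.mul_ne_top (ENNReal.mul_ne_top fCM1 fCM1)
        (ENNReal.mul_ne_top (N.fζ v) (fLζ v))) (hQU t ht v)
    · intro v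
      refine ne_top_of_le_ne_top ?_ (setLIntegral_mono (g := fun _ => (CM + 1) * (CM + 1) *
        (ζ v * Ln ζ v) + ENNReal.ofReal (L v) * ((CM + 1) * ζ v)) measurable_const ?_)
      · rw [setLIntegral_const]
        refine ENNReal.mul_ne_top (ENNReal.add_ne_top.mpr ⟨ENNReal.mul_ne_top
          (ENNReal.mul_ne_top fCM1 fCM1) (ENNReal.mul_ne_top (N.fζ v) (fLζ v)),
          ENNReal.mul_ne_top ENNReal.ofReal_ne_top (ENNReal.mul_ne_top fCM1 (N.fζ v))⟩)
          (by simp [Real.volume_Ioc])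
      · intro s hs
        have hs' : s ∈ Icc (0 : ℝ) 1 := ⟨hs.1.le, hs.2⟩
        gcongr
        · exact hQU s hs' v
        · exact hUe s hs' v
    · -- subsolution
      intro t ht x v
      have eW : ∀ s : ℝ, W s v = ENNReal.ofReal ((M v).toReal - amp r l s * (ζ v).toReal) := by
        intro s
        rw [hW]
        simp only
        unfold wL
        rw [ENNReal.ofReal_sub _ (mul_nonneg (amp_nonneg hrn l s) ENNReal.toReal_nonneg),
          ENNReal.ofReal_toReal (N.fM v), ENNReal.ofReal_mul (amp_nonneg hrn l s),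
          ENNReal.ofReal_toReal (N.fζ v)]
      rcases le_or_gt ((M v).toReal - amp r l t * (ζ v).toReal) 0 with hneg | hpos
      · rw [eW, ENNReal.ofReal_of_nonpos hneg]
        exact zero_le
      unfold Ph PhL
      have h1 := duh_ge_of_deriv (l := L v) ht.1
        (y := fun s => (M v).toReal - amp r l s * (ζ v).toReal)
        (y' := fun s => -(l * amp r l s * (ζ v).toReal)) (fun s _ => by
          have h2 := ((amp_deriv r l s).mul_const (ζ v).toReal).const_sub (M v).toReal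
          exact h2) (by
          apply Continuous.continuousOn
          have := amp_continuous r l
          fun_prop)
      rw [eW]
      refine h1.trans ?_
      apply duh_mono_on
      · rw [← eW]
        exact hWF1 _ _
      · intro s hs
        have hs' : s ∈ Icc (0 : ℝ) 1 := ⟨hs.1.le, hs.2.trans ht.2⟩
        have hw : 0 ≤ (M v).toReal - amp r l s * (ζ v).toReal := by
          have h3 := hampm hs.2
          have h4 : 0 ≤ (ζ v).toReal := ENNReal.toReal_nonneg
          linarith only [mul_nonneg (sub_nonneg.2 h3) (sub_nonneg.2 h4), hpos]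
        have h5 := N.sub_ineq (l := l) (amp_nonneg hrn l s) (hP8 s hs') le_rfl v hw
        unfold src
        simp only
        rw [eL]
        exact h5
    · -- supersolution
      intro t ht x v
      have eU : ∀ s : ℝ, U s v = ENNReal.ofReal ((M v).toReal + amp r l s * (ζ v).toReal) := by
        intro s
        rw [hU]
        simp only
        unfold wU
        rw [ENNReal.ofReal_add ENNReal.toReal_nonneg
          (mul_nonneg (amp_nonneg hrn l s) ENNReal.toReal_nonneg),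
          ENNReal.ofReal_toReal (N.fM v), ENNReal.ofReal_mul (amp_nonneg hrn l s),
          ENNReal.ofReal_toReal (N.fζ v)]
      unfold Ph PhL
      have hzn : 0 ≤ (ζ v).toReal := ENNReal.toReal_nonneg
      have hmn : 0 ≤ (M v).toReal := ENNReal.toReal_nonneg
      have h1 := duh_of_deriv (l := L v) ht.1
        (y := fun s => (M v).toReal + amp r l s * (ζ v).toReal)
        (y' := fun s => l * amp r l s * (ζ v).toReal) (fun s _ => by
          have h2 := ((amp_deriv r l s).mul_const (ζ v).toReal).const_add (M v).toReal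
          exact h2) (by
          apply Continuous.continuousOn
          have := amp_continuous r l
          fun_prop) (fun s _ => by
          have h3 := amp_nonneg hrn l s
          have h4 := hLn v
          (clear * - h3 h4; positivity)) (by
          have h3 := amp_nonneg hrn l 0
          (clear * - h3; positivity))
      rw [eU, ← h1]
      apply duh_mono_on
      · rw [← eU]
        exact hF1U _ _
      · intro s hs
        have hs' : s ∈ Icc (0 : ℝ) 1 := ⟨hs.1.le, hs.2.trans ht.2⟩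
        have hs3 := amp_nonneg hrn l s
        unfold src
        simp only
        rw [eL]
        refine (N.sup_ineq (hP8 s hs') v).trans ?_
        have e1 : ENNReal.ofReal (l * amp r l s * (ζ v).toReal +
            L v * ((M v).toReal + amp r l s * (ζ v).toReal)) =
            CK * ENNReal.ofReal (amp r l s) * ζ v +
            2 * Ln M v * (M v + ENNReal.ofReal (amp r l s) * ζ v) := by
          have eCK : ENNReal.ofReal l = CK := ENNReal.ofReal_toReal N.fCK
          rw [ENNReal.ofReal_add (by (clear * - hs3; positivity)) (mul_nonneg (hLn v) (by (clear * - hs3; positivity))),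
            ENNReal.ofReal_mul (hLn v), eL, ← eU, ENNReal.ofReal_mul (by (clear * - hs3; positivity)),
            ENNReal.ofReal_mul hl0, ENNReal.ofReal_toReal (N.fζ v), eCK]
          rfl
        rw [e1]
        apply le_of_eq
        ring
  -- contraction
  set k : ℝ := 2 * l with hk
  set E : ℝ → V → ℝ≥0∞ := fun t v => ENNReal.ofReal (Real.exp (k * t)) * ζ v with hE
  have mX : Measurable fun p : ℝ × V => ENNReal.ofReal (Real.exp (k * p.1)) := by
    apply ENNReal.measurable_ofReal.comp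
    apply Continuous.measurable
    fun_prop
  have K1 : KSContr L 1 W U E (ENNReal.ofReal (3 / 4)) (CM + 1) := by
    refine ⟨mX.mul (N.mζ.comp measurable_snd), fun t _ v => ENNReal.mul_ne_top
      ENNReal.ofReal_ne_top (N.fζ v), fCM1, ?_, ?_, ?_⟩
    · intro t ht v
      refine (hUe t ht v).trans ?_
      rw [hE]
      simp only
      gcongr
      calc ζ v = 1 * ζ v := (one_mul _).symm
        _ ≤ _ := by
            gcongr
            rw [ENNReal.one_le_ofReal]
            apply Real.one_le_exp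
            have := ht.1
            (clear * - this; positivity)
    · rw [← ENNReal.ofReal_one]
      exact (ENNReal.ofReal_lt_ofReal_iff one_pos).mpr (by norm_num)
    · intro t ht v
      have hzn : 0 ≤ (ζ v).toReal := ENNReal.toReal_nonneg
      have hνn := nu_nonneg M v
      have h1 := duh_of_deriv (l := L v) ht.1
        (y := fun s => 3 / 4 * (ζ v).toReal * Real.exp (k * s))
        (y' := fun s => 3 / 4 * (ζ v).toReal * (k * Real.exp (k * s))) (fun s _ => by
          have h2 : HasDerivAt (fun s : ℝ => k * s) k s := by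
            simpa using (hasDerivAt_id s).const_mul k
          have h3 := h2.exp.const_mul (3 / 4 * (ζ v).toReal)
          convert! h3 using 1
          ring) (by apply Continuous.continuousOn; fun_prop) (fun s _ => by
          have h4 := hLn v
          (clear * - hνn; positivity)) (by (clear * -; positivity))
      have e1 : ENNReal.ofReal (3 / 4) * E t v =
          ENNReal.ofReal (3 / 4 * (ζ v).toReal * Real.exp (k * t)) := by
        rw [hE]
        simp only
        rw [ENNReal.ofReal_mul (by positivity), ENNReal.ofReal_mul (by norm_num),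
          ENNReal.ofReal_toReal (N.fζ v)]
        ring
      rw [e1, ← h1]
      apply duh_mono_on _ zero_le
      intro s hs
      have hs' : s ∈ Icc (0 : ℝ) 1 := ⟨hs.1.le, hs.2.trans ht.2⟩
      set X : ℝ≥0∞ := ENNReal.ofReal (Real.exp (k * s)) with hX
      set P : ℝ≥0∞ := ENNReal.ofReal (amp r l s) with hP
      have h8 := hP8 s hs'
      rw [← hP] at h8
      have hEs : E s = fun w => X * ζ w := rfl
      have hUs : U s = wU M ζ P := rfl
      have hWs : W s = wL M ζ P := rfl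
      have m1 : Measurable fun w => P * ζ w := N.mζ.const_mul P
      have m2 : Measurable fun w => X * ζ w := N.mζ.const_mul X
      have b1 : Bg (E s) (U s) v = X * (Bg ζ M v + P * (ζ v * Ln ζ v)) := by
        rw [hEs, hUs]
        unfold wU
        rw [Bg_add_right m2 N.mM, Bg_const_mul N.mζ N.mζ, N.eqζ]
        have h := Bg_const_mul N.mζ N.mM X 1 v
        simp only [one_mul, mul_one] at h
        rw [h]
        ring
      have b2 : Bg (U s) (E s) v = X * (Bg M ζ v + P * (ζ v * Ln ζ v)) := by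
        rw [hEs, hUs]
        unfold wU
        rw [Bg_add_left N.mM m2, Bg_const_mul N.mζ N.mζ, N.eqζ]
        have h := Bg_const_mul N.mM N.mζ 1 X v
        simp only [one_mul] at h
        rw [h]
        ring
      have b3 : ENNReal.ofReal (L v) - Ln (W s) v ≤ Ln M v + P * Ln ζ v := by
        rw [eL, hWs, tsub_le_iff_right, two_mul, add_assoc]
        gcongr
        rw [add_comm]
        exact N.Ln_wL P v
      have b4 : Ln (E s) v = X * Ln ζ v := by
        rw [hEs, Ln_const_mul N.mζ]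
      have h4 : 4 * (P * ζ v * Ln ζ v) ≤ ENNReal.ofReal (1 / 2) * (ζ v * Ln M v) := by
        have h5 : 8 * P * C5 * ENNReal.ofReal (1 / 2) = 4 * P * C5 := by
          rw [show (8 : ℝ≥0∞) = 4 * 2 by norm_num,
            show 4 * 2 * P * C5 * ENNReal.ofReal (1 / 2) =
              4 * P * C5 * (2 * ENNReal.ofReal (1 / 2)) by ring]
          have : (2 : ℝ≥0∞) * ENNReal.ofReal (1 / 2) = 1 := by
            rw [show (2 : ℝ≥0∞) = ENNReal.ofReal 2 by simp, ← ENNReal.ofReal_mul (by norm_num)]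
            norm_num
          rw [this, mul_one]
        calc 4 * (P * ζ v * Ln ζ v) ≤ 4 * (P * ζ v * (C5 * Ln M v)) := by
              gcongr
              exact N.Lnζ v
          _ = (4 * P * C5) * (ζ v * Ln M v) := by ring
          _ = (8 * P * C5 * ENNReal.ofReal (1 / 2)) * (ζ v * Ln M v) := by rw [h5]
          _ ≤ (1 * ENNReal.ofReal (1 / 2)) * (ζ v * Ln M v) := by gcongr
          _ = _ := by rw [one_mul]
      calc Bg (E s) (U s) v + Bg (U s) (E s) v + (ENNReal.ofReal (L v) - Ln (W s) v) * E s v +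
            U s v * Ln (E s) v
          ≤ X * (Bg ζ M v + P * (ζ v * Ln ζ v)) + X * (Bg M ζ v + P * (ζ v * Ln ζ v)) +
            (Ln M v + P * Ln ζ v) * (X * ζ v) + (M v + P * ζ v) * (X * Ln ζ v) := by
            rw [b1, b2, b4]
            gcongr
            exact le_rfl
        _ = X * (KB M ζ v + ζ v * Ln M v + 4 * (P * ζ v * Ln ζ v)) := by
            unfold KB
            ring
        _ ≤ X * (CK * ζ v + ζ v * Ln M v + ENNReal.ofReal (1 / 2) * (ζ v * Ln M v)) := by
            gcongr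
            exact N.KBζ v
        _ = ENNReal.ofReal (Real.exp (k * s) * (l * (ζ v).toReal + (ζ v).toReal * nu M v +
            1 / 2 * ((ζ v).toReal * nu M v))) := by
            rw [ENNReal.ofReal_mul (Real.exp_pos _).le, ENNReal.ofReal_add (by (clear * - hνn; positivity))
              (by (clear * - hνn; positivity)), ENNReal.ofReal_add (by (clear * -; positivity)) (by (clear * - hνn; positivity)),
              ENNReal.ofReal_mul hl0, ENNReal.ofReal_mul hzn, ENNReal.ofReal_mul (by norm_num),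
              ENNReal.ofReal_mul hzn, N.ofReal_nu, ENNReal.ofReal_toReal (N.fζ v), hl,
              ENNReal.ofReal_toReal N.fCK]
        _ ≤ _ := by
            apply ENNReal.ofReal_le_ofReal
            rw [hk, hL]
            simp only
            have h6 := Real.exp_pos (2 * l * s)
            have h7 : 0 ≤ Real.exp (2 * l * s) * (l * (ζ v).toReal) := by (clear * -; positivity)
            linarith only [h7]
  obtain ⟨R, mR, hR, -, hEq⟩ := ks_solution H K1
  refine ⟨R, ⟨mF1, nF1, mR, N.mζ.const_mul _, fun v => ENNReal.mul_ne_top fCM1 (N.fζ v), ?_,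
    fun t ht x v => (hR t ht x v).2.trans (hUe t ht v), hEq⟩, ?_⟩
  · have : Mo 2 (fun v => (CM + 1) * ζ v) = (CM + 1) * Mo 2 ζ := by
      unfold Mo
      have h : Measurable fun v => ζ v * ph v ^ 2 := N.mζ.mul (measurable_phpow 2)
      rw [← lintegral_const_mul _ h]
      apply lintegral_congr
      intro v
      ring
    rw [this]
    exact ENNReal.mul_ne_top fCM1 N.momζ
  · intro t ht x v
    obtain ⟨h1, h2⟩ := hR t ht x v
    have hfin : R t x v ≠ ⊤ :=
      ne_top_of_le_ne_top (ENNReal.mul_ne_top fCM1 (N.fζ v)) (h2.trans (hUe t ht v))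
    set P : ℝ≥0∞ := ENNReal.ofReal (amp r l t) with hP
    have hPK : P ≤ ENNReal.ofReal (Real.exp l) * r0 := by
      rw [hP, ← hr0', ← ENNReal.ofReal_mul (Real.exp_pos _).le]
      apply ENNReal.ofReal_le_ofReal
      unfold amp
      rw [mul_comm]
      gcongr
      have := ht.2
      linarith only [mul_nonneg (sub_nonneg.2 hl0) (sub_nonneg.2 this)]
    refine le_trans ?_ (mul_le_mul_left hPK (ζ v))
    have fP : P ≠ ⊤ := ENNReal.ofReal_ne_top
    have h3 : M v ≤ R t x v + P * ζ v := by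
      refine (wL_add (M := M) (ζ := ζ) P v).trans ?_
      gcongr
    have h4 : R t x v ≤ M v + P * ζ v := h2
    have r3 := ENNReal.toReal_mono (ENNReal.add_ne_top.mpr ⟨hfin, ENNReal.mul_ne_top fP (N.fζ v)⟩) h3
    have r4 := ENNReal.toReal_mono (ENNReal.add_ne_top.mpr ⟨N.fM v, ENNReal.mul_ne_top fP (N.fζ v)⟩) h4
    rw [ENNReal.toReal_add hfin (ENNReal.mul_ne_top fP (N.fζ v))] at r3
    rw [ENNReal.toReal_add (N.fM v) (ENNReal.mul_ne_top fP (N.fζ v))] at r4
    rw [← ENNReal.ofReal_toReal (ENNReal.mul_ne_top fP (N.fζ v))]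
    apply ENNReal.ofReal_le_ofReal
    rw [abs_le]
    unfold realF
    constructor <;> linarith

end Vale.Agent.P140
end
end

section

/-! Local uniqueness of renormalized entropy solutions for data below a Gaussian. -/

open MeasureTheory Set Filter
open scoped ENNReal Topology NNReal

noncomputable section

namespace Vale.Agent.P140

theorem IsMild.congr0 {T : ℝ} {F0 F0' : T3 → V → ℝ} {G : ℝ → T3 → V → ℝ} (h : IsMild T F0 G)
    (m : Measurable fun p : T3 × V => F0' p.1 p.2) (n : ∀ x v, 0 ≤ F0' x v)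
    (he : ∀ᵐ p : T3 × V, F0 p.1 p.2 = F0' p.1 p.2) : IsMild T F0' G := by
  refine ⟨m, n, h.measurable, h.nonneg, h.gain_fin, h.loss_fin, ?_⟩
  filter_upwards [h.mild, he] with p h1 h2
  rw [← h2]
  exact h1

theorem wInt_congr {ψ : V → ℝ≥0∞} {f g : T3 → V → ℝ}
    (he : ∀ᵐ p : T3 × V, f p.1 p.2 = g p.1 p.2) : wInt ψ f = wInt ψ g := by
  unfold wInt
  apply lintegral_congr_ae
  filter_upwards [he] with p hp
  rw [hp]

/-- two renormalized solutions whose datum has a strong solution below an envelope agree -/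
theorem renorm_unique_of_env {T : ℝ} (hT : 0 < T) {F0 F0' : T3 → V → ℝ} {F G : ℝ → T3 → V → ℝ}
    {R : TF} {e : V → ℝ≥0∞} (H : EnvSol T F0' R e)
    (he : ∀ᵐ p : T3 × V, F0 p.1 p.2 = F0' p.1 p.2)
    (hF : IsRenormEntropySol F0 F) (hG : IsRenormEntropySol F0 G) {t : ℝ} (ht : 0 ≤ t)
    (htT : t < T) : ∀ᵐ p : T3 × V, F t p.1 p.2 = G t p.1 p.2 := by
  have f0 : wInt psi2 F0' < ⊤ := by
    rw [← wInt_congr he]
    exact wInt2_datum hF.datum
  have key : ∀ {G : ℝ → T3 → V → ℝ}, IsRenormEntropySol F0 G →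
      ∀ᵐ t ∂(volume.restrict (Ioc 0 T)), wDist psi2 (realF R t) (G t) = 0 := by
    intro G hG
    have h1 := (isMild_of_renorm hG T).congr0 H.meas0 H.nonneg0 he
    refine H.unique hT f0 h1 ?_ ?_
    · filter_upwards [ae_restrict_mem measurableSet_Ioc] with s hs
      rw [← wInt_congr he]
      exact wInt2_le hG hs.1.le
    · filter_upwards [ae_restrict_mem measurableSet_Ioc] with s hs
      rw [← wInt_congr he]
      exact (wInt0_eq hG hs.1.le).le
  refine eq_of_ae_eq hF hG (T := T) ?_ ht htT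
  filter_upwards [key hF, key hG] with s h1 h2
  have h3 := wDist_tri measurable_psi2 (f := F s) (g := realF R s) (h := G s)
    (measurable_slice2 hF.measurable s) (measurable_slice2 (measurable_realF H.meas) s)
  rw [h1, h2, add_zero] at h3
  exact le_antisymm h3 (zero_le)

/-- **Local uniqueness**: data below `A exp(-α|v|²)` have at most one renormalized entropy
solution on `[0,T)`, with `T` depending on `A` and `α` only. -/
theorem renorm_loc_unique {A α : ℝ} (hA : 0 < A) (hα : 0 < α) : ∃ T : ℝ, 0 < T ∧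
    ∀ (F0 : T3 → V → ℝ) (F G : ℝ → T3 → V → ℝ),
      (∀ᵐ p : T3 × V, F0 p.1 p.2 ≤ A * Real.exp (-(α * ‖p.2‖ ^ 2))) →
      IsRenormEntropySol F0 F → IsRenormEntropySol F0 G →
      ∀ t, 0 ≤ t → t < T → ∀ᵐ p : T3 × V, F t p.1 p.2 = G t p.1 p.2 := by
  obtain ⟨T, hT, h⟩ := loc_exists hA hα
  refine ⟨T, hT, fun F0 F G hb hF hG t ht htT => ?_⟩
  set F0' : T3 → V → ℝ := fun x v => min (F0 x v) (A * Real.exp (-(α * ‖v‖ ^ 2))) with hF0'
  have m0 : Measurable fun p : T3 × V => F0' p.1 p.2 := by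
    apply hF.datum.measurable.min
    apply Continuous.measurable
    fun_prop
  have n0 : ∀ x v, 0 ≤ F0' x v := fun x v => le_min (hF.datum.nonneg x v) (by positivity)
  obtain ⟨R, H⟩ := h F0' m0 n0 fun x v => min_le_right _ _
  refine renorm_unique_of_env hT H ?_ hF hG ht htT
  filter_upwards [hb] with p hp
  exact (min_eq_left hp).symm

end Vale.Agent.P140
end
end

section

/-! Changing mild solutions on null sets; shifting in time. -/

open MeasureTheory Set Filter
open scoped ENNReal Topology NNReal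

noncomputable section

namespace Vale.Agent.P140

/-- collision terms of almost everywhere equal functions -/
theorem gain_loss_congr_ae {f g : V → ℝ} (hf : ∀ v, 0 ≤ f v) (hg : ∀ v, 0 ≤ g v)
    (h : ∀ᵐ v, f v = g v) : ∀ᵐ v, gain f v = gain g v ∧ loss f v = loss g v := by
  set N : Set V := {v | ¬ f v = g v} with hN
  have hN0 : volume N = 0 := h
  have hoff : ∀ v, v ∉ N → ENNReal.ofReal (f v) = ENNReal.ofReal (g v) := by
    intro v hv
    simp only [hN, mem_ofPred_eq, not_not] at hv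
    rw [hv]
  filter_upwards [ae_post_notMem hN0, measure_eq_zero_iff_ae_notMem.mp hN0] with v h1 h2
  constructor
  · rw [gain_eq_Qp hf, gain_eq_Qp hg]
    exact Qp_congr_of_notMem hoff h1
  · rw [loss_eq_Qm hf, loss_eq_Qm hg]
    exact Qm_congr_of_notMem hN0 hoff h2

theorem ae_q_of_ae_sX {μ : Measure ℝ} {P : ℝ × T3 × V → Prop}
    (hP : MeasurableSet {q | P q})
    (h : ∀ᵐ z ∂(μ.prod (volume : Measure T3)), ∀ᵐ y : V, P (z.1, z.2, y)) :
    ∀ᵐ q ∂(μ.prod (volume : Measure (T3 × V))), P q := by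
  have hm : MeasurableSet {w : (ℝ × T3) × V | P (w.1.1, w.1.2, w.2)} := by
    have : Measurable fun w : (ℝ × T3) × V => (w.1.1, w.1.2, w.2) := by fun_prop
    exact this hP
  have h1 : ∀ᵐ w ∂((μ.prod (volume : Measure T3)).prod (volume : Measure V)),
      P (w.1.1, w.1.2, w.2) := by
    rw [Measure.ae_prod_iff_ae_ae (p := fun w : (ℝ × T3) × V => P (w.1.1, w.1.2, w.2)) hm]
    exact h
  exact (assoc_symm (μ := μ)).quasiMeasurePreserving.ae h1

theorem IsMild.congr {T : ℝ} {F0 : T3 → V → ℝ} {F F' : ℝ → T3 → V → ℝ} (h : IsMild T F0 F)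
    (m : Measurable fun p : ℝ × T3 × V => F' p.1 p.2.1 p.2.2) (n : ∀ t x v, 0 ≤ F' t x v)
    (he : ∀ᵐ q ∂((volume.restrict (Ioc 0 T)).prod (volume : Measure (T3 × V))),
      F q.1 q.2.1 q.2.2 = F' q.1 q.2.1 q.2.2) : IsMild T F0 F' := by
  have h1 := ae_sX he
  have mgF := measurable_gain_st h.measurable
  have mlF := measurable_loss_st h.measurable
  have mgF' := measurable_gain_st m
  have mlF' := measurable_loss_st m
  have h2 : ∀ᵐ z ∂((volume.restrict (Ioc 0 T)).prod (volume : Measure T3)), ∀ᵐ y : V,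
      gain (F z.1 z.2) y = gain (F' z.1 z.2) y ∧ loss (F z.1 z.2) y = loss (F' z.1 z.2) y := by
    filter_upwards [h1] with z hz
    exact gain_loss_congr_ae (h.nonneg _ _) (n _ _) hz
  have h3 := ae_q_of_ae_sX (μ := volume.restrict (Ioc 0 T))
    (P := fun q => gain (F q.1 q.2.1) q.2.2 = gain (F' q.1 q.2.1) q.2.2 ∧
      loss (F q.1 q.2.1) q.2.2 = loss (F' q.1 q.2.1) q.2.2)
    ((measurableSet_eq_fun mgF mgF').inter (measurableSet_eq_fun mlF mlF')) h2
  have h4 := ae_flow_of_ae h3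
  have h5 := ae_flow_of_ae he
  have key : ∀ᵐ p : T3 × V, ∀ᵐ t ∂(volume.restrict (Ioc 0 T)),
      gainA F (t, p) = gainA F' (t, p) ∧ lossA F (t, p) = lossA F' (t, p) := by
    filter_upwards [h4] with p hp
    filter_upwards [hp] with t ht
    exact ht
  have key2 : ∀ᵐ p : T3 × V, ∀ᵐ t ∂(volume.restrict (Ioc 0 T)), along F (t, p) = along F' (t, p) := by
    filter_upwards [h5] with p hp
    filter_upwards [hp] with t ht
    exact ht
  refine ⟨h.measurable0, h.nonneg0, m, n, ?_, ?_, ?_⟩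
  · filter_upwards [h.gain_fin, key] with p hp hk
    have e : ∫⁻ s in Ioc 0 T, gainA F' (s, p) = ∫⁻ s in Ioc 0 T, gainA F (s, p) := by
      apply lintegral_congr_ae
      filter_upwards [hk] with s hs
      exact hs.1.symm
    rw [e]
    exact hp
  · filter_upwards [h.loss_fin, key] with p hp hk
    have e : ∫⁻ s in Ioc 0 T, lossA F' (s, p) = ∫⁻ s in Ioc 0 T, lossA F (s, p) := by
      apply lintegral_congr_ae
      filter_upwards [hk] with s hs
      exact hs.2.symm
    rw [e]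
    exact hp
  · filter_upwards [h.mild, key, key2] with p hp hk hk2
    filter_upwards [hp, hk2, ae_restrict_mem measurableSet_Ioc] with t ht ht2 hmem
    rw [← ht2, ht]
    congr 1
    apply integral_congr_ae
    filter_upwards [ae_restrict_of_ae_restrict_of_subset (Ioc_subset_Ioc_right hmem.2) hk] with s hs
    rw [hs.1, hs.2]

theorem IsMild.mono {T T' : ℝ} {F0 : T3 → V → ℝ} {F : ℝ → T3 → V → ℝ} (h : IsMild T F0 F)
    (hT : T' ≤ T) : IsMild T' F0 F := by
  refine ⟨h.measurable0, h.nonneg0, h.measurable, h.nonneg, ?_, ?_, ?_⟩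
  · filter_upwards [h.gain_fin] with p hp
    exact lt_of_le_of_lt (lintegral_mono_set (Ioc_subset_Ioc_right hT)) hp
  · filter_upwards [h.loss_fin] with p hp
    exact lt_of_le_of_lt (lintegral_mono_set (Ioc_subset_Ioc_right hT)) hp
  · filter_upwards [h.mild] with p hp
    exact ae_restrict_of_ae_restrict_of_subset (Ioc_subset_Ioc_right hT) hp

theorem ae_shift {P : ℝ → Prop} {τ T : ℝ} (hτ : 0 ≤ τ)
    (h : ∀ᵐ t ∂(volume.restrict (Ioc 0 T)), P t) :
    ∀ᵐ s ∂(volume.restrict (Ioc 0 (T - τ))), P (τ + s) := by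
  rw [ae_restrict_iff' measurableSet_Ioc] at h ⊢
  have h1 := (measurePreserving_add_left (volume : Measure ℝ) τ).quasiMeasurePreserving.ae h
  filter_upwards [h1] with s hs hmem
  apply hs
  constructor
  · linarith [hmem.1]
  · linarith [hmem.2]

theorem flow_add (a b : ℝ) (p : T3 × V) : flow a (flow b p) = flow (b + a) p := by
  unfold flow
  simp only
  rw [add_assoc, ← toTorus_add, ← add_smul]

theorem along_shift (U : ℝ → T3 → V → ℝ) (τ s : ℝ) (p : T3 × V) :
    along (fun t => U (τ + t)) (s, flow τ p) = along U (τ + s, p) := by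
  have h := flow_add s τ p
  have h1 : (flow τ p).1 + toTorus (s • p.2) = p.1 + toTorus ((τ + s) • p.2) :=
    congrArg Prod.fst h
  unfold along
  simp only
  change U (τ + s) ((flow τ p).1 + toTorus (s • p.2)) p.2 = _
  rw [h1]

theorem gainA_shift (U : ℝ → T3 → V → ℝ) (τ s : ℝ) (p : T3 × V) :
    gainA (fun t => U (τ + t)) (s, flow τ p) = gainA U (τ + s, p) := by
  have h := flow_add s τ p
  have h1 : (flow τ p).1 + toTorus (s • p.2) = p.1 + toTorus ((τ + s) • p.2) :=
    congrArg Prod.fst h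
  unfold gainA
  simp only
  change gain (U (τ + s) ((flow τ p).1 + toTorus (s • p.2))) p.2 = _
  rw [h1]

theorem lossA_shift (U : ℝ → T3 → V → ℝ) (τ s : ℝ) (p : T3 × V) :
    lossA (fun t => U (τ + t)) (s, flow τ p) = lossA U (τ + s, p) := by
  have h := flow_add s τ p
  have h1 : (flow τ p).1 + toTorus (s • p.2) = p.1 + toTorus ((τ + s) • p.2) :=
    congrArg Prod.fst h
  unfold lossA
  simp only
  change loss (U (τ + s) ((flow τ p).1 + toTorus (s • p.2))) p.2 = _
  rw [h1]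

theorem ae_of_ae_flowed {P : T3 × V → Prop} (τ : ℝ) (h : ∀ᵐ p : T3 × V, P (flow τ p)) :
    ∀ᵐ p : T3 × V, P p := by
  have h1 := (measurePreserving_flow (-τ)).quasiMeasurePreserving.ae h
  filter_upwards [h1] with p hp
  rwa [flow_flow_neg] at hp

theorem lintegral_Ioc_shift (f : ℝ → ℝ≥0∞) (τ s : ℝ) :
    ∫⁻ u in Ioc 0 s, f (τ + u) = ∫⁻ u in Ioc τ (τ + s), f u := by
  have h := (measurePreserving_add_left (volume : Measure ℝ) τ).setLIntegral_comp_preimage_emb
    (measurableEmbedding_addLeft τ) f (Ioc τ (τ + s))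
  rw [← h]
  congr 2
  ext u
  simp

theorem integral_Ioc_shift (f : ℝ → ℝ) (τ s : ℝ) :
    ∫ u in Ioc 0 s, f (τ + u) = ∫ u in Ioc τ (τ + s), f u := by
  have h := (measurePreserving_add_left (volume : Measure ℝ) τ).setIntegral_preimage_emb
    (measurableEmbedding_addLeft τ) f (Ioc τ (τ + s))
  rw [← h]
  congr 2
  ext u
  simp

/-- shift in time -/
theorem IsMild.shift {T τ : ℝ} {F0 : T3 → V → ℝ} {F : ℝ → T3 → V → ℝ} (h : IsMild T F0 F)
    (hτ : 0 ≤ τ) (hg : Good F0 F τ) : IsMild (T - τ) (F τ) (fun s => F (τ + s)) := by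
  have mF' : Measurable fun p : ℝ × T3 × V => F (τ + p.1) p.2.1 p.2.2 :=
    h.measurable.comp (by fun_prop : Measurable fun p : ℝ × T3 × V => (τ + p.1, p.2.1, p.2.2))
  refine ⟨measurable_slice2 h.measurable τ, h.nonneg τ, mF', fun t => h.nonneg (τ + t), ?_, ?_, ?_⟩
  · apply ae_of_ae_flowed τ
    filter_upwards [h.gain_fin] with p hp
    simp only [gainA_shift]
    rw [lintegral_Ioc_shift (fun u => gainA F (u, p))]
    refine lt_of_le_of_lt (lintegral_mono_set ?_) hp
    intro u hu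
    exact ⟨lt_of_le_of_lt hτ hu.1, by linarith [hu.2]⟩
  · apply ae_of_ae_flowed τ
    filter_upwards [h.loss_fin] with p hp
    simp only [lossA_shift]
    rw [lintegral_Ioc_shift (fun u => lossA F (u, p))]
    refine lt_of_le_of_lt (lintegral_mono_set ?_) hp
    intro u hu
    exact ⟨lt_of_le_of_lt hτ hu.1, by linarith [hu.2]⟩
  · apply ae_of_ae_flowed τ
    have mg := measurable_gainA h.measurable
    have ml := measurable_lossA h.measurable
    filter_upwards [h.mild, hg, h.gain_fin, h.loss_fin] with p h1 h2 h3 h4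
    have msec : Measurable fun s : ℝ => ((s, p) : ℝ × T3 × V) := by fun_prop
    have mg' : Measurable fun s => gainA F (s, p) := mg.comp msec
    have ml' : Measurable fun s => lossA F (s, p) := ml.comp msec
    have hint : IntegrableOn (fun s => (gainA F (s, p)).toReal - (lossA F (s, p)).toReal)
        (Ioc 0 T) := by
      apply Integrable.sub
      · exact integrable_toReal_of_lintegral_ne_top mg'.aemeasurable h3.ne
      · exact integrable_toReal_of_lintegral_ne_top ml'.aemeasurable h4.ne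
    have h5 := ae_shift hτ h1
    filter_upwards [h5, ae_restrict_mem measurableSet_Ioc] with s hs hmem
    have hsT : τ + s ≤ T := by linarith [hmem.2]
    simp only [along_shift, gainA_shift, lossA_shift]
    rw [hs, integral_Ioc_shift (fun u => (gainA F (u, p)).toReal - (lossA F (u, p)).toReal)]
    have h6 : F τ (flow τ p).1 (flow τ p).2 = bar F0 F τ p := h2
    rw [h6]
    unfold bar
    have hu : Ioc 0 (τ + s) = Ioc 0 τ ∪ Ioc τ (τ + s) := by
      rw [Ioc_union_Ioc_eq_Ioc hτ (by linarith [hmem.1])]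
    rw [hu, setIntegral_union (Ioc_disjoint_Ioc_of_le le_rfl) measurableSet_Ioc]
    · ring
    · exact hint.mono_set (Ioc_subset_Ioc_right (by linarith [hmem.1]))
    · apply hint.mono_set
      intro u hu
      exact ⟨lt_of_le_of_lt hτ hu.1, hu.2.trans hsT⟩

end Vale.Agent.P140
end
end

section

/-! Continuation: mild solutions starting near equilibrium stay near equilibrium. -/

open MeasureTheory Set Filter
open scoped ENNReal Topology NNReal

noncomputable section

namespace Vale.Agent.P140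

variable {M ζ : V → ℝ≥0∞} {CK C5 CM : ℝ≥0∞} {ν0 : ℝ}

/-- clamp to the set `|f - M| ≤ r ζ` -/
def clampV (M ζ : V → ℝ≥0∞) (r : ℝ≥0∞) (v : V) (a : ℝ) : ℝ :=
  max (max 0 ((M v).toReal - (r * ζ v).toReal)) (min a ((M v).toReal + (r * ζ v).toReal))

theorem clampV_nonneg (M ζ : V → ℝ≥0∞) (r : ℝ≥0∞) (v : V) (a : ℝ) : 0 ≤ clampV M ζ r v a :=
  le_trans (le_max_left _ _) (le_max_left _ _)

theorem clampV_bound (M ζ : V → ℝ≥0∞) (r : ℝ≥0∞) (v : V) (a : ℝ) :
    |clampV M ζ r v a - (M v).toReal| ≤ (r * ζ v).toReal := by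
  have h1 : 0 ≤ (M v).toReal := ENNReal.toReal_nonneg
  have h2 : 0 ≤ (r * ζ v).toReal := ENNReal.toReal_nonneg
  rw [abs_le]
  unfold clampV
  constructor
  · have : (M v).toReal - (r * ζ v).toReal ≤
        max (max 0 ((M v).toReal - (r * ζ v).toReal)) (min a ((M v).toReal + (r * ζ v).toReal)) :=
      le_trans (le_max_right _ _) (le_max_left _ _)
    linarith
  · have : max (max 0 ((M v).toReal - (r * ζ v).toReal))
        (min a ((M v).toReal + (r * ζ v).toReal)) ≤ (M v).toReal + (r * ζ v).toReal := by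
      apply max_le
      · apply max_le
        · linarith
        · linarith
      · exact min_le_right _ _
    linarith

theorem clampV_eq {M ζ : V → ℝ≥0∞} {r : ℝ≥0∞} {v : V} {a : ℝ} (ha : 0 ≤ a)
    (h : |a - (M v).toReal| ≤ (r * ζ v).toReal) : clampV M ζ r v a = a := by
  rw [abs_le] at h
  unfold clampV
  rw [min_eq_left (by linarith), max_eq_right]
  apply max_le ha
  linarith

theorem measurable_clampV {α : Type*} [MeasurableSpace α] {M ζ : V → ℝ≥0∞} (hM : Measurable M)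
    (hζ : Measurable ζ) (r : ℝ≥0∞) {f : α → ℝ} (hf : Measurable f) {g : α → V}
    (hg : Measurable g) : Measurable fun a => clampV M ζ r (g a) (f a) := by
  unfold clampV
  have m1 : Measurable fun a => (M (g a)).toReal := (hM.comp hg).ennreal_toReal
  have m2 : Measurable fun a => (r * ζ (g a)).toReal := ((hζ.comp hg).const_mul r).ennreal_toReal
  exact (measurable_const.max (m1.sub m2)).max (hf.min (m1.add m2))

theorem NE.ofReal_le_iff (N : NE M ζ CK C5 CM ν0) {r : ℝ≥0∞} (hr : r ≠ ⊤) (v : V) (a : ℝ) :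
    ENNReal.ofReal |a| ≤ r * ζ v ↔ |a| ≤ (r * ζ v).toReal :=
  ENNReal.ofReal_le_iff_le_toReal (ENNReal.mul_ne_top hr (N.fζ v))

/-- closeness to `M` on `(0,T]` -/
def Near (M ζ : V → ℝ≥0∞) (T : ℝ) (r : ℝ≥0∞) (F : ℝ → T3 → V → ℝ) : Prop :=
  ∀ᵐ t ∂(volume.restrict (Ioc 0 T)), ∀ᵐ p : T3 × V,
    ENNReal.ofReal |F t p.1 p.2 - (M p.2).toReal| ≤ r * ζ p.2

theorem Near.prod (hM : Measurable M) (hζ : Measurable ζ) {T : ℝ} {r : ℝ≥0∞}
    {F : ℝ → T3 → V → ℝ} (hF : Measurable fun p : ℝ × T3 × V => F p.1 p.2.1 p.2.2)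
    (h : Near M ζ T r F) : ∀ᵐ q ∂((volume.restrict (Ioc 0 T)).prod (volume : Measure (T3 × V))),
      ENNReal.ofReal |F q.1 q.2.1 q.2.2 - (M q.2.2).toReal| ≤ r * ζ q.2.2 := by
  rw [Measure.ae_prod_iff_ae_ae (p := fun q : ℝ × (T3 × V) =>
    ENNReal.ofReal |F q.1 q.2.1 q.2.2 - (M q.2.2).toReal| ≤ r * ζ q.2.2)]
  · exact h
  · apply measurableSet_le
    · exact measTF_hh hM hF
    · exact (hζ.comp measurable_snd.snd).const_mul r

theorem Near.mono_T {T T' : ℝ} {r : ℝ≥0∞} {F : ℝ → T3 → V → ℝ} (h : Near M ζ T r F)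
    (hT : T' ≤ T) : Near M ζ T' r F :=
  ae_restrict_of_ae_restrict_of_subset (Ioc_subset_Ioc_right hT) h

variable {T : ℝ} {F0 : T3 → V → ℝ} {F : ℝ → T3 → V → ℝ}

/-- the clamped solution is mild and equal to the solution almost everywhere -/
theorem NE.clamp_mild (N : NE M ζ CK C5 CM ν0) {r : ℝ≥0∞} (hr : r ≠ ⊤) (hF : IsMild T F0 F)
    (h : Near M ζ T r F) : IsMild T F0 (fun t x v => clampV M ζ r v (F t x v)) := by
  apply hF.congr
  · exact measurable_clampV N.mM N.mζ r hF.measurable measurable_snd.snd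
  · intro t x v
    exact clampV_nonneg _ _ _ _ _
  · filter_upwards [h.prod N.mM N.mζ hF.measurable] with q hq
    rw [N.ofReal_le_iff hr] at hq
    exact (clampV_eq (hF.nonneg _ _ _) hq).symm

/-- conservation laws below an envelope -/
theorem cons_of_bound {e : V → ℝ≥0∞} (hF : IsMild T F0 F) (me : Measurable e) (mom : Mo 2 e ≠ ⊤)
    (hle : ∀ t ∈ Ioc 0 T, ∀ x v, ENNReal.ofReal (F t x v) ≤ e v) {ψ : V → ℝ≥0∞}
    (hψm : Measurable ψ) (hψ : CollInv ψ) (hψ2 : ∀ v, ψ v ≤ psi2 v) {t : ℝ} (ht : t ∈ Ioc 0 T)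
    (hg : Good F0 F t) : wInt ψ (F t) = wInt ψ F0 := by
  rw [wInt_eq_bar hψm hF.measurable hg]
  have p1 : ∀ᵐ p : T3 × V, 0 ≤ bar F0 F 0 p := by
    filter_upwards with p
    rw [bar_zero]
    exact hF.nonneg0 _ _
  have p2 := bar_nonneg_of_good hF hg
  rw [wInt_conserved hF hψm hψ le_rfl ht.1.le ht.2 p1 p2]
  · simp only [bar_zero]
    rfl
  · have h0 : Mo 0 e ≠ ⊤ := ne_top_of_le_ne_top mom (Mo_mono (by norm_num))
    have h1 : Mo 1 e ≠ ⊤ := ne_top_of_le_ne_top mom (Mo_mono (by norm_num))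
    have hB : Ss * (Mo 2 e * Mo 0 e) + Ss * (Mo 1 e * Mo 1 e) ≠ ⊤ :=
      ENNReal.add_ne_top.mpr ⟨ENNReal.mul_ne_top Ss_ne_top (ENNReal.mul_ne_top mom h0),
        ENNReal.mul_ne_top Ss_ne_top (ENNReal.mul_ne_top h1 h1)⟩
    have mk : Measurable fun v : V => Qm e v * ph v := (measurable_Qm me).mul measurable_ph
    calc ∫⁻ s in Ioc 0 t, ∫⁻ p : T3 × V, ψ p.2 * loss (F s p.1) p.2
        ≤ ∫⁻ s in Ioc 0 t, (Ss * (Mo 2 e * Mo 0 e) + Ss * (Mo 1 e * Mo 1 e)) := by
          apply setLIntegral_mono measurable_const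
          intro s hs
          have hsT : s ∈ Ioc 0 T := ⟨hs.1, hs.2.trans ht.2⟩
          calc ∫⁻ p : T3 × V, ψ p.2 * loss (F s p.1) p.2
              ≤ ∫⁻ p : T3 × V, Qm e p.2 * ph p.2 := by
                apply lintegral_mono
                intro p
                simp only
                rw [mul_comm, loss_eq_Qm (hF.nonneg s p.1)]
                gcongr
                · exact Qm_mono (hle s hsT _) _
                · exact hψ2 _
            _ = ∫⁻ v : V, Qm e v * ph v := lintegral_T3_V mk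
            _ ≤ _ := Qm_weight_le me
      _ < ⊤ := by
          rw [setLIntegral_const]
          exact ENNReal.mul_lt_top hB.lt_top (by simp [Real.volume_Ioc])

/-- near equilibrium, the conservation laws hold at almost every time -/
theorem NE.cons_near (N : NE M ζ CK C5 CM ν0) {r : ℝ≥0∞} (hr : r ≠ ⊤) (hF : IsMild T F0 F)
    (h : Near M ζ T r F) {ψ : V → ℝ≥0∞} (hψm : Measurable ψ) (hψ : CollInv ψ)
    (hψ2 : ∀ v, ψ v ≤ psi2 v) :
    ∀ᵐ t ∂(volume.restrict (Ioc 0 T)), wInt ψ (F t) = wInt ψ F0 := by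
  have hm := N.clamp_mild hr hF h
  have hgood := good_times hm
  filter_upwards [h, hgood, ae_restrict_mem measurableSet_Ioc] with t h1 h2 h3
  have me : Measurable fun v => M v + r * ζ v := N.mM.add (N.mζ.const_mul r)
  have hle : ∀ t ∈ Ioc 0 T, ∀ (x : T3) (v : V),
      ENNReal.ofReal (clampV M ζ r v (F t x v)) ≤ M v + r * ζ v := by
    intro t _ x v
    have hb := clampV_bound M ζ r v (F t x v)
    rw [← ENNReal.ofReal_toReal (N.fM v),
      ← ENNReal.ofReal_toReal (ENNReal.mul_ne_top hr (N.fζ v)),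
      ← ENNReal.ofReal_add ENNReal.toReal_nonneg ENNReal.toReal_nonneg]
    apply ENNReal.ofReal_le_ofReal
    have := (abs_le.mp hb).2
    linarith
  have mom : Mo 2 (fun v => M v + r * ζ v) ≠ ⊤ := by
    have h4 : Mo 2 (fun v => M v + r * ζ v) ≤ (CM + r) * Mo 2 ζ := by
      unfold Mo
      have hm2 : Measurable fun v => ζ v * ph v ^ 2 := N.mζ.mul (measurable_phpow 2)
      rw [← lintegral_const_mul _ hm2]
      apply lintegral_mono
      intro v
      simp only
      calc (M v + r * ζ v) * ph v ^ 2 ≤ (CM * ζ v + r * ζ v) * ph v ^ 2 := by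
            gcongr
            exact N.Mζ v
        _ = _ := by ring
    exact ne_top_of_le_ne_top (ENNReal.mul_ne_top (ENNReal.add_ne_top.mpr ⟨N.fCM, hr⟩) N.momζ) h4
  have h5 := cons_of_bound hm me mom hle hψm hψ hψ2 h3 h2
  rw [← h5]
  apply wInt_congr
  filter_upwards [h1] with p hp
  rw [N.ofReal_le_iff hr] at hp
  exact (clampV_eq (hF.nonneg _ _ _) hp).symm

end Vale.Agent.P140
end
end

section

/-! Continuation: the global bound. -/

open MeasureTheory Set Filter
open scoped ENNReal Topology NNReal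

noncomputable section

namespace Vale.Agent.P140

variable {M ζ : V → ℝ≥0∞} {CK C5 CM : ℝ≥0∞} {ν0 : ℝ}

theorem ae_eq_of_wDist {f g : T3 → V → ℝ} (hf : Measurable fun p : T3 × V => f p.1 p.2)
    (hg : Measurable fun p : T3 × V => g p.1 p.2) (h : wDist psi2 f g = 0) :
    ∀ᵐ p : T3 × V, f p.1 p.2 = g p.1 p.2 := by
  unfold wDist at h
  rw [lintegral_eq_zero_iff] at h
  · filter_upwards [h] with p hp
    simp only [Pi.zero_apply, mul_eq_zero] at hp
    rcases hp with hp | hp
    · exfalso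
      unfold psi2 at hp
      rw [ENNReal.ofReal_eq_zero] at hp
      have : 0 < 1 + ‖p.2‖ ^ 2 := by positivity
      linarith
    · rw [ENNReal.ofReal_eq_zero] at hp
      have := abs_nonneg (f p.1 p.2 - g p.1 p.2)
      have h4 : |f p.1 p.2 - g p.1 p.2| = 0 := le_antisymm hp this
      exact sub_eq_zero.mp (abs_eq_zero.mp h4)
  · exact (measurable_psi2.comp measurable_snd).mul (hf.sub hg).abs.ennreal_ofReal

/-- a good starting time for the next window -/
theorem NE.exists_start (N : NE M ζ CK C5 CM ν0) {F0 : T3 → V → ℝ} {F : ℝ → T3 → V → ℝ}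
    (hF : ∀ T, IsMild T F0 F) {T : ℝ} {r : ℝ≥0∞} (hr : r ≠ ⊤) (hT : 0 ≤ T)
    (h0 : ∀ᵐ p : T3 × V, ENNReal.ofReal |F0 p.1 p.2 - (M p.2).toReal| ≤ r * ζ p.2)
    (h : Near M ζ T r F) :
    ∃ τ : ℝ, T - 1 / 4 ≤ τ ∧ 0 ≤ τ ∧ τ ≤ T ∧ ∃ F1 : T3 → V → ℝ,
      IsMild 1 F1 (fun s => F (τ + s)) ∧
      (∀ᵐ p : T3 × V, ENNReal.ofReal |F1 p.1 p.2 - (M p.2).toReal| ≤ r * ζ p.2) ∧
      wInt psi2 F1 = wInt psi2 F0 ∧ wInt psi0 F1 = wInt psi0 F0 := by
  rcases hT.eq_or_lt with hT0 | hTp
  · refine ⟨0, by linarith, le_rfl, hT, F0, ?_, h0, rfl, rfl⟩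
    simp only [zero_add]
    exact hF 1
  · have hmild := hF T
    have c2 := N.cons_near hr hmild h measurable_psi2 collInv_psi2 (fun v => le_rfl)
    have c0 := N.cons_near hr hmild h measurable_psi0 collInv_psi0 psi0_le_psi2
    have hg := good_times hmild
    have hall : ∀ᵐ t ∂(volume.restrict (Ioc 0 T)), Good F0 F t ∧
        (∀ᵐ p : T3 × V, ENNReal.ofReal |F t p.1 p.2 - (M p.2).toReal| ≤ r * ζ p.2) ∧
        wInt psi2 (F t) = wInt psi2 F0 ∧ wInt psi0 (F t) = wInt psi0 F0 := by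
      filter_upwards [hg, h, c2, c0] with t a1 a2 a3 a4
      exact ⟨a1, a2, a3, a4⟩
    set a : ℝ := max 0 (T - 1 / 4) with ha
    have haT : a < T := by
      rw [ha]
      exact max_lt hTp (by linarith)
    have hsub : ∀ᵐ t ∂(volume.restrict (Ioc a T)), Good F0 F t ∧
        (∀ᵐ p : T3 × V, ENNReal.ofReal |F t p.1 p.2 - (M p.2).toReal| ≤ r * ζ p.2) ∧
        wInt psi2 (F t) = wInt psi2 F0 ∧ wInt psi0 (F t) = wInt psi0 F0 :=
      ae_restrict_of_ae_restrict_of_subset (Ioc_subset_Ioc_left (le_max_left _ _)) hall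
    have hne : (volume.restrict (Ioc a T)) ≠ 0 := by
      rw [ne_eq, Measure.restrict_eq_zero, Real.volume_Ioc, ENNReal.ofReal_eq_zero, not_le]
      linarith
    have : NeZero (volume.restrict (Ioc a T)) := ⟨hne⟩
    obtain ⟨τ, hτ, hmem⟩ := (hsub.and (ae_restrict_mem measurableSet_Ioc)).exists
    have hτ0 : 0 ≤ τ := (le_max_left _ _).trans hmem.1.le
    refine ⟨τ, (le_max_right _ _).trans hmem.1.le, hτ0, hmem.2, F τ, ?_, hτ.2.1, hτ.2.2.1,
      hτ.2.2.2⟩
    have h2 := (hF (τ + 1)).shift hτ0 hτ.1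
    have e : τ + 1 - τ = 1 := by ring
    rw [e] at h2
    exact h2

/-- one window: the solution stays near equilibrium -/
theorem NE.window_step (N : NE M ζ CK C5 CM ν0) {K r : ℝ≥0∞} (hr : r ≠ ⊤)
    (hW : ∀ F1 : T3 → V → ℝ, Measurable (fun p : T3 × V => F1 p.1 p.2) → (∀ x v, 0 ≤ F1 x v) →
      (∀ x v, ENNReal.ofReal |F1 x v - (M v).toReal| ≤ r * ζ v) →
      ∃ R : TF, EnvSol 1 F1 R (fun v => (CM + 1) * ζ v) ∧
      ∀ t ∈ Icc (0 : ℝ) 1, ∀ x v,
        ENNReal.ofReal |realF R t x v - (M v).toReal| ≤ K * r * ζ v)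
    {F1 : T3 → V → ℝ} {G : ℝ → T3 → V → ℝ} (hG : IsMild 1 F1 G)
    (h1 : ∀ᵐ p : T3 × V, ENNReal.ofReal |F1 p.1 p.2 - (M p.2).toReal| ≤ r * ζ p.2)
    (f1 : wInt psi2 F1 < ⊤)
    (eG2 : ∀ᵐ t ∂(volume.restrict (Ioc 0 1)), wInt psi2 (G t) ≤ wInt psi2 F1)
    (eG0 : ∀ᵐ t ∂(volume.restrict (Ioc 0 1)), wInt psi0 (G t) ≤ wInt psi0 F1) :
    Near M ζ 1 (K * r) G := by
  set F1' : T3 → V → ℝ := fun x v => clampV M ζ r v (F1 x v) with hF1'
  have m1 : Measurable fun p : T3 × V => F1' p.1 p.2 :=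
    measurable_clampV N.mM N.mζ r hG.measurable0 measurable_snd
  have n1 : ∀ x v, 0 ≤ F1' x v := fun x v => clampV_nonneg _ _ _ _ _
  have b1 : ∀ x v, ENNReal.ofReal |F1' x v - (M v).toReal| ≤ r * ζ v := by
    intro x v
    rw [N.ofReal_le_iff hr]
    exact clampV_bound _ _ _ _ _
  have he : ∀ᵐ p : T3 × V, F1 p.1 p.2 = F1' p.1 p.2 := by
    filter_upwards [h1] with p hp
    rw [N.ofReal_le_iff hr] at hp
    exact (clampV_eq (hG.nonneg0 _ _) hp).symm
  obtain ⟨R, HR, hRb⟩ := hW F1' m1 n1 b1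
  have hG' := hG.congr0 m1 n1 he
  have hu := HR.unique one_pos (by rw [← wInt_congr he]; exact f1) hG'
    (by rw [← wInt_congr he]; exact eG2) (by rw [← wInt_congr he]; exact eG0)
  unfold Near
  filter_upwards [hu, ae_restrict_mem measurableSet_Ioc] with t ht hmem
  filter_upwards [ae_eq_of_wDist (measurable_slice2 (measurable_realF HR.meas) t)
    (measurable_slice2 hG.measurable t) ht] with p hp
  rw [← hp]
  exact hRb t ⟨hmem.1.le, hmem.2⟩ _ _

/-- **Global closeness to equilibrium.** -/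
theorem NE.global (N : NE M ζ CK C5 CM ν0) {rr : ℝ≥0∞} (hrr : rr ≠ 0) :
    ∃ ε0 : ℝ≥0∞, ε0 ≠ 0 ∧ ε0 ≠ ⊤ ∧
    ∀ (F0 : T3 → V → ℝ) (F : ℝ → T3 → V → ℝ), (∀ T, IsMild T F0 F) → wInt psi2 F0 < ⊤ →
      (∀ᵐ p : T3 × V, ENNReal.ofReal |F0 p.1 p.2 - (M p.2).toReal| ≤ ε0 * ζ p.2) →
      (∀ T, ∀ᵐ t ∂(volume.restrict (Ioc 0 T)), wInt psi2 (F t) ≤ wInt psi2 F0) →
      (∀ T, ∀ᵐ t ∂(volume.restrict (Ioc 0 T)), wInt psi0 (F t) ≤ wInt psi0 F0) →
      (∀ T, ∀ᵐ t ∂(volume.restrict (Ioc 0 T)), wInt psi2 (F t) = wInt psi2 F0 →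
        wDist psi0 (F t) (fun _ v => (M v).toReal) ≤ ε0) →
      ∀ T, Near M ζ T rr F := by
  obtain ⟨r1, K, pr1, fr1, fK, hK1, hwin⟩ := N.window
  have p4 : (1 / 4 : ℝ≥0∞) ≠ 0 := by simp
  obtain ⟨κ', hκ', hκK⟩ := exists_small fK p4
  set κ : ℝ≥0∞ := ENNReal.ofReal κ' with hκ
  have pκ : κ ≠ 0 := (ENNReal.ofReal_pos.mpr hκ').ne'
  obtain ⟨C, fC, hap⟩ := N.apriori pκ
  obtain ⟨δ', hδ', hδC⟩ := exists_small (K := C * K * K)
    (ENNReal.mul_ne_top (ENNReal.mul_ne_top fC fK) fK) p4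
  set ε2 : ℝ≥0∞ := min (min r1 rr) (ENNReal.ofReal δ') with hε2
  have pε2 : ε2 ≠ 0 := by
    rw [hε2]
    exact (lt_min (lt_min (pos_iff_ne_zero.mpr pr1) (pos_iff_ne_zero.mpr hrr))
      (ENNReal.ofReal_pos.mpr hδ')).ne'
  have fε2 : ε2 ≠ ⊤ := ne_top_of_le_ne_top ENNReal.ofReal_ne_top (min_le_right _ _)
  have hε2r1 : ε2 ≤ r1 := (min_le_left _ _).trans (min_le_left _ _)
  have hε2rr : ε2 ≤ rr := (min_le_left _ _).trans (min_le_right _ _)
  have hCKK : C * K * K * ε2 ≤ 1 / 4 := by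
    refine le_trans ?_ hδC
    gcongr
    exact min_le_right _ _
  have pε4 : ε2 / 4 ≠ 0 := ENNReal.div_ne_zero.mpr ⟨pε2, by simp⟩
  obtain ⟨e0, he0, he0C⟩ := exists_small (K := C + 1) (ENNReal.add_ne_top.mpr ⟨fC, by simp⟩) pε4
  set ε0 : ℝ≥0∞ := ENNReal.ofReal e0 with hε0
  have hq4 : ε2 / 4 ≤ ε2 := ENNReal.div_le_of_le_mul (by
    calc ε2 = ε2 * 1 := (mul_one _).symm
      _ ≤ ε2 * 4 := by gcongr; norm_num)
  have hCε0 : C * ε0 ≤ ε2 / 4 := by
    refine le_trans ?_ he0C
    gcongr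
    exact le_self_add
  have hε0ε2 : ε0 ≤ ε2 := by
    calc ε0 = 1 * ε0 := (one_mul _).symm
      _ ≤ (C + 1) * ε0 := by gcongr; exact le_add_self
      _ ≤ ε2 / 4 := he0C
      _ ≤ ε2 := hq4
  refine ⟨ε0, (ENNReal.ofReal_pos.mpr he0).ne', ENNReal.ofReal_ne_top, ?_⟩
  intro F0 F hF f0 h0 e2 e0' hS
  -- the final arithmetic
  have hfinal : κ * (K * ε2) + C * (ε0 + (K * ε2) * (K * ε2) + ε0) ≤ ε2 := by
    have a1 : κ * (K * ε2) ≤ ε2 / 4 := by
      calc κ * (K * ε2) = (K * κ) * ε2 := by ring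
        _ ≤ (1 / 4) * ε2 := by gcongr
        _ = ε2 / 4 := by rw [one_div, mul_comm, ← div_eq_mul_inv]
    have a2 : C * ((K * ε2) * (K * ε2)) ≤ ε2 / 4 := by
      calc C * ((K * ε2) * (K * ε2)) = (C * K * K * ε2) * ε2 := by ring
        _ ≤ (1 / 4) * ε2 := by gcongr
        _ = ε2 / 4 := by rw [one_div, mul_comm, ← div_eq_mul_inv]
    calc κ * (K * ε2) + C * (ε0 + (K * ε2) * (K * ε2) + ε0)
        = κ * (K * ε2) + (C * ε0 + C * ((K * ε2) * (K * ε2)) + C * ε0) := by ring
      _ ≤ ε2 / 4 + (ε2 / 4 + ε2 / 4 + ε2 / 4) := by gcongr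
      _ = 4 * (ε2 / 4) := by ring
      _ = ε2 := ENNReal.mul_div_cancel (by simp) (by simp)
  have h0' : ∀ᵐ p : T3 × V, ENNReal.ofReal |F0 p.1 p.2 - (M p.2).toReal| ≤ ε2 * ζ p.2 := by
    filter_upwards [h0] with p hp
    exact hp.trans (by gcongr)
  have hmeas := (hF 1).measurable
  -- induction over half unit steps
  have key : ∀ n : ℕ, Near M ζ ((n : ℝ) / 2) ε2 F := by
    intro n
    induction n with
    | zero =>
      unfold Near
      simp
    | succ n ih =>
      obtain ⟨τ, hτ1, hτ0, hτT, F1, hmild1, hb1, ew2, ew0⟩ :=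
        N.exists_start hF fε2 (by (clear * -; positivity) : (0 : ℝ) ≤ (n : ℝ) / 2) h0' ih
      have sh : ∀ {P : ℝ → Prop}, (∀ᵐ t ∂(volume.restrict (Ioc 0 (τ + 1))), P t) →
          ∀ᵐ s ∂(volume.restrict (Ioc 0 1)), P (τ + s) := by
        intro P hP
        have h3 := ae_shift hτ0 hP
        have e : τ + 1 - τ = 1 := by ring
        rwa [e] at h3
      have eG2 : ∀ᵐ s ∂(volume.restrict (Ioc 0 1)), wInt psi2 (F (τ + s)) ≤ wInt psi2 F1 := by
        rw [ew2]
        exact sh (e2 (τ + 1))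
      have eG0 : ∀ᵐ s ∂(volume.restrict (Ioc 0 1)), wInt psi0 (F (τ + s)) ≤ wInt psi0 F1 := by
        rw [ew0]
        exact sh (e0' (τ + 1))
      have hnear1 := N.window_step (K := K) fε2 (fun F1 m1 n1 b1 => hwin F1 m1 n1 ε2 hε2r1 b1)
        hmild1 hb1 (by rw [ew2]; exact f0) eG2 eG0
      -- closeness on `(0, τ + 1]`
      have hnear2 : Near M ζ (τ + 1) (K * ε2) F := by
        have a1 : ∀ᵐ t ∂(volume.restrict (Ioc 0 τ)), ∀ᵐ p : T3 × V,
            ENNReal.ofReal |F t p.1 p.2 - (M p.2).toReal| ≤ K * ε2 * ζ p.2 := by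
          have ih' := ih.mono_T hτT
          unfold Near at ih'
          filter_upwards [ih'] with t ht
          filter_upwards [ht] with p hp
          refine hp.trans ?_
          calc ε2 * ζ p.2 = 1 * ε2 * ζ p.2 := by rw [one_mul]
            _ ≤ K * ε2 * ζ p.2 := by gcongr
        have a2 : ∀ᵐ t ∂(volume.restrict (Ioc τ (τ + 1))), ∀ᵐ p : T3 × V,
            ENNReal.ofReal |F t p.1 p.2 - (M p.2).toReal| ≤ K * ε2 * ζ p.2 := by
          unfold Near at hnear1
          rw [ae_restrict_iff' measurableSet_Ioc] at hnear1 ⊢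
          have h3 := (measurePreserving_add_left (volume : Measure ℝ) (-τ)).quasiMeasurePreserving.ae
            hnear1
          filter_upwards [h3] with t ht hmem
          have h4 := ht ⟨by linarith [hmem.1], by linarith [hmem.2]⟩
          have e : τ + (-τ + t) = t := by ring
          rwa [e] at h4
        unfold Near
        have hu : Ioc 0 (τ + 1) = Ioc 0 τ ∪ Ioc τ (τ + 1) := by
          rw [Ioc_union_Ioc_eq_Ioc hτ0 (by linarith)]
        rw [hu, ae_restrict_union_iff]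
        exact ⟨a1, a2⟩
      have fKε : K * ε2 ≠ ⊤ := ENNReal.mul_ne_top fK fε2
      have hcl := N.clamp_mild fKε (hF (τ + 1)) hnear2
      set F' : ℝ → T3 → V → ℝ := fun t x v => clampV M ζ (K * ε2) v (F t x v) with hF'
      have heq : ∀ᵐ t ∂(volume.restrict (Ioc 0 (τ + 1))), ∀ᵐ p : T3 × V,
          F t p.1 p.2 = F' t p.1 p.2 := by
        unfold Near at hnear2
        filter_upwards [hnear2] with t ht
        filter_upwards [ht] with p hp
        rw [N.ofReal_le_iff fKε] at hp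
        exact (clampV_eq ((hF 1).nonneg _ _ _) hp).symm
      have c2 := N.cons_near fKε (hF (τ + 1)) hnear2 measurable_psi2 collInv_psi2
        (fun v => le_rfl)
      have hL : ∀ᵐ t ∂(volume.restrict (Ioc 0 (τ + 1))),
          ∫⁻ p : T3 × V, hh M F' t p.1 p.2 ≤ ε0 := by
        filter_upwards [hS (τ + 1), c2, heq] with t a1 a2 a3
        refine le_trans (le_of_eq ?_) (a1 a2)
        unfold wDist hh psi0
        apply lintegral_congr_ae
        filter_upwards [a3] with p hp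
        rw [hp, one_mul]
      have hbd : ∀ t ∈ Ioc 0 (τ + 1), ∀ x v, hh M F' t x v ≤ (K * ε2) * ζ v := by
        intro t _ x v
        unfold hh
        rw [N.ofReal_le_iff fKε]
        exact clampV_bound _ _ _ _ _
      have hD := duh_ineq hcl N
      have hres := hap (τ + 1) (hh M F') (measTF_hh N.mM hcl.measurable)
        (fun x v => ENNReal.ofReal |F0 x v - (M v).toReal|) (K * ε2) ε0 ε0 hbd h0 hD hL
      have hres2 : ∀ᵐ p : T3 × V, ∀ᵐ t ∂(volume.restrict (Ioc 0 (τ + 1))),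
          hh M F' t (flow t p).1 p.2 ≤ ε2 * ζ p.2 := by
        filter_upwards [hres] with p hp
        filter_upwards [hp] with t ht
        exact ht.trans (by gcongr)
      have hmset : MeasurableSet {q : ℝ × T3 × V | hh M F' q.1 q.2.1 q.2.2 ≤ ε2 * ζ q.2.2} := by
        apply measurableSet_le
        · exact measTF_hh N.mM hcl.measurable
        · exact (N.mζ.comp measurable_snd.snd).const_mul ε2
      have hres3 := ae_time_of_ae_flow (μ := volume.restrict (Ioc 0 (τ + 1)))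
        (P := fun q => hh M F' q.1 q.2.1 q.2.2 ≤ ε2 * ζ q.2.2) hmset hres2
      have hnear3 : Near M ζ (τ + 1) ε2 F := by
        unfold Near
        filter_upwards [hres3, heq] with t a1 a2
        filter_upwards [a1, a2] with p b1 b2
        rw [b2]
        exact b1
      apply hnear3.mono_T
      push_cast
      linarith only [hτ1]
  intro T
  obtain ⟨n, hn⟩ := exists_nat_ge (2 * T)
  have h5 := (key n).mono_T (show T ≤ (n : ℝ) / 2 by linarith)
  unfold Near at h5 ⊢
  filter_upwards [h5] with t ht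
  filter_upwards [ht] with p hp
  exact hp.trans (by gcongr)

end Vale.Agent.P140
end
end

section

/-! Large amplitude: continuation in time. -/

open MeasureTheory Set Filter
open scoped ENNReal Topology NNReal

noncomputable section

namespace Vale.Agent.P140

variable {M ζ : V → ℝ≥0∞} {CM : ℝ≥0∞} {T : ℝ} {F0 : T3 → V → ℝ} {F : ℝ → T3 → V → ℝ}

theorem LA.ofReal_le_iff (N : LA M ζ CM) {r : ℝ≥0∞} (hr : r ≠ ⊤) (v : V) (a : ℝ) :
    ENNReal.ofReal |a| ≤ r * ζ v ↔ |a| ≤ (r * ζ v).toReal :=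
  ENNReal.ofReal_le_iff_le_toReal (ENNReal.mul_ne_top hr (N.fζ v))

/-- the clamped solution is mild and equal to the solution almost everywhere -/
theorem LA.clamp_mild (N : LA M ζ CM) {r : ℝ≥0∞} (hr : r ≠ ⊤) (hF : IsMild T F0 F)
    (h : Near M ζ T r F) : IsMild T F0 (fun t x v => clampV M ζ r v (F t x v)) := by
  apply hF.congr
  · exact measurable_clampV N.mM N.mζ r hF.measurable measurable_snd.snd
  · intro t x v
    exact clampV_nonneg _ _ _ _ _
  · filter_upwards [h.prod N.mM N.mζ hF.measurable] with q hq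
    rw [N.ofReal_le_iff hr] at hq
    exact (clampV_eq (hF.nonneg _ _ _) hq).symm

/-- near equilibrium, the conservation laws hold at almost every time -/
theorem LA.cons_near (N : LA M ζ CM) {r : ℝ≥0∞} (hr : r ≠ ⊤) (hF : IsMild T F0 F)
    (h : Near M ζ T r F) {ψ : V → ℝ≥0∞} (hψm : Measurable ψ) (hψ : CollInv ψ)
    (hψ2 : ∀ v, ψ v ≤ psi2 v) :
    ∀ᵐ t ∂(volume.restrict (Ioc 0 T)), wInt ψ (F t) = wInt ψ F0 := by
  have hm := N.clamp_mild hr hF h
  have hgood := good_times hm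
  filter_upwards [h, hgood, ae_restrict_mem measurableSet_Ioc] with t h1 h2 h3
  have me : Measurable fun v => M v + r * ζ v := N.mM.add (N.mζ.const_mul r)
  have hle : ∀ t ∈ Ioc 0 T, ∀ (x : T3) (v : V),
      ENNReal.ofReal (clampV M ζ r v (F t x v)) ≤ M v + r * ζ v := by
    intro t _ x v
    have hb := clampV_bound M ζ r v (F t x v)
    rw [← ENNReal.ofReal_toReal (N.fM v),
      ← ENNReal.ofReal_toReal (ENNReal.mul_ne_top hr (N.fζ v)),
      ← ENNReal.ofReal_add ENNReal.toReal_nonneg ENNReal.toReal_nonneg]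
    apply ENNReal.ofReal_le_ofReal
    have := (abs_le.mp hb).2
    linarith
  have mom : Mo 2 (fun v => M v + r * ζ v) ≠ ⊤ := by
    have h4 : Mo 2 (fun v => M v + r * ζ v) ≤ (CM + r) * Mo 2 ζ := by
      unfold Mo
      have hm2 : Measurable fun v => ζ v * ph v ^ 2 := N.mζ.mul (measurable_phpow 2)
      rw [← lintegral_const_mul _ hm2]
      apply lintegral_mono
      intro v
      simp only
      calc (M v + r * ζ v) * ph v ^ 2 ≤ (CM * ζ v + r * ζ v) * ph v ^ 2 := by
            gcongr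
            exact N.Mζ v
        _ = _ := by ring
    exact ne_top_of_le_ne_top (ENNReal.mul_ne_top (ENNReal.add_ne_top.mpr ⟨N.fCM, hr⟩) N.momζ) h4
  have h5 := cons_of_bound hm me mom hle hψm hψ hψ2 h3 h2
  rw [← h5]
  apply wInt_congr
  filter_upwards [h1] with p hp
  rw [N.ofReal_le_iff hr] at hp
  exact (clampV_eq (hF.nonneg _ _ _) hp).symm

/-- a good starting time for the next window -/
theorem LA.exists_start (N : LA M ζ CM) (hF : ∀ T, IsMild T F0 F) {T w : ℝ} (hw : 0 < w)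
    {r : ℝ≥0∞} (hr : r ≠ ⊤) (hT : 0 ≤ T)
    (h0 : ∀ᵐ p : T3 × V, ENNReal.ofReal |F0 p.1 p.2 - (M p.2).toReal| ≤ r * ζ p.2)
    (h : Near M ζ T r F) (W : ℝ) :
    ∃ τ : ℝ, T - w ≤ τ ∧ 0 ≤ τ ∧ τ ≤ T ∧ ∃ F1 : T3 → V → ℝ,
      IsMild W F1 (fun s => F (τ + s)) ∧
      (∀ᵐ p : T3 × V, ENNReal.ofReal |F1 p.1 p.2 - (M p.2).toReal| ≤ r * ζ p.2) ∧
      wInt psi2 F1 = wInt psi2 F0 ∧ wInt psi0 F1 = wInt psi0 F0 := by
  rcases hT.eq_or_lt with hT0 | hTp
  · refine ⟨0, by linarith, le_rfl, hT, F0, ?_, h0, rfl, rfl⟩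
    simp only [zero_add]
    exact hF W
  · have hmild := hF T
    have c2 := N.cons_near hr hmild h measurable_psi2 collInv_psi2 (fun v => le_rfl)
    have c0 := N.cons_near hr hmild h measurable_psi0 collInv_psi0 psi0_le_psi2
    have hg := good_times hmild
    have hall : ∀ᵐ t ∂(volume.restrict (Ioc 0 T)), Good F0 F t ∧
        (∀ᵐ p : T3 × V, ENNReal.ofReal |F t p.1 p.2 - (M p.2).toReal| ≤ r * ζ p.2) ∧
        wInt psi2 (F t) = wInt psi2 F0 ∧ wInt psi0 (F t) = wInt psi0 F0 := by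
      filter_upwards [hg, h, c2, c0] with t a1 a2 a3 a4
      exact ⟨a1, a2, a3, a4⟩
    set a : ℝ := max 0 (T - w) with ha
    have haT : a < T := by
      rw [ha]
      exact max_lt hTp (by linarith)
    have hsub : ∀ᵐ t ∂(volume.restrict (Ioc a T)), Good F0 F t ∧
        (∀ᵐ p : T3 × V, ENNReal.ofReal |F t p.1 p.2 - (M p.2).toReal| ≤ r * ζ p.2) ∧
        wInt psi2 (F t) = wInt psi2 F0 ∧ wInt psi0 (F t) = wInt psi0 F0 :=
      ae_restrict_of_ae_restrict_of_subset (Ioc_subset_Ioc_left (le_max_left _ _)) hall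
    have hne : (volume.restrict (Ioc a T)) ≠ 0 := by
      rw [ne_eq, Measure.restrict_eq_zero, Real.volume_Ioc, ENNReal.ofReal_eq_zero, not_le]
      linarith
    have : NeZero (volume.restrict (Ioc a T)) := ⟨hne⟩
    obtain ⟨τ, hτ, hmem⟩ := (hsub.and (ae_restrict_mem measurableSet_Ioc)).exists
    have hτ0 : 0 ≤ τ := (le_max_left _ _).trans hmem.1.le
    refine ⟨τ, (le_max_right _ _).trans hmem.1.le, hτ0, hmem.2, F τ, ?_, hτ.2.1, hτ.2.2.1,
      hτ.2.2.2⟩
    have h2 := (hF (τ + W)).shift hτ0 hτ.1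
    have e : τ + W - τ = W := by ring
    rw [e] at h2
    exact h2

theorem EnvSol.restrict {T' : ℝ} {R : TF} {e : V → ℝ≥0∞} (H : EnvSol T F0 R e) (hT : T' ≤ T) :
    EnvSol T' F0 R e :=
  ⟨H.meas0, H.nonneg0, H.meas, H.mease, H.finE, H.mom,
    fun t ht => H.le t ⟨ht.1, ht.2.trans hT⟩, fun t ht => H.eq t ⟨ht.1, ht.2.trans hT⟩⟩

/-- one window: from `r / 2` to `r` -/
theorem LA.window_step (N : LA M ζ CM) {r : ℝ≥0∞} (hr : r ≠ ⊤) (hr1 : 1 ≤ r) :
    ∃ w : ℝ, 0 < w ∧ ∀ (F1 : T3 → V → ℝ) (G : ℝ → T3 → V → ℝ), IsMild w F1 G →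
    (∀ᵐ p : T3 × V, ENNReal.ofReal |F1 p.1 p.2 - (M p.2).toReal| ≤ (r / 2) * ζ p.2) →
    wInt psi2 F1 < ⊤ →
    (∀ᵐ t ∂(volume.restrict (Ioc 0 w)), wInt psi2 (G t) ≤ wInt psi2 F1) →
    (∀ᵐ t ∂(volume.restrict (Ioc 0 w)), wInt psi0 (G t) ≤ wInt psi0 F1) →
    Near M ζ w r G := by
  have fr2 : r / 2 ≠ ⊤ := ENNReal.div_ne_top hr (by simp)
  have pr2 : r / 2 ≠ 0 := ENNReal.div_ne_zero.mpr ⟨(zero_lt_one.trans_le hr1).ne', by simp⟩
  obtain ⟨w0, hw0, hwin⟩ := N.window_exists (a := CM + r / 2)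
    (ENNReal.add_ne_top.mpr ⟨N.fCM, fr2⟩)
  obtain ⟨CT, fCT, hCT⟩ := N.TT_bound
  set b : ℝ≥0∞ := 2 * (CM + r / 2 + 1) + CM with hb
  have fb : b ≠ ⊤ := ENNReal.add_ne_top.mpr ⟨ENNReal.mul_ne_top (by simp)
    (ENNReal.add_ne_top.mpr ⟨ENNReal.add_ne_top.mpr ⟨N.fCM, fr2⟩, by simp⟩), N.fCM⟩
  have fCb : CM + 1 + b ≠ ⊤ := ENNReal.add_ne_top.mpr
    ⟨ENNReal.add_ne_top.mpr ⟨N.fCM, by simp⟩, fb⟩
  obtain ⟨w1, hw1, hw1'⟩ := exists_small (K := (CM + 1 + b) * (CT * b))
    (ENNReal.mul_ne_top fCb (ENNReal.mul_ne_top fCT fb)) pr2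
  refine ⟨min w0 w1, lt_min hw0 hw1, fun F1 G hG h1 f1 eG2 eG0 => ?_⟩
  set w : ℝ := min w0 w1 with hw
  have hwp : 0 < w := lt_min hw0 hw1
  set F1' : T3 → V → ℝ := fun x v => clampV M ζ (r / 2) v (F1 x v) with hF1'
  have m1 : Measurable fun p : T3 × V => F1' p.1 p.2 :=
    measurable_clampV N.mM N.mζ (r / 2) hG.measurable0 measurable_snd
  have n1 : ∀ x v, 0 ≤ F1' x v := fun x v => clampV_nonneg _ _ _ _ _
  have b1 : ∀ x v, ENNReal.ofReal |F1' x v - (M v).toReal| ≤ (r / 2) * ζ v := by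
    intro x v
    rw [N.ofReal_le_iff fr2]
    exact clampV_bound _ _ _ _ _
  have b2 : ∀ x v, ENNReal.ofReal (F1' x v) ≤ (CM + r / 2) * ζ v := by
    intro x v
    rw [add_mul]
    exact ((hdist_bounds N.fM (n1 x)).1 v).trans (add_le_add (N.Mζ v) (b1 x v))
  have he : ∀ᵐ p : T3 × V, F1 p.1 p.2 = F1' p.1 p.2 := by
    filter_upwards [h1] with p hp
    rw [N.ofReal_le_iff fr2] at hp
    exact (clampV_eq (hG.nonneg0 _ _) hp).symm
  obtain ⟨R, HR0⟩ := hwin F1' m1 n1 b2
  have HR := HR0.restrict (T' := w) (min_le_left _ _)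
  have hG' := hG.congr0 m1 n1 he
  have hu := HR.unique hwp (by rw [← wInt_congr he]; exact f1) hG'
    (by rw [← wInt_congr he]; exact eG2) (by rw [← wInt_congr he]; exact eG0)
  -- crude closeness
  have hnb : Near M ζ w b G := by
    unfold Near
    filter_upwards [hu, ae_restrict_mem measurableSet_Ioc] with t ht hmem
    filter_upwards [ae_eq_of_wDist (measurable_slice2 (measurable_realF HR.meas) t)
      (measurable_slice2 hG.measurable t) ht] with p hp
    rw [← hp]
    have htI : t ∈ Icc 0 w := ⟨hmem.1.le, hmem.2⟩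
    have a1 : ENNReal.ofReal (realF R t p.1 p.2) ≤ 2 * (CM + r / 2 + 1) * ζ p.2 := by
      rw [HR.ofReal_realF htI]
      exact HR.le t htI _ _
    have a2 : ENNReal.ofReal |realF R t p.1 p.2 - (M p.2).toReal| ≤
        ENNReal.ofReal (realF R t p.1 p.2) + M p.2 := by
      nth_rewrite 2 [← ENNReal.ofReal_toReal (N.fM p.2)]
      rw [← ENNReal.ofReal_add (realF_nonneg _ _ _ _) ENNReal.toReal_nonneg]
      apply ENNReal.ofReal_le_ofReal
      have c1 := realF_nonneg R t p.1 p.2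
      have c2 : 0 ≤ (M p.2).toReal := ENNReal.toReal_nonneg
      rw [abs_le]
      constructor <;> linarith
    refine a2.trans ?_
    rw [hb, add_mul]
    exact add_le_add a1 (N.Mζ _)
  have hcl := N.clamp_mild fb hG hnb
  set G' : ℝ → T3 → V → ℝ := fun t x v => clampV M ζ b v (G t x v) with hG'def
  have heq : ∀ᵐ t ∂(volume.restrict (Ioc 0 w)), ∀ᵐ p : T3 × V,
      G t p.1 p.2 = G' t p.1 p.2 := by
    unfold Near at hnb
    filter_upwards [hnb] with t ht
    filter_upwards [ht] with p hp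
    rw [N.ofReal_le_iff fb] at hp
    exact (clampV_eq (hG.nonneg _ _ _) hp).symm
  have hbd : ∀ t ∈ Ioc 0 w, ∀ x v, hh M G' t x v ≤ b * ζ v := by
    intro t _ x v
    unfold hh
    rw [N.ofReal_le_iff fb]
    exact clampV_bound _ _ _ _ _
  have hD := N.duh_ineq hcl hwp.le fb hbd (l := 0) le_rfl (by
    filter_upwards with p
    filter_upwards with s hs
    exact ENNReal.toReal_nonneg)
  have mh : MeasTF (hh M G') := measTF_hh N.mM hcl.measurable
  have hres2 : ∀ᵐ p : T3 × V, ∀ᵐ t ∂(volume.restrict (Ioc 0 w)),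
      hh M G' t (flow t p).1 p.2 ≤ r * ζ p.2 := by
    filter_upwards [hD, h1] with p hp h1p
    filter_upwards [hp, ae_restrict_mem measurableSet_Ioc] with t ht hmem
    refine ht.trans ?_
    rw [Real.exp_zero, ENNReal.ofReal_one, one_mul]
    have e1 : duh 0 (ENNReal.ofReal |F1 p.1 p.2 - (M p.2).toReal|)
        (fun s => S2c M (hh M G' s (flow s p).1) p.2) t ≤
        duh 0 ((r / 2) * ζ p.2) (fun _ => (CM + 1 + b) * (CT * b * ζ p.2)) t := by
      apply duh_mono_on _ h1p
      intro s hs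
      have hsw : s ∈ Ioc 0 w := ⟨hs.1, hs.2.trans hmem.2⟩
      have mhs : Measurable (hh M G' s (flow s p).1) := mh.sec _ _
      refine (N.S2c_le_TT mhs (hbd s hsw _) p.2).trans ?_
      gcongr
      exact hCT _ mhs b (hbd s hsw _) p.2
    refine e1.trans ?_
    unfold duh
    simp only [neg_zero, zero_mul, Real.exp_zero, ENNReal.ofReal_one, one_mul]
    rw [setLIntegral_const, Real.volume_Ioc, sub_zero]
    calc (r / 2) * ζ p.2 + (CM + 1 + b) * (CT * b * ζ p.2) * ENNReal.ofReal t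
        ≤ (r / 2) * ζ p.2 + (CM + 1 + b) * (CT * b * ζ p.2) * ENNReal.ofReal w1 := by
          gcongr
          exact hmem.2.trans (min_le_right _ _)
      _ = (r / 2) * ζ p.2 + ((CM + 1 + b) * (CT * b) * ENNReal.ofReal w1) * ζ p.2 := by ring
      _ ≤ (r / 2) * ζ p.2 + (r / 2) * ζ p.2 := by gcongr
      _ = r * ζ p.2 := by rw [← add_mul, ENNReal.add_halves]
  have hmset : MeasurableSet {q : ℝ × T3 × V | hh M G' q.1 q.2.1 q.2.2 ≤ r * ζ q.2.2} := by
    apply measurableSet_le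
    · exact mh
    · exact (N.mζ.comp measurable_snd.snd).const_mul r
  have hres3 := ae_time_of_ae_flow (μ := volume.restrict (Ioc 0 w))
    (P := fun q => hh M G' q.1 q.2.1 q.2.2 ≤ r * ζ q.2.2) hmset hres2
  unfold Near
  filter_upwards [hres3, heq] with t a1 a2
  filter_upwards [a1, a2] with p b1 b2
  rw [b2]
  exact b1

/-- **Global bound.** -/
theorem LA.global (N : LA M ζ CM) {A : ℝ≥0∞} (hA : A ≠ ⊤) :
    ∃ r η : ℝ≥0∞, r ≠ ⊤ ∧ η ≠ 0 ∧
    ∀ (F0 : T3 → V → ℝ) (F : ℝ → T3 → V → ℝ), (∀ T, IsMild T F0 F) → wInt psi2 F0 < ⊤ →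
      (∀ᵐ p : T3 × V, ENNReal.ofReal |F0 p.1 p.2 - (M p.2).toReal| ≤ A * ζ p.2) →
      (∀ T, ∀ᵐ t ∂(volume.restrict (Ioc 0 T)), wInt psi2 (F t) ≤ wInt psi2 F0) →
      (∀ T, ∀ᵐ t ∂(volume.restrict (Ioc 0 T)), wInt psi0 (F t) ≤ wInt psi0 F0) →
      (∀ T, ∀ᵐ t ∂(volume.restrict (Ioc 0 T)), wInt psi2 (F t) = wInt psi2 F0 →
        wDist psi0 (F t) (fun _ v => (M v).toReal) ≤ η) →
      ∀ T, Near M ζ T r F := by
  obtain ⟨l, hl, hrate⟩ := N.rate_low
  obtain ⟨R, fR, hR1, hap⟩ := N.apriori_abs hl (K0 := ENNReal.ofReal (Real.exp l)) (A := A)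
    ENNReal.ofReal_ne_top hA
  set r : ℝ≥0∞ := R + 2 * A with hr
  have fr : r ≠ ⊤ := ENNReal.add_ne_top.mpr ⟨fR, ENNReal.mul_ne_top (by simp) hA⟩
  have hRr : R ≤ r := le_self_add
  have hr1 : 1 ≤ r := hR1.trans hRr
  have fr2 : r / 2 ≠ ⊤ := ENNReal.div_ne_top fr (by simp)
  have hAr : A ≤ r / 2 := by
    rw [ENNReal.le_div_iff_mul_le (by simp) (by simp), mul_comm]
    exact le_add_self
  have hr2r : r / 2 ≤ r := ENNReal.half_le_self
  obtain ⟨η1, hη1, hrate1⟩ := hrate r fr
  obtain ⟨η2, hη2, hap2⟩ := hap r hRr fr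
  obtain ⟨w, hw, hstep⟩ := N.window_step fr hr1
  refine ⟨r, min η1 η2, fr, (lt_min (pos_iff_ne_zero.mpr hη1) (pos_iff_ne_zero.mpr hη2)).ne', ?_⟩
  intro F0 F hF f0 h0 e2 e0' hS
  have h0' : ∀ᵐ p : T3 × V, ENNReal.ofReal |F0 p.1 p.2 - (M p.2).toReal| ≤ (r / 2) * ζ p.2 := by
    filter_upwards [h0] with p hp
    exact hp.trans (by gcongr)
  -- induction over half windows
  have key : ∀ n : ℕ, Near M ζ ((n : ℝ) * (w / 2)) (r / 2) F := by
    intro n
    induction n with
    | zero =>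
      unfold Near
      simp
    | succ n ih =>
      obtain ⟨τ, hτ1, hτ0, hτT, F1, hmild1, hb1, ew2, ew0⟩ :=
        N.exists_start hF (w := w / 4) (by positivity) fr2
          (by (clear * - hw; positivity) : (0 : ℝ) ≤ (n : ℝ) * (w / 2)) h0' ih w
      have sh : ∀ {P : ℝ → Prop}, (∀ᵐ t ∂(volume.restrict (Ioc 0 (τ + w))), P t) →
          ∀ᵐ s ∂(volume.restrict (Ioc 0 w)), P (τ + s) := by
        intro P hP
        have h3 := ae_shift hτ0 hP
        have e : τ + w - τ = w := by ring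
        rwa [e] at h3
      have eG2 : ∀ᵐ s ∂(volume.restrict (Ioc 0 w)), wInt psi2 (F (τ + s)) ≤ wInt psi2 F1 := by
        rw [ew2]
        exact sh (e2 (τ + w))
      have eG0 : ∀ᵐ s ∂(volume.restrict (Ioc 0 w)), wInt psi0 (F (τ + s)) ≤ wInt psi0 F1 := by
        rw [ew0]
        exact sh (e0' (τ + w))
      have hnear1 := hstep F1 (fun s => F (τ + s)) hmild1 hb1 (by rw [ew2]; exact f0) eG2 eG0
      have hτw : 0 < τ + w := by linarith only [hτ0, hw]
      -- closeness on `(0, τ + w]`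
      have hnear2 : Near M ζ (τ + w) r F := by
        have a1 : ∀ᵐ t ∂(volume.restrict (Ioc 0 τ)), ∀ᵐ p : T3 × V,
            ENNReal.ofReal |F t p.1 p.2 - (M p.2).toReal| ≤ r * ζ p.2 := by
          have ih' := ih.mono_T hτT
          unfold Near at ih'
          filter_upwards [ih'] with t ht
          filter_upwards [ht] with p hp
          refine hp.trans ?_
          gcongr
        have a2 : ∀ᵐ t ∂(volume.restrict (Ioc τ (τ + w))), ∀ᵐ p : T3 × V,
            ENNReal.ofReal |F t p.1 p.2 - (M p.2).toReal| ≤ r * ζ p.2 := by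
          unfold Near at hnear1
          rw [ae_restrict_iff' measurableSet_Ioc] at hnear1 ⊢
          have h3 := (measurePreserving_add_left (volume : Measure ℝ) (-τ)).quasiMeasurePreserving.ae
            hnear1
          filter_upwards [h3] with t ht hmem
          have h4 := ht ⟨by linarith [hmem.1], by linarith [hmem.2]⟩
          have e : τ + (-τ + t) = t := by ring
          rwa [e] at h4
        unfold Near
        have hu : Ioc 0 (τ + w) = Ioc 0 τ ∪ Ioc τ (τ + w) := by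
          rw [Ioc_union_Ioc_eq_Ioc hτ0 (by linarith)]
        rw [hu, ae_restrict_union_iff]
        exact ⟨a1, a2⟩
      have hcl := N.clamp_mild fr (hF (τ + w)) hnear2
      set F' : ℝ → T3 → V → ℝ := fun t x v => clampV M ζ r v (F t x v) with hF'
      have heq : ∀ᵐ t ∂(volume.restrict (Ioc 0 (τ + w))), ∀ᵐ p : T3 × V,
          F t p.1 p.2 = F' t p.1 p.2 := by
        unfold Near at hnear2
        filter_upwards [hnear2] with t ht
        filter_upwards [ht] with p hp
        rw [N.ofReal_le_iff fr] at hp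
        exact (clampV_eq ((hF 1).nonneg _ _ _) hp).symm
      have c2 := N.cons_near fr (hF (τ + w)) hnear2 measurable_psi2 collInv_psi2
        (fun v => le_rfl)
      have hL : ∀ᵐ t ∂(volume.restrict (Ioc 0 (τ + w))),
          ∫⁻ p : T3 × V, hh M F' t p.1 p.2 ≤ min η1 η2 := by
        filter_upwards [hS (τ + w), c2, heq] with t a1 a2 a3
        refine le_trans (le_of_eq ?_) (a1 a2)
        unfold wDist hh psi0
        apply lintegral_congr_ae
        filter_upwards [a3] with p hp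
        rw [hp, one_mul]
      have hL1 : ∀ᵐ t ∂(volume.restrict (Ioc 0 (τ + w))),
          ∫⁻ p : T3 × V, hh M F' t p.1 p.2 ≤ η1 := by
        filter_upwards [hL] with t ht
        exact ht.trans (min_le_left _ _)
      have hL2 : ∀ᵐ t ∂(volume.restrict (Ioc 0 (τ + w))),
          ∫⁻ p : T3 × V, hh M F' t p.1 p.2 ≤ η2 := by
        filter_upwards [hL] with t ht
        exact ht.trans (min_le_right _ _)
      have hbd : ∀ t ∈ Ioc 0 (τ + w), ∀ x v, hh M F' t x v ≤ r * ζ v := by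
        intro t _ x v
        unfold hh
        rw [N.ofReal_le_iff fr]
        exact clampV_bound _ _ _ _ _
      have hlow := hrate1 (τ + w) F0 F' hτw hcl hbd hL1
      have hD := N.duh_ineq hcl hτw.le fr hbd hl.le hlow
      have hres2 := hap2 (τ + w) (hh M F')
        (fun x v => ENNReal.ofReal |F0 x v - (M v).toReal|) (measTF_hh N.mM hcl.measurable)
        hbd h0 hL2 hD
      have hmset : MeasurableSet {q : ℝ × T3 × V | hh M F' q.1 q.2.1 q.2.2 ≤ (r / 2) * ζ q.2.2} := by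
        apply measurableSet_le
        · exact measTF_hh N.mM hcl.measurable
        · exact (N.mζ.comp measurable_snd.snd).const_mul (r / 2)
      have hres3 := ae_time_of_ae_flow (μ := volume.restrict (Ioc 0 (τ + w)))
        (P := fun q => hh M F' q.1 q.2.1 q.2.2 ≤ (r / 2) * ζ q.2.2) hmset hres2
      have hnear3 : Near M ζ (τ + w) (r / 2) F := by
        unfold Near
        filter_upwards [hres3, heq] with t a1 a2
        filter_upwards [a1, a2] with p b1 b2
        rw [b2]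
        exact b1
      apply hnear3.mono_T
      push_cast
      linarith
  intro T
  obtain ⟨n, hn⟩ := exists_nat_ge (T / (w / 2))
  have hn' : T ≤ (n : ℝ) * (w / 2) := by
    rw [div_le_iff₀ (by positivity)] at hn
    exact hn
  have h5 := (key n).mono_T hn'
  unfold Near at h5 ⊢
  filter_upwards [h5] with t ht
  filter_upwards [ht] with p hp
  exact hp.trans (by gcongr)

end Vale.Agent.P140
end
end

section

/-! Kernel estimates for Maxwellians. -/

open MeasureTheory Set Filter Metric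
open scoped ENNReal Topology

noncomputable section

namespace Vale.Agent.P140

theorem gau_mul_gau (c : ℝ) (v : V) : gau c v * gau c v = gau (2 * c) v := by
  unfold gau
  rw [← ENNReal.ofReal_mul (by positivity), ← Real.exp_add]
  congr 2
  ring

theorem gau_anti {c d : ℝ} (h : c ≤ d) (v : V) : gau d v ≤ gau c v := by
  unfold gau
  apply ENNReal.ofReal_le_ofReal
  rw [Real.exp_le_exp]
  linarith only [mul_nonneg (sub_nonneg.2 h) (sq_nonneg ‖v‖)]

theorem gau_neg (c : ℝ) (v : V) : gau c (-v) = gau c v := by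
  unfold gau
  rw [norm_neg]

theorem norm_perp_le (w : V) (o : S2) :
    ‖w - (inner ℝ w (o : V) : ℝ) • (o : V)‖ ^ 2 ≤ ‖w‖ ^ 2 := by
  rw [norm_sub_sq_real, inner_smul_right, norm_smul, norm_o, mul_one, Real.norm_eq_abs, sq_abs]
  linarith only [sq_nonneg (inner ℝ w (o : V) : ℝ)]

theorem gau_le_perp {c : ℝ} (hc : 0 ≤ c) (w : V) (o : S2) : gau c w ≤
    ENNReal.ofReal (Real.exp (-(c * ‖w - (inner ℝ w (o : V) : ℝ) • (o : V)‖ ^ 2))) := by
  unfold gau
  apply ENNReal.ofReal_le_ofReal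
  rw [Real.exp_le_exp]
  have := norm_perp_le w o
  linarith only [mul_nonneg (sub_nonneg.2 hc) (sub_nonneg.2 this)]

theorem postStar_perp (v w : V) (o : S2) :
    postStar v w o - (inner ℝ (postStar v w o) (o : V) : ℝ) • (o : V) =
      w - (inner ℝ w (o : V) : ℝ) • (o : V) := by
  unfold postStar
  rw [inner_add_left, inner_smul_left]
  simp only [conj_trivial]
  rw [inner_oo, mul_one, add_smul]
  abel

theorem gau_postStar_le_perp {c : ℝ} (hc : 0 ≤ c) (v w : V) (o : S2) : gau c (postStar v w o) ≤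
    ENNReal.ofReal (Real.exp (-(c * ‖w - (inner ℝ w (o : V) : ℝ) • (o : V)‖ ^ 2))) := by
  refine (gau_le_perp hc (postStar v w o) o).trans ?_
  rw [postStar_perp]

/-- `∫ h(y)/|y-v| dy` -/
def JJn (h : V → ℝ≥0∞) (v : V) : ℝ≥0∞ := ∫⁻ y : V, ENNReal.ofReal ‖y - v‖⁻¹ * h y

theorem Bg_gau_le {c : ℝ} (hc : 0 < c) {h : V → ℝ≥0∞} (hh : Measurable h) (v : V) :
    Bg h (gau c) v ≤ G2 c * (2 * JJn h v) := by
  unfold Bg JJn
  have hm : Measurable fun p : V × S2 => gau c (postStar v p.1 p.2) := by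
    unfold gau
    apply ENNReal.measurable_ofReal.comp
    apply Continuous.measurable
    have h1 : Continuous fun p : V × S2 => postStar v p.1 p.2 := by
      unfold postStar relA
      fun_prop
    fun_prop
  exact carleman hh hc hm (gau_postStar_le_perp hc.le v) v

theorem Bg_comm {f g : V → ℝ≥0∞} (hf : Measurable f) (hg : Measurable g) (v : V) :
    Bg f g v = Bg g f v := by
  unfold Bg
  apply lintegral_congr
  intro w
  have hΦ : Measurable fun p : V × V => f p.1 * g p.2 :=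
    (hf.comp measurable_fst).mul (hg.comp measurable_snd)
  have h := lintegral_exchange v w hΦ
  simp only at h
  rw [h]
  apply lintegral_congr
  intro o
  ring

/-- the linearized gain of the weight itself -/
theorem Bg_gau2_gau_le {c : ℝ} (hc : 0 < c) (v : V) :
    Bg (gau (2 * c)) (gau c) v ≤ gau c v * (G2 c * (2 * JJn (gau c) v)) := by
  have e1 : Bg (gau (2 * c)) (gau c) v =
      gau c v * ∫⁻ w, ∫⁻ o, kk v w o * (gau c (post v w o) * gau c w) ∂surf := by
    unfold Bg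
    rw [← lintegral_const_mul' _ _ (gau_ne_top c v)]
    apply lintegral_congr
    intro w
    rw [← lintegral_const_mul' _ _ (gau_ne_top c v)]
    apply lintegral_congr
    intro o
    rw [← gau_mul_gau, mul_assoc (gau c (post v w o)), gau_post]
    ring
  rw [e1]
  gcongr
  unfold JJn
  exact carleman (measurable_gau c) hc ((measurable_gau c).comp measurable_fst)
    (fun w o => gau_le_perp hc.le w o) v

theorem JJn_gau_le {c : ℝ} (hc : 0 < c) (v : V) :
    JJn (gau c) v ≤ Ss + ∫⁻ y, gau c y := by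
  have h := sing_split (measurable_gau c) (B := 1) (gau_le_one hc.le) one_pos v
  unfold JJn
  refine h.trans (le_of_eq ?_)
  simp

theorem Mo_one_eq (f : V → ℝ≥0∞) : Mo 0 f = ∫⁻ v, f v := by
  unfold Mo
  simp

theorem norm_le_ph (w : V) : ENNReal.ofReal ‖w‖ ≤ ph w := by
  unfold ph
  apply ENNReal.ofReal_le_ofReal
  linarith only [norm_nonneg w, sq_nonneg (‖w‖ - 1)]

theorem int_norm_le_Mo1 {f : V → ℝ≥0∞} : ∫⁻ w, ENNReal.ofReal ‖w‖ * f w ≤ Mo 1 f := by
  unfold Mo
  apply lintegral_mono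
  intro w
  simp only [pow_one]
  rw [mul_comm]
  gcongr
  exact norm_le_ph w

/-- Gaussian tails -/
theorem tail_small {c : ℝ} (hc : 0 < c) {δ : ℝ≥0∞} (hδ : δ ≠ 0) : ∃ N : ℝ, 0 ≤ N ∧
    ∫⁻ y in {y : V | N < ‖y‖}, gau c y * ph y ≤ δ := by
  obtain ⟨C, fC, hC⟩ := ph_pow_gau_le 1 hc
  have hI : ∫⁻ y, gau (c / 4) y ≠ ⊤ := lintegral_gau (by positivity)
  obtain ⟨d, hd, hdC⟩ := exists_small (ENNReal.mul_ne_top fC hI) hδ
  refine ⟨Real.sqrt (4 / (c * d)), Real.sqrt_nonneg _, ?_⟩
  set N : ℝ := Real.sqrt (4 / (c * d)) with hN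
  have hN2 : N ^ 2 = 4 / (c * d) := Real.sq_sqrt (by positivity)
  have hm : MeasurableSet {y : V | N < ‖y‖} := measurableSet_lt measurable_const measurable_norm
  calc ∫⁻ y in {y : V | N < ‖y‖}, gau c y * ph y
      ≤ ∫⁻ y in {y : V | N < ‖y‖}, (C * ENNReal.ofReal d) * gau (c / 4) y := by
        apply setLIntegral_mono' hm
        intro y hy
        have hy' : N < ‖y‖ := hy
        have h1 := hC y
        rw [pow_one] at h1
        refine h1.trans ?_
        rw [mul_assoc]
        gcongr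
        unfold gau
        rw [← ENNReal.ofReal_mul hd.le]
        apply ENNReal.ofReal_le_ofReal
        have e1 : Real.exp (-(c / 2 * ‖y‖ ^ 2)) =
            Real.exp (-(c / 4 * ‖y‖ ^ 2)) * Real.exp (-(c / 4 * ‖y‖ ^ 2)) := by
          rw [← Real.exp_add]
          congr 1
          ring
        rw [e1]
        gcongr
        have hNy : N ^ 2 ≤ ‖y‖ ^ 2 := by
          have := Real.sqrt_nonneg (4 / (c * d))
          gcongr
        have h2 : 1 / d ≤ c / 4 * ‖y‖ ^ 2 := by
          calc 1 / d = c / 4 * N ^ 2 := by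
                rw [hN2]
                field_simp
            _ ≤ _ := by gcongr
        calc Real.exp (-(c / 4 * ‖y‖ ^ 2)) ≤ Real.exp (-(1 / d)) := by
              rw [Real.exp_le_exp]
              linarith only [h2]
          _ ≤ d := by
              rw [Real.exp_neg]
              have h3 : 1 / d ≤ Real.exp (1 / d) := by
                have := Real.add_one_le_exp (1 / d)
                linarith
              calc (Real.exp (1 / d))⁻¹ ≤ (1 / d)⁻¹ := by
                    apply inv_anti₀ (by positivity) h3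
                _ = d := by simp
    _ ≤ ∫⁻ y, (C * ENNReal.ofReal d) * gau (c / 4) y := setLIntegral_le_lintegral _ _
    _ = (C * ENNReal.ofReal d) * ∫⁻ y, gau (c / 4) y := lintegral_const_mul _ (measurable_gau _)
    _ = (C * ∫⁻ y, gau (c / 4) y) * ENNReal.ofReal d := by ring
    _ ≤ δ := hdC

end Vale.Agent.P140
end
end
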