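import Vale.Agent.P140.Bdl.B8
import Vale.Agent.P140.Bdl.B5
import Vale.Agent.P140.Bdl.B3
attribute [-instance] ProperSMul.toContinuousSMul IsTopologicalTorsor.toContinuousSMul IdemSemiring.toCanonicallyOrderedAdd IdemSemiring.toMulLeftMono IdemSemiring.toMulRightMono AddQuantale.instAddLeftMono AddQuantale.instAddRightMono Quantale.instMulLeftMono Quantale.instMulRightMono FiniteDimensional.rclike_to_real IsScalarTower.complexToReal FiniteDimensional.complexToReal

set_option linter.all false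

attribute [local instance 5000] Vale.Agent.P140.Sc.a01 Vale.Agent.P140.Sc.a02 Vale.Agent.P140.Sc.a03 Vale.Agent.P140.Sc.a04 Vale.Agent.P140.Sc.a05 Vale.Agent.P140.Sc.a06 Vale.Agent.P140.Sc.a07 Vale.Agent.P140.Sc.a08 Vale.Agent.P140.Sc.a09 Vale.Agent.P140.Sc.a10 Vale.Agent.P140.Sc.a11 Vale.Agent.P140.Sc.a12 Vale.Agent.P140.Sc.a13 Vale.Agent.P140.Sc.a14 Vale.Agent.P140.Sc.a15 Vale.Agent.P140.Sc.a16 Vale.Agent.P140.Sc.a17 Vale.Agent.P140.Sc.a18 Vale.Agent.P140.Sc.a19 Vale.Agent.P140.Sc.a20 Vale.Agent.P140.Sc.a21 Vale.Agent.P140.Sc.a22 Vale.Agent.P140.Sc.a23 Vale.Agent.P140.Sc.a24 Vale.Agent.P140.Sc.a25 Vale.Agent.P140.Sc.a26 Vale.Agent.P140.Sc.a27 Vale.Agent.P140.Sc.a28 Vale.Agent.P140.Sc.a29 Vale.Agent.P140.Sc.a30 Vale.Agent.P140.Sc.a31 Vale.Agent.P140.Sc.a32 Vale.Agent.P140.Sc.a33 Vale.Agent.P140.Sc.r01 Vale.Agent.P140.Sc.r02 Vale.Agent.P140.Sc.r03 Vale.Agent.P140.Sc.r04 Vale.Agent.P140.Sc.r05 Vale.Agent.P140.Sc.r06 Vale.Agent.P140.Sc.r07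 Vale.Agent.P140.Sc.r08 Vale.Agent.P140.Sc.r09 Vale.Agent.P140.Sc.r10 Vale.Agent.P140.Sc.r11 Vale.Agent.P140.Sc.r12 Vale.Agent.P140.Sc.r13 Vale.Agent.P140.Sc.r14 Vale.Agent.P140.Sc.r15 Vale.Agent.P140.Sc.r16 Vale.Agent.P140.Sc.r17 Vale.Agent.P140.Sc.r18

section

/-! The near-equilibrium structure for Maxwellians. -/

open MeasureTheory Set Filter Metric
open scoped ENNReal Topology

noncomputable section

namespace Vale.Agent.P140

/-- Maxwellian `ρ exp(-2c|v|²)` -/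
def MxE (ρ c : ℝ) (v : V) : ℝ≥0∞ := ENNReal.ofReal ρ * gau (2 * c) v

theorem measurable_MxE (ρ c : ℝ) : Measurable (MxE ρ c) := (measurable_gau _).const_mul _

theorem lintegral_gau_ne_zero (c : ℝ) : ∫⁻ v, gau c v ≠ 0 := by
  intro h
  rw [lintegral_eq_zero_iff (measurable_gau c)] at h
  have h2 : ∀ᵐ v : V, False := by
    filter_upwards [h] with v hv
    exact gau_ne_zero c v hv
  have h3 := h2.exists
  exact h3.choose_spec

theorem lintegral_norm_gau_ne_zero (c : ℝ) : ∫⁻ v : V, ENNReal.ofReal ‖v‖ * gau c v ≠ 0 := by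
  intro h
  have hm : Measurable fun v : V => ENNReal.ofReal ‖v‖ * gau c v :=
    measurable_norm.ennreal_ofReal.mul (measurable_gau c)
  rw [lintegral_eq_zero_iff hm] at h
  have h1 : ∀ᵐ v : V, v ≠ 0 := by
    rw [ae_iff]
    simp
  have h2 : ∀ᵐ v : V, False := by
    filter_upwards [h, h1] with v hv hv0
    simp only [Pi.zero_apply, mul_eq_zero] at hv
    rcases hv with hv | hv
    · rw [ENNReal.ofReal_eq_zero] at hv
      exact hv0 (norm_le_zero_iff.mp hv)
    · exact gau_ne_zero c v hv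
  have h3 := h2.exists
  exact h3.choose_spec

theorem Ln_MxE (ρ c : ℝ) (v : V) : Ln (MxE ρ c) v = ENNReal.ofReal ρ * Ln (gau (2 * c)) v :=
  Ln_const_mul (measurable_gau _) _ v

/-- linear lower bound -/
theorem Ln_gau_lower {c : ℝ} (hc : 0 < c) : ∃ β : ℝ≥0∞, β ≠ 0 ∧ β ≠ ⊤ ∧
    ∀ v, β * (ENNReal.ofReal ‖v‖ + 1) ≤ Ln (gau c) v := by
  obtain ⟨ca, hca, hang⟩ := exists_ang
  set m0 : ℝ≥0∞ := ∫⁻ v, gau c v with hm0
  set m1 : ℝ≥0∞ := ∫⁻ v : V, ENNReal.ofReal ‖v‖ * gau c v with hm1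
  have p0 : m0 ≠ 0 := lintegral_gau_ne_zero c
  have p1 : m1 ≠ 0 := lintegral_norm_gau_ne_zero c
  have f0 : m0 ≠ ⊤ := lintegral_gau hc
  set mm : ℝ≥0∞ := min m0 m1 with hmm
  have pmm : mm ≠ 0 := (lt_min (pos_iff_ne_zero.mpr p0) (pos_iff_ne_zero.mpr p1)).ne'
  have fmm : mm ≠ ⊤ := ne_top_of_le_ne_top f0 (min_le_left _ _)
  refine ⟨ENNReal.ofReal ca * mm / 2, ?_, ?_, fun v => ?_⟩
  · exact ENNReal.div_ne_zero.mpr ⟨mul_ne_zero (ENNReal.ofReal_pos.mpr hca).ne' pmm, by simp⟩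
  · exact ENNReal.div_ne_top (ENNReal.mul_ne_top ENNReal.ofReal_ne_top fmm) (by simp)
  · have h := Ln_ge (measurable_gau c) (gau_neg c) hca.le hang v
    calc ENNReal.ofReal ca * mm / 2 * (ENNReal.ofReal ‖v‖ + 1)
        = (ENNReal.ofReal ca * (ENNReal.ofReal ‖v‖ * mm + mm)) / 2 := by
          rw [div_eq_mul_inv, div_eq_mul_inv]
          ring
      _ ≤ (ENNReal.ofReal ca * (ENNReal.ofReal ‖v‖ * m0 + m1)) / 2 := by
          gcongr
          · exact min_le_left _ _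
          · exact min_le_right _ _
      _ ≤ (2 * Ln (gau c) v) / 2 := by gcongr
      _ = Ln (gau c) v := by
          rw [mul_comm, ENNReal.mul_div_cancel_right (by simp) (by simp)]

/-- linear upper bound -/
theorem Ln_gau_upper {c : ℝ} (hc : 0 < c) : ∃ γ : ℝ≥0∞, γ ≠ ⊤ ∧
    ∀ v, Ln (gau c) v ≤ γ * (ENNReal.ofReal ‖v‖ + 1) := by
  set m0 : ℝ≥0∞ := ∫⁻ v, gau c v with hm0
  set m1 : ℝ≥0∞ := ∫⁻ v : V, ENNReal.ofReal ‖v‖ * gau c v with hm1
  have f0 : m0 ≠ ⊤ := lintegral_gau hc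
  have f1 : m1 ≠ ⊤ := ne_top_of_le_ne_top (Mo_gau 1 hc) int_norm_le_Mo1
  refine ⟨Ss * (m0 + m1), ENNReal.mul_ne_top Ss_ne_top (ENNReal.add_ne_top.mpr ⟨f0, f1⟩),
    fun v => ?_⟩
  refine (Ln_le_lin (measurable_gau c) v).trans ?_
  calc Ss * (ENNReal.ofReal ‖v‖ * m0 + m1)
      ≤ Ss * (ENNReal.ofReal ‖v‖ * m0 + m1 + (m0 + ENNReal.ofReal ‖v‖ * m1)) := by
        gcongr Ss * ?_
        exact le_self_add
    _ = _ := by ring

/-- splitting of the linear operator -/
theorem gau_split {ρ c : ℝ} (hρ : 0 < ρ) (hc : 0 < c) (δ : ℝ≥0∞) (hδ : δ ≠ 0) (N : ℝ) :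
    ∃ (N' : ℝ) (C : ℝ≥0∞), C ≠ ⊤ ∧
    ∀ h : V → ℝ≥0∞, Measurable h → ∀ r : ℝ≥0∞, (∀ v, h v ≤ r * gau c v) →
    ∀ v, ‖v‖ ≤ N → KB (MxE ρ c) h v ≤ δ * r + C * ∫⁻ y in {y : V | ‖y‖ ≤ N'}, h y := by
  set P : ℝ≥0∞ := ENNReal.ofReal ρ with hP
  have fP : P ≠ ⊤ := ENNReal.ofReal_ne_top
  set G : ℝ≥0∞ := G2 (2 * c) with hG
  have fG : G ≠ ⊤ := G2_ne_top (by positivity)
  have hδ2 : δ / 2 ≠ 0 := ENNReal.div_ne_zero.mpr ⟨hδ, by simp⟩
  obtain ⟨d, hd, hdδ⟩ := exists_small (K := 4 * P * G * Ss)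
    (ENNReal.mul_ne_top (ENNReal.mul_ne_top (ENNReal.mul_ne_top (by simp) fP) fG) Ss_ne_top) hδ2
  set η : ℝ := Real.sqrt d with hη
  have hηp : 0 < η := Real.sqrt_pos.mpr hd
  have hη2 : η ^ 2 = d := Real.sq_sqrt hd.le
  set a : ℝ≥0∞ := 4 * P * G * ENNReal.ofReal η⁻¹ + P * Ss * ENNReal.ofReal N + P * Ss with ha
  have fa : a ≠ ⊤ := by
    refine ENNReal.add_ne_top.mpr ⟨ENNReal.add_ne_top.mpr ⟨?_, ?_⟩, ?_⟩
    · exact ENNReal.mul_ne_top (ENNReal.mul_ne_top (ENNReal.mul_ne_top (by simp) fP) fG)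
        ENNReal.ofReal_ne_top
    · exact ENNReal.mul_ne_top (ENNReal.mul_ne_top fP Ss_ne_top) ENNReal.ofReal_ne_top
    · exact ENNReal.mul_ne_top fP Ss_ne_top
  obtain ⟨d', hd', hdδ'⟩ := exists_small fa hδ2
  obtain ⟨N', hN'0, hN'⟩ := tail_small hc (ENNReal.ofReal_pos.mpr hd').ne'
  set tl : ℝ≥0∞ := ∫⁻ y in {y : V | N' < ‖y‖}, gau c y * ph y with htl
  have hatl : a * tl ≤ δ / 2 := le_trans (by gcongr) hdδ'
  refine ⟨N', 4 * P * G * ENNReal.ofReal η⁻¹ + P * Ss * ENNReal.ofReal N +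
    P * Ss * ENNReal.ofReal N', ?_, ?_⟩
  · refine ENNReal.add_ne_top.mpr ⟨ENNReal.add_ne_top.mpr ⟨?_, ?_⟩, ?_⟩
    · exact ENNReal.mul_ne_top (ENNReal.mul_ne_top (ENNReal.mul_ne_top (by simp) fP) fG)
        ENNReal.ofReal_ne_top
    · exact ENNReal.mul_ne_top (ENNReal.mul_ne_top fP Ss_ne_top) ENNReal.ofReal_ne_top
    · exact ENNReal.mul_ne_top (ENNReal.mul_ne_top fP Ss_ne_top) ENNReal.ofReal_ne_top
  intro h mh r hr v hv
  set b : ℝ≥0∞ := ∫⁻ y in {y : V | ‖y‖ ≤ N'}, h y with hb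
  have mB : MeasurableSet {y : V | ‖y‖ ≤ N'} := measurableSet_le measurable_norm measurable_const
  have hcompl : {y : V | ‖y‖ ≤ N'}ᶜ = {y : V | N' < ‖y‖} := by
    ext y
    simp
  have mBc : MeasurableSet {y : V | N' < ‖y‖} := measurableSet_lt measurable_const measurable_norm
  have mgp : Measurable fun y : V => gau c y * ph y := (measurable_gau c).mul measurable_ph
  -- mass
  have hmass : ∫⁻ y, h y ≤ b + r * tl := by
    rw [← lintegral_add_compl h mB, hcompl]
    gcongr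
    rw [htl, ← lintegral_const_mul _ mgp]
    apply setLIntegral_mono' mBc
    intro y _
    calc h y ≤ r * gau c y := hr y
      _ = r * (gau c y * 1) := by rw [mul_one]
      _ ≤ r * (gau c y * ph y) := by
          gcongr
          exact one_le_ph y
  have hmom : ∫⁻ y : V, ENNReal.ofReal ‖y‖ * h y ≤ ENNReal.ofReal N' * b + r * tl := by
    rw [← lintegral_add_compl (fun y : V => ENNReal.ofReal ‖y‖ * h y) mB, hcompl]
    gcongr
    · rw [hb, ← lintegral_const_mul _ mh]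
      apply setLIntegral_mono' mB
      intro y hy
      have : ‖y‖ ≤ N' := hy
      gcongr
    · rw [htl, ← lintegral_const_mul _ mgp]
      apply setLIntegral_mono' mBc
      intro y _
      calc ENNReal.ofReal ‖y‖ * h y ≤ ph y * (r * gau c y) := by
            gcongr
            · exact norm_le_ph y
            · exact hr y
        _ = _ := by ring
  have hJ : JJn h v ≤ r * (Ss * ENNReal.ofReal (η ^ 2)) + ENNReal.ofReal η⁻¹ * (b + r * tl) := by
    have h1 := sing_split mh (B := r) (fun y => (hr y).trans (by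
      calc r * gau c y ≤ r * 1 := by gcongr; exact gau_le_one hc.le y
        _ = r := mul_one r)) hηp v
    unfold JJn
    refine h1.trans ?_
    gcongr
  have hB1 : Bg h (MxE ρ c) v ≤ P * (G * (2 * JJn h v)) := by
    have e1 : Bg h (MxE ρ c) v = P * Bg h (gau (2 * c)) v := by
      have h2 := Bg_const_mul mh (measurable_gau (2 * c)) 1 P v
      simp only [one_mul] at h2
      exact h2
    rw [e1]
    gcongr
    exact Bg_gau_le (by positivity) mh v
  have hB2 : Bg (MxE ρ c) h v = Bg h (MxE ρ c) v := Bg_comm (measurable_MxE ρ c) mh v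
  have hM1 : MxE ρ c v ≤ P := by
    unfold MxE
    calc P * gau (2 * c) v ≤ P * 1 := by gcongr; exact gau_le_one (by positivity) v
      _ = P := mul_one P
  have hL : Ln h v ≤ Ss * (ENNReal.ofReal N * (b + r * tl) + (ENNReal.ofReal N' * b + r * tl)) := by
    refine (Ln_le_lin mh v).trans ?_
    gcongr
  calc KB (MxE ρ c) h v = Bg h (MxE ρ c) v + Bg h (MxE ρ c) v + MxE ρ c v * Ln h v := by
        unfold KB
        rw [hB2]
    _ ≤ P * (G * (2 * (r * (Ss * ENNReal.ofReal (η ^ 2)) + ENNReal.ofReal η⁻¹ * (b + r * tl)))) +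
        P * (G * (2 * (r * (Ss * ENNReal.ofReal (η ^ 2)) + ENNReal.ofReal η⁻¹ * (b + r * tl)))) +
        P * (Ss * (ENNReal.ofReal N * (b + r * tl) + (ENNReal.ofReal N' * b + r * tl))) := by
        gcongr
        · refine hB1.trans ?_
          gcongr
        · refine hB1.trans ?_
          gcongr
    _ = (4 * P * G * Ss * ENNReal.ofReal d + a * tl) * r +
        (4 * P * G * ENNReal.ofReal η⁻¹ + P * Ss * ENNReal.ofReal N +
          P * Ss * ENNReal.ofReal N') * b := by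
        rw [hη2, ha]
        ring
    _ ≤ (δ / 2 + δ / 2) * r + (4 * P * G * ENNReal.ofReal η⁻¹ + P * Ss * ENNReal.ofReal N +
          P * Ss * ENNReal.ofReal N') * b := by
        gcongr
    _ = _ := by rw [ENNReal.add_halves]

/-- the near-equilibrium structure of a centered Maxwellian -/
theorem ne_gau {ρ c : ℝ} (hρ : 0 < ρ) (hc : 0 < c) :
    ∃ (CK C5 CM : ℝ≥0∞) (ν0 : ℝ), NE (MxE ρ c) (gau c) CK C5 CM ν0 := by
  set P : ℝ≥0∞ := ENNReal.ofReal ρ with hP
  have fP : P ≠ ⊤ := ENNReal.ofReal_ne_top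
  have pP : P ≠ 0 := (ENNReal.ofReal_pos.mpr hρ).ne'
  obtain ⟨β', pβ', fβ', hβ'⟩ := Ln_gau_lower (c := 2 * c) (by positivity)
  obtain ⟨γ, fγ, hγ⟩ := Ln_gau_upper hc
  obtain ⟨C1, fC1, hC1⟩ := ph_pow_gau_le 1 hc
  set β : ℝ≥0∞ := P * β' with hβ
  have pβ : β ≠ 0 := mul_ne_zero pP pβ'
  have fβ : β ≠ ⊤ := ENNReal.mul_ne_top fP fβ'
  have hlow : ∀ v, β * (ENNReal.ofReal ‖v‖ + 1) ≤ Ln (MxE ρ c) v := by
    intro v
    rw [Ln_MxE, hβ, mul_assoc]
    gcongr
    exact hβ' v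
  set CJ : ℝ≥0∞ := Ss + ∫⁻ y, gau c y with hCJ
  have fCJ : CJ ≠ ⊤ := ENNReal.add_ne_top.mpr ⟨Ss_ne_top, lintegral_gau hc⟩
  have fG : G2 c ≠ ⊤ := G2_ne_top hc
  have fMo1 : Mo 1 (gau c) ≠ ⊤ := Mo_gau 1 hc
  refine ⟨2 * (P * (G2 c * (2 * CJ))) + P * (Ss * Mo 1 (gau c) * C1), γ * β⁻¹, P, β.toReal, ?_⟩
  constructor
  · exact measurable_MxE ρ c
  · exact measurable_gau c
  · intro v
    exact ENNReal.mul_ne_top fP (gau_ne_top _ _)
  · exact gau_ne_top c
  · intro v
    exact mul_ne_zero pP (gau_ne_zero _ _)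
  · exact gau_ne_zero c
  · exact ENNReal.add_ne_top.mpr ⟨ENNReal.mul_ne_top (by simp) (ENNReal.mul_ne_top fP
      (ENNReal.mul_ne_top fG (ENNReal.mul_ne_top (by simp) fCJ))), ENNReal.mul_ne_top fP
      (ENNReal.mul_ne_top (ENNReal.mul_ne_top Ss_ne_top fMo1) fC1)⟩
  · exact ENNReal.mul_ne_top fγ (ENNReal.inv_ne_top.mpr pβ)
  · exact fP
  · exact ENNReal.toReal_pos pβ fβ
  · intro v
    have h := Bg_const_mul (measurable_gau (2 * c)) (measurable_gau (2 * c)) P P v
    have h2 : Bg (MxE ρ c) (MxE ρ c) v = P * P * Bg (gau (2 * c)) (gau (2 * c)) v := h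
    rw [h2, Bg_gau, Ln_MxE]
    unfold MxE
    ring
  · intro v
    exact Bg_gau c v
  · intro v
    have e1 : Bg (MxE ρ c) (gau c) v = P * Bg (gau (2 * c)) (gau c) v := by
      have h := Bg_const_mul (measurable_gau (2 * c)) (measurable_gau c) P 1 v
      simp only [one_mul, mul_one] at h
      exact h
    have e2 : Bg (gau c) (MxE ρ c) v = Bg (MxE ρ c) (gau c) v :=
      Bg_comm (measurable_gau c) (measurable_MxE ρ c) v
    have h1 : Bg (MxE ρ c) (gau c) v ≤ P * (gau c v * (G2 c * (2 * CJ))) := by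
      rw [e1]
      gcongr
      refine (Bg_gau2_gau_le hc v).trans ?_
      gcongr
      exact JJn_gau_le hc v
    have h2 : MxE ρ c v * Ln (gau c) v ≤ P * (Ss * Mo 1 (gau c) * C1) * gau c v := by
      unfold MxE
      rw [← gau_mul_gau]
      have hx : gau c v * ph v ^ 1 ≤ C1 := by
        refine (hC1 v).trans ?_
        calc C1 * gau (c / 2) v ≤ C1 * 1 := by
              gcongr
              exact gau_le_one (by positivity) v
          _ = C1 := mul_one C1
      calc P * (gau c v * gau c v) * Ln (gau c) v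
          ≤ P * (gau c v * gau c v) * (Ss * Mo 1 (gau c) * ph v) := by
            gcongr
            exact Ln_le_ph (measurable_gau c) v
        _ = P * (Ss * Mo 1 (gau c)) * (gau c v * ph v ^ 1) * gau c v := by ring
        _ ≤ P * (Ss * Mo 1 (gau c)) * C1 * gau c v := by
            gcongr
        _ = _ := by ring
    unfold KB
    rw [e2]
    calc Bg (MxE ρ c) (gau c) v + Bg (MxE ρ c) (gau c) v + MxE ρ c v * Ln (gau c) v
        ≤ P * (gau c v * (G2 c * (2 * CJ))) + P * (gau c v * (G2 c * (2 * CJ))) +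
          P * (Ss * Mo 1 (gau c) * C1) * gau c v := by gcongr
      _ = _ := by ring
  · intro v
    calc Ln (gau c) v ≤ γ * (ENNReal.ofReal ‖v‖ + 1) := hγ v
      _ = γ * (β⁻¹ * β) * (ENNReal.ofReal ‖v‖ + 1) := by
          rw [ENNReal.inv_mul_cancel pβ fβ, mul_one]
      _ = γ * β⁻¹ * (β * (ENNReal.ofReal ‖v‖ + 1)) := by ring
      _ ≤ _ := by
          gcongr
          exact hlow v
  · intro v
    rw [Ln_MxE]
    refine ENNReal.mul_ne_top fP ?_
    exact ne_top_of_le_ne_top (ENNReal.mul_ne_top (ENNReal.mul_ne_top Ss_ne_top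
      (Mo_gau 1 (by positivity))) (ph_ne_top v)) (Ln_le_ph (measurable_gau (2 * c)) v)
  · intro v
    rw [ENNReal.ofReal_toReal fβ]
    calc β = β * 1 := (mul_one _).symm
      _ ≤ β * (ENNReal.ofReal ‖v‖ + 1) := by
          gcongr
          exact le_add_self
      _ ≤ _ := hlow v
  · intro v
    unfold MxE
    gcongr
    exact gau_anti (by linarith) v
  · exact Mo_gau 2 hc
  · intro κ hκ
    set κ' : ℝ≥0∞ := min κ 1 with hκ'
    have pκ' : κ' ≠ 0 := (lt_min (pos_iff_ne_zero.mpr hκ) one_pos).ne'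
    have fκ' : κ' ≠ ⊤ := ne_top_of_le_ne_top ENNReal.one_ne_top (min_le_right _ _)
    have p2 : κ' * β ≠ 0 := mul_ne_zero pκ' pβ
    have f2 : κ' * β ≠ ⊤ := ENNReal.mul_ne_top fκ' fβ
    refine ⟨((κ' * β)⁻¹).toReal, fun v hv => ?_⟩
    have h1 : (κ' * β)⁻¹ ≤ ENNReal.ofReal ‖v‖ := by
      rw [← ENNReal.ofReal_toReal (ENNReal.inv_ne_top.mpr p2)]
      exact ENNReal.ofReal_le_ofReal hv.le
    calc 1 = (κ' * β) * (κ' * β)⁻¹ := (ENNReal.mul_inv_cancel p2 f2).symm
      _ ≤ (κ' * β) * (ENNReal.ofReal ‖v‖ + 1) := by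
          gcongr
          exact h1.trans le_self_add
      _ = κ' * (β * (ENNReal.ofReal ‖v‖ + 1)) := by ring
      _ ≤ κ * Ln (MxE ρ c) v := by
          gcongr
          · exact min_le_left _ _
          · exact hlow v
  · intro N
    refine ⟨ENNReal.ofReal (Real.exp (-(c * N ^ 2))), (ENNReal.ofReal_pos.mpr (Real.exp_pos _)).ne',
      fun v hv => ?_⟩
    unfold gau
    apply ENNReal.ofReal_le_ofReal
    rw [Real.exp_le_exp]
    have h1 : ‖v‖ ^ 2 ≤ N ^ 2 := by
      have := norm_nonneg v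
      gcongr
    linarith only [mul_nonneg (le_of_lt (sub_pos.2 hc)) (sub_nonneg.2 h1)]
  · intro δ hδ N
    exact gau_split hρ hc δ hδ N

end Vale.Agent.P140
end
end

section

/-! Large amplitude: the Gaussian weight with polynomial decay. -/

open MeasureTheory Set Filter Metric
open scoped ENNReal Topology NNReal

noncomputable section

namespace Vale.Agent.P140

/-- polynomial weight -/
def pm2 (v : V) : ℝ≥0∞ := ENNReal.ofReal (((1 + ‖v‖ ^ 2) ^ 2)⁻¹)

theorem measurable_pm2 : Measurable pm2 := by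
  unfold pm2
  apply ENNReal.measurable_ofReal.comp
  exact ((measurable_const.add (measurable_norm.pow_const 2)).pow_const 2).inv

theorem pm2_le_one (v : V) : pm2 v ≤ 1 := by
  unfold pm2
  rw [ENNReal.ofReal_le_one]
  apply inv_le_one_of_one_le₀
  nlinarith [sq_nonneg ‖v‖]

theorem pm2_ne_zero (v : V) : pm2 v ≠ 0 := by
  unfold pm2
  exact (ENNReal.ofReal_pos.mpr (by positivity)).ne'

theorem pm2_ne_top (v : V) : pm2 v ≠ ⊤ := ENNReal.ofReal_ne_top

theorem pm2_mul_ph (v : V) : pm2 v * ph v ^ 2 = 1 := by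
  unfold pm2 ph
  rw [← ENNReal.ofReal_pow (by positivity), ← ENNReal.ofReal_mul (by positivity),
    inv_mul_cancel₀ (by positivity), ENNReal.ofReal_one]

theorem pm2_int : ∫⁻ v, pm2 v ≠ ⊤ := by
  have h : Integrable fun x : V => (1 + ‖x‖ ^ 2) ^ (-(4 : ℝ) / 2) := by
    apply integrable_rpow_neg_one_add_norm_sq
    have : Module.finrank ℝ V = 3 := by
      simp
    rw [this]
    norm_num
  have h2 : ∀ x : V, (1 + ‖x‖ ^ 2) ^ (-(4 : ℝ) / 2) = ((1 + ‖x‖ ^ 2) ^ 2)⁻¹ := by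
    intro x
    have h0 : 0 ≤ 1 + ‖x‖ ^ 2 := by positivity
    rw [show -(4 : ℝ) / 2 = -((2 : ℕ) : ℝ) by norm_num, Real.rpow_neg h0, Real.rpow_natCast]
  simp only [h2] at h
  have h3 := h.lintegral_lt_top
  exact h3.ne

/-- half of the energy gives a quarter of the weight -/
theorem pm2_half {v y : V} (h : ‖v‖ ^ 2 ≤ 2 * ‖y‖ ^ 2) : pm2 y ≤ 4 * pm2 v := by
  unfold pm2
  rw [show (4 : ℝ≥0∞) = ENNReal.ofReal 4 by simp, ← ENNReal.ofReal_mul (by norm_num)]
  apply ENNReal.ofReal_le_ofReal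
  have h1 : 1 + ‖v‖ ^ 2 ≤ 2 * (1 + ‖y‖ ^ 2) := by linarith only [h]
  have h2 : (1 + ‖v‖ ^ 2) ^ 2 ≤ 4 * (1 + ‖y‖ ^ 2) ^ 2 := by
    calc (1 + ‖v‖ ^ 2) ^ 2 ≤ (2 * (1 + ‖y‖ ^ 2)) ^ 2 := by gcongr
      _ = _ := by ring
  rw [← div_eq_mul_inv, le_div_iff₀ (by positivity), inv_mul_le_iff₀ (by positivity)]
  linarith

theorem pm2_mul_le (v w : V) (o : S2) : pm2 (post v w o) * pm2 (postStar v w o) ≤
    4 * pm2 v * (pm2 (post v w o) + pm2 (postStar v w o)) := by
  have he := energy_post v w o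
  have hw : 0 ≤ ‖w‖ ^ 2 := by positivity
  rcases le_total (‖post v w o‖ ^ 2) (‖postStar v w o‖ ^ 2) with h | h
  · have h1 : pm2 (postStar v w o) ≤ 4 * pm2 v := pm2_half (by linarith)
    calc pm2 (post v w o) * pm2 (postStar v w o) ≤ pm2 (post v w o) * (4 * pm2 v) := by gcongr
      _ = 4 * pm2 v * pm2 (post v w o) := by ring
      _ ≤ _ := by
          gcongr
          exact le_self_add
  · have h1 : pm2 (post v w o) ≤ 4 * pm2 v := pm2_half (by linarith)
    calc pm2 (post v w o) * pm2 (postStar v w o) ≤ (4 * pm2 v) * pm2 (postStar v w o) := by gcongr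
      _ ≤ _ := by
          gcongr
          exact le_add_self

/-- the weight -/
def zg (k : ℝ) (v : V) : ℝ≥0∞ := gau k v * pm2 v

theorem measurable_zg (k : ℝ) : Measurable (zg k) := (measurable_gau k).mul measurable_pm2

theorem zg_le_gau (k : ℝ) (v : V) : zg k v ≤ gau k v := by
  unfold zg
  calc gau k v * pm2 v ≤ gau k v * 1 := by
        gcongr
        exact pm2_le_one v
    _ = _ := mul_one _

theorem zg_ne_top (k : ℝ) (v : V) : zg k v ≠ ⊤ := ENNReal.mul_ne_top (gau_ne_top _ _) (pm2_ne_top v)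

/-- gain of the weight -/
theorem Bg_zg_le {k : ℝ} (hk : 0 < k) (v : V) :
    Bg (zg k) (zg k) v ≤ zg k v * (8 * (G2 k * (2 * JJn pm2 v))) := by
  have m3 : Measurable fun p : V × S2 => kk v p.1 p.2 * (pm2 (post v p.1 p.2) * gau k p.1) := by
    have k1 : Measurable fun p : V × S2 => ((v, p.1, p.2) : V × V × S2) := by fun_prop
    have k2 := measurable_kk.comp k1
    have k3 := (meas_post_comp measurable_pm2).comp k1
    exact k2.mul (k3.mul ((measurable_gau k).comp measurable_fst))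
  set A : ℝ≥0∞ := ∫⁻ w, ∫⁻ o, kk v w o * (pm2 (post v w o) * gau k w) ∂surf with hA
  have hA2 : ∫⁻ w, ∫⁻ o, kk v w o * (pm2 (postStar v w o) * gau k w) ∂surf = A := by
    rw [hA]
    apply lintegral_congr
    intro w
    have hΦ : Measurable fun p : V × V => pm2 p.1 * gau k w :=
      (measurable_pm2.comp measurable_fst).mul_const _
    have h := lintegral_exchange v w hΦ
    simp only at h
    exact h.symm
  have hAle : A ≤ G2 k * (2 * JJn pm2 v) := by
    unfold JJn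
    exact carleman measurable_pm2 hk ((measurable_gau k).comp measurable_fst)
      (fun w o => gau_le_perp hk.le w o) v
  have c4 : gau k v * (4 * pm2 v) ≠ ⊤ :=
    ENNReal.mul_ne_top (gau_ne_top _ _) (ENNReal.mul_ne_top (by simp) (pm2_ne_top v))
  have m1 : Measurable fun w : V => ∫⁻ o, kk v w o * (pm2 (post v w o) * gau k w) ∂surf :=
    Measurable.lintegral_prod_right' (ν := surf) m3
  have m2 : ∀ w : V, Measurable fun o : S2 => kk v w o * (pm2 (post v w o) * gau k w) := by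
    intro w
    have h5 : Measurable fun o : S2 => ((w, o) : V × S2) := measurable_prodMk_left
    have h6 := m3.comp h5
    simp only [Function.comp_def] at h6
    exact h6
  have hpt : ∀ (w : V) (o : S2), kk v w o * (zg k (post v w o) * zg k (postStar v w o)) ≤
      gau k v * (4 * pm2 v) * (kk v w o * (pm2 (post v w o) * gau k w) +
            kk v w o * (pm2 (postStar v w o) * gau k w)) := by
    intro w o
    unfold zg
    calc kk v w o * (gau k (post v w o) * pm2 (post v w o) *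
          (gau k (postStar v w o) * pm2 (postStar v w o)))
        = kk v w o * ((gau k (post v w o) * gau k (postStar v w o)) *
          (pm2 (post v w o) * pm2 (postStar v w o))) := by ring
      _ ≤ kk v w o * ((gau k v * gau k w) *
          (4 * pm2 v * (pm2 (post v w o) + pm2 (postStar v w o)))) := by
          rw [gau_post]
          exact mul_le_mul' le_rfl (mul_le_mul' le_rfl (pm2_mul_le v w o))
      _ = _ := by ring
  have e1 : Bg (zg k) (zg k) v ≤ gau k v * (4 * pm2 v) * (A + A) := by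
    calc Bg (zg k) (zg k) v
        ≤ ∫⁻ w, ∫⁻ o, gau k v * (4 * pm2 v) * (kk v w o * (pm2 (post v w o) * gau k w) +
            kk v w o * (pm2 (postStar v w o) * gau k w)) ∂surf := by
          unfold Bg
          apply lintegral_mono
          intro w
          apply lintegral_mono
          intro o
          exact hpt w o
      _ = gau k v * (4 * pm2 v) * (∫⁻ w, ∫⁻ o, (kk v w o * (pm2 (post v w o) * gau k w) +
            kk v w o * (pm2 (postStar v w o) * gau k w)) ∂surf) := by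
          rw [← lintegral_const_mul' _ _ c4]
          apply lintegral_congr
          intro w
          rw [← lintegral_const_mul' _ _ c4]
      _ = gau k v * (4 * pm2 v) * (A + A) := by
          congr 1
          nth_rewrite 2 [← hA2]
          rw [hA, ← lintegral_add_left m1]
          apply lintegral_congr
          intro w
          rw [lintegral_add_left (m2 w)]
  refine e1.trans ?_
  calc gau k v * (4 * pm2 v) * (A + A) = gau k v * pm2 v * (8 * A) := by ring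
    _ ≤ _ := by
        unfold zg
        gcongr

/-- decay of the Newtonian potential -/
theorem JJn_pm2_decay {δ : ℝ≥0∞} (hδ : δ ≠ 0) : ∃ N : ℝ, 0 ≤ N ∧ ∀ v : V, N < ‖v‖ → JJn pm2 v ≤ δ := by
  set I : ℝ≥0∞ := ∫⁻ v, pm2 v with hI
  have fI : I ≠ ⊤ := pm2_int
  have hδ2 : δ / 2 ≠ 0 := ENNReal.div_ne_zero.mpr ⟨hδ, by simp⟩
  obtain ⟨κ, hκ, hκ'⟩ := exists_small (K := 2 * I) (ENNReal.mul_ne_top (by simp) fI) hδ2
  set η : ℝ := κ⁻¹ with hη
  have hηp : 0 < η := inv_pos.mpr hκ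
  obtain ⟨B, hB, hB'⟩ := exists_small (K := Ss * ENNReal.ofReal (η ^ 2))
    (ENNReal.mul_ne_top Ss_ne_top ENNReal.ofReal_ne_top) hδ2
  refine ⟨2 * η + 2 * B⁻¹ + 2, by positivity, fun v hv => ?_⟩
  have hBi : 0 < B⁻¹ := inv_pos.mpr hB
  -- the weight is at most `B` near `v`
  have hnear : ∀ y : V, ‖y - v‖ < η → pm2 y ≤ ENNReal.ofReal B := by
    intro y hy
    have h1 : ‖v‖ ≤ ‖y‖ + ‖y - v‖ := by
      calc ‖v‖ = ‖y - (y - v)‖ := by congr 1; abel
        _ ≤ ‖y‖ + ‖y - v‖ := norm_sub_le _ _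
    have h2 : B⁻¹ + 1 ≤ ‖y‖ := by linarith
    unfold pm2
    apply ENNReal.ofReal_le_ofReal
    rw [inv_le_comm₀ (by positivity) hB]
    have h3 : B⁻¹ ≤ ‖y‖ := by linarith
    have h4 : (1:ℝ) ≤ ‖y‖ := by linarith
    (by_contra nlg; linarith only [nlg, mul_nonneg (sq_nonneg ‖y‖) (sq_nonneg ‖y‖), mul_nonneg (sub_nonneg.2 h3) (sub_nonneg.2 h3), mul_nonneg (le_of_lt (sub_pos.2 hBi)) (sub_nonneg.2 h3), mul_pos (sub_pos.2 hBi) (sub_pos.2 hBi), mul_nonneg (le_of_lt (sub_pos.2 (not_le.1 nlg))) (sub_nonneg.2 h3), mul_pos (sub_pos.2 (not_le.1 nlg)) (sub_pos.2 hBi), mul_nonneg (sq_nonneg (1 * 1 + 1 * (1 * ‖y‖) ^ 2 : ℝ)) (sub_nonneg.2 h4)])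
  have hpt : ∀ y : V, ENNReal.ofReal ‖y - v‖⁻¹ * pm2 y ≤
      ENNReal.ofReal ‖y - v‖⁻¹ * min (pm2 y) (ENNReal.ofReal B) + ENNReal.ofReal κ * pm2 y := by
    intro y
    rcases lt_or_ge ‖y - v‖ η with h | h
    · rw [min_eq_left (hnear y h)]
      exact le_self_add
    · have h1 : ‖y - v‖⁻¹ ≤ κ := by
        rw [inv_le_comm₀ (hηp.trans_le h) hκ]
        exact h
      calc ENNReal.ofReal ‖y - v‖⁻¹ * pm2 y ≤ ENNReal.ofReal κ * pm2 y := by gcongr
        _ ≤ _ := le_add_self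
  have mmin : Measurable fun y : V => min (pm2 y) (ENNReal.ofReal B) :=
    measurable_pm2.min measurable_const
  have h1 := sing_split mmin (B := ENNReal.ofReal B) (fun y => min_le_right _ _) hηp v
  have e1 : η⁻¹ = κ := by rw [hη, inv_inv]
  rw [e1] at h1
  unfold JJn
  calc ∫⁻ y : V, ENNReal.ofReal ‖y - v‖⁻¹ * pm2 y
      ≤ ∫⁻ y : V, (ENNReal.ofReal ‖y - v‖⁻¹ * min (pm2 y) (ENNReal.ofReal B) +
          ENNReal.ofReal κ * pm2 y) := lintegral_mono hpt
    _ = (∫⁻ y : V, ENNReal.ofReal ‖y - v‖⁻¹ * min (pm2 y) (ENNReal.ofReal B)) +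
          ENNReal.ofReal κ * I := by
        rw [lintegral_add_right _ (measurable_pm2.const_mul _), lintegral_const_mul _ measurable_pm2]
    _ ≤ (ENNReal.ofReal B * (Ss * ENNReal.ofReal (η ^ 2)) + ENNReal.ofReal κ *
          ∫⁻ y, min (pm2 y) (ENNReal.ofReal B)) + ENNReal.ofReal κ * I := by gcongr
    _ ≤ (ENNReal.ofReal B * (Ss * ENNReal.ofReal (η ^ 2)) + ENNReal.ofReal κ * I) +
          ENNReal.ofReal κ * I := by
        gcongr
        exact lintegral_mono fun y => min_le_left _ _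
    _ = Ss * ENNReal.ofReal (η ^ 2) * ENNReal.ofReal B + 2 * I * ENNReal.ofReal κ := by ring
    _ ≤ δ / 2 + δ / 2 := by gcongr
    _ = δ := ENNReal.add_halves δ

theorem gau_decay {c : ℝ} (hc : 0 < c) {δ : ℝ≥0∞} (hδ : δ ≠ 0) :
    ∃ N : ℝ, 0 ≤ N ∧ ∀ v : V, N < ‖v‖ → gau c v ≤ δ := by
  obtain ⟨d, hd, hd'⟩ := exists_small (K := 1) (by simp) hδ
  rw [one_mul] at hd'
  refine ⟨Real.sqrt (1 / (c * d)), Real.sqrt_nonneg _, fun v hv => ?_⟩
  refine le_trans ?_ hd'
  unfold gau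
  apply ENNReal.ofReal_le_ofReal
  have h1 : 1 / (c * d) < ‖v‖ ^ 2 := by
    have h2 := Real.lt_sq_of_sqrt_lt hv
    exact h2
  have h3 : 1 / d ≤ c * ‖v‖ ^ 2 := by
    calc 1 / d = c * (1 / (c * d)) := by field_simp
      _ ≤ _ := by gcongr
  calc Real.exp (-(c * ‖v‖ ^ 2)) ≤ Real.exp (-(1 / d)) := by
        rw [Real.exp_le_exp]
        linarith
    _ ≤ d := by
        rw [Real.exp_neg]
        have h3 : 1 / d ≤ Real.exp (1 / d) := by
          have := Real.add_one_le_exp (1 / d)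
          linarith
        calc (Real.exp (1 / d))⁻¹ ≤ (1 / d)⁻¹ := inv_anti₀ (by positivity) h3
          _ = d := by simp

theorem gau_mul_gau' (a b : ℝ) (v : V) : gau a v * gau b v = gau (a + b) v := by
  unfold gau
  rw [← ENNReal.ofReal_mul (by positivity), ← Real.exp_add]
  congr 2
  ring

end Vale.Agent.P140
end
end

section

/-! Large amplitude: the structure for Maxwellians. -/

open MeasureTheory Set Filter Metric
open scoped ENNReal Topology NNReal

noncomputable section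

namespace Vale.Agent.P140

/-- splitting at bounded velocities -/
theorem gsplit {k : ℝ} (hk : 0 < k) {P : ℝ≥0∞} (fP : P ≠ ⊤) {δ : ℝ≥0∞} (hδ : δ ≠ 0) (N : ℝ) :
    ∃ (N' : ℝ) (C : ℝ≥0∞), C ≠ ⊤ ∧
    ∀ h : V → ℝ≥0∞, Measurable h → ∀ r : ℝ≥0∞, (∀ v, h v ≤ r * gau k v) →
    ∀ v, ‖v‖ ≤ N → Bg h (gau k) v + Bg (gau k) h v + P * Ln h v ≤
      δ * r + C * ∫⁻ y in {y : V | ‖y‖ ≤ N'}, h y := by
  set G : ℝ≥0∞ := G2 k with hG
  have fG : G ≠ ⊤ := G2_ne_top hk
  have hδ2 : δ / 2 ≠ 0 := ENNReal.div_ne_zero.mpr ⟨hδ, by simp⟩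
  obtain ⟨d, hd, hdδ⟩ := exists_small (K := 4 * G * Ss)
    (ENNReal.mul_ne_top (ENNReal.mul_ne_top (by simp) fG) Ss_ne_top) hδ2
  set η : ℝ := Real.sqrt d with hη
  have hηp : 0 < η := Real.sqrt_pos.mpr hd
  have hη2 : η ^ 2 = d := Real.sq_sqrt hd.le
  set a : ℝ≥0∞ := 4 * G * ENNReal.ofReal η⁻¹ + P * Ss * ENNReal.ofReal N + P * Ss with ha
  have fa : a ≠ ⊤ := by
    refine ENNReal.add_ne_top.mpr ⟨ENNReal.add_ne_top.mpr ⟨?_, ?_⟩, ?_⟩
    · exact ENNReal.mul_ne_top (ENNReal.mul_ne_top (by simp) fG)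
        ENNReal.ofReal_ne_top
    · exact ENNReal.mul_ne_top (ENNReal.mul_ne_top fP Ss_ne_top) ENNReal.ofReal_ne_top
    · exact ENNReal.mul_ne_top fP Ss_ne_top
  obtain ⟨d', hd', hdδ'⟩ := exists_small fa hδ2
  obtain ⟨N', hN'0, hN'⟩ := tail_small hk (ENNReal.ofReal_pos.mpr hd').ne'
  set tl : ℝ≥0∞ := ∫⁻ y in {y : V | N' < ‖y‖}, gau k y * ph y with htl
  have hatl : a * tl ≤ δ / 2 := le_trans (by gcongr) hdδ'
  refine ⟨N', 4 * G * ENNReal.ofReal η⁻¹ + P * Ss * ENNReal.ofReal N +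
    P * Ss * ENNReal.ofReal N', ?_, ?_⟩
  · refine ENNReal.add_ne_top.mpr ⟨ENNReal.add_ne_top.mpr ⟨?_, ?_⟩, ?_⟩
    · exact ENNReal.mul_ne_top (ENNReal.mul_ne_top (by simp) fG)
        ENNReal.ofReal_ne_top
    · exact ENNReal.mul_ne_top (ENNReal.mul_ne_top fP Ss_ne_top) ENNReal.ofReal_ne_top
    · exact ENNReal.mul_ne_top (ENNReal.mul_ne_top fP Ss_ne_top) ENNReal.ofReal_ne_top
  intro h mh r hr v hv
  set b : ℝ≥0∞ := ∫⁻ y in {y : V | ‖y‖ ≤ N'}, h y with hb
  have mB : MeasurableSet {y : V | ‖y‖ ≤ N'} := measurableSet_le measurable_norm measurable_const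
  have hcompl : {y : V | ‖y‖ ≤ N'}ᶜ = {y : V | N' < ‖y‖} := by
    ext y
    simp
  have mBc : MeasurableSet {y : V | N' < ‖y‖} := measurableSet_lt measurable_const measurable_norm
  have mgp : Measurable fun y : V => gau k y * ph y := (measurable_gau k).mul measurable_ph
  -- mass
  have hmass : ∫⁻ y, h y ≤ b + r * tl := by
    rw [← lintegral_add_compl h mB, hcompl]
    gcongr
    rw [htl, ← lintegral_const_mul _ mgp]
    apply setLIntegral_mono' mBc
    intro y _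
    calc h y ≤ r * gau k y := hr y
      _ = r * (gau k y * 1) := by rw [mul_one]
      _ ≤ r * (gau k y * ph y) := by
          gcongr
          exact one_le_ph y
  have hmom : ∫⁻ y : V, ENNReal.ofReal ‖y‖ * h y ≤ ENNReal.ofReal N' * b + r * tl := by
    rw [← lintegral_add_compl (fun y : V => ENNReal.ofReal ‖y‖ * h y) mB, hcompl]
    gcongr
    · rw [hb, ← lintegral_const_mul _ mh]
      apply setLIntegral_mono' mB
      intro y hy
      have : ‖y‖ ≤ N' := hy
      gcongr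
    · rw [htl, ← lintegral_const_mul _ mgp]
      apply setLIntegral_mono' mBc
      intro y _
      calc ENNReal.ofReal ‖y‖ * h y ≤ ph y * (r * gau k y) := by
            gcongr
            · exact norm_le_ph y
            · exact hr y
        _ = _ := by ring
  have hJ : JJn h v ≤ r * (Ss * ENNReal.ofReal (η ^ 2)) + ENNReal.ofReal η⁻¹ * (b + r * tl) := by
    have h1 := sing_split mh (B := r) (fun y => (hr y).trans (by
      calc r * gau k y ≤ r * 1 := by gcongr; exact gau_le_one hk.le y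
        _ = r := mul_one r)) hηp v
    unfold JJn
    refine h1.trans ?_
    gcongr
  have hB1 : Bg h (gau k) v ≤ G * (2 * JJn h v) := Bg_gau_le hk mh v
  have hB2 : Bg (gau k) h v = Bg h (gau k) v := Bg_comm (measurable_gau k) mh v
  have hL : Ln h v ≤ Ss * (ENNReal.ofReal N * (b + r * tl) + (ENNReal.ofReal N' * b + r * tl)) := by
    refine (Ln_le_lin mh v).trans ?_
    gcongr
  calc Bg h (gau k) v + Bg (gau k) h v + P * Ln h v
      = Bg h (gau k) v + Bg h (gau k) v + P * Ln h v := by rw [hB2]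
    _ ≤ G * (2 * (r * (Ss * ENNReal.ofReal (η ^ 2)) + ENNReal.ofReal η⁻¹ * (b + r * tl))) +
        G * (2 * (r * (Ss * ENNReal.ofReal (η ^ 2)) + ENNReal.ofReal η⁻¹ * (b + r * tl))) +
        P * (Ss * (ENNReal.ofReal N * (b + r * tl) + (ENNReal.ofReal N' * b + r * tl))) := by
        gcongr
        · refine hB1.trans ?_
          gcongr
        · refine hB1.trans ?_
          gcongr
    _ = (4 * G * Ss * ENNReal.ofReal d + a * tl) * r +
        (4 * G * ENNReal.ofReal η⁻¹ + P * Ss * ENNReal.ofReal N +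
          P * Ss * ENNReal.ofReal N') * b := by
        rw [hη2, ha]
        ring
    _ ≤ (δ / 2 + δ / 2) * r + (4 * G * ENNReal.ofReal η⁻¹ + P * Ss * ENNReal.ofReal N +
          P * Ss * ENNReal.ofReal N') * b := by
        gcongr
    _ = _ := by rw [ENNReal.add_halves]

/-- decay of the controlling operator on the weight -/
theorem TT_decay {ρ c k : ℝ} (hk : 0 < k) (hkc : k < 2 * c) {δ : ℝ≥0∞} (hδ : δ ≠ 0) :
    ∃ N : ℝ, 0 ≤ N ∧ ∀ v : V, N < ‖v‖ → TT (MxE ρ c) (zg k) (zg k) v ≤ δ * zg k v := by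
  set P : ℝ≥0∞ := ENNReal.ofReal ρ with hP
  have fP : P ≠ ⊤ := ENNReal.ofReal_ne_top
  set d : ℝ := 2 * c - k with hd
  have hdp : 0 < d := by linarith
  obtain ⟨C3, fC3, hC3⟩ := ph_pow_gau_le 3 hdp
  have fMo : Mo 1 (zg k) ≠ ⊤ :=
    ne_top_of_le_ne_top (Mo_gau 1 hk) (Mo_le_of_le (zg_le_gau k) 1)
  have hδ2 : δ / 2 ≠ 0 := ENNReal.div_ne_zero.mpr ⟨hδ, by simp⟩
  obtain ⟨d1, hd1, hd1'⟩ := exists_small (K := 32 * G2 k)
    (ENNReal.mul_ne_top (by simp) (G2_ne_top hk)) hδ2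
  obtain ⟨d2, hd2, hd2'⟩ := exists_small (K := P * (Ss * Mo 1 (zg k)) * C3)
    (ENNReal.mul_ne_top (ENNReal.mul_ne_top fP (ENNReal.mul_ne_top Ss_ne_top fMo)) fC3) hδ2
  obtain ⟨N1, hN1, hN1'⟩ := JJn_pm2_decay (ENNReal.ofReal_pos.mpr hd1).ne'
  obtain ⟨N2, hN2, hN2'⟩ := gau_decay (c := d / 2) (by positivity) (ENNReal.ofReal_pos.mpr hd2).ne'
  refine ⟨max N1 N2, le_max_of_le_left hN1, fun v hv => ?_⟩
  have a1 := hN1' v ((le_max_left _ _).trans_lt hv)
  have a2 := hN2' v ((le_max_right _ _).trans_lt hv)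
  have b1 : Bg (zg k) (zg k) v + Bg (zg k) (zg k) v ≤ (δ / 2) * zg k v := by
    calc Bg (zg k) (zg k) v + Bg (zg k) (zg k) v
        ≤ zg k v * (8 * (G2 k * (2 * JJn pm2 v))) + zg k v * (8 * (G2 k * (2 * JJn pm2 v))) :=
          add_le_add (Bg_zg_le hk v) (Bg_zg_le hk v)
      _ = (32 * G2 k * JJn pm2 v) * zg k v := by ring
      _ ≤ (32 * G2 k * ENNReal.ofReal d1) * zg k v := by gcongr
      _ ≤ _ := by gcongr
  have b2 : MxE ρ c v * Ln (zg k) v ≤ (δ / 2) * zg k v := by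
    have e1 : gau (2 * c) v = gau k v * gau d v := by
      rw [gau_mul_gau']
      congr 1
      rw [hd]
      ring
    calc MxE ρ c v * Ln (zg k) v ≤ (P * (gau k v * gau d v)) * (Ss * Mo 1 (zg k) * ph v) := by
          unfold MxE
          rw [e1]
          gcongr
          exact Ln_le_ph (measurable_zg k) v
      _ = (P * (gau k v * gau d v)) * (Ss * Mo 1 (zg k) * ph v) * (pm2 v * ph v ^ 2) := by
          rw [pm2_mul_ph, mul_one]
      _ = P * (Ss * Mo 1 (zg k)) * (gau d v * ph v ^ 3) * (gau k v * pm2 v) := by ring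
      _ ≤ P * (Ss * Mo 1 (zg k)) * (C3 * gau (d / 2) v) * (gau k v * pm2 v) :=
          mul_le_mul' (mul_le_mul' le_rfl (hC3 v)) le_rfl
      _ ≤ P * (Ss * Mo 1 (zg k)) * (C3 * ENNReal.ofReal d2) * (gau k v * pm2 v) := by
          gcongr
      _ = (P * (Ss * Mo 1 (zg k)) * C3 * ENNReal.ofReal d2) * zg k v := by
          unfold zg
          ring
      _ ≤ _ := by gcongr
  unfold TT
  calc Bg (zg k) (zg k) v + Bg (zg k) (zg k) v + MxE ρ c v * Ln (zg k) v
      ≤ (δ / 2) * zg k v + (δ / 2) * zg k v := add_le_add b1 b2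
    _ = _ := by rw [← add_mul, ENNReal.add_halves]

theorem zg_lower {k : ℝ} (hk : 0 < k) (N : ℝ) : ∃ z : ℝ≥0∞, z ≠ 0 ∧ z ≠ ⊤ ∧
    ∀ v : V, ‖v‖ ≤ N → z ≤ zg k v := by
  refine ⟨ENNReal.ofReal (Real.exp (-(k * N ^ 2))) * ENNReal.ofReal (((1 + N ^ 2) ^ 2)⁻¹),
    mul_ne_zero (ENNReal.ofReal_pos.mpr (Real.exp_pos _)).ne'
      (ENNReal.ofReal_pos.mpr (by positivity)).ne',
    ENNReal.mul_ne_top ENNReal.ofReal_ne_top ENNReal.ofReal_ne_top, fun v hv => ?_⟩
  unfold zg gau pm2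
  gcongr

/-- the structural splitting -/
theorem TT_split {ρ c k : ℝ} (hk : 0 < k) (hkc : k < 2 * c) {δ : ℝ≥0∞} (hδ : δ ≠ 0) :
    ∃ (N : ℝ) (C : ℝ≥0∞), C ≠ ⊤ ∧
    ∀ h : V → ℝ≥0∞, Measurable h → ∀ r : ℝ≥0∞, (∀ v, h v ≤ r * zg k v) →
    ∀ v, TT (MxE ρ c) (zg k) h v ≤ (δ * r + C * ∫⁻ y in {y : V | ‖y‖ ≤ N}, h y) * zg k v := by
  obtain ⟨N0, hN0, hN0'⟩ := TT_decay (ρ := ρ) hk hkc hδ
  obtain ⟨z, pz, fz, hz⟩ := zg_lower hk N0
  have hδz : δ * z ≠ 0 := mul_ne_zero hδ pz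
  obtain ⟨N', C, fC, hC⟩ := gsplit hk (P := ENNReal.ofReal ρ) ENNReal.ofReal_ne_top hδz N0
  refine ⟨N', C * z⁻¹, ENNReal.mul_ne_top fC (ENNReal.inv_ne_top.mpr pz), ?_⟩
  intro h mh r hr v
  rcases lt_or_ge N0 ‖v‖ with hv | hv
  · have hB1 : Bg h (zg k) v ≤ r * Bg (zg k) (zg k) v := by
      have e1 := Bg_const_mul (measurable_zg k) (measurable_zg k) r 1 v
      simp only [one_mul, mul_one] at e1
      rw [← e1]
      exact Bg_mono hr (fun _ => le_rfl) v
    have hB2 : Bg (zg k) h v ≤ r * Bg (zg k) (zg k) v := by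
      have e1 := Bg_const_mul (measurable_zg k) (measurable_zg k) 1 r v
      simp only [one_mul] at e1
      rw [← e1]
      exact Bg_mono (fun _ => le_rfl) hr v
    have hL : Ln h v ≤ r * Ln (zg k) v := by
      rw [← Ln_const_mul (measurable_zg k)]
      exact Ln_mono hr v
    calc TT (MxE ρ c) (zg k) h v
        ≤ r * Bg (zg k) (zg k) v + r * Bg (zg k) (zg k) v + MxE ρ c v * (r * Ln (zg k) v) := by
          unfold TT
          gcongr
      _ = r * TT (MxE ρ c) (zg k) (zg k) v := by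
          unfold TT
          ring
      _ ≤ r * (δ * zg k v) := by
          gcongr
          exact hN0' v hv
      _ = (δ * r) * zg k v := by ring
      _ ≤ _ := by
          gcongr
          exact le_self_add
  · have h1 := hC h mh r (fun w => (hr w).trans (by gcongr; exact zg_le_gau k w)) v hv
    have h2 : TT (MxE ρ c) (zg k) h v ≤
        δ * z * r + C * ∫⁻ y in {y : V | ‖y‖ ≤ N'}, h y := by
      refine le_trans ?_ h1
      unfold TT
      gcongr
      · exact Bg_mono (fun _ => le_rfl) (zg_le_gau k) v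
      · exact Bg_mono (zg_le_gau k) (fun _ => le_rfl) v
      · unfold MxE
        calc ENNReal.ofReal ρ * gau (2 * c) v ≤ ENNReal.ofReal ρ * 1 := by
              gcongr
              exact gau_le_one (by linarith) v
          _ = _ := mul_one _
    refine h2.trans ?_
    calc δ * z * r + C * ∫⁻ y in {y : V | ‖y‖ ≤ N'}, h y
        = (δ * r + C * z⁻¹ * ∫⁻ y in {y : V | ‖y‖ ≤ N'}, h y) * z := by
          have e2 : z⁻¹ * z = 1 := ENNReal.inv_mul_cancel pz fz
          calc δ * z * r + C * ∫⁻ y in {y : V | ‖y‖ ≤ N'}, h y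
              = δ * z * r + C * (z⁻¹ * z) * ∫⁻ y in {y : V | ‖y‖ ≤ N'}, h y := by
                rw [e2, mul_one]
            _ = _ := by ring
      _ ≤ _ := by
          gcongr
          exact hz v hv

/-- lower bound of the collision frequency from the ball -/
theorem Ln_ball_lower : ∃ β : ℝ≥0∞, β ≠ 0 ∧ β ≠ ⊤ ∧
    ∀ v : V, β * (ENNReal.ofReal ‖v‖ + 1) ≤
      Ln ({w : V | ‖w‖ ≤ 1}.indicator fun _ => 1) v := by
  obtain ⟨ca, hca, hang⟩ := exists_ang
  have mB : MeasurableSet {w : V | ‖w‖ ≤ 1} := measurableSet_le measurable_norm measurable_const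
  set f : V → ℝ≥0∞ := {w : V | ‖w‖ ≤ 1}.indicator fun _ => 1 with hf
  have mf : Measurable f := measurable_const.indicator mB
  have hBall : {w : V | ‖w‖ ≤ 1} = closedBall (0 : V) 1 := by
    ext w
    simp
  have hvol : volume {w : V | ‖w‖ ≤ 1} ≠ 0 := by
    rw [hBall]
    exact (measure_closedBall_pos volume (0 : V) one_pos).ne'
  have hvol2 : volume {w : V | ‖w‖ ≤ 1} ≠ ⊤ := by
    rw [hBall]
    exact measure_closedBall_lt_top.ne
  set m0 : ℝ≥0∞ := ∫⁻ v, f v with hm0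
  set m1 : ℝ≥0∞ := ∫⁻ v : V, ENNReal.ofReal ‖v‖ * f v with hm1
  have e0 : m0 = volume {w : V | ‖w‖ ≤ 1} := by
    rw [hm0, hf, lintegral_indicator mB]
    simp
  have p0 : m0 ≠ 0 := by rw [e0]; exact hvol
  have f0 : m0 ≠ ⊤ := by rw [e0]; exact hvol2
  have p1 : m1 ≠ 0 := by
    intro h
    have hm : Measurable fun v : V => ENNReal.ofReal ‖v‖ * f v :=
      measurable_norm.ennreal_ofReal.mul mf
    rw [hm1, lintegral_eq_zero_iff hm] at h
    have h1 : ∀ᵐ v : V, v ≠ 0 := by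
      rw [ae_iff]
      simp
    have h2 : ∀ᵐ v : V, f v = 0 := by
      filter_upwards [h, h1] with v hv hv0
      simp only [Pi.zero_apply, mul_eq_zero] at hv
      rcases hv with hv | hv
      · rw [ENNReal.ofReal_eq_zero] at hv
        exact absurd (norm_le_zero_iff.mp hv) hv0
      · exact hv
    apply p0
    rw [hm0, lintegral_eq_zero_iff mf]
    exact h2
  have heven : ∀ w, f (-w) = f w := by
    intro w
    rw [hf]
    simp only [indicator, mem_ofPred_eq, norm_neg]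
  set mm : ℝ≥0∞ := min m0 m1 with hmm
  have pmm : mm ≠ 0 := (lt_min (pos_iff_ne_zero.mpr p0) (pos_iff_ne_zero.mpr p1)).ne'
  have fmm : mm ≠ ⊤ := ne_top_of_le_ne_top f0 (min_le_left _ _)
  refine ⟨ENNReal.ofReal ca * mm / 2, ?_, ?_, fun v => ?_⟩
  · exact ENNReal.div_ne_zero.mpr ⟨mul_ne_zero (ENNReal.ofReal_pos.mpr hca).ne' pmm, by simp⟩
  · exact ENNReal.div_ne_top (ENNReal.mul_ne_top ENNReal.ofReal_ne_top fmm) (by simp)
  · have h := Ln_ge mf heven hca.le hang v
    calc ENNReal.ofReal ca * mm / 2 * (ENNReal.ofReal ‖v‖ + 1)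
        = (ENNReal.ofReal ca * (ENNReal.ofReal ‖v‖ * mm + mm)) / 2 := by
          rw [div_eq_mul_inv, div_eq_mul_inv]
          ring
      _ ≤ (ENNReal.ofReal ca * (ENNReal.ofReal ‖v‖ * m0 + m1)) / 2 := by
          gcongr
          · exact min_le_left _ _
          · exact min_le_right _ _
      _ ≤ (2 * Ln f v) / 2 := by gcongr
      _ = Ln f v := by
          rw [mul_comm, ENNReal.mul_div_cancel_right (by simp) (by simp)]

theorem Ln_mono_ae {f g : V → ℝ≥0∞} (h : ∀ᵐ w, f w ≤ g w) (v : V) : Ln f v ≤ Ln g v := by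
  unfold Ln
  apply lintegral_mono_ae
  filter_upwards [h] with w hw
  gcongr

/-- production forces a lower bound -/
theorem low_gau {ρ c : ℝ} (hρ : 0 < ρ) (hc : 0 < c) :
    ∃ (N : ℝ) (β : ℝ≥0∞), β ≠ 0 ∧ ∀ f : V → ℝ≥0∞, Measurable f →
    (∀ᵐ v, ‖v‖ ≤ N → ENNReal.ofReal ((MxE ρ c v).toReal * (1 - Real.exp (-nu (MxE ρ c) v))) ≤ f v) →
    ∀ v, β * (ENNReal.ofReal ‖v‖ + 1) ≤ Ln f v := by
  obtain ⟨β1, pβ1, fβ1, hβ1⟩ := Ln_ball_lower
  obtain ⟨β2, pβ2, fβ2, hβ2⟩ := Ln_gau_lower (c := 2 * c) (by positivity)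
  set n0 : ℝ := (ENNReal.ofReal ρ * β2).toReal with hn0
  have pn0 : 0 < n0 := ENNReal.toReal_pos
    (mul_ne_zero (ENNReal.ofReal_pos.mpr hρ).ne' pβ2) (ENNReal.mul_ne_top ENNReal.ofReal_ne_top fβ2)
  set c0 : ℝ := ρ * Real.exp (-(2 * c)) * (1 - Real.exp (-n0)) with hc0
  have pe : 0 < 1 - Real.exp (-n0) := by
    have : Real.exp (-n0) < 1 := by
      rw [Real.exp_lt_one_iff]
      linarith
    linarith
  have pc0 : 0 < c0 := by positivity
  refine ⟨1, ENNReal.ofReal c0 * β1, mul_ne_zero (ENNReal.ofReal_pos.mpr pc0).ne' pβ1, ?_⟩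
  intro f mf hf v
  have mB : MeasurableSet {w : V | ‖w‖ ≤ 1} := measurableSet_le measurable_norm measurable_const
  have mi : Measurable ({w : V | ‖w‖ ≤ 1}.indicator fun _ => (1 : ℝ≥0∞)) :=
    measurable_const.indicator mB
  have hnu : ∀ w : V, n0 ≤ nu (MxE ρ c) w := by
    intro w
    have fL : Ln (MxE ρ c) w ≠ ⊤ := by
      rw [Ln_MxE]
      refine ENNReal.mul_ne_top ENNReal.ofReal_ne_top ?_
      exact ne_top_of_le_ne_top (ENNReal.mul_ne_top (ENNReal.mul_ne_top Ss_ne_top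
        (Mo_gau 1 (by positivity))) (ph_ne_top w)) (Ln_le_ph (measurable_gau (2 * c)) w)
    unfold nu
    rw [hn0]
    apply ENNReal.toReal_mono fL
    rw [Ln_MxE]
    gcongr
    calc β2 = β2 * 1 := (mul_one _).symm
      _ ≤ β2 * (ENNReal.ofReal ‖w‖ + 1) := by
          gcongr
          exact le_add_self
      _ ≤ _ := hβ2 w
  have hle : ∀ᵐ w, ENNReal.ofReal c0 * ({w : V | ‖w‖ ≤ 1}.indicator fun _ => (1 : ℝ≥0∞)) w ≤
      f w := by
    filter_upwards [hf] with w hw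
    by_cases h1 : ‖w‖ ≤ 1
    · rw [indicator_of_mem (show w ∈ {w : V | ‖w‖ ≤ 1} from h1), mul_one]
      refine le_trans ?_ (hw h1)
      apply ENNReal.ofReal_le_ofReal
      rw [hc0]
      have e1 : (MxE ρ c w).toReal = ρ * Real.exp (-(2 * c * ‖w‖ ^ 2)) := by
        unfold MxE gau
        rw [ENNReal.toReal_mul, ENNReal.toReal_ofReal hρ.le, ENNReal.toReal_ofReal (by positivity)]
      rw [e1]
      have h2 : ‖w‖ ^ 2 ≤ 1 := by
        have := norm_nonneg w
        linarith only [mul_nonneg (sub_nonneg.2 h1) (sub_nonneg.2 this), mul_nonneg (sub_nonneg.2 h1) (sub_nonneg.2 h1)]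
      have h3 : Real.exp (-nu (MxE ρ c) w) ≤ Real.exp (-n0) := by
        rw [Real.exp_le_exp]
        linarith [hnu w]
      have h4 : Real.exp (-(2 * c)) ≤ Real.exp (-(2 * c * ‖w‖ ^ 2)) := by
        rw [Real.exp_le_exp]
        linarith only [mul_nonneg (le_of_lt (sub_pos.2 hc)) (sub_nonneg.2 h2)]
      gcongr
    · rw [indicator_of_notMem (show w ∉ {w : V | ‖w‖ ≤ 1} from h1), mul_zero]
      exact zero_le
  calc ENNReal.ofReal c0 * β1 * (ENNReal.ofReal ‖v‖ + 1)
      = ENNReal.ofReal c0 * (β1 * (ENNReal.ofReal ‖v‖ + 1)) := by ring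
    _ ≤ ENNReal.ofReal c0 * Ln ({w : V | ‖w‖ ≤ 1}.indicator fun _ => 1) v := by
        gcongr
        exact hβ1 v
    _ = Ln (fun w => ENNReal.ofReal c0 * ({w : V | ‖w‖ ≤ 1}.indicator fun _ => (1 : ℝ≥0∞)) w) v :=
        (Ln_const_mul mi _ v).symm
    _ ≤ _ := Ln_mono_ae hle v

/-- the structure for a centered Maxwellian -/
theorem la_gau {ρ c k : ℝ} (hρ : 0 < ρ) (hk : 0 < k) (hkc : k < 2 * c) :
    ∃ CM : ℝ≥0∞, LA (MxE ρ c) (zg k) CM := by
  have hc : 0 < c := by linarith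
  set P : ℝ≥0∞ := ENNReal.ofReal ρ with hP
  have fP : P ≠ ⊤ := ENNReal.ofReal_ne_top
  have pP : P ≠ 0 := (ENNReal.ofReal_pos.mpr hρ).ne'
  set d : ℝ := 2 * c - k with hd
  have hdp : 0 < d := by linarith
  obtain ⟨C2, fC2, hC2⟩ := ph_pow_gau_le 2 hdp
  refine ⟨P * C2, ?_⟩
  constructor
  · exact measurable_MxE ρ c
  · exact measurable_zg k
  · intro v
    exact ENNReal.mul_ne_top fP (gau_ne_top _ _)
  · intro v
    exact mul_ne_zero pP (gau_ne_zero _ _)
  · intro v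
    exact (zg_le_gau k v).trans (gau_le_one hk.le v)
  · exact ENNReal.mul_ne_top fP fC2
  · intro v
    have h := Bg_const_mul (measurable_gau (2 * c)) (measurable_gau (2 * c)) P P v
    have h2 : Bg (MxE ρ c) (MxE ρ c) v = P * P * Bg (gau (2 * c)) (gau (2 * c)) v := h
    rw [h2, Bg_gau, Ln_MxE]
    unfold MxE
    ring
  · intro v
    rw [Ln_MxE]
    refine ENNReal.mul_ne_top fP ?_
    exact ne_top_of_le_ne_top (ENNReal.mul_ne_top (ENNReal.mul_ne_top Ss_ne_top
      (Mo_gau 1 (by positivity))) (ph_ne_top v)) (Ln_le_ph (measurable_gau (2 * c)) v)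
  · intro v
    have e1 : gau (2 * c) v = gau k v * gau d v := by
      rw [gau_mul_gau']
      congr 1
      rw [hd]
      ring
    have e2 : gau d v * ph v ^ 2 ≤ C2 := by
      refine (hC2 v).trans ?_
      calc C2 * gau (d / 2) v ≤ C2 * 1 := by
            gcongr
            exact gau_le_one (by positivity) v
        _ = C2 := mul_one C2
    unfold MxE
    calc P * gau (2 * c) v = P * (gau k v * gau d v) * (pm2 v * ph v ^ 2) := by
          rw [e1, pm2_mul_ph, mul_one]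
      _ = P * (gau d v * ph v ^ 2) * (gau k v * pm2 v) := by ring
      _ ≤ P * C2 * (gau k v * pm2 v) := by gcongr
      _ = _ := rfl
  · exact ne_top_of_le_ne_top (Mo_gau 2 hk) (Mo_le_of_le (zg_le_gau k) 2)
  · exact ⟨k, 1, hk, by simp, fun v => by rw [one_mul]; exact zg_le_gau k v⟩
  · intro δ hδ
    exact TT_split hk hkc hδ
  · exact low_gau hρ hc

end Vale.Agent.P140
end
end

section

/-! Galilean translations in velocity. -/

open MeasureTheory Set Filter Metric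
open scoped ENNReal Topology

noncomputable section

namespace Vale.Agent.P140

/-- translation -/
def trv (u : V) (f : V → ℝ≥0∞) (v : V) : ℝ≥0∞ := f (v - u)

theorem measurable_trv {u : V} {f : V → ℝ≥0∞} (hf : Measurable f) : Measurable (trv u f) :=
  hf.comp (measurable_id.sub_const u)

theorem relA_sub (v w u : V) (o : S2) : relA (v - u) (w - u) o = relA v w o := by
  unfold relA
  congr 1
  abel

theorem post_sub (v w u : V) (o : S2) : post (v - u) (w - u) o = post v w o - u := by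
  unfold post
  rw [relA_sub]
  abel

theorem postStar_sub (v w u : V) (o : S2) : postStar (v - u) (w - u) o = postStar v w o - u := by
  unfold postStar
  rw [relA_sub]
  abel

theorem kk_sub (v w u : V) (o : S2) : kk (v - u) (w - u) o = kk v w o := by
  unfold kk
  rw [relA_sub]

theorem Ln_trv (u : V) (f : V → ℝ≥0∞) (v : V) : Ln (trv u f) v = Ln f (v - u) := by
  unfold Ln trv
  rw [← lintegral_sub_right_eq_self (fun w => ∫⁻ o, kk (v - u) w o * f w ∂surf) u]
  apply lintegral_congr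
  intro w
  apply lintegral_congr
  intro o
  rw [kk_sub]

theorem Bg_trv (u : V) (f g : V → ℝ≥0∞) (v : V) : Bg (trv u f) (trv u g) v = Bg f g (v - u) := by
  unfold Bg trv
  rw [← lintegral_sub_right_eq_self (fun w => ∫⁻ o, kk (v - u) w o *
    (f (post (v - u) w o) * g (postStar (v - u) w o)) ∂surf) u]
  apply lintegral_congr
  intro w
  apply lintegral_congr
  intro o
  rw [kk_sub, post_sub, postStar_sub]

theorem KB_trv (u : V) (M h : V → ℝ≥0∞) (v : V) : KB (trv u M) (trv u h) v = KB M h (v - u) := by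
  unfold KB
  rw [Bg_trv, Bg_trv, Ln_trv]
  rfl

theorem ph_add_le (u v : V) : ph (v + u) ≤ 2 * ph u * ph v := by
  have e2 : (2 : ℝ≥0∞) = ENNReal.ofReal 2 := by simp
  have e3 : 2 * ph u * ph v = ENNReal.ofReal (2 * (1 + ‖u‖ ^ 2) * (1 + ‖v‖ ^ 2)) := by
    rw [ENNReal.ofReal_mul (by positivity), ENNReal.ofReal_mul (by norm_num), ← e2]
    rfl
  rw [e3]
  unfold ph
  apply ENNReal.ofReal_le_ofReal
  have h1 : ‖v + u‖ ≤ ‖v‖ + ‖u‖ := norm_add_le v u
  have h2 : ‖v + u‖ ^ 2 ≤ (‖v‖ + ‖u‖) ^ 2 := by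
    have := norm_nonneg (v + u)
    gcongr
  linarith only [mul_nonneg (sq_nonneg ‖v‖) (sq_nonneg ‖u‖), sq_nonneg (‖v‖ - ‖u‖), h2]

theorem NE.translate {M ζ : V → ℝ≥0∞} {CK C5 CM : ℝ≥0∞} {ν0 : ℝ} (N : NE M ζ CK C5 CM ν0)
    (u : V) : NE (trv u M) (trv u ζ) CK C5 CM ν0 := by
  constructor
  · exact measurable_trv N.mM
  · exact measurable_trv N.mζ
  · intro v; exact N.fM _
  · intro v; exact N.fζ _
  · intro v; exact N.pM _
  · intro v; exact N.pζ _
  · exact N.fCK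
  · exact N.fC5
  · exact N.fCM
  · exact N.pν0
  · intro v
    rw [Bg_trv, Ln_trv]
    exact N.eqM _
  · intro v
    rw [Bg_trv, Ln_trv]
    exact N.eqζ _
  · intro v
    rw [KB_trv]
    exact N.KBζ _
  · intro v
    rw [Ln_trv, Ln_trv]
    exact N.Lnζ _
  · intro v
    rw [Ln_trv]
    exact N.fν _
  · intro v
    rw [Ln_trv]
    exact N.lowν _
  · intro v
    exact N.Mζ _
  · have h1 : Mo 2 (trv u ζ) ≤ (2 * ph u) ^ 2 * Mo 2 ζ := by
      unfold Mo trv
      have hm : Measurable fun v => ζ v * ph v ^ 2 := N.mζ.mul (measurable_phpow 2)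
      rw [← lintegral_const_mul _ hm, ← lintegral_add_right_eq_self _ u]
      apply lintegral_mono
      intro v
      simp only [add_sub_cancel_right]
      calc ζ v * ph (v + u) ^ 2 ≤ ζ v * (2 * ph u * ph v) ^ 2 := by
            gcongr
            exact ph_add_le u v
        _ = _ := by ring
    exact ne_top_of_le_ne_top (ENNReal.mul_ne_top (ENNReal.pow_ne_top
      (ENNReal.mul_ne_top (by simp) (ph_ne_top u))) N.momζ) h1
  · intro κ hκ
    obtain ⟨R, hR⟩ := N.large κ hκ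
    refine ⟨R + ‖u‖, fun v hv => ?_⟩
    rw [Ln_trv]
    apply hR
    have := norm_sub_norm_le v u
    linarith
  · intro R
    obtain ⟨z, hz, h⟩ := N.lowζ (R + ‖u‖)
    refine ⟨z, hz, fun v hv => h _ ?_⟩
    have := norm_sub_le v u
    linarith
  · intro δ hδ R
    obtain ⟨N', C, fC, h⟩ := N.split δ hδ (R + ‖u‖)
    refine ⟨N' + ‖u‖, C, fC, fun g mg r hr v hv => ?_⟩
    set g' : V → ℝ≥0∞ := fun w => g (w + u) with hg'
    have mg' : Measurable g' := mg.comp (measurable_id.add_const u)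
    have eg : g = trv u g' := by
      funext w
      simp [trv, hg']
    have h1 := h g' mg' r (fun w => by
      have := hr (w + u)
      unfold trv at this
      simpa [hg'] using this) (v - u) (by
      have := norm_sub_le v u
      linarith)
    rw [eg, KB_trv]
    refine h1.trans ?_
    refine add_le_add le_rfl ?_
    gcongr C * ?_
    have hmA : MeasurableSet {y : V | ‖y‖ ≤ N'} := measurableSet_le measurable_norm measurable_const
    have hmB : MeasurableSet {y : V | ‖y‖ ≤ N' + ‖u‖} :=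
      measurableSet_le measurable_norm measurable_const
    rw [← eg, ← lintegral_indicator hmA, ← lintegral_indicator hmB,
      ← lintegral_add_right_eq_self ({y : V | ‖y‖ ≤ N' + ‖u‖}.indicator g) u]
    apply lintegral_mono
    intro y
    by_cases hy : ‖y‖ ≤ N'
    · have hy2 : y + u ∈ {y : V | ‖y‖ ≤ N' + ‖u‖} := by
        have := norm_add_le y u
        simp only [mem_ofPred_eq]
        linarith
      rw [indicator_of_mem (show y ∈ {y : V | ‖y‖ ≤ N'} from hy)]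
      simp only
      rw [indicator_of_mem hy2]
    · rw [indicator_of_notMem (show y ∉ {y : V | ‖y‖ ≤ N'} from hy)]
      exact zero_le

end Vale.Agent.P140
end
end

section

/-! Relative entropy with respect to a general Maxwellian. -/

open MeasureTheory Set Filter
open scoped ENNReal Topology NNReal

noncomputable section

namespace Vale.Agent.P140

/-- real Maxwellian `ρ exp(-2c|v-u|²)` -/
def Mr (ρ c : ℝ) (u : V) (v : V) : ℝ := ρ * Real.exp (-(2 * c * ‖v - u‖ ^ 2))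

/-- real weight `exp(-c|v-u|²)` -/
def Zr (c : ℝ) (u : V) (v : V) : ℝ := Real.exp (-(c * ‖v - u‖ ^ 2))

theorem Mr_pos {ρ c : ℝ} (hρ : 0 < ρ) (u v : V) : 0 < Mr ρ c u v := by
  unfold Mr
  positivity

theorem toReal_trv_MxE {ρ c : ℝ} (hρ : 0 < ρ) (u v : V) :
    (trv u (MxE ρ c) v).toReal = Mr ρ c u v := by
  unfold trv MxE Mr gau
  rw [ENNReal.toReal_mul, ENNReal.toReal_ofReal hρ.le, ENNReal.toReal_ofReal (by positivity)]

theorem ofReal_Mr {ρ c : ℝ} (hρ : 0 < ρ) (u v : V) :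
    ENNReal.ofReal (Mr ρ c u v) = trv u (MxE ρ c) v := by
  unfold trv MxE Mr gau
  rw [ENNReal.ofReal_mul hρ.le]

theorem ofReal_Zr (c : ℝ) (u v : V) : ENNReal.ofReal (Zr c u v) = trv u (gau c) v := rfl

/-- entropy density -/
def entD (p m : ℝ) : ℝ := p * Real.log (p / m) - p + m

theorem hell {p m : ℝ} (hp : 0 ≤ p) (hm : 0 < m) :
    (Real.sqrt p - Real.sqrt m) ^ 2 ≤ entD p m := by
  unfold entD
  rcases hp.eq_or_lt with h0 | hp0
  · rw [← h0]
    simp [Real.sq_sqrt hm.le]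
  · have hs : 0 < Real.sqrt p := Real.sqrt_pos.mpr hp0
    have ht : 0 < Real.sqrt m := Real.sqrt_pos.mpr hm
    have e1 : Real.log (p / m) = 2 * Real.log (Real.sqrt p / Real.sqrt m) := by
      have : p / m = (Real.sqrt p / Real.sqrt m) ^ 2 := by
        rw [div_pow, Real.sq_sqrt hp, Real.sq_sqrt hm.le]
      rw [this, Real.log_pow]
      norm_num
    have h1 := Real.one_sub_inv_le_log_of_pos (show 0 < Real.sqrt p / Real.sqrt m by positivity)
    rw [inv_div] at h1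
    rw [e1]
    have h2 : p * (1 - Real.sqrt m / Real.sqrt p) ≤ p * Real.log (Real.sqrt p / Real.sqrt m) :=
      mul_le_mul_of_nonneg_left h1 hp
    have e2 : p * (1 - Real.sqrt m / Real.sqrt p) = p - Real.sqrt p * Real.sqrt m := by
      have e3 : p = Real.sqrt p * Real.sqrt p := (Real.mul_self_sqrt hp).symm
      field_simp
      nlinarith
    rw [e2] at h2
    have e4 : Real.sqrt p ^ 2 = p := Real.sq_sqrt hp
    have e5 : Real.sqrt m ^ 2 = m := Real.sq_sqrt hm.le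
    linarith only [e5, e4, h2]

theorem entD_nonneg {p m : ℝ} (hp : 0 ≤ p) (hm : 0 < m) : 0 ≤ entD p m :=
  le_trans (sq_nonneg _) (hell hp hm)

theorem abs_sub_le_entD {p m l : ℝ} (hp : 0 ≤ p) (hm : 0 < m) (hl : 0 < l) :
    |p - m| ≤ 1 / (2 * l) * entD p m + l * (p + m) := by
  have h := hell hp hm
  set s := Real.sqrt p
  set t := Real.sqrt m
  have e4 : s ^ 2 = p := Real.sq_sqrt hp
  have e5 : t ^ 2 = m := Real.sq_sqrt hm.le
  have hs : 0 ≤ s := Real.sqrt_nonneg p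
  have ht : 0 ≤ t := Real.sqrt_nonneg m
  have e6 : |p - m| = |s - t| * (s + t) := by
    rw [← e4, ← e5, show s ^ 2 - t ^ 2 = (s - t) * (s + t) by ring, abs_mul,
      abs_of_nonneg (add_nonneg hs ht)]
  have h7 : |s - t| * (s + t) ≤ 1 / (2 * l) * (s - t) ^ 2 + l / 2 * (s + t) ^ 2 := by
    have h8 : 0 ≤ (|s - t| - l * (s + t)) ^ 2 / (2 * l) := by positivity
    have h9 : (|s - t| - l * (s + t)) ^ 2 / (2 * l) =
        1 / (2 * l) * (s - t) ^ 2 + l / 2 * (s + t) ^ 2 - |s - t| * (s + t) := by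
      have : |s - t| ^ 2 = (s - t) ^ 2 := sq_abs _
      field_simp
      nlinarith
    linarith
  have h10 : 1 / (2 * l) * (s - t) ^ 2 ≤ 1 / (2 * l) * entD p m := by gcongr
  have h11 : l / 2 * (s + t) ^ 2 ≤ l * (p + m) := by
    rw [← e4, ← e5]
    linarith only [mul_nonneg (le_of_lt (sub_pos.2 hl)) (sq_nonneg (s - t))]
  linarith

theorem log_half {y : ℝ} (h0 : 0 ≤ y) (h1 : y ≤ 1) : y / 2 ≤ Real.log (1 + y) := by
  have h := Real.one_sub_inv_le_log_of_pos (show 0 < 1 + y by linarith)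
  refine le_trans ?_ h
  have : 1 - (1 + y)⁻¹ = y / (1 + y) := by
    field_simp
    ring
  rw [this]
  apply div_le_div_of_nonneg_left h0 (by linarith) (by linarith)

theorem entD_le {p m : ℝ} (hp : 0 ≤ p) (hm : 0 < m) :
    entD p m ≤ 2 * |p - m| * Real.log (1 + |p - m| / m) := by
  unfold entD
  set x : ℝ := (p - m) / m with hx
  have hpx : p = m * (1 + x) := by rw [hx]; field_simp; ring
  have hpm : p / m = 1 + x := by rw [hpx]; field_simp
  have hx1 : 0 ≤ 1 + x := by rw [← hpm]; positivity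
  have habs : |p - m| = m * |x| := by
    rw [hx, abs_div, abs_of_pos hm]
    field_simp
  have habs2 : |p - m| / m = |x| := by rw [habs]; field_simp
  rw [hpm, habs2, habs]
  have e1 : p * Real.log (1 + x) - p + m = m * ((1 + x) * Real.log (1 + x) - x) := by
    rw [hpx]; ring
  rw [e1, show 2 * (m * |x|) * Real.log (1 + |x|) = m * (2 * |x| * Real.log (1 + |x|)) by ring]
  apply mul_le_mul_of_nonneg_left _ hm.le
  rcases le_or_gt 0 x with h | h
  · rw [abs_of_nonneg h]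
    have h1 : Real.log (1 + x) ≤ x := by
      have := Real.log_le_sub_one_of_pos (show 0 < 1 + x by linarith)
      linarith
    have h2 : 0 ≤ Real.log (1 + x) := Real.log_nonneg (by linarith)
    linarith only [mul_nonneg (sub_nonneg.2 h2) (sub_nonneg.2 h2), mul_nonneg (sub_nonneg.2 h1) (sub_nonneg.2 h2), mul_nonneg (mul_self_nonneg (1 : ℝ)) (sub_nonneg.2 h1)]
  · rw [abs_of_neg h]
    have h3 : (1 + x) * Real.log (1 + x) - x ≤ x ^ 2 := by
      rcases hx1.eq_or_lt with h4 | h4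
      · have : x = -1 := by linarith
        rw [this]
        norm_num
      · have h5 := Real.log_le_sub_one_of_pos h4
        (by_contra nlg; linarith only [nlg, mul_nonneg (le_of_lt (sub_pos.2 h4)) (sub_nonneg.2 h5), mul_pos (sub_pos.2 (not_le.1 nlg)) (sub_pos.2 h4), mul_pos (sub_pos.2 (not_le.1 nlg)) (sub_pos.2 h)])
    have h6 : (-x) / 2 ≤ Real.log (1 + -x) := log_half (by linarith) (by linarith)
    (by_contra nlg; linarith only [nlg, mul_nonneg (le_of_lt (sub_pos.2 h)) (sub_nonneg.2 h6), mul_nonneg (le_of_lt (sub_pos.2 h)) (sub_nonneg.2 h3), mul_nonneg (sub_nonneg.2 hx1) (sub_nonneg.2 h3), mul_pos (sub_pos.2 (not_le.1 nlg)) (sub_pos.2 h), mul_nonneg (le_of_lt (sub_pos.2 (not_le.1 nlg))) (sub_nonneg.2 hx1)])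

theorem entD_datum {ρ c ε : ℝ} (hρ : 0 < ρ) (hc : 0 < c) (hε : 0 ≤ ε) (u v : V) {p : ℝ}
    (hp : 0 ≤ p) (h : |p - Mr ρ c u v| ≤ ε * Zr c u v) :
    entD p (Mr ρ c u v) ≤ 2 * ε * Zr c u v * (ε / ρ + c * ‖v - u‖ ^ 2) := by
  have hm := Mr_pos (c := c) hρ u v
  refine (entD_le hp hm).trans ?_
  set X : ℝ := c * ‖v - u‖ ^ 2 with hX
  have hX0 : 0 ≤ X := by positivity
  have hz : 0 < Zr c u v := by unfold Zr; positivity
  have e1 : Zr c u v / Mr ρ c u v = Real.exp X / ρ := by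
    unfold Zr Mr
    rw [div_eq_div_iff (by positivity) (by positivity)]
    have : Real.exp X * (ρ * Real.exp (-(2 * c * ‖v - u‖ ^ 2))) =
        (Real.exp X * Real.exp (-(2 * c * ‖v - u‖ ^ 2))) * ρ := by ring
    rw [this, ← Real.exp_add]
    congr 2
    rw [hX]
    ring
  have h2 : |p - Mr ρ c u v| / Mr ρ c u v ≤ ε / ρ * Real.exp X := by
    calc |p - Mr ρ c u v| / Mr ρ c u v ≤ ε * Zr c u v / Mr ρ c u v := by gcongr
      _ = ε * (Zr c u v / Mr ρ c u v) := by ring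
      _ = ε / ρ * Real.exp X := by rw [e1]; ring
  have hex : 1 ≤ Real.exp X := Real.one_le_exp hX0
  have h3 : Real.log (1 + |p - Mr ρ c u v| / Mr ρ c u v) ≤ ε / ρ + X := by
    have hερ : 0 ≤ ε / ρ := by positivity
    calc Real.log (1 + |p - Mr ρ c u v| / Mr ρ c u v)
        ≤ Real.log ((1 + ε / ρ) * Real.exp X) := by
          apply Real.log_le_log (by positivity)
          linarith only [hex, h2]
      _ = Real.log (1 + ε / ρ) + X := by
          rw [Real.log_mul (by positivity) (Real.exp_pos _).ne', Real.log_exp]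
      _ ≤ ε / ρ + X := by
          have := Real.log_le_sub_one_of_pos (show 0 < 1 + ε / ρ by positivity)
          linarith
  have h4 : 0 ≤ Real.log (1 + |p - Mr ρ c u v| / Mr ρ c u v) := by
    apply Real.log_nonneg
    have : 0 ≤ |p - Mr ρ c u v| / Mr ρ c u v := by positivity
    linarith
  calc 2 * |p - Mr ρ c u v| * Real.log (1 + |p - Mr ρ c u v| / Mr ρ c u v)
      ≤ 2 * (ε * Zr c u v) * (ε / ρ + X) := by gcongr
    _ = _ := by ring

end Vale.Agent.P140
end
end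

section

/-! Relative entropy with respect to a general Maxwellian: monotonicity. -/

open MeasureTheory Set Filter
open scoped ENNReal Topology NNReal

noncomputable section

namespace Vale.Agent.P140

variable {F0 : T3 → V → ℝ} {F : ℝ → T3 → V → ℝ}

theorem log_Maxw (v : V) : Real.log (Maxw v) =
    -(3 / 2) * Real.log (2 * Real.pi) - ‖v‖ ^ 2 / 2 := by
  unfold Maxw
  rw [Real.log_mul (by positivity) (Real.exp_pos _).ne', Real.log_exp,
    Real.log_rpow (by positivity)]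
  ring

theorem log_Mr {ρ c : ℝ} (hρ : 0 < ρ) (u v : V) : Real.log (Mr ρ c u v) =
    Real.log ρ - 2 * c * ‖v - u‖ ^ 2 := by
  unfold Mr
  rw [Real.log_mul hρ.ne' (Real.exp_pos _).ne', Real.log_exp]
  ring

/-- coefficients of `log M - log μ` -/
def qa (ρ c : ℝ) (u : V) : ℝ := -(3 / 2) * Real.log (2 * Real.pi) - Real.log ρ + 2 * c * ‖u‖ ^ 2

def qb (c : ℝ) (u : V) : V := -((4 * c) • u)

def qK (ρ c : ℝ) (u : V) : ℝ := |qa ρ c u| + |2 * c - 1 / 2| + ‖qb c u‖

def q1 (ρ c : ℝ) (u v : V) : ℝ :=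
  qa ρ c u + (2 * c - 1 / 2) * ‖v‖ ^ 2 + inner ℝ (qb c u) v + qK ρ c u * (1 + ‖v‖ ^ 2)

theorem q1_eq {ρ c : ℝ} (hρ : 0 < ρ) (u v : V) : q1 ρ c u v =
    Real.log (Maxw v) - Real.log (Mr ρ c u v) + qK ρ c u * (1 + ‖v‖ ^ 2) := by
  rw [log_Maxw, log_Mr hρ]
  unfold q1 qa qb
  rw [norm_sub_sq_real, inner_neg_left, inner_smul_left]
  simp only [conj_trivial]
  rw [real_inner_comm u v]
  ring

theorem q1_nonneg (ρ c : ℝ) (u v : V) : 0 ≤ q1 ρ c u v := by
  unfold q1 qK
  have h1 := neg_abs_le (qa ρ c u)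
  have h2 := neg_abs_le (2 * c - 1 / 2)
  have h3 := abs_real_inner_le_norm (qb c u) v
  have h4 := (abs_le.mp h3).1
  have h5 : ‖qb c u‖ * ‖v‖ ≤ ‖qb c u‖ * (1 + ‖v‖ ^ 2) := by
    gcongr
    linarith only [norm_nonneg v, sq_nonneg (‖v‖ - 1)]
  have h6 := abs_nonneg (qa ρ c u)
  have h7 := abs_nonneg (2 * c - 1 / 2)
  have h8 := norm_nonneg (qb c u)
  have h9 := sq_nonneg ‖v‖
  linarith only [mul_nonneg (sub_nonneg.2 h6) (sub_nonneg.2 h9), mul_nonneg (sub_nonneg.2 h2) (sub_nonneg.2 h9), mul_nonneg (mul_self_nonneg (1 : ℝ)) (sub_nonneg.2 h7), mul_nonneg (mul_self_nonneg (1 : ℝ)) (sub_nonneg.2 h5), mul_nonneg (mul_self_nonneg (1 : ℝ)) (sub_nonneg.2 h4), mul_nonneg (mul_self_nonneg (1 : ℝ)) (sub_nonneg.2 h1)]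

theorem qK_nonneg (ρ c : ℝ) (u : V) : 0 ≤ qK ρ c u := by
  unfold qK
  positivity

theorem entD_identity {ρ c : ℝ} (hρ : 0 < ρ) (u v : V) {p : ℝ} (hp : 0 ≤ p) :
    entD p (Mr ρ c u v) + qK ρ c u * (1 + ‖v‖ ^ 2) * p + Maxw v =
      entD p (Maxw v) + q1 ρ c u v * p + Mr ρ c u v := by
  rw [q1_eq hρ]
  unfold entD
  rcases hp.eq_or_lt with h | h
  · rw [← h]
    ring
  · rw [Real.log_div h.ne' (Mr_pos hρ u v).ne', Real.log_div h.ne' (Maxw_pos v).ne']
    ring

theorem measurable_Mr (ρ c : ℝ) (u : V) : Measurable (Mr ρ c u) := by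
  unfold Mr
  apply Continuous.measurable
  fun_prop

theorem measurable_q1 (ρ c : ℝ) (u : V) : Measurable (q1 ρ c u) := by
  unfold q1
  apply Continuous.measurable
  fun_prop

theorem measurable_entD {α : Type*} [MeasurableSpace α] {f g : α → ℝ} (hf : Measurable f)
    (hg : Measurable g) : Measurable fun a => entD (f a) (g a) := by
  unfold entD
  exact ((hf.mul (Real.measurable_log.comp (hf.div hg))).sub hf).add hg

/-- entropy relative to a general Maxwellian -/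
def entA (ρ c : ℝ) (u : V) (f : T3 → V → ℝ) : ℝ≥0∞ :=
  ∫⁻ p : T3 × V, ENNReal.ofReal (entD (f p.1 p.2) (Mr ρ c u p.2))

theorem relEntropy_eq {f : T3 → V → ℝ} (hf : Measurable fun p : T3 × V => f p.1 p.2) :
    relEntropy f = ∫⁻ p : T3 × V, ENNReal.ofReal (entD (f p.1 p.2) (Maxw p.2)) := by
  have hm : Measurable fun p : T3 × V => ENNReal.ofReal (entD (f p.1 p.2) (Maxw p.2)) :=
    (measurable_entD hf (measurable_Maxw.comp measurable_snd)).ennreal_ofReal
  rw [Measure.volume_eq_prod, lintegral_prod _ hm.aemeasurable]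
  rfl

theorem entA_identity {ρ c : ℝ} (hρ : 0 < ρ) (u : V) {f : T3 → V → ℝ}
    (hf : Measurable fun p : T3 × V => f p.1 p.2) (hf0 : ∀ x v, 0 ≤ f x v) :
    entA ρ c u f + ENNReal.ofReal (qK ρ c u) * wInt psi2 f +
        (∫⁻ p : T3 × V, ENNReal.ofReal (Maxw p.2)) =
      relEntropy f + (∫⁻ p : T3 × V, ENNReal.ofReal (q1 ρ c u p.2 * f p.1 p.2)) +
        ∫⁻ p : T3 × V, ENNReal.ofReal (Mr ρ c u p.2) := by
  have mE : Measurable fun p : T3 × V => ENNReal.ofReal (entD (f p.1 p.2) (Mr ρ c u p.2)) :=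
    (measurable_entD hf ((measurable_Mr ρ c u).comp measurable_snd)).ennreal_ofReal
  have mE2 : Measurable fun p : T3 × V => ENNReal.ofReal (entD (f p.1 p.2) (Maxw p.2)) :=
    (measurable_entD hf (measurable_Maxw.comp measurable_snd)).ennreal_ofReal
  have mW : Measurable fun p : T3 × V => psi2 p.2 * ENNReal.ofReal (f p.1 p.2) :=
    (measurable_psi2.comp measurable_snd).mul hf.ennreal_ofReal
  have mQ : Measurable fun p : T3 × V => ENNReal.ofReal (q1 ρ c u p.2 * f p.1 p.2) :=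
    (((measurable_q1 ρ c u).comp measurable_snd).mul hf).ennreal_ofReal
  rw [relEntropy_eq hf]
  unfold entA wInt
  have mW2 : Measurable fun p : T3 × V =>
      ENNReal.ofReal (qK ρ c u) * (psi2 p.2 * ENNReal.ofReal (f p.1 p.2)) := mW.const_mul _
  have mS : Measurable fun p : T3 × V => ENNReal.ofReal (entD (f p.1 p.2) (Mr ρ c u p.2)) +
      ENNReal.ofReal (qK ρ c u) * (psi2 p.2 * ENNReal.ofReal (f p.1 p.2)) := mE.add mW2
  have mS2 : Measurable fun p : T3 × V => ENNReal.ofReal (entD (f p.1 p.2) (Maxw p.2)) +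
      ENNReal.ofReal (q1 ρ c u p.2 * f p.1 p.2) := mE2.add mQ
  rw [← lintegral_const_mul _ mW, ← lintegral_add_left mE, ← lintegral_add_left mS,
    ← lintegral_add_left mE2, ← lintegral_add_left mS2]
  apply lintegral_congr
  intro p
  have hp := hf0 p.1 p.2
  have hK := qK_nonneg ρ c u
  have hM := (Maxw_pos p.2).le
  have hMr := (Mr_pos (c := c) hρ u p.2).le
  have hq := q1_nonneg ρ c u p.2
  have h1 := entD_nonneg hp (Mr_pos (c := c) hρ u p.2)
  have h2 := entD_nonneg hp (Maxw_pos p.2)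
  have e1 : ENNReal.ofReal (qK ρ c u) * (psi2 p.2 * ENNReal.ofReal (f p.1 p.2)) =
      ENNReal.ofReal (qK ρ c u * (1 + ‖p.2‖ ^ 2) * f p.1 p.2) := by
    rw [ENNReal.ofReal_mul (by positivity), ENNReal.ofReal_mul hK, mul_assoc]
    rfl
  rw [e1, ← ENNReal.ofReal_add h1 (by positivity), ← ENNReal.ofReal_add (by positivity) hM,
    ← ENNReal.ofReal_add h2 (by positivity), ← ENNReal.ofReal_add (by positivity) hMr,
    entD_identity hρ u p.2 hp]

theorem energy_fin (hF : IsRenormEntropySol F0 F) {t : ℝ} (ht : 0 ≤ t) :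
    ∫⁻ p : T3 × V, ENNReal.ofReal (‖p.2‖ ^ 2 * F t p.1 p.2) ≠ ⊤ := by
  have h1 := (wInt2_le hF ht).trans_lt (wInt2_datum hF.datum)
  rw [wInt2_split (measurable_t hF t) (hF.nonneg t)] at h1
  exact ne_top_of_le_ne_top h1.ne le_add_self

theorem energy_fin0 (hF : IsRenormEntropySol F0 F) :
    ∫⁻ p : T3 × V, ENNReal.ofReal (‖p.2‖ ^ 2 * F0 p.1 p.2) ≠ ⊤ := by
  have h1 := wInt2_datum hF.datum
  rw [wInt2_split hF.datum.measurable hF.datum.nonneg] at h1
  exact ne_top_of_le_ne_top h1.ne le_add_self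

/-- weighted integrability from finite energy -/
theorem integrable_energy {f : T3 → V → ℝ} (hf : Measurable fun p : T3 × V => f p.1 p.2)
    (hf0 : ∀ x v, 0 ≤ f x v)
    (h : ∫⁻ p : T3 × V, ENNReal.ofReal (‖p.2‖ ^ 2 * f p.1 p.2) ≠ ⊤) :
    Integrable fun p : T3 × V => ‖p.2‖ ^ 2 * f p.1 p.2 := by
  refine ⟨((measurable_snd.norm.pow_const 2).mul hf).aestronglyMeasurable, ?_⟩
  unfold HasFiniteIntegral
  refine lt_of_le_of_lt (le_of_eq ?_) h.lt_top
  apply lintegral_congr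
  intro p
  rw [Real.enorm_eq_ofReal_abs, abs_of_nonneg (mul_nonneg (sq_nonneg _) (hf0 _ _))]

theorem integrable_mom {f : T3 → V → ℝ} (hf : Measurable fun p : T3 × V => f p.1 p.2)
    (hf0 : ∀ x v, 0 ≤ f x v) (hi : Integrable fun p : T3 × V => f p.1 p.2)
    (h : Integrable fun p : T3 × V => ‖p.2‖ ^ 2 * f p.1 p.2) :
    Integrable fun p : T3 × V => f p.1 p.2 • p.2 := by
  refine (hi.add h).mono (hf.smul measurable_snd).aestronglyMeasurable ?_
  filter_upwards with p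
  have h1 := hf0 p.1 p.2
  rw [norm_smul, Real.norm_of_nonneg h1]
  simp only [Pi.add_apply]
  rw [Real.norm_of_nonneg (by positivity)]
  linarith only [mul_nonneg (sub_nonneg.2 h1) (sub_nonneg.2 (norm_nonneg p.2)), mul_nonneg (sub_nonneg.2 h1) (sq_nonneg (‖p.2‖ - 1))]

theorem q1_integral (ρ c : ℝ) (u : V) {f : T3 → V → ℝ} 
    (hi : Integrable fun p : T3 × V => f p.1 p.2)
    (h : Integrable fun p : T3 × V => ‖p.2‖ ^ 2 * f p.1 p.2)
    (hm : Integrable fun p : T3 × V => f p.1 p.2 • p.2) :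
    Integrable (fun p : T3 × V => q1 ρ c u p.2 * f p.1 p.2) ∧
    ∫ p : T3 × V, q1 ρ c u p.2 * f p.1 p.2 =
      (qa ρ c u + qK ρ c u) * (∫ p : T3 × V, f p.1 p.2) +
      ((2 * c - 1 / 2) + qK ρ c u) * (∫ p : T3 × V, ‖p.2‖ ^ 2 * f p.1 p.2) +
      inner ℝ (qb c u) (∫ p : T3 × V, f p.1 p.2 • p.2) := by
  have i1 := hi.const_mul (qa ρ c u + qK ρ c u)
  have i2 := h.const_mul ((2 * c - 1 / 2) + qK ρ c u)
  have i3 := hm.const_inner (𝕜 := ℝ) (qb c u)
  have e : (fun p : T3 × V => q1 ρ c u p.2 * f p.1 p.2) = fun p : T3 × V =>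
      (qa ρ c u + qK ρ c u) * f p.1 p.2 + ((2 * c - 1 / 2) + qK ρ c u) * (‖p.2‖ ^ 2 * f p.1 p.2) +
      inner ℝ (qb c u) (f p.1 p.2 • p.2) := by
    funext p
    unfold q1
    rw [inner_smul_right]
    ring
  have i12 : Integrable fun p : T3 × V => (qa ρ c u + qK ρ c u) * f p.1 p.2 +
      ((2 * c - 1 / 2) + qK ρ c u) * (‖p.2‖ ^ 2 * f p.1 p.2) := i1.add i2
  constructor
  · rw [e]
    exact i12.add i3
  · rw [e, integral_add i12 i3, integral_add i1 i2, integral_const_mul,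
      integral_const_mul, integral_inner hm]

/-- the linear functional is conserved if the energy is -/
theorem q1_conserved (hF : IsRenormEntropySol F0 F) (ρ c : ℝ) (u : V) {t : ℝ} (ht : 0 ≤ t)
    (he : wInt psi2 (F t) = wInt psi2 F0) :
    ∫⁻ p : T3 × V, ENNReal.ofReal (q1 ρ c u p.2 * F t p.1 p.2) =
      ∫⁻ p : T3 × V, ENNReal.ofReal (q1 ρ c u p.2 * F0 p.1 p.2) := by
  have mt := measurable_t hF t
  have i0 : Integrable fun p : T3 × V => F0 p.1 p.2 := integrable_datum hF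
  have it := hF.integrable t ht
  have e0 := integrable_energy hF.datum.measurable hF.datum.nonneg (energy_fin0 hF)
  have et := integrable_energy mt (hF.nonneg t) (energy_fin hF ht)
  have m0 := integrable_mom hF.datum.measurable hF.datum.nonneg i0 e0
  have mmt := integrable_mom mt (hF.nonneg t) it et
  obtain ⟨j0, k0⟩ := q1_integral ρ c u i0 e0 m0
  obtain ⟨jt, kt⟩ := q1_integral ρ c u it et mmt
  rw [← ofReal_integral_eq_lintegral_ofReal jt (Eventually.of_forall fun p =>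
      mul_nonneg (q1_nonneg _ _ _ _) (hF.nonneg _ _ _)),
    ← ofReal_integral_eq_lintegral_ofReal j0 (Eventually.of_forall fun p =>
      mul_nonneg (q1_nonneg _ _ _ _) (hF.datum.nonneg _ _)), k0, kt, mass_eq hF ht]
  have hen : ∫ p : T3 × V, ‖p.2‖ ^ 2 * F t p.1 p.2 = ∫ p : T3 × V, ‖p.2‖ ^ 2 * F0 p.1 p.2 := by
    rw [wInt2_split mt (hF.nonneg t), wInt2_split hF.datum.measurable hF.datum.nonneg,
      lintegral_mass hF ht] at he
    have hfin : ∫⁻ p : T3 × V, ENNReal.ofReal (F0 p.1 p.2) ≠ ⊤ := by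
      have h1 := wInt2_datum hF.datum
      rw [wInt2_split hF.datum.measurable hF.datum.nonneg] at h1
      exact ne_top_of_le_ne_top h1.ne le_self_add
    have h2 := (ENNReal.add_right_inj hfin).mp he
    rw [integral_eq_lintegral_of_nonneg_ae (Eventually.of_forall fun p =>
      mul_nonneg (sq_nonneg _) (hF.nonneg _ _ _)) et.aestronglyMeasurable, h2,
      integral_eq_lintegral_of_nonneg_ae (Eventually.of_forall fun p =>
      mul_nonneg (sq_nonneg _) (hF.datum.nonneg _ _)) e0.aestronglyMeasurable]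
  have hmo : ∫ p : T3 × V, F t p.1 p.2 • p.2 = ∫ p : T3 × V, F0 p.1 p.2 • p.2 := by
    rw [hF.momentum t ht]
    apply integral_congr_ae
    filter_upwards [hF.initial] with p hp
    rw [hp]
  rw [hen, hmo]

theorem lintegral_Mr_eq {ρ c : ℝ} (hρ : 0 < ρ) (u : V) :
    ∫⁻ p : T3 × V, ENNReal.ofReal (Mr ρ c u p.2) = ∫⁻ v, MxE ρ c v := by
  have hm : Measurable fun v => ENNReal.ofReal (Mr ρ c u v) := (measurable_Mr ρ c u).ennreal_ofReal
  rw [lintegral_T3_V hm]
  simp only [ofReal_Mr hρ]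
  exact lintegral_sub_right_eq_self (MxE ρ c) u

theorem lintegral_MxE_ne_top {ρ c : ℝ} (hc : 0 < c) : ∫⁻ v, MxE ρ c v ≠ ⊤ := by
  unfold MxE
  rw [lintegral_const_mul _ (measurable_gau _)]
  exact ENNReal.mul_ne_top ENNReal.ofReal_ne_top (lintegral_gau (by positivity))

theorem lintegral_Maxw_ne_top : ∫⁻ p : T3 × V, ENNReal.ofReal (Maxw p.2) ≠ ⊤ := by
  have e : ∀ v : V, Maxw v = Mr ((2 * Real.pi) ^ (-(3 / 2) : ℝ)) (1 / 4) 0 v := by
    intro v
    unfold Maxw Mr
    rw [sub_zero]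
    congr 2
    ring
  simp only [e]
  rw [lintegral_Mr_eq (by positivity)]
  exact lintegral_MxE_ne_top (by norm_num)

/-- the entropy relative to any Maxwellian does not increase if the energy is conserved -/
theorem entA_le (hF : IsRenormEntropySol F0 F) {ρ c : ℝ} (hρ : 0 < ρ) (u : V) {t : ℝ}
    (ht : 0 ≤ t) (he : wInt psi2 (F t) = wInt psi2 F0) :
    entA ρ c u (F t) ≤ entA ρ c u F0 := by
  have h1 := entA_identity (c := c) hρ u (measurable_t hF t) (hF.nonneg t)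
  have h2 := entA_identity (c := c) hρ u hF.datum.measurable hF.datum.nonneg
  have h3 : relEntropy (F t) ≤ relEntropy F0 := le_trans le_self_add (hF.entropy t ht)
  rw [q1_conserved hF ρ c u ht he, he] at h1
  have f1 : ENNReal.ofReal (qK ρ c u) * wInt psi2 F0 ≠ ⊤ :=
    ENNReal.mul_ne_top ENNReal.ofReal_ne_top (wInt2_datum hF.datum).ne
  have f2 : ∫⁻ p : T3 × V, ENNReal.ofReal (Maxw p.2) ≠ ⊤ := lintegral_Maxw_ne_top
  have h4 : entA ρ c u (F t) + ENNReal.ofReal (qK ρ c u) * wInt psi2 F0 +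
        (∫⁻ p : T3 × V, ENNReal.ofReal (Maxw p.2)) ≤
      entA ρ c u F0 + ENNReal.ofReal (qK ρ c u) * wInt psi2 F0 +
        (∫⁻ p : T3 × V, ENNReal.ofReal (Maxw p.2)) := by
    rw [h1, h2]
    gcongr
  rw [ENNReal.add_le_add_iff_right f2, ENNReal.add_le_add_iff_right f1] at h4
  exact h4

end Vale.Agent.P140
end
end

section

/-! Small relative entropy gives smallness in `L¹`. -/

open MeasureTheory Set Filter
open scoped ENNReal Topology NNReal

noncomputable section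

namespace Vale.Agent.P140

theorem entA_datum {ρ c ε : ℝ} (hρ : 0 < ρ) (hc : 0 < c) (hε : 0 ≤ ε) (hε1 : ε ≤ 1) (u : V)
    {f : T3 → V → ℝ} (hf0 : ∀ x v, 0 ≤ f x v)
    (h : ∀ᵐ p : T3 × V, |f p.1 p.2 - Mr ρ c u p.2| ≤ ε * Zr c u p.2) :
    entA ρ c u f ≤ ENNReal.ofReal (2 * (1 / ρ + c)) * Mo 1 (gau c) * ENNReal.ofReal ε := by
  unfold entA
  have hgp : Measurable fun v : V => gau c v * ph v ^ 1 := (measurable_gau c).mul (measurable_phpow 1)
  have hgp2 : Measurable fun v : V => gau c (v - u) * ph (v - u) ^ 1 :=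
    hgp.comp (measurable_id.sub_const u)
  calc ∫⁻ p : T3 × V, ENNReal.ofReal (entD (f p.1 p.2) (Mr ρ c u p.2))
      ≤ ∫⁻ p : T3 × V, (ENNReal.ofReal (2 * (1 / ρ + c)) * ENNReal.ofReal ε) *
          (gau c (p.2 - u) * ph (p.2 - u) ^ 1) := by
        apply lintegral_mono_ae
        filter_upwards [h] with p hp
        have h1 := entD_datum hρ hc hε u p.2 (hf0 _ _) hp
        refine (ENNReal.ofReal_le_ofReal h1).trans ?_
        unfold gau ph
        rw [pow_one, ← ENNReal.ofReal_mul (by positivity), ← ENNReal.ofReal_mul (by positivity),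
          ← ENNReal.ofReal_mul (by positivity)]
        apply ENNReal.ofReal_le_ofReal
        have h2 : ε / ρ + c * ‖p.2 - u‖ ^ 2 ≤ (1 / ρ + c) * (1 + ‖p.2 - u‖ ^ 2) := by
          have h3 : ε / ρ ≤ 1 / ρ := by gcongr
          have h4 : 0 ≤ 1 / ρ * ‖p.2 - u‖ ^ 2 := by positivity
          linarith only [h4, h3, hc]
        calc 2 * ε * Zr c u p.2 * (ε / ρ + c * ‖p.2 - u‖ ^ 2)
            ≤ 2 * ε * Zr c u p.2 * ((1 / ρ + c) * (1 + ‖p.2 - u‖ ^ 2)) := by
              have : 0 ≤ Zr c u p.2 := by unfold Zr; positivity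
              gcongr
          _ = _ := by
              unfold Zr
              ring
    _ = (ENNReal.ofReal (2 * (1 / ρ + c)) * ENNReal.ofReal ε) *
          ∫⁻ v : V, gau c (v - u) * ph (v - u) ^ 1 := by
        rw [← lintegral_const_mul _ hgp2]
        exact lintegral_T3_V (hgp2.const_mul _)
    _ = _ := by
        have e := lintegral_sub_right_eq_self (μ := (volume : Measure V))
          (fun v => gau c v * ph v ^ 1) u
        rw [e]
        unfold Mo
        ring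

theorem wDist_le_ent {ρ c l : ℝ} (hρ : 0 < ρ) (hl : 0 < l) (u : V)
    {f : T3 → V → ℝ} (hf : Measurable fun p : T3 × V => f p.1 p.2) (hf0 : ∀ x v, 0 ≤ f x v) :
    wDist psi0 f (fun _ v => Mr ρ c u v) ≤ ENNReal.ofReal (1 / (2 * l)) * entA ρ c u f +
      ENNReal.ofReal l * ((∫⁻ p : T3 × V, ENNReal.ofReal (f p.1 p.2)) + ∫⁻ v, MxE ρ c v) := by
  have mE : Measurable fun p : T3 × V => ENNReal.ofReal (entD (f p.1 p.2) (Mr ρ c u p.2)) :=
    (measurable_entD hf ((measurable_Mr ρ c u).comp measurable_snd)).ennreal_ofReal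
  have mM : Measurable fun p : T3 × V => ENNReal.ofReal (Mr ρ c u p.2) :=
    ((measurable_Mr ρ c u).comp measurable_snd).ennreal_ofReal
  unfold wDist entA psi0
  rw [← lintegral_Mr_eq hρ u]
  have ms : Measurable fun p : T3 × V => ENNReal.ofReal (f p.1 p.2) + ENNReal.ofReal (Mr ρ c u p.2) :=
    hf.ennreal_ofReal.add mM
  rw [← lintegral_add_left hf.ennreal_ofReal, ← lintegral_const_mul _ mE,
    ← lintegral_const_mul _ ms, ← lintegral_add_left (mE.const_mul _)]
  apply lintegral_mono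
  intro p
  simp only [one_mul]
  have hp := hf0 p.1 p.2
  have hM := (Mr_pos (c := c) hρ u p.2)
  have h1 := entD_nonneg hp hM
  rw [← ENNReal.ofReal_add hp hM.le, ← ENNReal.ofReal_mul (by positivity),
    ← ENNReal.ofReal_mul hl.le, ← ENNReal.ofReal_add (by positivity) (by positivity)]
  exact ENNReal.ofReal_le_ofReal (abs_sub_le_entD hp hM hl)

/-- **Entropy control of the `L¹` distance to a Maxwellian.** -/
theorem L1_small {ρ c : ℝ} (hρ : 0 < ρ) (hc : 0 < c) (u : V) {η : ℝ≥0∞} (hη : η ≠ 0) :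
    ∃ ε : ℝ, 0 < ε ∧ ∀ (F0 : T3 → V → ℝ) (F : ℝ → T3 → V → ℝ), IsRenormEntropySol F0 F →
      (∀ᵐ p : T3 × V, |F0 p.1 p.2 - Mr ρ c u p.2| ≤ ε * Zr c u p.2) →
      ∀ t, 0 ≤ t → wInt psi2 (F t) = wInt psi2 F0 →
        wDist psi0 (F t) (fun _ v => Mr ρ c u v) ≤ η := by
  have hη2 : η / 2 ≠ 0 := ENNReal.div_ne_zero.mpr ⟨hη, by simp⟩
  set mμ : ℝ≥0∞ := ∫⁻ v, MxE ρ c v with hmμ
  set mz : ℝ≥0∞ := ∫⁻ v, gau c v with hmz
  have fμ : mμ ≠ ⊤ := lintegral_MxE_ne_top hc
  have fz : mz ≠ ⊤ := lintegral_gau hc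
  obtain ⟨l, hl, hlη⟩ := exists_small (K := mμ + mz + mμ)
    (ENNReal.add_ne_top.mpr ⟨ENNReal.add_ne_top.mpr ⟨fμ, fz⟩, fμ⟩) hη2
  set K : ℝ≥0∞ := ENNReal.ofReal (1 / (2 * l)) *
    (ENNReal.ofReal (2 * (1 / ρ + c)) * Mo 1 (gau c)) with hK
  have fK : K ≠ ⊤ := ENNReal.mul_ne_top ENNReal.ofReal_ne_top
    (ENNReal.mul_ne_top ENNReal.ofReal_ne_top (Mo_gau 1 hc))
  obtain ⟨e, he, heη⟩ := exists_small fK hη2
  refine ⟨min e 1, lt_min he one_pos, fun F0 F hF h0 t ht hen => ?_⟩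
  set ε : ℝ := min e 1 with hε
  have hε0 : 0 ≤ ε := (lt_min he one_pos).le
  have hε1 : ε ≤ 1 := min_le_right _ _
  refine (wDist_le_ent hρ hl u (measurable_t hF t) (hF.nonneg t)).trans ?_
  have hmass : ∫⁻ p : T3 × V, ENNReal.ofReal (F t p.1 p.2) ≤ mμ + mz := by
    rw [lintegral_mass hF ht]
    calc ∫⁻ p : T3 × V, ENNReal.ofReal (F0 p.1 p.2)
        ≤ ∫⁻ p : T3 × V, (ENNReal.ofReal (Mr ρ c u p.2) + trv u (gau c) p.2) := by
          apply lintegral_mono_ae
          filter_upwards [h0] with p hp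
          have hz : 0 ≤ Zr c u p.2 := by unfold Zr; positivity
          rw [← ofReal_Zr, ← ENNReal.ofReal_add (Mr_pos hρ u p.2).le hz]
          apply ENNReal.ofReal_le_ofReal
          have := (abs_le.mp hp).2
          linarith only [mul_nonneg (sub_nonneg.2 hε1) (sub_nonneg.2 this), mul_nonneg (sub_nonneg.2 hε1) (sub_nonneg.2 hz), mul_nonneg (sub_nonneg.2 hε0) (sub_nonneg.2 this)]
      _ = mμ + mz := by
          have mM : Measurable fun p : T3 × V => ENNReal.ofReal (Mr ρ c u p.2) :=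
            ((measurable_Mr ρ c u).comp measurable_snd).ennreal_ofReal
          rw [lintegral_add_left mM, lintegral_Mr_eq hρ,
            lintegral_T3_V (measurable_trv (measurable_gau c))]
          congr 1
          exact lintegral_sub_right_eq_self (gau c) u
  calc ENNReal.ofReal (1 / (2 * l)) * entA ρ c u (F t) +
        ENNReal.ofReal l * ((∫⁻ p : T3 × V, ENNReal.ofReal (F t p.1 p.2)) + ∫⁻ v, MxE ρ c v)
      ≤ ENNReal.ofReal (1 / (2 * l)) * (ENNReal.ofReal (2 * (1 / ρ + c)) * Mo 1 (gau c) *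
          ENNReal.ofReal ε) + ENNReal.ofReal l * ((mμ + mz) + mμ) := by
        gcongr
        exact (entA_le hF hρ u ht hen).trans
          (entA_datum hρ hc hε0 hε1 u hF.datum.nonneg h0)
    _ = K * ENNReal.ofReal ε + (mμ + mz + mμ) * ENNReal.ofReal l := by
        rw [hK]
        ring
    _ ≤ η / 2 + η / 2 := by
        gcongr
        refine le_trans ?_ heη
        gcongr
        exact min_le_left _ _
    _ = η := ENNReal.add_halves η

end Vale.Agent.P140
end
end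

section

/-! Global uniqueness near a global Maxwellian. -/

open MeasureTheory Set Filter
open scoped ENNReal Topology NNReal

noncomputable section

namespace Vale.Agent.P140

theorem Zr_pos (c : ℝ) (u v : V) : 0 < Zr c u v := Real.exp_pos _

/-- solutions starting close to a global Maxwellian stay close to it -/
theorem renorm_near_ae {ρ c : ℝ} (hρ : 0 < ρ) (hc : 0 < c) (u : V) {r : ℝ} (hr : 0 < r) :
    ∃ ε : ℝ, 0 < ε ∧ ∀ (F0 : T3 → V → ℝ) (F : ℝ → T3 → V → ℝ),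
      (∀ᵐ p : T3 × V, |F0 p.1 p.2 - Mr ρ c u p.2| ≤ ε * Zr c u p.2) →
      IsRenormEntropySol F0 F →
      ∀ T, ∀ᵐ t ∂(volume.restrict (Ioc 0 T)), ∀ᵐ p : T3 × V,
        |F t p.1 p.2 - Mr ρ c u p.2| ≤ r * Zr c u p.2 := by
  obtain ⟨CK, C5, CM, ν0, N0⟩ := ne_gau hρ hc
  have N := N0.translate u
  obtain ⟨ε0, hε0, hε0t, hmain⟩ := N.global (rr := ENNReal.ofReal r) (by simpa using hr)
  obtain ⟨e, he, hL⟩ := L1_small hρ hc u hε0
  refine ⟨min e ε0.toReal, lt_min he (ENNReal.toReal_pos hε0 hε0t), fun F0 F hd hF T => ?_⟩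
  have hn := hmain F0 F (isMild_of_renorm hF) (wInt2_datum hF.datum) ?_ ?_ ?_ ?_ T
  · filter_upwards [hn] with t ht
    filter_upwards [ht] with p hp
    rw [toReal_trv_MxE hρ, ← ofReal_Zr, ← ENNReal.ofReal_mul hr.le] at hp
    exact (ENNReal.ofReal_le_ofReal_iff (mul_nonneg hr.le (Zr_pos c u p.2).le)).mp hp
  · filter_upwards [hd] with p hp
    rw [toReal_trv_MxE hρ, ← ofReal_Zr]
    calc ENNReal.ofReal |F0 p.1 p.2 - Mr ρ c u p.2|
        ≤ ENNReal.ofReal (ε0.toReal * Zr c u p.2) := by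
          apply ENNReal.ofReal_le_ofReal
          refine hp.trans ?_
          have := (Zr_pos c u p.2).le
          gcongr
          exact min_le_right _ _
      _ = ε0 * ENNReal.ofReal (Zr c u p.2) := by
          rw [ENNReal.ofReal_mul ENNReal.toReal_nonneg, ENNReal.ofReal_toReal hε0t]
  · intro T
    filter_upwards [ae_restrict_mem measurableSet_Ioc] with t ht
    exact wInt2_le hF ht.1.le
  · intro T
    filter_upwards [ae_restrict_mem measurableSet_Ioc] with t ht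
    exact (wInt0_eq hF ht.1.le).le
  · intro T
    filter_upwards [ae_restrict_mem measurableSet_Ioc] with t ht hw
    have h1 := hL F0 F hF ?_ t ht.1.le hw
    · have h2 : (fun (_ : T3) v => (trv u (MxE ρ c) v).toReal) = fun _ v => Mr ρ c u v := by
        funext x v
        exact toReal_trv_MxE hρ u v
      rw [h2]
      exact h1
    · filter_upwards [hd] with p hp
      refine hp.trans ?_
      have := (Zr_pos c u p.2).le
      gcongr
      exact min_le_left _ _

theorem vmom3_env_le_ae (f : V → ℝ) (e : V → ℝ≥0∞) (h : ∀ᵐ v, ENNReal.ofReal (f v) ≤ e v) :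
    vmom 3 f ≤ 4 * Mo 2 e := by
  unfold vmom Mo
  rw [← lintegral_const_mul' _ _ (by simp)]
  apply lintegral_mono_ae
  filter_upwards [h] with v hv
  rw [ENNReal.ofReal_mul (by positivity)]
  calc ENNReal.ofReal ((1 + ‖v‖) ^ 3) * ENNReal.ofReal (f v)
      ≤ (4 * ph v ^ 2) * e v := by
        gcongr
        unfold ph
        rw [← ENNReal.ofReal_pow (by positivity), show (4 : ℝ≥0∞) = ENNReal.ofReal 4 by simp,
          ← ENNReal.ofReal_mul (by norm_num)]
        apply ENNReal.ofReal_le_ofReal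
        have hn : 0 ≤ ‖v‖ := norm_nonneg v
        linarith only [sq_nonneg (‖v‖^2 - ‖v‖), sq_nonneg (‖v‖ ^ 2 - 1), sq_nonneg (‖v‖ - 1), mul_nonneg (mul_nonneg hn hn) hn]
    _ = 4 * (e v * ph v ^ 2) := by ring

/-- uniqueness for solutions staying below an envelope with three moments -/
theorem renorm_unique_of_le {F0 : T3 → V → ℝ} {F G : ℝ → T3 → V → ℝ} {T : ℝ} (hT : 0 < T)
    {e : V → ℝ≥0∞} (he : Mo 2 e ≠ ⊤) (hF : IsRenormEntropySol F0 F)
    (hG : IsRenormEntropySol F0 G)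
    (h : ∀ᵐ t ∂(volume.restrict (Ioc 0 T)), ∀ᵐ p : T3 × V,
      ENNReal.ofReal (F t p.1 p.2) ≤ e p.2) :
    ∀ t ∈ Icc 0 T, ∀ᵐ p : T3 × V, F t p.1 p.2 = G t p.1 p.2 := by
  have b3 : ∀ᵐ t ∂(volume.restrict (Ioc 0 T)), ∀ᵐ x : T3, vmom 3 (F t x) ≤ 4 * Mo 2 e := by
    filter_upwards [h] with t ht
    filter_upwards [Measure.ae_ae_of_ae_prod ht] with x hx
    exact vmom3_env_le_ae _ _ hx
  have b2 : ∀ᵐ t ∂(volume.restrict (Ioc 0 T)), ∀ᵐ x : T3, vmom 2 (F t x) ≤ 4 * Mo 2 e := by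
    filter_upwards [b3] with t ht
    filter_upwards [ht] with x hx
    exact (vmom_mono (by norm_num) (hF.nonneg t x)).trans hx
  have hC : 4 * Mo 2 e < ⊤ := ENNReal.mul_lt_top (by simp) he.lt_top
  have hci : ∀ a b : ℝ, ∫⁻ _ in Ioc a b, (4 * Mo 2 e) < ⊤ := by
    intro a b
    rw [setLIntegral_const]
    exact ENNReal.mul_lt_top hC (by simp [Real.volume_Ioc])
  refine renorm_unique_strong hT hF hG (M2 := fun _ => 4 * Mo 2 e) (M3 := fun _ => 4 * Mo 2 e)
    measurable_const measurable_const b2 b3 (hci 0 T) (fun τ _ => hci τ T) ?_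
  calc ∫⁻ t in Ioc 0 T, 4 * Mo 2 e * ∫⁻ _ in Ioc 0 t, 4 * Mo 2 e
      ≤ ∫⁻ t in Ioc 0 T, 4 * Mo 2 e * ∫⁻ _ in Ioc 0 T, 4 * Mo 2 e := by
        apply setLIntegral_mono' measurableSet_Ioc
        intro t ht
        gcongr
        exact ht.2
    _ < ⊤ := by
        rw [setLIntegral_const]
        exact ENNReal.mul_lt_top (ENNReal.mul_lt_top hC (hci 0 T)) (by simp [Real.volume_Ioc])

theorem le_of_ae_le {m : ℝ → ℝ} {t b : ℝ} (ht : 0 ≤ t) (hm : ContinuousOn m (Ici 0))
    (h : ∀ᵐ s ∂(volume.restrict (Ioc 0 (t + 1))), m s ≤ b) : m t ≤ b := by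
  have hsub : Ioo t (t + 1) ⊆ Ioc 0 (t + 1) := fun s hs => ⟨ht.trans_lt hs.1, hs.2.le⟩
  have hsub2 : Ico t (t + 1) ⊆ Ici 0 := fun s hs => ht.trans hs.1
  have h3 : (fun s => max (m s) b) =ᵐ[volume.restrict (Ico t (t + 1))] fun _ => b := by
    rw [← restrict_Ioo_eq_restrict_Ico]
    filter_upwards [ae_restrict_of_ae_restrict_of_subset hsub h] with s hs
    exact max_eq_right hs
  have h4 := Measure.eqOn_of_ae_eq h3 ((hm.mono hsub2).sup continuousOn_const)
    continuousOn_const (by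
      rw [interior_Ico, closure_Ioo (by linarith : t ≠ t + 1)]
      exact Ico_subset_Icc_self) (left_mem_Ico.2 (by linarith))
  simp only at h4
  rw [← h4]
  exact le_max_left _ _

theorem renorm_le_all {F0 : T3 → V → ℝ} {F : ℝ → T3 → V → ℝ} (hF : IsRenormEntropySol F0 F)
    {g : T3 × V → ℝ} (mg : Measurable g) (ig : Integrable g) {t : ℝ} (ht : 0 ≤ t)
    (h : ∀ᵐ s ∂(volume.restrict (Ioc 0 (t + 1))), ∀ᵐ p : T3 × V, F s p.1 p.2 ≤ g p) :
    ∀ᵐ p : T3 × V, F t p.1 p.2 ≤ g p := by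
  set θ : T3 × V → ℝ := fun p => if g p < F t p.1 p.2 then 1 else 0 with hθ
  have mt := measurable_slice2 hF.measurable t
  have mθ : Measurable θ := Measurable.ite (measurableSet_lt mg mt) measurable_const
    measurable_const
  have nθ : ∀ p, 0 ≤ θ p := by
    intro p
    simp only [hθ]
    split_ifs <;> simp
  have bθ : ∀ p, |θ p| ≤ 1 := by
    intro p
    simp only [hθ]
    split_ifs <;> simp
  have iF : ∀ s, 0 ≤ s → Integrable fun p : T3 × V => F s p.1 p.2 * θ p := fun s hs =>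
    (hF.integrable s hs).mul_bdd (c := 1) mθ.aestronglyMeasurable (Eventually.of_forall bθ)
  have iG : Integrable fun p : T3 × V => g p * θ p :=
    ig.mul_bdd (c := 1) mθ.aestronglyMeasurable (Eventually.of_forall bθ)
  have h1 : ∫ p : T3 × V, F t p.1 p.2 * θ p ≤ ∫ p : T3 × V, g p * θ p := by
    refine le_of_ae_le ht (hF.weak_cont θ mθ ⟨1, bθ⟩) ?_
    filter_upwards [h, ae_restrict_mem measurableSet_Ioc] with s hs hs0
    apply integral_mono_ae (iF s hs0.1.le) iG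
    filter_upwards [hs] with p hp
    exact mul_le_mul_of_nonneg_right hp (nθ p)
  have hn : ∀ p : T3 × V, 0 ≤ F t p.1 p.2 * θ p - g p * θ p := by
    intro p
    simp only [hθ]
    split_ifs with hp
    · linarith
    · simp
  have h3 : ∫ p : T3 × V, (F t p.1 p.2 * θ p - g p * θ p) = 0 := by
    apply le_antisymm
    · rw [integral_sub (iF t ht) iG]
      linarith
    · exact integral_nonneg hn
  rw [integral_eq_zero_iff_of_nonneg hn ((iF t ht).sub iG)] at h3
  filter_upwards [h3] with p hp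
  by_contra hcon
  rw [not_le] at hcon
  simp only [hθ, if_pos hcon, Pi.zero_apply] at hp
  linarith

theorem renorm_ge_all {F0 : T3 → V → ℝ} {F : ℝ → T3 → V → ℝ} (hF : IsRenormEntropySol F0 F)
    {g : T3 × V → ℝ} (mg : Measurable g) (ig : Integrable g) {t : ℝ} (ht : 0 ≤ t)
    (h : ∀ᵐ s ∂(volume.restrict (Ioc 0 (t + 1))), ∀ᵐ p : T3 × V, g p ≤ F s p.1 p.2) :
    ∀ᵐ p : T3 × V, g p ≤ F t p.1 p.2 := by
  set θ : T3 × V → ℝ := fun p => if F t p.1 p.2 < g p then -1 else 0 with hθ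
  have mt := measurable_slice2 hF.measurable t
  have mθ : Measurable θ := Measurable.ite (measurableSet_lt mt mg) measurable_const
    measurable_const
  have nθ : ∀ p, θ p ≤ 0 := by
    intro p
    simp only [hθ]
    split_ifs <;> simp
  have bθ : ∀ p, |θ p| ≤ 1 := by
    intro p
    simp only [hθ]
    split_ifs <;> simp
  have iF : ∀ s, 0 ≤ s → Integrable fun p : T3 × V => F s p.1 p.2 * θ p := fun s hs =>
    (hF.integrable s hs).mul_bdd (c := 1) mθ.aestronglyMeasurable (Eventually.of_forall bθ)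
  have iG : Integrable fun p : T3 × V => g p * θ p :=
    ig.mul_bdd (c := 1) mθ.aestronglyMeasurable (Eventually.of_forall bθ)
  have h1 : ∫ p : T3 × V, F t p.1 p.2 * θ p ≤ ∫ p : T3 × V, g p * θ p := by
    refine le_of_ae_le ht (hF.weak_cont θ mθ ⟨1, bθ⟩) ?_
    filter_upwards [h, ae_restrict_mem measurableSet_Ioc] with s hs hs0
    apply integral_mono_ae (iF s hs0.1.le) iG
    filter_upwards [hs] with p hp
    exact mul_le_mul_of_nonpos_right hp (nθ p)
  have hn : ∀ p : T3 × V, 0 ≤ F t p.1 p.2 * θ p - g p * θ p := by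
    intro p
    simp only [hθ]
    split_ifs with hp
    · linarith
    · simp
  have h3 : ∫ p : T3 × V, (F t p.1 p.2 * θ p - g p * θ p) = 0 := by
    apply le_antisymm
    · rw [integral_sub (iF t ht) iG]
      linarith
    · exact integral_nonneg hn
  rw [integral_eq_zero_iff_of_nonneg hn ((iF t ht).sub iG)] at h3
  filter_upwards [h3] with p hp
  by_contra hcon
  rw [not_le] at hcon
  simp only [hθ, if_pos hcon, Pi.zero_apply] at hp
  linarith

/-- the Gaussian envelope of a solution near a Maxwellian has moments -/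
theorem Mo_near {ρ c : ℝ} (hρ : 0 < ρ) (hc : 0 < c) (u : V) (r : ℝ) :
    Mo 2 (fun v => ENNReal.ofReal (Mr ρ c u v + r * Zr c u v)) ≠ ⊤ := by
  obtain ⟨CK, C5, CM, ν0, N0⟩ := ne_gau hρ hc
  have N := N0.translate u
  have h : Mo 2 (fun v => ENNReal.ofReal (Mr ρ c u v + r * Zr c u v)) ≤
      (CM + ENNReal.ofReal r) * Mo 2 (trv u (gau c)) := by
    unfold Mo
    rw [← lintegral_const_mul' _ _ (ENNReal.add_ne_top.2 ⟨N.fCM, ENNReal.ofReal_ne_top⟩)]
    apply lintegral_mono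
    intro v
    simp only
    rw [← mul_assoc]
    gcongr
    refine ENNReal.ofReal_add_le.trans ?_
    rw [add_mul]
    apply add_le_add
    · rw [← toReal_trv_MxE hρ, ENNReal.ofReal_toReal (N.fM v)]
      exact N.Mζ v
    · rw [ENNReal.ofReal_mul' (Zr_pos c u v).le, ofReal_Zr]
  exact ne_top_of_le_ne_top (ENNReal.mul_ne_top (ENNReal.add_ne_top.2
    ⟨N.fCM, ENNReal.ofReal_ne_top⟩) N.momζ) h

theorem integrable_Mr {ρ c : ℝ} (hρ : 0 < ρ) (hc : 0 < c) (u : V) :
    Integrable fun p : T3 × V => Mr ρ c u p.2 := by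
  refine ⟨((measurable_Mr ρ c u).comp measurable_snd).aestronglyMeasurable, ?_⟩
  rw [hasFiniteIntegral_iff_ofReal (Eventually.of_forall fun p => by unfold Mr; positivity),
    lintegral_Mr_eq hρ u]
  exact (lintegral_MxE_ne_top hc).lt_top

theorem integrable_Mr_Zr {ρ c : ℝ} (hρ : 0 < ρ) (hc : 0 < c) (u : V) :
    Integrable (fun p : T3 × V => Mr ρ c u p.2) ∧ Integrable (fun p : T3 × V => Zr c u p.2) := by
  refine ⟨integrable_Mr hρ hc u, ?_⟩
  refine (integrable_Mr one_pos (half_pos hc) u).congr (Eventually.of_forall fun p => ?_)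
  simp only [Mr, Zr, one_mul]
  congr 2
  ring

/-- **Global uniqueness near a global Maxwellian.** -/
theorem renorm_near_unique {ρ c : ℝ} (hρ : 0 < ρ) (hc : 0 < c) (u : V) {r : ℝ} (hr : 0 < r) :
    ∃ ε : ℝ, 0 < ε ∧ ∀ (F0 : T3 → V → ℝ) (F : ℝ → T3 → V → ℝ),
      (∀ᵐ p : T3 × V, |F0 p.1 p.2 - Mr ρ c u p.2| ≤ ε * Zr c u p.2) →
      IsRenormEntropySol F0 F →
      (∀ t, 0 ≤ t → ∀ᵐ p : T3 × V, |F t p.1 p.2 - Mr ρ c u p.2| ≤ r * Zr c u p.2) ∧
      ∀ G, IsRenormEntropySol F0 G → ∀ t, 0 ≤ t → ∀ᵐ p : T3 × V, F t p.1 p.2 = G t p.1 p.2 := by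
  obtain ⟨ε, hε, h⟩ := renorm_near_ae hρ hc u hr
  obtain ⟨iM, iZ⟩ := integrable_Mr_Zr hρ hc u
  have mM : Measurable fun p : T3 × V => Mr ρ c u p.2 := (measurable_Mr ρ c u).comp measurable_snd
  have mZ : Measurable fun p : T3 × V => Zr c u p.2 := by
    have : Measurable (Zr c u) := by
      unfold Zr
      fun_prop
    exact this.comp measurable_snd
  refine ⟨ε, hε, fun F0 F hd hF => ⟨fun t ht => ?_, fun G hG t ht => ?_⟩⟩
  · have h1 := renorm_le_all hF (mM.add (mZ.const_mul r)) (iM.add (iZ.const_mul r)) ht (by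
      filter_upwards [h F0 F hd hF (t + 1)] with s hs
      filter_upwards [hs] with p hp
      simp only [Pi.add_apply]
      linarith [le_abs_self (F s p.1 p.2 - Mr ρ c u p.2)])
    have h2 := renorm_ge_all hF (mM.sub (mZ.const_mul r)) (iM.sub (iZ.const_mul r)) ht (by
      filter_upwards [h F0 F hd hF (t + 1)] with s hs
      filter_upwards [hs] with p hp
      simp only [Pi.sub_apply]
      linarith [neg_abs_le (F s p.1 p.2 - Mr ρ c u p.2)])
    filter_upwards [h1, h2] with p h3 h4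
    simp only [Pi.add_apply, Pi.sub_apply] at h3 h4
    rw [abs_le]
    constructor <;> linarith
  · refine renorm_unique_of_le (by linarith : 0 < t + 1) (Mo_near hρ hc u r) hF hG ?_ t
      ⟨ht, by linarith⟩
    filter_upwards [h F0 F hd hF (t + 1)] with s hs
    filter_upwards [hs] with p hp
    apply ENNReal.ofReal_le_ofReal
    linarith [le_abs_self (F s p.1 p.2 - Mr ρ c u p.2)]

end Vale.Agent.P140
end
end
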